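import Vale.Agent.P179W.Stmts

/-!
# P179W : basic facts on `Alg`, `Transc`, `adj`, `Fix`
-/

set_option linter.all false

open scoped NNReal Classical
open Polynomial

noncomputable section

namespace P179W

variable {U : Type} [Field U]

/-- the polynomials with coefficients in `K` -/
def polyIn (K : Subfield U) : Subring U[X] := (mapRingHom K.subtype).range

theorem mem_polyIn {K : Subfield U} {f : U[X]} : f ∈ polyIn K ↔ ∀ k, f.coeff k ∈ K := by
  refine (show f ∈ polyIn K ↔ f ∈ lifts K.subtype from Iff.rfl).trans ?_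
  rw [lifts_iff_coeff_lifts]
  exact forall_congr' fun k => ⟨fun ⟨c, h⟩ => h ▸ c.2, fun h => ⟨⟨_, h⟩, rfl⟩⟩

theorem C_mem_polyIn {K : Subfield U} {c : U} (h : c ∈ K) : C c ∈ polyIn K :=
  ⟨C ⟨c, h⟩, by simp⟩

theorem X_mem_polyIn {K : Subfield U} : X ∈ polyIn K := ⟨X, by simp⟩

theorem eval_map_sub {K : Subfield U} (p : K[X]) (z : U) :
    (p.map K.subtype).eval z = aeval z p := by
  rw [eval_map, aeval_def]
  rfl

theorem alg_iff {K : Subfield U} {z : U} : Alg K z ↔ IsAlgebraic K z := by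
  constructor
  · rintro ⟨f, h0, h1, h2⟩
    obtain ⟨p, rfl⟩ := mem_polyIn.2 h1
    exact ⟨p, fun h => h0 (by simp [h]), (eval_map_sub p z).symm.trans h2⟩
  · rintro ⟨p, h0, h1⟩
    exact ⟨p.map K.subtype, (Polynomial.map_ne_zero_iff K.subtype.injective).2 h0,
      mem_polyIn.1 ⟨p, rfl⟩, (eval_map_sub p z).trans h1⟩

theorem transc_iff_not_alg {K : Subfield U} {z : U} : Transc K z ↔ ¬ Alg K z :=
  ⟨fun h ⟨f, h0, h1, h2⟩ => h0 (h f h1 h2), fun h f h1 h2 => by_contra fun h0 => h ⟨f, h0, h1, h2⟩⟩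

theorem transc_iff {K : Subfield U} {z : U} : Transc K z ↔ Transcendental K z := by
  rw [transc_iff_not_alg, alg_iff, Transcendental]

theorem Alg.mono {K L : Subfield U} {z : U} (h : Alg K z) (k : K ≤ L) : Alg L z :=
  let ⟨f, h0, h1, h2⟩ := h
  ⟨f, h0, fun j => k (h1 j), h2⟩

theorem Transc.mono {K L : Subfield U} {z : U} (h : Transc L z) (k : K ≤ L) : Transc K z :=
  fun f h1 => h f fun j => k (h1 j)

theorem alg_of_mem {K : Subfield U} {z : U} (h : z ∈ K) : Alg K z :=
  alg_iff.2 (isAlgebraic_algebraMap (⟨z, h⟩ : K))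

theorem left_subset_adj (K T : Set U) : K ⊆ adj K T := fun _ h => Subfield.subset_closure (.inl h)

theorem right_subset_adj (K T : Set U) : T ⊆ adj K T := fun _ h => Subfield.subset_closure (.inr h)

theorem le_adj (K : Subfield U) (T : Set U) : K ≤ adj K T := left_subset_adj _ _

theorem adj_le {K T : Set U} {L : Subfield U} : adj K T ≤ L ↔ K ⊆ L ∧ T ⊆ L :=
  Subfield.closure_le.trans Set.union_subset_iff

theorem adj_mono {K T K' T' : Set U} (h : K ⊆ K') (k : T ⊆ T') : adj K T ≤ adj K' T' :=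
  Subfield.closure_mono (Set.union_subset_union h k)

theorem adj_adj (K T T' : Set U) : adj (adj K T : Set U) T' = adj K (T ∪ T') :=
  le_antisymm (adj_le.2 ⟨adj_mono le_rfl Set.subset_union_left,
    Set.subset_union_right.trans (right_subset_adj _ _)⟩)
    (adj_le.2 ⟨(left_subset_adj _ _).trans (left_subset_adj _ _), Set.union_subset
      ((right_subset_adj _ _).trans (left_subset_adj _ _)) (right_subset_adj _ _)⟩)

theorem adj_eq_adjoin (K : Subfield U) (T : Set U) :
    adj K T = (IntermediateField.adjoin K T).toSubfield := by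
  rw [IntermediateField.adjoin_toSubfield, adj]
  congr 2
  exact Subtype.range_coe.symm

theorem mem_adj_iff {K : Subfield U} {T : Set U} {z : U} :
    z ∈ adj K T ↔ z ∈ IntermediateField.adjoin K T := by
  rw [adj_eq_adjoin]
  rfl

/-- a subfield containing `K` as an intermediate field -/
def toIF {K L : Subfield U} (h : K ≤ L) : IntermediateField K U :=
  L.toIntermediateField fun c => h c.2

theorem Alg.trans {K L : Subfield U} {z : U} (h : Alg L z) (k : ∀ c ∈ L, Alg K c) : Alg K z := by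
  let A := algebraicClosure K U
  have h1 : Alg A.toSubfield z := h.mono fun c hc =>
    mem_algebraicClosure_iff.2 (alg_iff.1 (k c hc))
  have h2 : IsAlgebraic A z := alg_iff.1 h1
  exact alg_iff.2 (h2.restrictScalars K)

theorem alg_adj {K : Subfield U} {T : Set U} (h : ∀ t ∈ T, Alg K t) : ∀ z ∈ adj K T, Alg K z :=
  fun z hz => alg_iff.2 (mem_algebraicClosure_iff.1 ((adj_le (L := (algebraicClosure K U).toSubfield)).2
    ⟨fun c hc => mem_algebraicClosure_iff.2 (alg_iff.1 (alg_of_mem hc)),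
      fun t ht => mem_algebraicClosure_iff.2 (alg_iff.1 (h t ht))⟩ hz))

theorem mem_adj_one {K : Subfield U} {x z : U} : z ∈ adj K {x} ↔
    ∃ A ∈ polyIn K, ∃ B ∈ polyIn K, B.eval x ≠ 0 ∧ z * B.eval x = A.eval x := by
  rw [mem_adj_iff, IntermediateField.mem_adjoin_simple_iff]
  constructor
  · rintro ⟨r, s, rfl⟩
    by_cases h : aeval x s = 0
    · exact ⟨0, zero_mem _, 1, one_mem _, by simp, by simp [h]⟩
    · refine ⟨_, ⟨r, rfl⟩, _, ⟨s, rfl⟩, ?_, ?_⟩
      · rwa [coe_mapRingHom, eval_map_sub]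
      · rw [coe_mapRingHom, eval_map_sub, eval_map_sub, div_mul_cancel₀ _ h]
  · rintro ⟨_, ⟨r, rfl⟩, _, ⟨s, rfl⟩, h1, h2⟩
    rw [coe_mapRingHom, eval_map_sub] at h1 h2
    rw [eval_map_sub] at h2
    exact ⟨r, s, eq_div_of_mul_eq h1 h2⟩

theorem eval_mem {K : Subfield U} {f : U[X]} (hf : f ∈ polyIn K) {L : Subfield U} (h : K ≤ L)
    {x : U} (hx : x ∈ L) : f.eval x ∈ L := by
  rw [eval_eq_sum_range]
  exact sum_mem fun k _ => mul_mem (h (mem_polyIn.1 hf k)) (pow_mem hx k)

/-! ### automorphisms -/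

theorem Fix_anti {S T : Set U} (h : S ⊆ T) : Fix T ≤ Fix S := fun _ hg z hz => hg z (h hz)

theorem fixedOf_anti {H H' : Set (RingAut U)} (h : H ⊆ H') : fixedOf H' ≤ fixedOf H :=
  fun _ hz g hg => hz g (h hg)

theorem subset_fixedOf_Fix (S : Set U) : S ⊆ fixedOf (Fix S : Set (RingAut U)) :=
  fun z hz g hg => hg z hz

theorem le_Fix_fixedOf (H : Subgroup (RingAut U)) :
    H ≤ Fix (fixedOf (H : Set (RingAut U)) : Set U) := fun g hg _ hz => hz g hg

theorem map_adj {K T : Set U} {L : Subfield U} (g : U →+* U) (h : ∀ z ∈ K, g z ∈ L)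
    (k : ∀ z ∈ T, g z ∈ L) : ∀ z ∈ adj K T, g z ∈ L :=
  fun _ hz => (adj_le (L := L.comap g)).2 ⟨h, k⟩ hz

theorem mem_Fix_adj {K T : Set U} {g : RingAut U} :
    g ∈ Fix (adj K T : Set U) ↔ g ∈ Fix K ∧ g ∈ Fix T :=
  ⟨fun h => ⟨Fix_anti (left_subset_adj _ _) h, Fix_anti (right_subset_adj _ _) h⟩,
    fun h z hz => (adj_le (L := fixedOf {g})).2
      ⟨fun c hc _ e => e ▸ h.1 c hc, fun c hc _ e => e ▸ h.2 c hc⟩ hz g rfl⟩

theorem Fix_adj (K T : Set U) : Fix (adj K T : Set U) = Fix K ⊓ Fix T :=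
  Subgroup.ext fun _ => mem_Fix_adj

/-- the automorphisms fixing `K` form the Galois group -/
def fixEquiv (K : Subfield U) : Fix (K : Set U) ≃* (U ≃ₐ[K] U) where
  toFun g := { g.1 with commutes' := fun c => g.2 c c.2 }
  invFun σ := ⟨σ.toRingEquiv, fun c hc => σ.commutes ⟨c, hc⟩⟩
  left_inv _ := rfl
  right_inv _ := rfl
  map_mul' _ _ := rfl

theorem fixEquiv_apply (K : Subfield U) (g : Fix (K : Set U)) (z : U) :
    fixEquiv K g z = g.1 z := rfl

theorem fixEquiv_symm_apply (K : Subfield U) (σ : U ≃ₐ[K] U) (z : U) :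
    ((fixEquiv K).symm σ).1 z = σ z := rfl

theorem isAlgebraic_of_alg {K : Subfield U} (h : ∀ z, Alg K z) : Algebra.IsAlgebraic K U :=
  ⟨fun z => alg_iff.1 (h z)⟩

theorem isAlgClosure_of_alg [IsAlgClosed U] {K : Subfield U} (h : ∀ z, Alg K z) :
    IsAlgClosure K U := ⟨inferInstance, isAlgebraic_of_alg h⟩

theorem isGalois_of_alg [CharZero U] [IsAlgClosed U] {K : Subfield U} (h : ∀ z, Alg K z) :
    IsGalois K U :=
  have := isAlgClosure_of_alg h
  inferInstance

theorem eval_map_aut (g : U →+* U) (f : U[X]) (x : U) :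
    (f.map g).eval (g x) = g (f.eval x) := by
  rw [eval_map, eval₂_at_apply]

end P179W
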