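import Vale.Agent.P179W.AmbBasic

/-!
# P179W : A1, A2, A3, A5, A6
-/

set_option linter.all false

open scoped NNReal Classical
open Polynomial

noncomputable section

namespace P179W

/-- A1 -/
theorem fixedFix_holds : FixedFixStmt := by
  intro U _ _ _ K h
  have := isGalois_of_alg h
  refine le_antisymm (fun z hz => ?_) (subset_fixedOf_Fix _)
  obtain ⟨c, rfl⟩ := (InfiniteGalois.mem_range_algebraMap_iff_fixed (k := K) z).2 fun σ =>
    hz _ ((fixEquiv K).symm σ).2
  exact c.2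

/-- A3 -/
theorem extAut_holds : ExtAutStmt := by
  intro U _ _ M f h h'
  have := isAlgClosure_of_alg h
  have := isAlgClosure_of_alg h'
  exact ⟨IsAlgClosure.equivOfEquiv U U (RingEquiv.ofBijective f.rangeRestrictField
    f.rangeRestrictField_bijective), fun z => IsAlgClosure.equivOfEquiv_algebraMap U U _ z⟩

namespace AmbGal

variable {U : Type} [Field U]

theorem comap_fix (K : Subfield U) (L : IntermediateField K U) :
    (Fix (L.toSubfield : Set U)).subgroupOf (Fix (K : Set U)) =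
      L.fixingSubgroup.comap (fixEquiv K).toMonoidHom :=
  Subgroup.ext fun g => ⟨fun h z => h z z.2, fun h z hz => h ⟨z, hz⟩⟩

theorem relIndex_eq [CharZero U] [IsAlgClosed U] {K : Subfield U} (h : ∀ z, Alg K z)
    (L : IntermediateField K U) :
    (Fix (L.toSubfield : Set U)).relIndex (Fix (K : Set U)) = Module.finrank K L := by
  have := isGalois_of_alg h
  rw [Subgroup.relIndex, comap_fix, Subgroup.index_comap_of_surjective _ (fixEquiv K).surjective,
    IntermediateField.finrank_eq_fixingSubgroup_index]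

theorem fin_adjoin {K : Subfield U} (T : Finset U) (h : ∀ z ∈ T, Alg K z) :
    FiniteDimensional K (IntermediateField.adjoin K (T : Set U)) :=
  IntermediateField.finiteDimensional_adjoin fun z hz => (alg_iff.1 (h z hz)).isIntegral

theorem exists_finset [CharZero U] {K : Subfield U} (L : IntermediateField K U)
    [FiniteDimensional K L] : ∃ T : Finset U, L.toSubfield = adj K T := by
  obtain ⟨α, hα⟩ := Field.exists_primitive_element K L
  refine ⟨{(α : U)}, ?_⟩
  rw [adj_eq_adjoin, Finset.coe_singleton, ← IntermediateField.lift_adjoin_simple, hα,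
    IntermediateField.lift_top]

end AmbGal

open AmbGal in
/-- A2 -/
theorem openGal_holds : OpenGalStmt := by
  intro U _ _ _ K h T
  have := isGalois_of_alg h
  have := fin_adjoin T fun z _ => h z
  refine ⟨?_, ?_, fun H h1 h2 => ?_⟩
  · rw [adj_eq_adjoin, relIndex_eq h]
    exact Module.finrank_pos.ne'
  · have hi := fun z => (alg_iff.1 (h z)).isIntegral
    have hm : ∀ t z : U, z ∈ ((minpoly K t).aroots U).toFinset ↔ aeval z (minpoly K t) = 0 :=
      fun t z => by rw [Multiset.mem_toFinset, mem_aroots, and_iff_right (minpoly.ne_zero (hi t))]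
    refine ⟨T.biUnion fun t => ((minpoly K t).aroots U).toFinset, fun t ht =>
      Finset.mem_coe.2 (Finset.mem_biUnion.2 ⟨t, ht, (hm t t).2 (minpoly.aeval K t)⟩), ⟨_, rfl⟩,
      fun g hg => map_adj (g : U →+* U) (fun z hz => ?_) fun z hz => ?_⟩
    · exact (hg z hz).symm ▸ le_adj K _ hz
    · obtain ⟨t, ht, hz⟩ := Finset.mem_biUnion.1 hz
      refine right_subset_adj _ _ (Finset.mem_coe.2 (Finset.mem_biUnion.2 ⟨t, ht, (hm t _).2 ?_⟩))
      exact (aeval_algHom_apply (fixEquiv K ⟨g, hg⟩) z _).trans (by rw [(hm t z).1 hz, map_zero])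
  · let H' := (H.subgroupOf (Fix (K : Set U))).map (fixEquiv K).toMonoidHom
    have m : ∀ σ, σ ∈ H' ↔ ((fixEquiv K).symm σ).1 ∈ H := fun σ => Subgroup.mem_map_equiv
    have l : (IntermediateField.adjoin K (T : Set U)).fixingSubgroup ≤ H' := fun σ hσ =>
      (m σ).2 (h1 fun z hz => hσ ⟨z, mem_adj_iff.1 hz⟩)
    have c := InfiniteGalois.fixingSubgroup_fixedField (k := K) (K := U) ⟨H',
      H'.isClosed_of_isOpen (Subgroup.isOpen_mono l (IntermediateField.fixingSubgroup_isOpen _))⟩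
    have e : fixedOf (H : Set (RingAut U)) = (IntermediateField.fixedField H').toSubfield :=
      Subfield.ext fun z => ⟨fun hz σ => hz _ ((m σ.1).1 σ.2), fun hz g hg =>
        hz ⟨fixEquiv K ⟨g, h2 hg⟩, (m _).2 hg⟩⟩
    refine ⟨le_antisymm (fun g hg => ?_) (le_Fix_fixedOf H), ?_⟩
    · have hK : g ∈ Fix (K : Set U) := fun z hz => hg z fun σ hσ => h2 hσ z hz
      refine (m (fixEquiv K ⟨g, hK⟩)).1 (c.le fun z => hg z ?_)
      rw [e]
      exact z.2
    · have k : IntermediateField.fixedField H' ≤ IntermediateField.adjoin K (T : Set U) :=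
        (IntermediateField.fixedField_le l).trans (InfiniteGalois.fixedField_fixingSubgroup _).le
      have : FiniteDimensional K (IntermediateField.fixedField H') :=
        .of_injective (IntermediateField.inclusion k).toLinearMap
          (IntermediateField.inclusion_injective k)
      rw [e]
      exact exists_finset _

namespace AmbGal

variable {U : Type} [Field U] {K : Subfield U} {E : WeierstrassCurve U} {x y : U}

theorem eqn (h : E.toAffine.Equation x y) :
    y ^ 2 + E.a₁ * x * y + E.a₃ * y = x ^ 3 + E.a₂ * x ^ 2 + E.a₄ * x + E.a₆ :=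
  (E.toAffine.equation_iff x y).1 h

/-- `y` is not a rational function of `x` -/
theorem not_mem (hE : CoeffIn E K) (h : E.toAffine.Equation x y) (hx : Transc K x) :
    y ∉ adj K {x} := fun hy => by
  obtain ⟨A, hA, B, hB, h1, h2⟩ := mem_adj_one.1 hy
  obtain ⟨a1, a2, a3, a4, a6⟩ := hE
  have hX := X_mem_polyIn (K := K)
  have d := WeierstrassCurve.Affine.CoordinateRing.degree_norm_smul_basis (W' := E.toAffine) A (-B)
  rw [WeierstrassCurve.Affine.CoordinateRing.norm_smul_basis, hx _ (mem_polyIn.1 (sub_mem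
    (sub_mem (pow_mem hA 2) (mul_mem (mul_mem hA (neg_mem hB))
      (add_mem (mul_mem (C_mem_polyIn a1) hX) (C_mem_polyIn a3))))
    (mul_mem (pow_mem (neg_mem hB) 2) (add_mem (add_mem (add_mem (pow_mem hX 3)
      (mul_mem (C_mem_polyIn a2) (pow_mem hX 2))) (mul_mem (C_mem_polyIn a4) hX))
      (C_mem_polyIn a6))))) (by
      simp only [eval_sub, eval_mul, eval_pow, eval_add, eval_neg, eval_C, eval_X, ← h2]
      linear_combination (B.eval x) ^ 2 * eqn h), degree_zero, degree_neg,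
    degree_eq_natDegree (show B ≠ 0 from fun e => h1 (by simp [e]))] at d
  have := le_bot_iff.1 ((le_max_right _ _).trans d.ge)
  exact absurd this (by
    rw [two_nsmul, ← Nat.cast_add, show (3 : WithBot ℕ) = (3 : ℕ) from rfl, ← Nat.cast_add]
    exact WithBot.coe_ne_bot)

theorem uniq {F : Subfield U} (hy : y ∉ F) {a b a' b' : U} (ha : a ∈ F) (hb : b ∈ F)
    (ha' : a' ∈ F) (hb' : b' ∈ F) (h : a + b * y = a' + b' * y) : a = a' ∧ b = b' := by
  have k : b = b' := by_contra fun k => hy (by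
    rw [show y = (a' - a) / (b - b') from
      eq_div_of_mul_eq (sub_ne_zero.2 k) (by linear_combination h)]
    exact div_mem (sub_mem ha' ha) (sub_mem hb hb'))
  exact ⟨add_right_cancel (k ▸ h), k⟩

/-- the function field is a quadratic extension -/
theorem quad {F : Subfield U} (hE : CoeffIn E F) (h : E.toAffine.Equation x y) (hx : x ∈ F)
    {z : U} (hz : z ∈ adj F {y}) : ∃ a ∈ F, ∃ b ∈ F, z = a + b * y := by
  by_cases hy : y ∈ F
  · exact ⟨z, adj_le.2 ⟨le_rfl, Set.singleton_subset_iff.2 hy⟩ hz, 0, zero_mem _, by simp⟩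
  obtain ⟨a1, a2, a3, a4, a6⟩ := hE
  have hp : E.a₁ * x + E.a₃ ∈ F := add_mem (mul_mem a1 hx) a3
  have hq : x ^ 3 + E.a₂ * x ^ 2 + E.a₄ * x + E.a₆ ∈ F := add_mem (add_mem (add_mem (pow_mem hx 3)
    (mul_mem a2 (pow_mem hx 2))) (mul_mem a4 hx)) a6
  have e : y ^ 2 + (E.a₁ * x + E.a₃) * y = x ^ 3 + E.a₂ * x ^ 2 + E.a₄ * x + E.a₆ := by
    linear_combination eqn h
  generalize E.a₁ * x + E.a₃ = p at hp e
  generalize x ^ 3 + E.a₂ * x ^ 2 + E.a₄ * x + E.a₆ = q at hq e
  induction hz using Subfield.closure_induction with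
  | mem z hz =>
    rcases hz with hz | rfl
    · exact ⟨z, hz, 0, zero_mem _, by simp⟩
    · exact ⟨0, zero_mem _, 1, one_mem _, by simp⟩
  | one => exact ⟨1, one_mem _, 0, zero_mem _, by simp⟩
  | add _ _ _ _ h1 h2 =>
    obtain ⟨a, ha, b, hb, rfl⟩ := h1
    obtain ⟨c, hc, d, hd, rfl⟩ := h2
    exact ⟨a + c, add_mem ha hc, b + d, add_mem hb hd, by ring⟩
  | neg _ _ h1 =>
    obtain ⟨a, ha, b, hb, rfl⟩ := h1
    exact ⟨-a, neg_mem ha, -b, neg_mem hb, by ring⟩
  | mul _ _ _ _ h1 h2 =>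
    obtain ⟨a, ha, b, hb, rfl⟩ := h1
    obtain ⟨c, hc, d, hd, rfl⟩ := h2
    exact ⟨a * c + b * d * q, add_mem (mul_mem ha hc) (mul_mem (mul_mem hb hd) hq),
      a * d + b * c - b * d * p, sub_mem (add_mem (mul_mem ha hd) (mul_mem hb hc))
        (mul_mem (mul_mem hb hd) hp), by linear_combination b * d * e⟩
  | inv _ _ h1 =>
    obtain ⟨a, ha, b, hb, rfl⟩ := h1
    by_cases h0 : a + b * y = 0
    · exact ⟨0, zero_mem _, 0, zero_mem _, by simp [h0]⟩
    have h2 : a - b * p + -b * y ≠ 0 := fun k => by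
      obtain ⟨k1, k2⟩ := uniq hy (sub_mem ha (mul_mem hb hp)) (neg_mem hb) (zero_mem _)
        (zero_mem _) (k.trans (by simp))
      rw [neg_eq_zero] at k2
      exact h0 (by rw [k2] at k1 ⊢; linear_combination k1)
    have h3 : a ^ 2 - a * b * p - b ^ 2 * q = (a + b * y) * (a - b * p + -b * y) := by
      linear_combination b ^ 2 * e
    have h4 : a ^ 2 - a * b * p - b ^ 2 * q ∈ F := sub_mem (sub_mem (pow_mem ha 2)
      (mul_mem (mul_mem ha hb) hp)) (mul_mem (pow_mem hb 2) hq)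
    refine ⟨(a - b * p) / _, div_mem (sub_mem ha (mul_mem hb hp)) h4, -b / _,
      div_mem (neg_mem hb) h4, ?_⟩
    rw [h3, div_mul_eq_mul_div, ← add_div, div_mul_cancel_right₀ h2]

theorem adj_pair (K : Set U) (x y : U) : adj K {x, y} = adj (adj K {x} : Set U) {y} := by
  rw [adj_adj]
  rfl

theorem cmono {S S' : Set U} (h : CoeffIn E S) (k : S ⊆ S') : CoeffIn E S' :=
  ⟨k h.1, k h.2.1, k h.2.2.1, k h.2.2.2.1, k h.2.2.2.2⟩

theorem alg_y (hE : CoeffIn E K) (h : E.toAffine.Equation x y) (hx : x ∈ K) : Alg K y := by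
  obtain ⟨a1, a2, a3, a4, a6⟩ := hE
  have hX := X_mem_polyIn (K := K)
  refine ⟨X ^ 2 + (C (E.a₁ * x + E.a₃) * X +
    C (-(x ^ 3 + E.a₂ * x ^ 2 + E.a₄ * x + E.a₆))), Monic.ne_zero (monic_X_pow_add
      (degree_linear_le.trans_lt (by decide))), mem_polyIn.1 (add_mem (pow_mem hX 2) (add_mem
      (mul_mem (C_mem_polyIn (add_mem (mul_mem a1 hx) a3)) hX) (C_mem_polyIn (neg_mem
      (add_mem (add_mem (add_mem (pow_mem hx 3) (mul_mem a2 (pow_mem hx 2))) (mul_mem a4 hx))
        a6))))), ?_⟩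
  simp only [eval_add, eval_pow, eval_mul, eval_C, eval_X]
  linear_combination eqn h

/-- invariants of a group acting on the coefficients of rational functions -/
theorem rat_fix (hx : Transc K x) (H : Set (RingAut U))
    (hH : ∀ g ∈ H, (∀ z ∈ K, g z ∈ K) ∧ g x = x) {z : U} (hz : z ∈ adj K {x})
    (h : ∀ g ∈ H, g z = z) : z ∈ adj (K ⊓ fixedOf H : Subfield U) {x} := by
  have ne : ∀ B ∈ polyIn K, B ≠ 0 → B.eval x ≠ 0 := fun B hB h0 e => h0 (hx B (mem_polyIn.1 hB) e)
  have ex : ∃ d, ∃ A ∈ polyIn K, ∃ B ∈ polyIn K, B ≠ 0 ∧ z * B.eval x = A.eval x ∧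
      B.natDegree = d :=
    let ⟨A, hA, B, hB, h1, h2⟩ := mem_adj_one.1 hz
    ⟨_, A, hA, B, hB, fun e => h1 (by simp [e]), h2, rfl⟩
  obtain ⟨A, hA, B, hB, h1, h2, h3, h4⟩ : ∃ A ∈ polyIn K, ∃ B ∈ polyIn K, B ≠ 0 ∧
      z * B.eval x = A.eval x ∧ B.natDegree = Nat.find ex ∧ B.Monic := by
    obtain ⟨A, hA, B, hB, h1, h2, h3⟩ := Nat.find_spec ex
    have l := C_mem_polyIn (inv_mem (mem_polyIn.1 hB B.natDegree))
    have m := monic_mul_leadingCoeff_inv h1
    exact ⟨_, mul_mem hA l, _, mul_mem hB l, m.ne_zero, by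
      rw [eval_mul, eval_mul, ← mul_assoc, h2],
      (natDegree_mul_leadingCoeff_self_inv B).trans h3, m⟩
  have key : ∀ g ∈ H, A.map (g : U →+* U) = A ∧ B.map (g : U →+* U) = B := fun g hg => by
    have mp : ∀ f ∈ polyIn K, f.map (g : U →+* U) ∈ polyIn K := fun f hf => mem_polyIn.2 fun k => by
      rw [coeff_map]
      exact (hH g hg).1 _ (mem_polyIn.1 hf k)
    have ev : ∀ f : U[X], (f.map (g : U →+* U)).eval x = g (f.eval x) := fun f =>
      (congrArg (fun t => eval t (f.map (g : U →+* U))) (hH g hg).2.symm).trans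
        (eval_map_aut (g : U →+* U) f x)
    have e1 : z * (B.map (g : U →+* U)).eval x = (A.map (g : U →+* U)).eval x := by
      rw [ev, ev, ← h2, map_mul, h g hg]
    have e2 : B.map (g : U →+* U) = B := by_contra fun k => by
      have k0 : B - B.map (g : U →+* U) ≠ 0 := sub_ne_zero.2 (Ne.symm k)
      refine Nat.find_min ex (m := (B - B.map (g : U →+* U)).natDegree) ?_
        ⟨_, sub_mem hA (mp A hA), _, sub_mem hB (mp B hB), k0, by
          rw [eval_sub, eval_sub, mul_sub, h2, e1], rfl⟩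
      rw [← h3]
      exact natDegree_lt_natDegree k0 (degree_sub_lt (degree_map _ _).symm h1
        (by rw [h4.leadingCoeff, (h4.map _).leadingCoeff]))
    refine ⟨sub_eq_zero.1 (hx _ (mem_polyIn.1 (sub_mem (mp A hA) hA)) ?_), e2⟩
    rw [eval_sub, ← e1, e2, h2, sub_self]
  have fx : ∀ f ∈ polyIn K, (∀ g ∈ H, f.map (g : U →+* U) = f) → f ∈ polyIn (K ⊓ fixedOf H) :=
    fun f hf k => mem_polyIn.2 fun j => ⟨mem_polyIn.1 hf j, fun g hg =>
      (coeff_map (g : U →+* U) j).symm.trans (congrArg (coeff · j) (k g hg))⟩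
  exact mem_adj_one.2 ⟨A, fx A hA fun g hg => (key g hg).1, B, fx B hB fun g hg => (key g hg).2,
    ne B hB h1, h2⟩

/-- automorphisms of the constants extend to automorphisms fixing `x` -/
theorem ext_x [IsAlgClosed U] (hx : Transc K x) (h : ∀ z, Alg (adj K {x}) z) (g₀ : K ≃+* K) :
    ∃ g : RingAut U, (∀ c : K, g c = g₀ c) ∧ g x = x := by
  have ht := transc_iff.1 hx
  have : IsAlgClosure (Algebra.adjoin K {x}) U := ⟨inferInstance, ⟨fun z =>
    IntermediateField.isAlgebraic_adjoin_iff.1 (by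
      have := h z
      rw [adj_eq_adjoin] at this
      exact alg_iff.1 this)⟩⟩
  let e := (Polynomial.algEquivOfTranscendental K x ht).toRingEquiv
  let g := IsAlgClosure.equivOfEquiv U U (e.symm.trans ((mapEquiv g₀).trans e))
  have k : ∀ p : K[X], g (aeval x p) = aeval x (p.map (g₀ : K →+* K)) := fun p => by
    have e1 : ∀ q : K[X], algebraMap _ U (e q) = aeval x q := fun q =>
      (aeval_algHom_apply (Algebra.adjoin K {x}).val _ q).symm
    rw [← e1, ← e1, IsAlgClosure.equivOfEquiv_algebraMap, RingEquiv.trans_apply,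
      RingEquiv.symm_apply_apply]
    rfl
  refine ⟨g, fun c => ?_, ?_⟩
  · have := k (C c)
    rw [map_C, aeval_C, aeval_C] at this
    exact this
  · simpa using k X

theorem isAlgClosed_sub [IsAlgClosed U] (hO : ∀ z, Alg K z → z ∈ K) : IsAlgClosed K := by
  refine IsAlgClosed.of_exists_root _ fun p hp hi => ?_
  obtain ⟨z, hz⟩ := IsAlgClosed.exists_aeval_eq_zero U p (degree_pos_of_irreducible hi).ne'
  have hm : z ∈ K := hO z (alg_iff.2 ⟨p, hp.ne_zero, hz⟩)
  exact ⟨⟨z, hm⟩, K.subtype.injective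
    ((eval₂_at_apply K.subtype _).symm.trans (hz.trans (map_zero _).symm))⟩

theorem alg_comap {Om : Subfield U} (hK : K ≤ Om) {z : Om} (h : Alg K (z : U)) :
    Alg (K.comap Om.subtype) z := by
  obtain ⟨f, f0, f1, f2⟩ := h
  obtain ⟨p, rfl⟩ := mem_polyIn.2 fun k => hK (f1 k)
  refine ⟨p, fun e => f0 (by simp [e]), fun k => ?_, Om.subtype.injective ?_⟩
  · have := f1 k
    rwa [coe_mapRingHom, coeff_map] at this
  · rw [map_zero, ← f2, coe_mapRingHom, eval_map, ← eval₂_at_apply]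
    rfl

theorem trans_sub (h4 : TransStmt) [CharZero U] [IsAlgClosed U] {Om : Subfield U} (hK : K ≤ Om)
    (hA : ∀ z ∈ Om, Alg K z) (hO : ∀ z, Alg Om z → z ∈ Om) (V V' : ValuationSubring U)
    (hV : ∀ z ∈ K, z ∈ V ↔ z ∈ V') : ∃ g : Om ≃+* Om, (∀ c : Om, (c : U) ∈ K → g c = c) ∧
      ∀ z : Om, (z : U) ∈ V ↔ (g z : U) ∈ V' :=
  have := isAlgClosed_sub hO
  h4 Om (K.comap Om.subtype) (fun z => alg_comap hK (hA z z.2)) (V.comap Om.subtype)
    (V'.comap Om.subtype) fun z hz => hV z hz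

end AmbGal

open AmbGal in
/-- A6 -/
theorem normalForm_holds : NormalFormStmt := by
  intro U _ Om E x y H hE _ h hx hH z hz hf
  have x1 : x ∈ adj Om {x} := right_subset_adj _ _ rfl
  obtain ⟨a, ha, b, hb, rfl⟩ := quad (cmono hE (left_subset_adj _ _)) h x1 (adj_pair _ x y ▸ hz)
  have st : ∀ g ∈ H, ∀ c ∈ adj Om {x}, g c ∈ adj Om {x} := fun g hg =>
    map_adj (g : U →+* U) (fun c hc => le_adj _ _ ((hH g hg).1 c hc)) fun c hc => by
      rw [hc]
      exact (hH g hg).2.1.symm ▸ x1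
  have k : ∀ g ∈ H, g a = a ∧ g b = b := fun g hg =>
    uniq (not_mem hE h hx) (st g hg a ha) (st g hg b hb) ha hb (by
      rw [← hf g hg, map_add, map_mul, (hH g hg).2.2.1])
  have m := adj_mono (K := ((Om ⊓ fixedOf (H : Set (RingAut U)) : Subfield U) : Set U)) le_rfl
    (show ({x} : Set U) ⊆ {x, y} by simp)
  have r := fun {c} => rat_fix (z := c) hx H fun g hg => ⟨(hH g hg).1, (hH g hg).2.1⟩
  exact add_mem (m (r ha fun g hg => (k g hg).1))
    (mul_mem (m (r hb fun g hg => (k g hg).2)) (right_subset_adj _ _ (by simp)))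

open AmbGal in
/-- A5 -/
theorem transConst_of (h4 : TransStmt) : TransConstStmt := by
  intro U _ _ _ K Om E x y hK hA hO hE _ h hx hU V V' hV
  obtain ⟨g₀, g1, g2⟩ := trans_sub h4 hK hA hO V V' hV
  have x1 : x ∈ adj Om {x} := right_subset_adj _ _ rfl
  have hE' : CoeffIn E Om := cmono hE hK
  have hF : ∀ z, Alg (adj Om {x}) z := fun z => (hU z).trans (by
    rw [adj_pair]
    refine alg_adj fun t ht => ?_
    rw [ht]
    exact alg_y (cmono hE' (left_subset_adj _ _)) h x1)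
  have two : ∀ g : RingAut U, g ∈ Fix (K : Set U) → g x = x →
      g y = y ∨ g y = -y - E.a₁ * x - E.a₃ := fun g g1 g2 => by
    have e := congrArg g (eqn h)
    simp only [map_add, map_mul, map_pow, g2, g1 _ hE.1, g1 _ hE.2.1, g1 _ hE.2.2.1,
      g1 _ hE.2.2.2.1, g1 _ hE.2.2.2.2] at e
    rcases mul_eq_zero.1 (show (g y - y) * (g y - (-y - E.a₁ * x - E.a₃)) = 0 by
      linear_combination e - eqn h) with k | k
    exacts [.inl (sub_eq_zero.1 k), .inr (sub_eq_zero.1 k)]
  obtain ⟨g, e1, e2⟩ := ext_x hx hF g₀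
  have gK : g ∈ Fix (K : Set U) := fun c hc =>
    (e1 ⟨c, hK hc⟩).trans (congrArg Subtype.val (g1 ⟨c, hK hc⟩ hc))
  have gV : ∀ z ∈ Om, z ∈ V ↔ g z ∈ V' := fun z hz => by
    rw [show g z = _ from e1 ⟨z, hz⟩]
    exact g2 ⟨z, hz⟩
  rcases two g gK e2 with k | k
  · refine ⟨g, mem_Fix_adj.2 ⟨gK, ?_⟩, gV⟩
    rintro _ (rfl | rfl)
    exacts [e2, k]
  obtain ⟨τ, t1, t2⟩ : ∃ τ ∈ Fix (adj Om {x} : Set U), τ y ≠ y := by
    by_contra! c
    exact not_mem hE' h hx ((fixedFix_holds U _ hF).le c)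
  have tO : ∀ c ∈ Om, τ c = c := fun c hc => t1 c (le_adj _ _ hc)
  have tK : τ ∈ Fix (K : Set U) := fun c hc => tO c (hK hc)
  refine ⟨τ * g, mem_Fix_adj.2 ⟨mul_mem tK gK, ?_⟩, fun z hz => ?_⟩
  · rintro _ (rfl | rfl)
    · exact (congrArg τ e2).trans (t1 _ x1)
    · refine (congrArg τ k).trans ?_
      rw [map_sub, map_sub, map_neg, map_mul, (two τ tK (t1 _ x1)).resolve_left t2, t1 _ x1,
        tK _ hE.1, tK _ hE.2.2.1]
      ring
  · have k1 : g z ∈ Om := by
      rw [show g z = _ from e1 ⟨z, hz⟩]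
      exact (g₀ ⟨z, hz⟩).2
    rw [gV z hz, RingAut.mul_apply, tO _ k1]

end P179W
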