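import Vale.Agent.P179W.Stmts

/-!
# P179W : valuations in the ambient field (A7, A8, A9, A13, A10, A12, A4)
-/

set_option linter.all false

open scoped NNReal Classical
open Polynomial

noncomputable section

namespace P179W

namespace AV

theorem centre (B U : Type) [CommRing B] [Field U] (f : B →+* U) (y : Ideal B) (hy : y.IsPrime)
    (hk : ∀ b, f b = 0 → b ∈ y) :
    ∃ V : ValuationSubring U, ∀ b, f b ∈ V ∧ (V.valuation (f b) < 1 ↔ b ∈ y) := by
  have hs := f.rangeRestrict_surjective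
  have hk' : RingHom.ker f.rangeRestrict ≤ y := fun b hb => hk b (congrArg Subtype.val hb)
  have := Ideal.map_isPrime_of_surjective hs hk'
  obtain ⟨V, h1, h2⟩ :=
    (LocalSubring.ofPrime f.range (y.map f.rangeRestrict)).exists_le_valuationSubring
  have h3 : ∀ b, f b ∈ V := fun b => h1 (LocalSubring.le_ofPrime _ _ ⟨b, rfl⟩)
  refine ⟨V, fun b => ⟨h3 b, ?_⟩⟩
  have h4 := IsLocalization.AtPrime.isUnit_to_map_iff
    (LocalSubring.ofPrime f.range (y.map f.rangeRestrict)).toSubring (y.map f.rangeRestrict)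
    (f.rangeRestrict b)
  have h5 : f.rangeRestrict b ∈ y.map f.rangeRestrict ↔ b ∈ y := by
    rw [← Ideal.mem_comap, Ideal.comap_map_of_surjective _ hs, ← RingHom.ker_eq_comap_bot,
      sup_eq_left.2 hk']
  rw [← h5, ← not_iff_not, ← Ideal.mem_primeCompl_iff, ← h4, ← isUnit_map_iff (Subring.inclusion h1),
    ← V.valuation_lt_one_iff ⟨_, h3 b⟩, IsLocalRing.notMem_maximalIdeal]
  rfl

theorem mem_iff_inv {U : Type} [Field U] (V : ValuationSubring U) (z : U) :
    z ∉ V ↔ z ≠ 0 ∧ V.valuation z⁻¹ < 1 := by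
  rw [← V.valuation_le_one_iff, not_le, map_inv₀]
  refine ⟨fun h => ⟨fun k => ?_, inv_lt_one_of_one_lt₀ h⟩, fun h =>
    (inv_lt_one₀ ((Valuation.pos_iff _).2 h.1)).1 h.2⟩
  rw [k, map_zero] at h
  exact not_lt_zero h

end AV

theorem valExt_holds : ValExtStmt := by
  refine ⟨fun L U _ _ f V => ?_, AV.centre⟩
  obtain ⟨V', h⟩ := AV.centre V U (f.comp V.subtype) (IsLocalRing.maximalIdeal V) inferInstance
    fun b hb => by
      rw [show b = 0 from Subtype.ext (f.injective (hb.trans (map_zero f).symm))]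
      exact zero_mem _
  refine ⟨V', fun z => ⟨fun k => (h ⟨z, k⟩).1, fun k => of_not_not fun k' => ?_⟩⟩
  obtain ⟨z0, k'⟩ := (AV.mem_iff_inv V z).1 k'
  have k1 := (h ⟨z⁻¹, (V.valuation_le_one_iff _).1 k'.le⟩).2.2 ((V.valuation_lt_one_iff _).2 k')
  exact (AV.mem_iff_inv V' (f z)).2 ⟨(map_ne_zero f).2 z0, by rwa [← map_inv₀]⟩ k

theorem tame_holds : TameStmt := by
  intro U _ Γ _ v M g hg
  refine ⟨fun m hm h1 h2 z hz => of_not_not fun h3 => ?_, fun f hf h1 h2 h3 z hz z0 => ?_⟩
  · have d0 : g z - z ≠ 0 := sub_ne_zero.2 h3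
    have v0 : v (g z - z) ≠ 0 := (Valuation.ne_zero_iff v).2 d0
    have k : ∀ j : ℕ, (g^[j] (z) ∈ M) ∧
        v ((g^[j + 1] z - g^[j] z) - (g z - z)) < v (g z - z) := fun j => by
      induction j with
      | zero => exact ⟨hz, by simpa using zero_lt_iff.2 v0⟩
      | succ j ih =>
        have e := v.map_eq_of_sub_lt ih.2
        have m1 : g^[j + 1] z ∈ M := by
          rw [Function.iterate_succ_apply']
          exact hg _ ih.1
        refine ⟨m1, ?_⟩
        have := h2 _ (sub_mem m1 ih.1) (fun k => v0 (by rw [← e, k, map_zero]))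
        rw [e, map_sub g, ← Function.iterate_succ_apply' g, ← Function.iterate_succ_apply' g] at this
        simpa only [sub_add_sub_cancel] using v.map_add_lt this ih.2
    have := v.map_sum_lt (s := Finset.range m) v0 fun j _ => (k j).2
    rw [Finset.sum_sub_distrib, Finset.sum_range_sub (fun j => g^[j] z), h1 z hz,
      Function.iterate_zero_apply, sub_self, zero_sub, Valuation.map_neg, Finset.sum_const,
      Finset.card_range, nsmul_eq_mul, map_mul, hm, one_mul] at this
    exact this.false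
  · have mul : ∀ a b, v (g a - a) < v a → v (g b - b) < v b → v (g (a * b) - a * b) < v (a * b) :=
      fun a b ha hb => by
        rw [show g (a * b) - a * b = (g a - a) * g b + a * (g b - b) by rw [map_mul]; ring]
        have a0 := zero_le.trans_lt ha
        have b0 := zero_le.trans_lt hb
        refine v.map_add_lt ?_ ?_ <;> rw [map_mul, map_mul]
        · rw [v.map_eq_of_sub_lt hb]
          exact mul_lt_mul_of_pos_right ha b0
        · exact mul_lt_mul_of_pos_left hb a0
    have f0 : f ≠ 0 := (Valuation.pos_iff v).1 (zero_le.trans_lt h3)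
    have pw : ∀ a, v (g a - a) < v a → ∀ n : ℕ, v (g (a ^ n) - a ^ n) < v (a ^ n) :=
      fun a ha n => by
        induction n with
        | zero => simp
        | succ n ih => rw [pow_succ]; exact mul _ _ ih ha
    have iv : v (g f⁻¹ - f⁻¹) < v f⁻¹ := by
      have e := v.map_eq_of_sub_lt h3
      have g0 : g f ≠ 0 := (map_ne_zero g).2 f0
      have p0 := zero_le.trans_lt h3
      rw [show g f⁻¹ - f⁻¹ = -((g f - f) * (g f)⁻¹ * f⁻¹) by rw [map_inv₀]; field_simp; ring,
        Valuation.map_neg, map_mul, map_mul, map_inv₀ v (g f), e]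
      refine mul_lt_of_lt_one_left ((Valuation.pos_iff v).2 (inv_ne_zero f0)) ?_
      rwa [mul_inv_lt_iff₀ p0, one_mul]
    obtain ⟨k, hk⟩ := h1 z hz z0
    have fk : f ^ k ≠ 0 := zpow_ne_zero k f0
    have e1 : v (z / f ^ k) = 1 := by
      rw [map_div₀, hk, div_self ((Valuation.ne_zero_iff v).2 fk)]
    have e2 := h2 _ (div_mem hz (zpow_mem hf k)) e1.le
    rw [← div_mul_cancel₀ z fk]
    refine mul _ _ (e1 ▸ e2) ?_
    obtain ⟨n, rfl | rfl⟩ := k.eq_nat_or_neg
    · rw [zpow_natCast]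
      exact pw f h3 n
    · rw [zpow_neg, zpow_natCast, ← inv_pow]
      exact pw _ iv n

namespace AV

variable {U : Type} [Field U] {Γ : Type} [LinearOrderedCommGroupWithZero Γ]

theorem arch (v : Valuation U Γ) (K : Subfield U) {z : U} (z0 : z ≠ 0) {f : U[X]} (f0 : f ≠ 0)
    (hf : ∀ k, f.coeff k ∈ K) (e : f.eval z = 0) :
    ∃ m : ℕ, 0 < m ∧ m ≤ f.natDegree ∧ ∃ c ∈ K, c ≠ 0 ∧ v (z ^ m) = v c := by
  have key : ∀ i j, i < j → i ∈ f.support → j ∈ f.support →
      v (f.coeff i * z ^ i) = v (f.coeff j * z ^ j) →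
      ∃ m : ℕ, 0 < m ∧ m ≤ f.natDegree ∧ ∃ c ∈ K, c ≠ 0 ∧ v (z ^ m) = v c := fun i j h hi hj k => by
    obtain ⟨m, rfl⟩ := Nat.exists_eq_add_of_le h.le
    have a := mem_support_iff.1 hi
    have b := mem_support_iff.1 hj
    refine ⟨m, by omega, (Nat.le_add_left m i).trans (le_natDegree_of_ne_zero b), _,
      div_mem (hf i) (hf (i + m)), div_ne_zero a b, ?_⟩
    rw [map_div₀, eq_div_iff ((Valuation.ne_zero_iff v).2 b)]
    refine mul_right_cancel₀ ((Valuation.ne_zero_iff v).2 (pow_ne_zero i z0)) ?_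
    rw [← map_mul, ← map_mul, ← map_mul, k]
    congr 1
    ring
  obtain ⟨i, hi, h⟩ := f.support.exists_max_image (fun i => v (f.coeff i * z ^ i))
    (support_nonempty.2 f0)
  by_contra hc
  have := v.map_sum_eq_of_lt (f := fun i => f.coeff i * z ^ i) hi fun j hj => by
    obtain ⟨hj, ne⟩ := Finset.mem_sdiff.1 hj
    refine lt_of_le_of_ne (h j hj) fun k => hc ?_
    rcases lt_or_gt_of_ne (Finset.notMem_singleton.1 ne) with l | l
    exacts [key j i l hj hi k, key i j l hi hj k.symm]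
  rw [show ∑ i ∈ f.support, f.coeff i * z ^ i = 0 from eval_eq_sum.symm.trans e, map_zero] at this
  exact (Valuation.ne_zero_iff v).2 (mul_ne_zero (mem_support_iff.1 hi) (pow_ne_zero i z0))
    this.symm

end AV

theorem arch_holds : ArchStmt := fun _ _ _ _ v K _ ⟨_, f0, hf, e⟩ z0 =>
  let ⟨m, h, _, k⟩ := AV.arch v K z0 f0 hf e
  ⟨m, h, k⟩

theorem kummer_holds : KummerStmt := by
  intro p _ L _ H _ _ _ hH ζ hζ hg χ
  have := Fintype.ofFinite H
  let e : H → L := fun g => ζ ^ (Multiplicative.toAdd (χ g)).val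
  have e0 : ∀ g, e g ≠ 0 := fun g => pow_ne_zero _ (hζ.ne_zero (Fact.out : p.Prime).ne_zero)
  have em : ∀ g h, e (g * h) = e g * e h := fun g h => by
    simp only [e]
    rw [map_mul, toAdd_mul, ZMod.val_add, ← pow_add, ← pow_eq_pow_mod _ hζ.pow_eq_one]
  have li := (linearIndependent_monoidHom L L).comp
    (fun g : H => (MulSemiringAction.toRingHom H L g : L →* L)) fun g h k =>
      inv_mul_eq_one.1 (hH _ fun z => by
        rw [mul_smul, inv_smul_eq_iff]
        exact (DFunLike.congr_fun k z).symm)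
  obtain ⟨a, ha⟩ : ∃ a : L, ∑ h : H, (e h)⁻¹ * h • a ≠ 0 := by
    by_contra! k
    exact inv_ne_zero (e0 1) (Fintype.linearIndependent_iff.1 li (fun h => (e h)⁻¹)
      (funext fun a => by simpa using k a) 1)
  refine ⟨_, ha, fun g => ?_⟩
  rw [Finset.smul_sum, Finset.mul_sum]
  refine Fintype.sum_equiv (Equiv.mulLeft g) _ _ fun h => ?_
  rw [Equiv.coe_mulLeft, em, smul_mul', smul_inv'', show g • e h = e h by
    simp only [e, smul_pow', hg], mul_smul]
  change _ = e g * _
  field_simp [e0]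

end P179W
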