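import Vale.Agent.P179W.AmbVal

/-!
# P179W : valuations in the ambient field, second part (A10, A12, A4)
-/

set_option linter.all false

open scoped NNReal Classical Pointwise
open Polynomial

noncomputable section

namespace P179W

namespace AV

variable {U : Type} [Field U]

theorem alg_iff {K : Subfield U} {z : U} : Alg K z ↔ IsAlgebraic K z := by
  refine ⟨fun ⟨f, f0, hf, e⟩ => ?_, fun ⟨f, f0, e⟩ => ⟨f.map (algebraMap K U),
    Polynomial.map_ne_zero f0, fun k => by rw [coeff_map]; exact (f.coeff k).2, by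
      rwa [eval_map_algebraMap]⟩⟩
  obtain ⟨g, rfl⟩ := (mem_lifts (f := algebraMap K U) f).1
    ((lifts_iff_coeff_lifts _).2 fun k => ⟨⟨_, hf k⟩, rfl⟩)
  exact ⟨g, fun k => f0 (by rw [k, Polynomial.map_zero]), by rwa [eval_map_algebraMap] at e⟩

theorem le_iff {K : Type} [Field K] {Γ Γ' : Type} [LinearOrderedCommGroupWithZero Γ]
    [LinearOrderedCommGroupWithZero Γ'] {v : Valuation K Γ} {v' : Valuation U Γ'} {f : K →+* U}
    (h : ∀ z, v z ≤ 1 ↔ v' (f z) ≤ 1) (a b : K) : v a ≤ v b ↔ v' (f a) ≤ v' (f b) :=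
  (Valuation.isEquiv_iff_val_le_one.2 (fun {z} => h z) : v.IsEquiv (v'.comap f)) a b

end AV

theorem realExt_holds : RealExtStmt := by
  intro K U _ _ f hf w
  obtain ⟨V, hV⟩ := valExt_holds.1 K U f w.valuationSubring
  have h1 := AV.le_iff (v := w) (v' := V.valuation) (f := f) fun z => by
    rw [V.valuation_le_one_iff, ← hV, Valuation.mem_valuationSubring_iff]
  let P : U → ℝ≥0 → Prop := fun z r => ∃ m : ℕ, 0 < m ∧ ∃ c, V.valuation z ^ m =
    V.valuation (f c) ∧ r ^ m = w c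
  have key : ∀ {z r z' r'}, P z r → P z' r' → V.valuation z ≤ V.valuation z' → r ≤ r' := by
    rintro z r z' r' ⟨m, m0, c, a, b⟩ ⟨m', m0', c', a', b'⟩ k
    refine le_of_pow_le_pow_left₀ (Nat.mul_pos m0 m0').ne' zero_le ?_
    rw [pow_mul, b, pow_mul', b', ← map_pow, ← map_pow, h1, map_pow, map_pow, map_pow, map_pow, ← a,
      ← a', ← pow_mul, ← pow_mul']
    exact pow_le_pow_left₀ zero_le k _
  have pf : ∀ c, P (f c) (w c) := fun c => ⟨1, one_pos, c, pow_one _, pow_one _⟩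
  have ex : ∀ z, ∃ r, P z r := fun z => by
    rcases eq_or_ne z 0 with rfl | z0
    · exact ⟨_, map_zero f ▸ pf 0⟩
    obtain ⟨m, m0, _, ⟨c, rfl⟩, -, e⟩ := arch_holds U _ V.valuation _ z (hf z) z0
    exact ⟨w c ^ ((m : ℝ)⁻¹), m, m0, c, map_pow V.valuation z m ▸ e,
      NNReal.rpow_inv_natCast_pow _ m0.ne'⟩
  choose W hW using ex
  have un : ∀ {z r}, P z r → W z = r := fun h =>
    le_antisymm (key (hW _) h le_rfl) (key h (hW _) le_rfl)
  have h2 : ∀ c, W (f c) = w c := fun c => un (pf c)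
  refine ⟨⟨⟨⟨W, by simpa using h2 0⟩, by simpa using h2 1, fun a b => un ?_⟩, fun a b => ?_⟩, h2⟩
  · obtain ⟨m, m0, c, k, k'⟩ := hW a
    obtain ⟨n, n0, d, l, l'⟩ := hW b
    refine ⟨m * n, Nat.mul_pos m0 n0, c ^ n * d ^ m, ?_, ?_⟩
    · rw [map_mul, mul_pow, pow_mul, k, pow_mul', l]
      simp only [map_mul, map_pow]
    · rw [mul_pow, pow_mul, pow_mul' (W b)]
      simp only [map_mul, map_pow, k', l']
  · exact le_max_iff.2 ((le_max_iff.1 (V.valuation.map_add a b)).imp (key (hW _) (hW _))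
      (key (hW _) (hW _)))

theorem discExt_holds : DiscExtStmt := by
  rintro U _ Γ _ v K T hT ⟨t, tK, t0, t1, ht⟩
  let M := IntermediateField.adjoin K (T : Set U)
  have hM : adj K T = M.toSubfield := by
    rw [IntermediateField.adjoin_toSubfield, adj]
    congr 2
    exact Subtype.range_coe.symm
  have : FiniteDimensional K M := IntermediateField.finiteDimensional_adjoin fun z hz =>
    (AV.alg_iff.1 (hT z hz)).isIntegral
  have vz : ∀ {z}, z ≠ 0 → v z ≠ 0 := fun h => (Valuation.ne_zero_iff v).2 h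
  obtain ⟨N, N0, hN⟩ : ∃ N : ℕ, 0 < N ∧ ∀ z ∈ adj K T, z ≠ 0 → ∃ k : ℤ, v z ^ N = v t ^ k := by
    refine ⟨(Module.finrank K M).factorial, Nat.factorial_pos _, fun z hz z0 => ?_⟩
    let z' : M := ⟨z, by rwa [hM] at hz⟩
    have i : IsIntegral K z' := .of_finite K z'
    obtain ⟨m, m0, m1, c, cK, c0, e⟩ := AV.arch v K z0 (f := (minpoly K z').map (algebraMap K U))
      (Polynomial.map_ne_zero (minpoly.ne_zero i))
      (fun k => by rw [coeff_map]; exact ((minpoly K z').coeff k).2) (by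
        rw [eval_map_algebraMap, show z = algebraMap M U z' from rfl, aeval_algebraMap_apply,
          minpoly.aeval, map_zero])
    rw [natDegree_map] at m1
    obtain ⟨j, hj⟩ := Nat.dvd_factorial m0 (m1.trans (minpoly.natDegree_le z'))
    obtain ⟨k, hk⟩ := ht c cK c0
    exact ⟨k * j, by rw [hj, pow_mul, ← map_pow, e, hk, map_zpow₀, zpow_mul, zpow_natCast]⟩
  let S : AddSubgroup ℤ :=
    { carrier := {k | ∃ z ∈ adj K T, z ≠ 0 ∧ v z ^ N = v t ^ k}
      zero_mem' := ⟨1, one_mem _, one_ne_zero, by simp⟩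
      add_mem' := fun ⟨a, a1, a2, a3⟩ ⟨b, b1, b2, b3⟩ => ⟨a * b, mul_mem a1 b1, mul_ne_zero a2 b2,
        by rw [map_mul, mul_pow, a3, b3, zpow_add₀ (vz t0)]⟩
      neg_mem' := fun ⟨a, a1, a2, a3⟩ => ⟨a⁻¹, inv_mem a1, inv_ne_zero a2,
        by rw [map_inv₀, inv_pow, a3, zpow_neg]⟩ }
  obtain ⟨a, ha⟩ := Int.subgroup_cyclic S
  have hS : ∀ k, k ∈ S ↔ |a| ∣ k := fun k => by
    rw [ha, abs_dvd, ← AddSubgroup.zmultiples_eq_closure, Int.mem_zmultiples_iff]
  have a0 : 0 < |a| := abs_pos.2 fun k => by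
    simpa [k, N0.ne'] using (hS N).1
      ⟨t, Subfield.subset_closure (Or.inl tK), t0, (zpow_natCast _ _).symm⟩
  obtain ⟨s, s1, s0, e⟩ := (hS _).2 dvd_rfl
  refine ⟨s, s1, s0, (pow_lt_one_iff_of_nonneg zero_le N0.ne').1
    (e ▸ zpow_lt_one₀ (zero_lt_iff.2 (vz t0)) t1 a0), fun z hz z0 => ?_⟩
  obtain ⟨k, hk⟩ := hN z hz z0
  obtain ⟨j, rfl⟩ := (hS k).1 ⟨z, hz, z0, hk⟩
  refine ⟨j, (pow_left_inj₀ zero_le zero_le N0.ne').1 ?_⟩
  rw [hk, zpow_mul, ← e, map_zpow₀, ← zpow_natCast, ← zpow_natCast, ← zpow_mul, ← zpow_mul,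
    mul_comm]

namespace AV

variable {U : Type} [Field U]

/-- the elements of all the valuation rings containing `A` -/
def Gd (A : Set U) (x : U) : Prop := ∀ W : ValuationSubring U, A ⊆ W → x ∈ W

theorem ev_lt (V : ValuationSubring U) {z : U} (hz : z ∈ V) {f : U[X]}
    (h : ∀ k, V.valuation (f.coeff k) < 1) : V.valuation (f.eval z) < 1 := by
  rw [eval_eq_sum_range]
  refine V.valuation.map_sum_lt one_ne_zero fun i _ => ?_
  rw [map_mul]
  exact mul_lt_one_of_lt_of_le (h i) ((V.valuation_le_one_iff _).2 (pow_mem hz i))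

theorem den (V : ValuationSubring U) {A : Set U} (hA : A ⊆ V) {z : U} (hz : z ∈ V) :
    ∀ (n : ℕ) (f : U[X]), f.natDegree < n → (∀ k, f.coeff k ∈ A) →
      (∃ k, V.valuation (f.coeff k) = 1) → Gd A (f.eval z) → Gd A (z * f.eval z) →
      ∃ s, Gd A s ∧ Gd A (z * s) ∧ V.valuation s = 1 := by
  intro n
  induction n with
  | zero => exact fun _ h => absurd h (Nat.not_lt_zero _)
  | succ n ih =>
    rintro f hn hf ⟨k, hk⟩ g1 g2
    have e : f.eval z = f.coeff 0 + z * f.divX.eval z := by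
      conv_lhs => rw [← X_mul_divX_add f]
      rw [eval_add, eval_mul, eval_X, eval_C, add_comm]
    have c : ∀ k, f.divX.coeff k ∈ A := fun k => by
      rw [coeff_divX]
      exact hf _
    by_cases h : ∃ k, V.valuation (f.divX.coeff k) = 1
    · have g3 : Gd A (z * f.divX.eval z) := fun W hW =>
        eq_sub_of_add_eq' e.symm ▸ sub_mem (g1 W hW) (hW (hf 0))
      refine ih f.divX ?_ c h (fun W hW => ?_) g3
      · obtain ⟨j, hj⟩ := h
        have : j + 1 ≤ f.natDegree := le_natDegree_of_ne_zero fun k => by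
          rw [coeff_divX, k, map_zero] at hj
          exact zero_ne_one hj
        rw [natDegree_divX_eq_natDegree_tsub_one]
        omega
      rcases W.mem_or_inv_mem z with k | k
      · rw [eval_eq_sum_range]
        exact sum_mem fun i _ => mul_mem (hW (c i)) (pow_mem k i)
      · rcases eq_or_ne z 0 with rfl | z0
        · rw [← coeff_zero_eq_eval_zero]
          exact hW (c 0)
        · exact inv_mul_cancel_left₀ z0 (f.divX.eval z) ▸ mul_mem k (g3 W hW)
    · have l : ∀ k, V.valuation (f.divX.coeff k) < 1 := fun k =>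
        lt_of_le_of_ne ((V.valuation_le_one_iff _).2 (hA (c k))) fun j => h ⟨k, j⟩
      obtain rfl : k = 0 := by
        rcases k with _ | k
        exacts [rfl, absurd ⟨k, by rwa [coeff_divX]⟩ h]
      refine ⟨_, g1, g2, ?_⟩
      rw [e, V.valuation.map_add_eq_of_lt_left, hk]
      rw [hk, map_mul]
      exact mul_comm (V.valuation z) _ ▸
        mul_lt_one_of_lt_of_le (ev_lt V hz l) ((V.valuation_le_one_iff _).2 hz)

theorem den' (V : ValuationSubring U) {K : Subfield U} {z : U} (h : Alg K z) (hz : z ∈ V) :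
    ∃ s, Gd ((K : Set U) ∩ V) s ∧ Gd ((K : Set U) ∩ V) (z * s) ∧ V.valuation s = 1 := by
  obtain ⟨f, f0, hf, e⟩ := h
  obtain ⟨i, hi, h⟩ := f.support.exists_max_image (fun i => V.valuation (f.coeff i))
    (support_nonempty.2 f0)
  have c0 := mem_support_iff.1 hi
  have v0 := (Valuation.pos_iff V.valuation).2 c0
  have z0 : (C (f.coeff i)⁻¹ * f).eval z = 0 := by rw [eval_mul, e, mul_zero]
  refine den V Set.inter_subset_right hz _ (C (f.coeff i)⁻¹ * f) (Nat.lt_succ_self _)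
    (fun k => ?_) ⟨i, by rw [coeff_C_mul, inv_mul_cancel₀ c0, map_one]⟩
    (fun W _ => z0 ▸ zero_mem W) fun W _ => by rw [z0, mul_zero]; exact zero_mem W
  rw [coeff_C_mul]
  refine ⟨mul_mem (inv_mem (hf i)) (hf k), (V.valuation_le_one_iff _).1 ?_⟩
  rw [map_mul, map_inv₀, inv_mul_le_iff₀ v0, mul_one]
  by_cases j : k ∈ f.support
  exacts [h k j, by rw [notMem_support_iff.1 j, map_zero]; exact zero_le]

end AV

theorem trans_holds : TransStmt := by
  intro U _ _ _ K hK V V' h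
  have : Algebra.IsAlgebraic K U := ⟨fun z => AV.alg_iff.1 (hK z)⟩
  have : IsAlgClosure K U := ⟨inferInstance, inferInstance⟩
  let A : Subring U := Subring.closure ((K : Set U) ∩ V)
  have hA : ∀ a ∈ A, a ∈ K ∧ a ∈ V := fun a ha =>
    (Subring.closure_le (t := K.toSubring ⊓ V.toSubring)).2 (fun _ k => k) ha
  have : SMulCommClass (U ≃ₐ[K] U) A U := ⟨fun g a z => by
    change g (a * z) = a * g z
    rw [map_mul, show g a = a from g.commutes ⟨a, (hA _ a.2).1⟩]⟩
  let B := integralClosure A U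
  have hB : ∀ z, z ∈ B ↔ AV.Gd ((K : Set U) ∩ V) z := fun z => by
    have := SetLike.ext_iff.1 (iInf_valuationSubring_superset (s := (K : Set U) ∩ V)) z
    rw [Subring.mem_iInf, Subtype.forall] at this
    exact this.symm
  let _ : TopologicalSpace B := ⊥
  have : DiscreteTopology B := ⟨rfl⟩
  have : ContinuousSMul (U ≃ₐ[K] U) B := continuousSMul_iff_stabilizer_isOpen.2 fun b => by
    convert stabilizer_isOpen_of_isIntegral (K := K) (b : U) using 2
    ext g
    exact Subtype.ext_iff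
  have : Algebra.IsInvariant A B (U ≃ₐ[K] U) := ⟨fun b hb => by
    obtain ⟨c, hc⟩ := (InfiniteGalois.mem_range_algebraMap_iff_fixed (k := K) (b : U)).2
      fun g => congrArg Subtype.val (hb g)
    exact ⟨⟨b, Subring.subset_closure ⟨hc ▸ c.2, (hB b).1 b.2 V Set.inter_subset_right⟩⟩, rfl⟩⟩
  have hP : ∀ W : ValuationSubring U, (K : Set U) ∩ V ⊆ W → ∃ P : Ideal B, P.IsPrime ∧
      ∀ b : B, b ∈ P ↔ W.valuation b < 1 := fun W hW => ⟨(IsLocalRing.maximalIdeal W).comap
    (B.val.toRingHom.codRestrict W fun b => (hB b).1 b.2 W hW), inferInstance,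
    fun b => W.valuation_lt_one_iff _⟩
  have h' : (K : Set U) ∩ V ⊆ V' := fun z k => (h z k.1).1 k.2
  obtain ⟨P', _, hP'⟩ := hP V' h'
  obtain ⟨P, _, hP⟩ := hP V Set.inter_subset_right
  have e := AV.le_iff (v := V.valuation.comap K.subtype) (v' := V'.valuation) (f := K.subtype)
    fun z => by rw [Valuation.comap_apply, V.valuation_le_one_iff, V'.valuation_le_one_iff]
                exact h z z.2
  obtain ⟨g, hg⟩ := Algebra.IsInvariant.exists_smul_of_under_eq_of_profinite (A := A)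
    (G := U ≃ₐ[K] U) P P' (by
      ext a
      rw [Ideal.under, Ideal.under, Ideal.mem_comap, Ideal.mem_comap, hP, hP', ← not_le, ← not_le]
      simpa using! (e 1 ⟨a, (hA _ a.2).1⟩).not)
  have k : ∀ b, AV.Gd ((K : Set U) ∩ V) b → g b ∈ V' ∧
      (V.valuation b < 1 ↔ V'.valuation (g b) < 1) := fun b hb => by
    have := Ideal.smul_mem_pointwise_smul_iff (a := g) (S := P)
      (x := ⟨b, (hB b).2 hb⟩)
    rw [← hg, hP, hP'] at this
    exact ⟨(hB _).1 (g • (⟨b, (hB b).2 hb⟩ : B)).2 V' h', this.symm⟩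
  have k' : ∀ z ∈ V, g z ∈ V' ∧ (V.valuation z < 1 → V'.valuation (g z) < 1) := fun z hz => by
    obtain ⟨s, s1, s2, s3⟩ := AV.den' V (hK z) hz
    have s4 : V'.valuation (g s) = 1 := le_antisymm ((V'.valuation_le_one_iff _).2 (k s s1).1)
      (not_lt.1 fun j => ((k s s1).2.2 j).ne s3)
    have := k _ s2
    rw [← V'.valuation_le_one_iff, map_mul, map_mul, map_mul, s3, s4, mul_one, mul_one,
      V'.valuation_le_one_iff] at this
    exact ⟨this.1, this.2.1⟩
  refine ⟨g.toRingEquiv, fun z hz => g.commutes ⟨z, hz⟩, fun z => ⟨fun j => (k' z j).1,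
    fun j => of_not_not fun j' => ?_⟩⟩
  obtain ⟨z0, j'⟩ := (AV.mem_iff_inv V z).1 j'
  exact (AV.mem_iff_inv V' (g z)).2 ⟨(map_ne_zero g).2 z0, by
    rw [← map_inv₀]; exact (k' _ ((V.valuation_le_one_iff _).1 j'.le)).2 j'⟩ j

end P179W
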