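import Vale.Agent.P179W.Bound

/-!
# P179W : the gap lemma (`GapStmt`)
-/

set_option linter.all false

open scoped NNReal Classical
open Filter Topology Finset

noncomputable section

namespace P179W

namespace GapH

/-- a field is algebraically closed in its ring of power series -/
theorem const_of_root {R : Type} [Field R] {P : Polynomial R} (hP : P ≠ 0) {f : PowerSeries R}
    (h : Polynomial.aeval f P = 0) : f = PowerSeries.C (PowerSeries.constantCoeff f) := by
  obtain ⟨Q, h1, h2⟩ := P.exists_eq_pow_rootMultiplicity_mul_and_not_dvd hP f.constantCoeff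
  rw [h1, map_mul, map_pow, mul_eq_zero] at h
  refine h.elim (fun h => by simpa [sub_eq_zero] using (pow_eq_zero_iff'.1 h).1) fun h =>
    (h2 (Polynomial.dvd_iff_isRoot.2 ?_)).elim
  have := congrArg PowerSeries.constantCoeff h
  rwa [Polynomial.aeval_def, Polynomial.hom_eval₂, map_zero, show PowerSeries.constantCoeff.comp
    (algebraMap R (PowerSeries R)) = RingHom.id R from PowerSeries.constantCoeff_comp_C] at this

theorem choose_mod {p : ℕ} [Fact p.Prime] (e k : ℕ) : k.choose (p ^ e) ≡ k / p ^ e [MOD p] := by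
  induction e generalizing k with
  | zero => simp [Nat.ModEq]
  | succ e ih =>
    refine Choose.choose_modEq_choose_mod_mul_choose_div_nat.trans ?_
    rw [pow_succ', Nat.mul_mod_right, Nat.choose_zero_right, one_mul,
      Nat.mul_div_cancel_left _ (Fact.out : p.Prime).pos, ← Nat.div_div_eq_div_mul]
    exact ih _

variable {p : ℕ} {L : Type} [Field L] [CharZero L] {G : Type} [Group G] [MulSemiringAction G L]
  {w : Valuation L ℝ≥0} {δ : Derivation ℤ L L} {π0 : L} {R : Type} [Field R] {rd : L → R}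

theorem tau_int (F : Flow G p w δ π0) {z : L} (hz : w z ≤ 1) : tau δ π0 z ∈ IntPS w := fun k => by
  rw [coeff_tau]; exact (F.bound k z).trans hz

theorem rd_inv (F : Flow G p w δ π0) (h : IsRed w rd) {b : L} (hb : w b ≤ 1)
    (hG : ∀ g : G, g • b = b) : rdPS rd (tau δ π0 b) = PowerSeries.C (rd b) := by
  obtain ⟨ρ, ρ1, hρ⟩ := F.gain
  ext k
  rw [coeff_rdPS, coeff_tau, PowerSeries.coeff_C]
  split_ifs with e
  · rw [e, dE_zero]
  · have := (hρ b hG k).trans_lt (mul_lt_one_of_nonneg_of_lt_one_left zero_le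
      (pow_lt_one₀ zero_le ρ1 e) hb)
    exact (h.eq_zero _ this.le).2 this

theorem rd_tau [Finite G] (F : Flow G p w δ π0) (h : IsRed w rd) {z : L} (hz : w z ≤ 1) :
    rdPS rd (tau δ π0 z) = PowerSeries.C (rd z) := by
  have := Fintype.ofFinite G
  set P := MulSemiringAction.charpoly G z
  obtain ⟨j, j1, hj⟩ := exists_max_image (range (P.natDegree + 1)) (fun j => w (P.coeff j))
    nonempty_range_add_one
  have a0 : 0 < w (P.coeff j) := zero_lt_one.trans_le (by
    simpa [(MulSemiringAction.monic_charpoly G z).coeff_natDegree, P] using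
      hj _ (self_mem_range_succ _))
  have a1 : ∀ i ∈ range (P.natDegree + 1), w (P.coeff i / P.coeff j) ≤ 1 := fun i hi => by
    rw [map_div₀]; exact div_le_one_of_le₀ (hj i hi) zero_le
  have a2 : ∑ i ∈ range (P.natDegree + 1), P.coeff i / P.coeff j * z ^ i = 0 := by
    simp only [div_mul_eq_mul_div, ← sum_div, ← Polynomial.eval_eq_sum_range, P,
      MulSemiringAction.eval_charpoly, zero_div]
  refine (const_of_root (P := ∑ i ∈ range (P.natDegree + 1),
    Polynomial.monomial i (rd (P.coeff i / P.coeff j))) (fun e => ?_) ?_).trans (by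
      rw [← PowerSeries.coeff_zero_eq_constantCoeff_apply, coeff_rdPS, coeff_tau, dE_zero])
  · simpa [Polynomial.coeff_monomial, j1, w.pos_iff.1 a0, h.one] using
      congrArg (Polynomial.coeff · j) e
  · rw [← h.ps_zero, ← map_zero (tauHom δ π0), ← a2, map_sum, map_sum]
    refine (sum_congr rfl fun i hi => ?_).trans (h.ps_sum _ fun i hi => tau_int F (by
      rw [w.map_mul, w.map_pow]; exact mul_le_one' (a1 i hi) (pow_le_one' hz _))).symm
    rw [tau_mul, tau_pow, h.ps_mul (tau_int F (a1 i hi)) (pow_mem (tau_int F hz) _),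
      h.ps_pow (tau_int F hz), rd_inv F h (a1 i hi) fun g => by
        simp only [smul_div₀', P, MulSemiringAction.smul_coeff_charpoly],
      Polynomial.aeval_monomial]
    rfl

theorem quot_int (F : Flow G p w δ π0) (z : L) : tau δ π0 z * PowerSeries.C z⁻¹ ∈ IntPS w :=
  fun k => by
    rw [PowerSeries.coeff_mul_C, coeff_tau, w.map_mul, map_inv₀]
    exact mul_inv_le_one_of_le₀ (F.bound k z) zero_le

theorem gap [hp : Fact p.Prime] [Finite G] (F : Flow G p w δ π0) {k : ℕ} {z : L} (hk : 0 < k)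
    (hz : z ≠ 0) : w (dE δ π0 k z) < w z := by
  obtain ⟨R, _, rd, h, -⟩ := exists_isRed w
  obtain ⟨ϖ, h0, h1, h2⟩ := F.disc
  have p0 : (p : L) ≠ 0 := Nat.cast_ne_zero.2 hp.out.ne_zero
  have q0 := w.pos_iff.2 h0
  obtain ⟨m, hm⟩ := h2 z hz
  obtain ⟨e, he⟩ := h2 p p0
  have e0 : 0 < e := (zpow_lt_one_iff_right_of_lt_one₀ q0 h1).1 (he ▸ F.wp)
  lift e to ℕ using e0.le
  obtain ⟨u, hu⟩ : ∃ u, u = z ^ e / p ^ m := ⟨_, rfl⟩
  have u1 : w u = 1 := by
    rw [hu, map_div₀, w.map_pow, map_zpow₀, hm, he, ← zpow_natCast, ← zpow_mul, ← zpow_mul,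
      mul_comm, div_self (zpow_pos q0 _).ne']
  have u2 : (tau δ π0 z * PowerSeries.C z⁻¹) ^ e = tau δ π0 u * PowerSeries.C u⁻¹ := by
    rw [mul_pow, ← tau_pow, ← map_pow, inv_pow, (div_eq_iff (zpow_ne_zero m p0)).1 hu.symm, tau_mul,
      tau_const δ π0 (c := p ^ m) (by rw [Derivation.leibniz_zpow]; simp), mul_assoc, ← map_mul,
      mul_inv_rev, mul_inv_cancel_left₀ (zpow_ne_zero m p0)]
  have u3 := congrArg (PowerSeries.coeff k) (const_of_root
    (f := rdPS rd (tau δ π0 z * PowerSeries.C z⁻¹))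
    (Polynomial.X_pow_sub_C_ne_zero (Int.natCast_pos.1 e0) (1 : R)) (by
      rw [map_sub, map_pow, Polynomial.aeval_X, ← h.ps_pow (quot_int F z), u2,
        h.ps_mul (tau_int F u1.le) (C_mem_IntPS w (by simp [u1])), rd_tau F h u1.le, h.ps_C,
        ← map_mul, h.inv u1, mul_inv_cancel₀ ((h.ne_zero_iff u1.le).2 u1)]
      simp))
  rw [coeff_rdPS, PowerSeries.coeff_C, if_neg hk.ne', h.eq_zero _ (quot_int F z k),
    PowerSeries.coeff_mul_C, coeff_tau, w.map_mul, map_inv₀] at u3
  exact (mul_inv_lt_iff₀ (w.pos_iff.2 hz)).1 u3 |>.trans_eq (one_mul _)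

theorem gap' [hp : Fact p.Prime] [Finite G] (F : Flow G p w δ π0) {k e : ℕ} {z : L}
    (h1 : p ^ e < k) (h2 : k < p ^ (e + 1)) (hz : dE δ π0 k z ≠ 0) :
    w (dE δ π0 k z) < w (dE δ π0 (p ^ e) z) := by
  have p0 := pow_pos hp.out.pos e
  have a := dE_dE δ F.π0_const (k - p ^ e) (p ^ e) z
  rw [Nat.sub_add_cancel h1.le, Nat.choose_symm h1.le] at a
  have b : w (k.choose (p ^ e) : L) = 1 := w_nat_eq F.wp fun d => by
    have := Nat.le_of_dvd (Nat.div_pos h1.le p0) (((choose_mod e k).dvd_iff dvd_rfl).1 d)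
    rw [Nat.le_div_iff_mul_le p0, ← pow_succ'] at this
    omega
  have c := gap F (Nat.sub_pos_of_lt h1) (z := dE δ π0 (p ^ e) z) fun e => by
    rw [e, dE_zero', eq_comm, mul_eq_zero, or_iff_left hz] at a
    simp [a] at b
  rwa [a, w.map_mul, b, one_mul] at c

end GapH

theorem gap_holds : GapStmt := fun _ _ _ _ _ _ _ _ _ _ _ _ F =>
  ⟨fun _ _ => GapH.gap F, fun _ _ _ => GapH.gap' F⟩

end P179W
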