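import Vale.Agent.P179W.BetaC
import Vale.Agent.P179W.Gap

/-!
# P179W : local constancy of the group of the first break (`BetaStmt`)
-/

set_option linter.all false

open scoped NNReal Classical
open Filter Topology Polynomial

noncomputable section

namespace P179W

namespace BetaH

variable {L : Type} [Field L] [CharZero L] {G : Type} [Group G] [MulSemiringAction G L]
  {δ : Derivation ℤ L L} {π0 : L} {p : ℕ} {w : Valuation L ℝ≥0} {B : Subring L}

/-- the symmetric functions of a family reduce to polynomials -/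
theorem polyCoeff [Finite G] (hF : Flow G p w δ π0) {S : Subring L} {κ : Type} [CommRing κ]
    (r : S →+* κ) (hr : ∀ z : S, w z < 1 → r z = 0) (H : Subgroup G) [Fintype H]
    (hH : ∀ z : L, (∀ h ∈ H, h • z = z) → z ∈ M0 w δ π0) {c : G → PowerSeries L}
    (hc : c ∈ FamRing G δ π0 ⊤) (c' : H → PowerSeries S) (hc' : ∀ γ, io S (c' γ) = c γ) (i : ℕ) :
    ∃ ρ : S[X], (∏ γ, (X - C (PowerSeries.map r (c' γ)))).coeff i =
      PowerSeries.map r (ρ : PowerSeries S) := by
  let F : (FamRing G δ π0 ⊤)[X] := ∏ γ : H, (X - C ⟨_, transl_mem hc γ⟩)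
  have h1 : ∀ h, (F.coeff i : G → PowerSeries L) h = (∏ γ : H, (X - C (c (h * γ)))).coeff i := by
    intro h
    have h2 := coeff_map ((Pi.evalRingHom (fun _ : G => PowerSeries L) h).comp
      (FamRing G δ π0 ⊤).subtype) (p := F) i
    simp only [F, Polynomial.map_prod, Polynomial.map_sub, map_X, map_C] at h2
    exact h2.symm
  have h2 := hF.Fam_inv H 1 (by rwa [cw_one]) (mem_FamRing_top.1 (F.coeff i).2) fun h hh => by
    rw [h1, h1]
    congr 1
    exact Fintype.prod_equiv (Equiv.mulLeft (⟨h, hh⟩ : H)) _ _ fun x => by simp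
  have h3 : (F.coeff i : G → PowerSeries L) 1 = io S ((∏ γ, (X - C (c' γ))).coeff i) := by
    rw [h1, ← coeff_map]
    simp only [Polynomial.map_prod, Polynomial.map_sub, map_X, map_C, hc', one_mul]
  rw [h3] at h2
  obtain ⟨K, hK⟩ := null_iff.1 h2 1 one_pos
  refine ⟨PowerSeries.trunc K ((∏ γ, (X - C (c' γ))).coeff i), ?_⟩
  have h4 : (∏ γ, (X - C (PowerSeries.map r (c' γ)))).coeff i =
      PowerSeries.map r ((∏ γ, (X - C (c' γ))).coeff i) := by
    rw [← coeff_map]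
    simp only [Polynomial.map_prod, Polynomial.map_sub, map_X, map_C]
  rw [h4]
  ext k
  rw [PowerSeries.coeff_map, PowerSeries.coeff_map, Polynomial.coeff_coe, PowerSeries.coeff_trunc]
  split_ifs with hk
  · rfl
  · rw [map_zero]
    exact hr _ (by rw [← coeff_io]; exact hK k (not_lt.1 hk))

/-- a family whose reduction is supported by `H` -/
theorem exists_eps [Finite G] (hF : Flow G p w δ π0) {κ : Type} [Field κ]
    (r : B →+* κ) (hr : ∀ z : B, w z < 1 → r z = 0) (H : Subgroup G)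
    (hH : ∀ z : L, (∀ h ∈ H, h • z = z) → z ∈ M0 w δ π0) {c0 : G → PowerSeries B}
    (hc0 : c0 ∈ AB G δ π0 B)
    (h0 : ∀ g, PowerSeries.constantCoeff (c0 g) = if g = 1 then 1 else 0) :
    ∃ ε ∈ AB G δ π0 B, ∀ g, PowerSeries.map r (ε g) = 0 ↔ g ∉ H := by
  have := Fintype.ofFinite G
  let c : G → PowerSeries B := fun h => ∑ γ : H, c0 (h * γ)
  have hc : c ∈ AB G δ π0 B := by
    have h2 := (AB G δ π0 B).sum_mem fun (γ : H) (_ : γ ∈ Finset.univ) => transl_mem_AB hc0 γ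
    convert h2 using 1
    funext h
    rw [Finset.sum_apply]
  have h1 : ∀ h, PowerSeries.constantCoeff (PowerSeries.map r (c h)) = if h ∈ H then 1 else 0 := by
    intro h
    rw [← PowerSeries.coeff_zero_eq_constantCoeff_apply, PowerSeries.coeff_map,
      PowerSeries.coeff_zero_eq_constantCoeff_apply]
    simp only [c, map_sum, h0]
    split_ifs with hh
    · rw [Finset.sum_eq_single (⟨h⁻¹, H.inv_mem hh⟩ : H)]
      · simp
      · intro b _ hb
        rw [if_neg, map_zero]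
        intro h2
        exact hb (Subtype.ext (eq_inv_of_mul_eq_one_right h2))
      · simp
    · refine Finset.sum_eq_zero fun b _ => ?_
      rw [if_neg, map_zero]
      intro h2
      exact hh (by rw [eq_inv_of_mul_eq_one_left h2]; exact H.inv_mem b.2)
  choose ρ hρ using polyCoeff hF r hr H hH (mem_AB.1 hc) (fun γ => c γ) fun _ => rfl
  let F : (PowerSeries κ)[X] := ∏ γ : H, (X - C (PowerSeries.map r (c γ)))
  let d : G → PowerSeries B := fun h =>
    ∑ i ∈ Finset.range (F.natDegree + 1), (ρ i : PowerSeries B) * c h ^ i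
  have hd : d ∈ AB G δ π0 B := by
    have h2 := (AB G δ π0 B).sum_mem fun i (_ : i ∈ Finset.range (F.natDegree + 1)) =>
      (AB G δ π0 B).mul_mem (poly_mem_AB (ρ i)) (pow_mem hc i)
    convert h2 using 1
    funext h
    simp [d, Finset.sum_apply]
  have h2 : ∀ h, PowerSeries.map r (d h) = 0 ↔ h ∈ H := by
    intro h
    have h3 : PowerSeries.map r (d h) =
        ∏ γ : H, (PowerSeries.map r (c h) - PowerSeries.map r (c γ)) := by
      have h4 : F.eval (PowerSeries.map r (c h)) =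
          ∏ γ : H, (PowerSeries.map r (c h) - PowerSeries.map r (c γ)) := by
        simp [F, eval_prod]
      rw [← h4, eval_eq_sum_range]
      simp only [d, map_sum, map_mul, map_pow, ← hρ, F]
    rw [h3, Finset.prod_eq_zero_iff]
    constructor
    · rintro ⟨γ, -, h4⟩
      have h5 := congrArg PowerSeries.constantCoeff h4
      rw [map_sub, h1, h1, if_pos γ.2, map_zero] at h5
      by_contra hh
      simp [hh] at h5
    · exact fun hh => ⟨⟨h, hh⟩, Finset.mem_univ _, sub_self _⟩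
  refine ⟨fun h => ∏ g ∈ Finset.univ.filter (· ∉ H), d (h * g⁻¹), ?_, fun h => ?_⟩
  · have h3 := (AB G δ π0 B).prod_mem fun g (_ : g ∈ Finset.univ.filter (· ∉ H)) =>
      transl_mem_AB hd g⁻¹
    convert h3 using 1
    funext h
    rw [Finset.prod_apply]
  · rw [map_prod, Finset.prod_eq_zero_iff]
    simp only [h2, Finset.mem_filter, Finset.mem_univ, true_and]
    constructor
    · rintro ⟨g, h3, h4⟩ hh
      exact h3 (by simpa using H.mul_mem (H.inv_mem h4) hh)
    · exact fun hh => ⟨h, hh, by simp⟩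

/-- the last step -/
theorem final [hp : Fact p.Prime] [Finite G] (hF : Flow G p w δ π0) {S : Subring L} (hBS : B ≤ S)
    {κ : Type} [Field κ] (r : S →+* κ) (hr : ∀ z : S, w z < 1 → r z = 0)
    (hS : ∀ z, w z < 1 → z ∈ S) {ζ : L} (hζ : IsPrimitiveRoot ζ p) (hζS : ζ ∈ S) (hδ : δ ζ = 0)
    (H Γ : Subgroup G) (hΓ : ∀ z : L, (∀ h ∈ Γ, h • z = z) → z ∈ M0 w δ π0) (hpΓ : IsPGroup p Γ)
    {ε : G → PowerSeries B} (hε : ε ∈ AB G δ π0 B)
    (hε' : ∀ g, PowerSeries.map (r.comp (Subring.inclusion hBS)) (ε g) = 0 ↔ g ∉ H)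
    (hχ : ∀ χ : Γ →* Multiplicative (ZMod p), χ ≠ 1 → ∃ b : L, b ≠ 0 ∧
        (∀ g : Γ, (g : G) • b = ζ ^ (Multiplicative.toAdd (χ g)).val * b) ∧
        ∃ e0, Tail p w δ π0 ζ b e0 ∧
          ∀ e, e0 ≤ e → ∃ h : cc δ π0 ζ b (p ^ e) ∈ S, r ⟨_, h⟩ ≠ 0) : Γ ≤ H := by
  by_contra hne
  have := Fintype.ofFinite Γ
  have hκ : CharP κ p := (CharP.charP_iff_prime_eq_zero hp.out).2 (by
    rw [← map_natCast r]
    exact hr _ (by simpa using hF.wp))
  obtain ⟨χ, hχ1, hχ2⟩ := exists_char hpΓ (H.subgroupOf Γ) fun h =>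
    hne (Subgroup.subgroupOf_eq_top.1 h)
  obtain ⟨b, hb, hbχ, e0, hT, hu⟩ := hχ χ hχ1
  have hζ1 : ζ - 1 ≠ 0 := sub_ne_zero.2 (hζ.ne_one hp.out.one_lt)
  let t0 : PowerSeries L := (PowerSeries.trunc (p ^ e0) (tau δ π0 b) : L[X])
  let zf : G → PowerSeries L := fun h =>
    PowerSeries.C (b * (ζ - 1))⁻¹ * (tau δ π0 (h • b) - t0)
  have hzf : zf ∈ FamRing G δ π0 ⊤ := C_mul_mem (c := fun h => tau δ π0 (h • b) - t0)
    ((FamRing G δ π0 ⊤).sub_mem (tau_mem_FamRing trivial) (poly_mem_FamRing fun _ => trivial)) _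
  have hY : ∀ k, PowerSeries.coeff k (PowerSeries.C (b * (ζ - 1))⁻¹ * (tau δ π0 b - t0)) =
      if k < p ^ e0 then 0 else cc δ π0 ζ b k := by
    intro k
    rw [PowerSeries.coeff_C_mul, map_sub, Polynomial.coeff_coe, PowerSeries.coeff_trunc, coeff_tau]
    split_ifs
    · simp
    · rw [sub_zero, cc, div_eq_inv_mul]
  obtain ⟨Y, hY'⟩ := exists_io (S := S) (f := PowerSeries.C (b * (ζ - 1))⁻¹ * (tau δ π0 b - t0))
    fun k => by
      rw [hY]
      split_ifs with hk
      · exact S.zero_mem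
      · by_cases h : ∃ e, k = p ^ e
        · obtain ⟨e, rfl⟩ := h
          exact (hu e ((Nat.pow_le_pow_iff_right hp.out.one_lt).1 (not_lt.1 hk))).1
        · exact hS _ (hT.lt_one k (not_lt.1 hk) (not_exists.1 h))
  obtain ⟨t, ht⟩ := exists_io (S := S) (f := PowerSeries.C b⁻¹ * t0) fun k => by
    rw [PowerSeries.coeff_C_mul, Polynomial.coeff_coe, PowerSeries.coeff_trunc, coeff_tau]
    split_ifs
    · rcases Nat.eq_zero_or_pos k with rfl | hk
      · rw [dE_zero, inv_mul_cancel₀ hb]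
        exact S.one_mem
      · refine hS _ ?_
        rw [map_mul, map_inv₀, inv_mul_lt_iff₀ (zero_lt_iff.2 ((Valuation.ne_zero_iff w).2 hb)),
          mul_one]
        exact GapH.gap hF hk hb
    · simp
  let ζ' : S := ⟨ζ, hζS⟩
  let z' : Γ → PowerSeries S := fun γ =>
    PowerSeries.C (ζ' ^ (Multiplicative.toAdd (χ γ)).val) * Y +
      PowerSeries.C (∑ i ∈ Finset.range (Multiplicative.toAdd (χ γ)).val, ζ' ^ i) * t
  have hz' : ∀ γ, io S (z' γ) = zf γ := by
    intro γ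
    simp only [z', zf, map_add, map_mul (io S), io_C, hY', ht, hbχ, tau_mul, tau_pow,
      tau_const δ π0 hδ]
    generalize (Multiplicative.toAdd (χ γ)).val = j
    push_cast
    have h1 : (∑ i ∈ Finset.range j, ζ ^ i) * b⁻¹ = (ζ ^ j - 1) * (b * (ζ - 1))⁻¹ := by
      rw [← geom_sum_mul]
      field_simp
    have h2 := congrArg (PowerSeries.C (R := L)) h1
    simp only [map_mul, map_sub, map_pow, map_one, ζ'] at h2 ⊢
    linear_combination t0 * h2
  let ε' : Γ → PowerSeries S := fun γ => PowerSeries.map (Subring.inclusion hBS) (ε γ)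
  have hε1 : ∀ γ, io S (ε' γ) = io B (ε γ) := fun γ => by
    ext k
    simp [ε', coeff_io]
  have hε2 : ∀ γ, PowerSeries.map r (ε' γ) = 0 ↔ (γ : G) ∉ H := fun γ => by
    rw [← hε', PowerSeries.map_comp]
    rfl
  let s : Finset Γ := Finset.univ.filter fun γ => (γ : G) ∈ H
  obtain ⟨ρ1, h1⟩ := polyCoeff hF r hr Γ hΓ ((FamRing G δ π0 ⊤).mul_mem (mem_AB.1 hε) hzf)
    (fun γ => ε' γ * z' γ) (fun γ => by rw [map_mul, hε1, hz']; rfl) sᶜ.card
  obtain ⟨ρ2, h2⟩ := polyCoeff hF r hr Γ hΓ (mem_AB.1 hε) ε' hε1 sᶜ.card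
  rw [coeff_prod _ s fun γ hγ => by
    rw [map_mul, (hε2 γ).2 (by simpa [s] using hγ), zero_mul]] at h1
  rw [coeff_prod _ s fun γ hγ => (hε2 γ).2 (by simpa [s] using hγ)] at h2
  obtain ⟨a, ha⟩ := IsPGroup.iff_card.1 (hpΓ.to_subgroup (H.subgroupOf Γ))
  have h3 : s.card = p ^ a := by
    rw [← ha, Nat.card_eq_fintype_card, Fintype.card_subtype]
    congr 1
  have h4 : ∏ γ ∈ s, -PowerSeries.map r (ε' γ * z' γ) =
      (∏ γ ∈ s, -PowerSeries.map r (ε' γ)) * PowerSeries.map r Y ^ p ^ a := by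
    rw [← h3, ← Finset.prod_const, ← Finset.prod_mul_distrib]
    refine Finset.prod_congr rfl fun γ hγ => ?_
    have h5 : χ γ = 1 := hχ2 γ (by simpa [s, Subgroup.mem_subgroupOf] using hγ)
    simp [z', h5]
  rw [h4, h2, ← Polynomial.polynomial_map_coe, ← Polynomial.polynomial_map_coe] at h1
  have hYc : ∀ k, (PowerSeries.coeff k Y : S) = if k < p ^ e0 then 0 else cc δ π0 ζ b k :=
    fun k => by rw [← coeff_io, hY', hY]
  have h5 := lac_pow (p := p) (f := PowerSeries.map r Y) (e0 := e0) (fun k hk => by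
    rw [PowerSeries.coeff_map]
    refine hr _ ?_
    rw [hYc]
    split_ifs with h
    · simp
    · exact hT.lt_one k (not_lt.1 h) hk) (fun e he => by
    rw [PowerSeries.coeff_map]
    obtain ⟨h6, h7⟩ := hu e he
    have h8 : PowerSeries.coeff (p ^ e) Y = ⟨_, h6⟩ := Subtype.ext (by
      rw [hYc, if_neg (not_lt.2 (Nat.pow_le_pow_right hp.out.pos he))])
    rwa [h8]) a h1
  rw [← Polynomial.polynomial_map_coe, h5, Polynomial.coe_zero, Finset.prod_eq_zero_iff] at h2
  obtain ⟨γ, h6, h7⟩ := h2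
  exact (hε2 γ).1 (neg_eq_zero.1 h7) (by simpa [s] using h6)

variable {R : Type} [Field R] {rd : L → R}

/-- the valuation ring of the composite valuation -/
def Oc (h : IsRed w rd) (P : ValuationSubring R) : Subring L where
  carrier := {z | w z ≤ 1 ∧ rd z ∈ P}
  one_mem' := ⟨by simp, by rw [h.one]; exact P.one_mem⟩
  zero_mem' := ⟨by simp, by rw [h.zero]; exact P.zero_mem⟩
  add_mem' := fun {a b} ha hb =>
    ⟨w.map_add_le ha.1 hb.1, by rw [h.add _ _ ha.1 hb.1]; exact P.add_mem _ _ ha.2 hb.2⟩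
  mul_mem' := fun {a b} ha hb => ⟨by rw [map_mul]; exact mul_le_one' ha.1 hb.1,
    by rw [h.mul _ _ ha.1 hb.1]; exact P.mul_mem _ _ ha.2 hb.2⟩
  neg_mem' := fun {a} ha =>
    ⟨by rw [Valuation.map_neg]; exact ha.1, by rw [h.neg ha.1]; exact P.neg_mem _ ha.2⟩

/-- the reduction to `P` -/
def toP (h : IsRed w rd) (P : ValuationSubring R) : Oc h P →+* P where
  toFun z := ⟨rd z, z.2.2⟩
  map_one' := Subtype.ext h.one
  map_zero' := Subtype.ext h.zero
  map_add' a b := Subtype.ext (h.add _ _ a.2.1 b.2.1)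
  map_mul' a b := Subtype.ext (h.mul _ _ a.2.1 b.2.1)

theorem res_eq_zero (h : IsRed w rd) (P : ValuationSubring R) (z : Oc h P) :
    (IsLocalRing.residue P).comp (toP h P) z = 0 ↔ P.valuation (rd z) < 1 := by
  rw [RingHom.comp_apply, IsLocalRing.residue_eq_zero_iff, ValuationSubring.valuation_lt_one_iff]
  rfl

end BetaH

open BetaH in
theorem beta_of (hI : InertStmt) : BetaStmt := by
  intro p hp L _ _ G _ _ _ w δ π0 ζ B hF hC hCF hζ _ hδ y _ _ g₁ hg₁ Γ₁ Γ hΓ₁ hΓ hpΓ R _ rd P hrd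
    hP hχ
  obtain ⟨c0, hc0, h0⟩ := sepFam hI hF hC hCF
  have hBS : B ≤ Oc hrd P := fun b hb => ⟨hC.le_one b hb, (hP ⟨b, hb⟩).1⟩
  have hS : ∀ z, w z < 1 → z ∈ Oc hrd P := fun z hz =>
    ⟨hz.le, by rw [(hrd.eq_zero z hz.le).2 hz]; exact P.zero_mem⟩
  have hζ1 : w ζ = 1 := by
    have h := congrArg w hζ.pow_eq_one
    rw [map_pow, map_one] at h
    exact (pow_eq_one_iff_of_nonneg zero_le hp.out.ne_zero).1 h
  have hζS : ζ ∈ Oc hrd P := by
    refine ⟨hζ1.le, (P.valuation_le_one_iff _).1 ?_⟩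
    have h : P.valuation (rd ζ) ^ p = 1 := by
      rw [← map_pow, ← hrd.pow hζ1.le, hζ.pow_eq_one, hrd.one, map_one]
    exact (pow_le_one_iff hp.out.ne_zero).1 h.le
  obtain ⟨ε, hε, hε'⟩ := exists_eps (hF.cw g₁)
    (((IsLocalRing.residue P).comp (toP hrd P)).comp (Subring.inclusion hBS))
    (fun b hb => (res_eq_zero hrd P _).2 ((hP b).2.2 (hg₁ b hb))) Γ₁ hΓ₁ hc0 h0
  refine final hF hBS ((IsLocalRing.residue P).comp (toP hrd P)) (fun z hz => ?_) hS hζ hζS hδ Γ₁ Γ
    hΓ hpΓ hε hε' fun χ h1 => ?_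
  · rw [res_eq_zero, (hrd.eq_zero _ hz.le).2 hz, map_zero]
    exact zero_lt_one
  · obtain ⟨b, h2, h3, e0, h4, h5⟩ := hχ χ h1
    refine ⟨b, h2, h3, e0, h4, fun e he => ⟨⟨h4.le_one _ (Nat.pow_le_pow_right hp.out.pos he),
      (P.valuation_le_one_iff _).1 (h5 e he).le⟩, fun h => ?_⟩⟩
    exact ((res_eq_zero hrd P _).1 h).ne (h5 e he)

end P179W
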