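import Vale.Agent.P179W.PS2

/-!
# P179W : abstract lemmas for `BetaStmt`
-/

set_option linter.all false

open scoped NNReal Classical
open Filter Topology Polynomial

noncomputable section

namespace P179W

namespace BetaH

/-- approximation of formal solutions of polynomial linear systems -/
theorem approx {A : Type} [CommRing A] [IsNoetherianRing A] {J Λ : Type} [Fintype J] [Fintype Λ]
    (T : J → Λ → A[X]) (σ : J → PowerSeries A)
    (h : ∀ l, ∑ j, σ j * (T j l : PowerSeries A) = 0) :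
    ∃ ρ : J → A[X], (∀ j, (ρ j).coeff 0 = PowerSeries.constantCoeff (σ j)) ∧
      ∀ l, ∑ j, ρ j * T j l = 0 := by
  let φ : (J → A[X]) →ₗ[A[X]] (Λ → A[X]) :=
    { toFun := fun s l => ∑ j, s j * T j l
      map_add' := fun s t => by funext l; simp [add_mul, Finset.sum_add_distrib]
      map_smul' := fun a s => by funext l; simp [Finset.mul_sum, mul_assoc] }
  obtain ⟨k, hk⟩ := Ideal.exists_pow_inf_eq_pow_smul (Ideal.span {(X : A[X])}) (LinearMap.range φ)
  let s : J → A[X] := fun j => PowerSeries.trunc (k + 1) (σ j)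
  have h1 : ∀ l, (X : A[X]) ^ (k + 1) ∣ φ s l := by
    intro l
    rw [X_pow_dvd_iff]
    intro d hd
    have h2 := congrArg (PowerSeries.coeff d) (h l)
    rw [map_sum, map_zero] at h2
    change (∑ j, s j * T j l).coeff d = 0
    rw [finset_sum_coeff, ← h2]
    refine Finset.sum_congr rfl fun j _ => ?_
    rw [coeff_mul, PowerSeries.coeff_mul]
    refine Finset.sum_congr rfl fun ij hij => ?_
    have h3 := Finset.HasAntidiagonal.mem_antidiagonal.1 hij
    rw [PowerSeries.coeff_trunc, if_pos (by omega), Polynomial.coeff_coe]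
  have h2 : φ s ∈ (Ideal.span {(X : A[X])} ^ (k + 1) • ⊤ ⊓ LinearMap.range φ :
      Submodule A[X] (Λ → A[X])) := by
    refine ⟨?_, s, rfl⟩
    choose u hu using h1
    have : φ s = (X : A[X]) ^ (k + 1) • u := by funext l; simp [hu l]
    rw [this]
    exact Submodule.smul_mem_smul (Ideal.pow_mem_pow (Ideal.mem_span_singleton_self _) _) trivial
  rw [hk (k + 1) (by omega), show k + 1 - k = 1 by omega, pow_one] at h2
  have h3 : φ s ∈ (Ideal.span {(X : A[X])} • LinearMap.range φ : Submodule A[X] (Λ → A[X])) :=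
    Submodule.smul_mono le_rfl inf_le_right h2
  rw [Submodule.ideal_span_singleton_smul, Submodule.mem_smul_pointwise_iff_exists] at h3
  obtain ⟨_, ⟨s', rfl⟩, h4⟩ := h3
  refine ⟨s - (X : A[X]) • s', fun j => ?_, fun l => ?_⟩
  · simp [s, PowerSeries.coeff_trunc]
  · have : φ (s - (X : A[X]) • s') = 0 := by rw [map_sub, map_smul, h4, sub_self]
    exact congrFun this l

/-- a proper subgroup of a finite `p`-group lies in the kernel of a nontrivial character -/
theorem exists_char {p : ℕ} [hp : Fact p.Prime] {Γ : Type} [Group Γ] [Finite Γ]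
    (hΓ : IsPGroup p Γ) (H : Subgroup Γ) (hH : H ≠ ⊤) :
    ∃ χ : Γ →* Multiplicative (ZMod p), χ ≠ 1 ∧ ∀ g ∈ H, χ g = 1 := by
  obtain ⟨n, hn⟩ := IsPGroup.iff_card.1 hΓ
  obtain ⟨m, hm⟩ := IsPGroup.iff_card.1 (hΓ.to_subgroup H)
  have h1 : m < n := by
    have h2 : Nat.card H ∣ Nat.card Γ := Subgroup.card_subgroup_dvd_card H
    rw [hn, hm, Nat.pow_dvd_pow_iff_le_right hp.out.one_lt] at h2
    refine lt_of_le_of_ne h2 fun h => hH ?_
    exact Subgroup.eq_top_of_card_eq H (by rw [hm, hn, h])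
  obtain ⟨n, rfl⟩ : ∃ n', n = n' + 1 := ⟨n - 1, by omega⟩
  obtain ⟨K, hK, hHK⟩ := Sylow.exists_subgroup_card_pow_prime_le p (n := m) (m := n)
    (by rw [hn]; exact pow_dvd_pow _ (by omega)) H hm (by omega)
  have h2 : K.index = p := by
    have h3 := K.card_mul_index
    rw [hK, hn, pow_succ] at h3
    exact Nat.eq_of_mul_eq_mul_left (pow_pos hp.out.pos _) h3
  have h3 : K.Normal := Subgroup.normal_of_index_eq_minFac_card (by
    rw [h2, hn, hp.out.pow_minFac (by omega)])
  let e : (Γ ⧸ K) ≃* Multiplicative (ZMod p) :=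
    mulEquivOfPrimeCardEq (p := p) h2 (by simp)
  refine ⟨e.toMonoidHom.comp (QuotientGroup.mk' K), fun h => ?_, fun g hg => ?_⟩
  · have h4 : K = ⊤ := by
      rw [eq_top_iff]
      intro g _
      have h5 := DFunLike.congr_fun h g
      simpa using h5
    rw [h4, Subgroup.index_top] at h2
    exact hp.out.one_lt.ne h2
  · have : (QuotientGroup.mk' K g) = 1 := (QuotientGroup.eq_one_iff g).2 (hHK hg)
    simp only [MonoidHom.comp_apply, this, map_one]

/-- the lowest coefficient -/
theorem coeff_prod {A ι : Type} [CommRing A] [Fintype ι] [DecidableEq ι] (a : ι → A)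
    (s : Finset ι)
    (h : ∀ i, i ∉ s → a i = 0) :
    (∏ i, (X - C (a i))).coeff sᶜ.card = ∏ i ∈ s, -a i := by
  rw [← Finset.prod_mul_prod_compl s]
  have h1 : ∏ i ∈ sᶜ, (X - C (a i)) = (X : A[X]) ^ sᶜ.card := by
    rw [← Finset.prod_const]
    exact Finset.prod_congr rfl fun i hi => by rw [h i (Finset.mem_compl.1 hi), map_zero, sub_zero]
  rw [h1]
  have h2 := coeff_mul_X_pow (∏ i ∈ s, (X - C (a i))) sᶜ.card 0
  rw [zero_add] at h2
  rw [h2, coeff_zero_eq_eval_zero, eval_prod]
  simp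

theorem coeff_pow_char {κ : Type} [Field κ] {p : ℕ} [hp : Fact p.Prime] [CharP κ p]
    (f : PowerSeries κ) (a k : ℕ) : PowerSeries.coeff k (f ^ p ^ a) =
      if p ^ a ∣ k then PowerSeries.coeff (k / p ^ a) f ^ p ^ a else 0 := by
  have h := MvPowerSeries.map_iterateFrobenius_expand (σ := Unit) p hp.out.ne_zero f a
  have h2 : f ^ p ^ a = PowerSeries.map (iterateFrobenius κ p a)
      (PowerSeries.expand (p ^ a) (pow_ne_zero a hp.out.ne_zero) f) := h.symm
  rw [h2, PowerSeries.coeff_map, PowerSeries.coeff_expand]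
  split_ifs
  · rw [iterateFrobenius_def]
  · rw [map_zero]

/-- powers of lacunary series are not rational -/
theorem lac_pow {κ : Type} [Field κ] {p : ℕ} [hp : Fact p.Prime] [CharP κ p] {f : PowerSeries κ}
    {e0 : ℕ} (h1 : ∀ k, (∀ e, k ≠ p ^ e) → PowerSeries.coeff k f = 0)
    (h2 : ∀ e, e0 ≤ e → PowerSeries.coeff (p ^ e) f ≠ 0) (a : ℕ) {u v : κ[X]}
    (h : (u : PowerSeries κ) * f ^ p ^ a = v) : u = 0 := by
  refine lacunary (p := p) hp.out.two_le (N := 0) (fun k _ hk => ?_) (fun M => ?_) h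
  · rw [coeff_pow_char]
    split_ifs with hd
    · obtain ⟨m, rfl⟩ := hd
      rw [Nat.mul_div_cancel_left _ (pow_pos hp.out.pos _), h1 m fun e he => hk (a + e) (by
        rw [he, pow_add]), zero_pow (pow_ne_zero _ hp.out.ne_zero)]
    · rfl
  · refine ⟨p ^ a * p ^ (e0 + M), ?_, ?_⟩
    · have h3 : e0 + M < p ^ (e0 + M) := Nat.lt_pow_self hp.out.one_lt
      have h4 : 0 < p ^ a := pow_pos hp.out.pos _
      nlinarith
    · rw [coeff_pow_char, if_pos (dvd_mul_right _ _),
        Nat.mul_div_cancel_left _ (pow_pos hp.out.pos _)]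
      exact pow_ne_zero _ (h2 _ (by omega))

/-- series with coefficients in a finitely generated ideal -/
theorem exists_comb {A : Type} [CommRing A] {ι : Type} [Fintype ι] (b : ι → A)
    (f : PowerSeries A) (hf : ∀ k, PowerSeries.coeff k f ∈ Ideal.span (Set.range b)) :
    ∃ u : ι → PowerSeries A, f = ∑ i, PowerSeries.C (b i) * u i := by
  have h : ∀ k, ∃ c : ι → A, ∑ i, c i * b i = PowerSeries.coeff k f := fun k =>
    (Ideal.mem_span_range_iff_exists_fun).1 (hf k)
  choose c hc using h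
  refine ⟨fun i => PowerSeries.mk fun k => c k i, ?_⟩
  ext k
  rw [map_sum, ← hc k]
  exact Finset.sum_congr rfl fun i _ => by rw [PowerSeries.coeff_C_mul, PowerSeries.coeff_mk, mul_comm]

theorem sum_ite {α M : Type} [Fintype α] [AddCommMonoid M] (l : α) (f : α → M)
    [∀ x, Decidable (x = l)] : ∑ x, (if x = l then f x else 0) = f l := by
  rw [Finset.sum_eq_single l (fun b _ hb => if_neg hb) (by simp), if_pos rfl]

section Sep

variable {B : Type} [CommRing B] {G : Type} [Group G] [Fintype G]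

/-- the ideal of the multiples of the idempotent -/
def idl (𝒜 : Subring (G → PowerSeries B)) : Ideal (PowerSeries B) :=
  (Submodule.span (PowerSeries B) (𝒜 : Set (G → PowerSeries B))).comap
    (LinearMap.single (PowerSeries B) (fun _ : G => PowerSeries B) 1)

theorem mem_idl {𝒜 : Subring (G → PowerSeries B)} {r : PowerSeries B} :
    r ∈ idl 𝒜 ↔ (Pi.single 1 r : G → PowerSeries B) ∈
      Submodule.span (PowerSeries B) (𝒜 : Set (G → PowerSeries B)) := Iff.rfl

theorem prod_mem_idl {𝒜 : Subring (G → PowerSeries B)} (c : G → G → PowerSeries B)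
    (hc : ∀ g, c g ∈ 𝒜) : ∏ g ∈ Finset.univ.erase 1, (c g 1 - c g g) ∈ idl 𝒜 := by
  rw [mem_idl]
  have h1 : Submodule.span (PowerSeries B) (𝒜 : Set (G → PowerSeries B)) =
      Subalgebra.toSubmodule (Algebra.adjoin (PowerSeries B) (𝒜 : Set (G → PowerSeries B))) := by
    rw [Algebra.adjoin_eq_span]
    congr 1
    exact (congrArg (fun S : Submonoid (G → PowerSeries B) => (S : Set (G → PowerSeries B)))
      (Submonoid.closure_eq 𝒜.toSubmonoid)).symm
  rw [h1, Subalgebra.mem_toSubmodule]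
  have h2 : (Pi.single 1 (∏ g ∈ Finset.univ.erase 1, (c g 1 - c g g)) : G → PowerSeries B) =
      ∏ g ∈ Finset.univ.erase 1, (c g - algebraMap (PowerSeries B) (G → PowerSeries B) (c g g)) := by
    funext h
    rw [Finset.prod_apply]
    by_cases hh : h = 1
    · subst hh
      simp
    · rw [Pi.single_eq_of_ne hh]
      exact (Finset.prod_eq_zero (i := h) (by simp [hh]) (by simp)).symm
  rw [h2]
  exact Subalgebra.prod_mem _ fun g _ =>
    Subalgebra.sub_mem _ (Algebra.subset_adjoin (hc g)) (Subalgebra.algebraMap_mem _ _)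

/-- **The separating family.** -/
theorem exists_sep [IsNoetherianRing B] (𝒜 : Subring (G → PowerSeries B)) (q : B)
    (hq : ∀ f : PowerSeries B, PowerSeries.C q * f = 0 → f = 0)
    (hpoly : ∀ ρ : B[X], (fun _ : G => (ρ : PowerSeries B)) ∈ 𝒜)
    (htr : ∀ c ∈ 𝒜, ∀ g : G, (fun h => c (h * g)) ∈ 𝒜)
    (hT : ∀ c ∈ 𝒜, ∃ (ρ : B[X]) (u : PowerSeries B), ∑ g, c g = ρ + PowerSeries.C q * u)
    (hsat : ∀ c : G → PowerSeries B, (fun g => PowerSeries.C q * c g) ∈ 𝒜 → c ∈ 𝒜)
    (h1 : PowerSeries.C q ∈ idl 𝒜) (r : G → PowerSeries B) (hr : ∀ h, r h ∈ idl 𝒜)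
    (hdiv : ∀ d : PowerSeries B, (∀ h, PowerSeries.C q ∣ r h * d) → PowerSeries.C q ∣ d) :
    ∃ c ∈ 𝒜, ∀ g, PowerSeries.constantCoeff (c g) = if g = 1 then 1 else 0 := by
  obtain ⟨n, σ, c, hc⟩ := Submodule.mem_span_set'.1 (mem_idl.1 h1)
  have h2 := fun h => Submodule.mem_span_set'.1 (mem_idl.1 (hr h))
  choose m σ' e he using h2
  let Λ := G × Σ h, Fin (m h)
  let E : Λ → G → PowerSeries B := fun l k => (e l.2.1 l.2.2 : G → PowerSeries B) (k * l.1)
  have hE : ∀ l, E l ∈ 𝒜 := fun l => htr _ (e l.2.1 l.2.2).2 _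
  have h3 := fun (j : Fin n) (l : Λ) => hT _ (𝒜.mul_mem (c j).2 (hE l))
  choose T u hT using h3
  simp only [Pi.mul_apply] at hT
  have hc' : ∀ g, ∑ j, σ j * (c j : G → PowerSeries B) g =
      if g = 1 then PowerSeries.C q else 0 := by
    intro g
    have := congrFun hc g
    simpa [Finset.sum_apply, Pi.single_apply] using this
  -- the pairing
  have hpair : ∀ (s : Fin n → PowerSeries B) (l : Λ),
      ∑ g, (∑ j, s j * (c j : G → PowerSeries B) g) * E l g =
        ∑ j, s j * T j l + PowerSeries.C q * ∑ j, s j * u j l := by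
    intro s l
    simp only [Finset.sum_mul]
    rw [Finset.sum_comm, Finset.mul_sum, ← Finset.sum_add_distrib]
    refine Finset.sum_congr rfl fun j _ => ?_
    simp only [mul_assoc]
    rw [← Finset.mul_sum, hT]
    ring
  obtain ⟨ρ, hρ0, hρ⟩ := approx (J := Fin n ⊕ Λ) (Λ := Λ)
    (fun j l => Sum.elim (fun j => T j l) (fun l' => if l' = l then -C q else 0) j)
    (Sum.elim σ fun l => E l 1 - ∑ j, σ j * u j l) (fun l => by
      rw [Fintype.sum_sum_type]
      have h4 := hpair σ l
      simp only [hc', ite_mul, zero_mul, Finset.sum_ite_eq', Finset.mem_univ, if_true] at h4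
      simp only [Sum.elim_inl, Sum.elim_inr, apply_ite ((↑) : B[X] → PowerSeries B), mul_ite,
        Polynomial.coe_zero, mul_zero, Polynomial.coe_neg, Polynomial.coe_C]
      rw [sum_ite]
      linear_combination -h4)
  let d : G → PowerSeries B := fun g => ∑ j, (ρ (Sum.inl j) : PowerSeries B) *
    (c j : G → PowerSeries B) g
  have hd : d ∈ 𝒜 := by
    have : d = ∑ j, (fun _ : G => (ρ (Sum.inl j) : PowerSeries B)) * (c j : G → PowerSeries B) := by
      funext g
      simp [d, Finset.sum_apply]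
    rw [this]
    exact sum_mem fun j _ => 𝒜.mul_mem (hpoly _) (c j).2
  have h5 : ∀ l, PowerSeries.C q ∣ ∑ g, d g * E l g := by
    intro l
    rw [hpair (fun j => (ρ (Sum.inl j) : PowerSeries B)) l]
    refine dvd_add ?_ (dvd_mul_right _ _)
    have h4 := hρ l
    rw [Fintype.sum_sum_type] at h4
    simp only [Sum.elim_inl, Sum.elim_inr, mul_ite, mul_zero] at h4
    rw [sum_ite] at h4
    have h6 := congrArg (Polynomial.coeToPowerSeries.ringHom (R := B)) h4
    simp only [map_add, map_sum, map_mul, map_neg, map_zero,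
      Polynomial.coeToPowerSeries.ringHom_apply, Polynomial.coe_C] at h6
    exact ⟨ρ (Sum.inr l), by linear_combination h6⟩
  have h6 : ∀ g, PowerSeries.C q ∣ d g := by
    intro g
    refine hdiv _ fun h => ?_
    have h7 : ∀ k, ∑ i, σ' h i * E (g⁻¹, ⟨h, i⟩) k = if k = g then r h else 0 := by
      intro k
      have := congrFun (he h) (k * g⁻¹)
      simpa [Finset.sum_apply, Pi.single_apply, mul_inv_eq_one, E] using this
    have h8 : r h * d g = ∑ i, σ' h i * ∑ k, d k * E (g⁻¹, ⟨h, i⟩) k := by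
      simp only [Finset.mul_sum]
      rw [Finset.sum_comm]
      have : ∀ k, ∑ i, σ' h i * (d k * E (g⁻¹, ⟨h, i⟩) k) = if k = g then r h * d k else 0 := by
        intro k
        have h9 : ∑ i, σ' h i * (d k * E (g⁻¹, ⟨h, i⟩) k) =
            (∑ i, σ' h i * E (g⁻¹, ⟨h, i⟩) k) * d k := by
          rw [Finset.sum_mul]
          exact Finset.sum_congr rfl fun i _ => by ring
        rw [h9, h7, ite_mul, zero_mul]
      simp [this]
    rw [h8]
    exact Finset.dvd_sum fun i _ => (h5 _).mul_left _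
  choose c0 hc0 using h6
  refine ⟨c0, hsat _ (by rw [← funext hc0]; exact hd), fun g => ?_⟩
  have h7 : PowerSeries.constantCoeff (d g) = if g = 1 then q else 0 := by
    have h8 := congrArg PowerSeries.constantCoeff (hc' g)
    rw [apply_ite PowerSeries.constantCoeff, PowerSeries.constantCoeff_C, map_zero] at h8
    rw [← h8]
    simp only [d, map_sum, map_mul, Polynomial.constantCoeff_coe]
    refine Finset.sum_congr rfl fun j _ => ?_
    rw [hρ0 (Sum.inl j), Sum.elim_inl]
  rw [hc0 g, map_mul, PowerSeries.constantCoeff_C] at h7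
  have h8 := hq (PowerSeries.C (PowerSeries.constantCoeff (c0 g) - if g = 1 then 1 else 0)) (by
    rw [← map_mul, mul_sub, h7]
    split_ifs <;> simp)
  exact sub_eq_zero.1 (PowerSeries.C_injective (h8.trans (map_zero _).symm))

end Sep

end BetaH

end P179W
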