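import Vale.Agent.P179W.BetaA

/-!
# P179W : the integral families and the horizontal primes
-/

set_option linter.all false

open scoped NNReal Classical
open Filter Topology Polynomial

noncomputable section

namespace P179W

namespace BetaH

section Gsum

variable {A : Type} [CommRing A]

/-- `∑ (-X) ^ k F k` -/
def gsum (F : ℕ → PowerSeries A) : PowerSeries A :=
  PowerSeries.mk fun n => PowerSeries.coeff n
    (∑ k ∈ Finset.range (n + 1), (-PowerSeries.X) ^ k * F k)

theorem coeff_negX (F : PowerSeries A) (k n : ℕ) :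
    PowerSeries.coeff n ((-PowerSeries.X) ^ k * F) =
      if k ≤ n then (-1) ^ k * PowerSeries.coeff (n - k) F else 0 := by
  have : (-PowerSeries.X : PowerSeries A) ^ k * F =
      PowerSeries.C ((-1) ^ k) * (PowerSeries.X ^ k * F) := by
    rw [neg_pow, map_pow, map_neg, map_one, mul_assoc]
  rw [this, PowerSeries.coeff_C_mul, PowerSeries.coeff_X_pow_mul']
  split_ifs <;> simp

theorem coeff_gsum (F : ℕ → PowerSeries A) {n N : ℕ} (h : n < N) :
    PowerSeries.coeff n (gsum F) =
      PowerSeries.coeff n (∑ k ∈ Finset.range N, (-PowerSeries.X) ^ k * F k) := by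
  rw [gsum, PowerSeries.coeff_mk, map_sum, map_sum]
  refine Finset.sum_subset (Finset.range_subset_range.2 h) fun k _ hk => ?_
  rw [coeff_negX, if_neg (by simpa using hk)]

theorem gsum_mul (T : PowerSeries A) (F : ℕ → PowerSeries A) :
    gsum (fun k => T * F k) = T * gsum F := by
  ext n
  rw [coeff_gsum _ (Nat.lt_succ_self n), PowerSeries.coeff_mul]
  have : ∑ k ∈ Finset.range (n + 1), (-PowerSeries.X) ^ k * (T * F k) =
      T * ∑ k ∈ Finset.range (n + 1), (-PowerSeries.X) ^ k * F k := by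
    rw [Finset.mul_sum]
    exact Finset.sum_congr rfl fun k _ => by ring
  rw [this, PowerSeries.coeff_mul]
  refine Finset.sum_congr rfl fun ij hij => ?_
  have h3 := Finset.HasAntidiagonal.mem_antidiagonal.1 hij
  rw [coeff_gsum F (N := n + 1) (by omega)]

theorem gsum_sum {ι : Type} [Fintype ι] (F : ι → ℕ → PowerSeries A) :
    gsum (fun k => ∑ i, F i k) = ∑ i, gsum (F i) := by
  ext n
  rw [map_sum, coeff_gsum _ (Nat.lt_succ_self n)]
  simp only [Finset.mul_sum]
  rw [Finset.sum_comm, map_sum]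
  exact Finset.sum_congr rfl fun i _ => (coeff_gsum _ (Nat.lt_succ_self n)).symm

end Gsum

variable {L : Type} [Field L]

/-- the inclusion -/
def io (S : Subring L) : PowerSeries S →+* PowerSeries L := PowerSeries.map S.subtype

theorem coeff_io {S : Subring L} (f : PowerSeries S) (k : ℕ) :
    PowerSeries.coeff k (io S f) = (PowerSeries.coeff k f : S) := by
  simp [io]

theorem io_inj (S : Subring L) : Function.Injective (io S) :=
  PowerSeries.map_injective _ S.subtype_injective

theorem io_C {S : Subring L} (b : S) : io S (PowerSeries.C b) = PowerSeries.C (b : L) := by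
  simp [io]

theorem io_poly {S : Subring L} (ρ : S[X]) :
    io S (ρ : PowerSeries S) = ((ρ.map S.subtype : L[X]) : PowerSeries L) := by
  ext k
  simp [coeff_io]

theorem exists_io {S : Subring L} {f : PowerSeries L} (hf : ∀ k, PowerSeries.coeff k f ∈ S) :
    ∃ f' : PowerSeries S, io S f' = f :=
  ⟨PowerSeries.mk fun k => ⟨_, hf k⟩, by ext k; simp [coeff_io]⟩

theorem io_int {S : Subring L} {w : Valuation L ℝ≥0} (h : ∀ b ∈ S, w b ≤ 1) (f : PowerSeries S) :
    io S f ∈ IntPS w := fun k => by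
  rw [coeff_io]
  exact h _ (PowerSeries.coeff k f).2

variable [CharZero L] {G : Type} [Group G] [MulSemiringAction G L] {δ : Derivation ℤ L L} {π0 : L}

variable (G δ π0) in
/-- the families with coefficients in `B` -/
def AB (B : Subring L) : Subring (G → PowerSeries B) :=
  (FamRing G δ π0 ⊤).comap (RingHom.compLeft (io B) G)

theorem mem_AB {B : Subring L} {c : G → PowerSeries B} :
    c ∈ AB G δ π0 B ↔ (fun h => io B (c h)) ∈ FamRing G δ π0 ⊤ := Iff.rfl

theorem poly_mem_AB {B : Subring L} (ρ : B[X]) :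
    (fun _ : G => (ρ : PowerSeries B)) ∈ AB G δ π0 B := by
  rw [mem_AB, io_poly]
  exact poly_mem_FamRing fun _ => trivial

theorem transl_mem {c : G → PowerSeries L} (hc : c ∈ FamRing G δ π0 ⊤) (g : G) :
    (fun h => c (h * g)) ∈ FamRing G δ π0 ⊤ :=
  mem_FamRing_top.2 (Fam_transl g (fun _ _ => Set.mem_univ _) (mem_FamRing_top.1 hc))

theorem transl_mem_AB {B : Subring L} {c : G → PowerSeries B} (hc : c ∈ AB G δ π0 B) (g : G) :
    (fun h => c (h * g)) ∈ AB G δ π0 B :=
  transl_mem hc g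

theorem C_mul_mem {c : G → PowerSeries L} (hc : c ∈ FamRing G δ π0 ⊤) (a : L) :
    (fun h => PowerSeries.C a * c h) ∈ FamRing G δ π0 ⊤ :=
  (FamRing G δ π0 ⊤).mul_mem (C_mem_FamRing (c := a) trivial) hc

theorem sat_AB {B : Subring L} {q : B} (hq : q ≠ 0) {c : G → PowerSeries B}
    (hc : (fun g => PowerSeries.C q * c g) ∈ AB G δ π0 B) : c ∈ AB G δ π0 B := by
  have h := C_mul_mem (mem_AB.1 hc) (q : L)⁻¹
  have hq' : (q : L) ≠ 0 := fun h => hq (Subtype.ext h)
  rw [mem_AB]
  convert h using 2 with g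
  rw [map_mul, io_C, ← mul_assoc, ← map_mul, inv_mul_cancel₀ hq', map_one, one_mul]

section TauB

variable {B : Subring L} (hi : ∀ b ∈ B, ∀ k, dE δ π0 k b ∈ B)

/-- the Taylor series on `B` -/
def tauB : B →+* PowerSeries B where
  toFun b := PowerSeries.mk fun k => ⟨dE δ π0 k b, hi b b.2 k⟩
  map_one' := io_inj B (by
    rw [map_one, ← tau_one δ π0]; ext k; simp [coeff_io])
  map_zero' := by ext k; simp [dE_zero']
  map_add' a b := by ext k; simp [dE_add]
  map_mul' a b := by
    ext k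
    simp [dE_mul, PowerSeries.coeff_mul]

theorem coe_coeff_tauB (b : B) (k : ℕ) :
    (PowerSeries.coeff k (tauB hi b) : B) = dE δ π0 k (b : L) := by
  simp [tauB]

theorem io_tauB (b : B) : io B (tauB hi b) = tau δ π0 b := by
  ext k
  rw [coeff_io, coe_coeff_tauB, coeff_tau]

/-- the inverse flow -/
def Th (F : PowerSeries B) : PowerSeries B := gsum fun k => tauB hi (PowerSeries.coeff k F)

theorem Th_C_mul (f : B) (F : PowerSeries B) :
    Th hi (PowerSeries.C f * F) = tauB hi f * Th hi F := by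
  simp only [Th, PowerSeries.coeff_C_mul, map_mul]
  exact gsum_mul _ _

theorem Th_sum {ι : Type} [Fintype ι] (F : ι → PowerSeries B) :
    Th hi (∑ i, F i) = ∑ i, Th hi (F i) := by
  simp only [Th, map_sum]
  exact gsum_sum _

theorem Th_tau (hπ : δ π0 = 0) (b : B) : Th hi (tauB hi b) = PowerSeries.C b := by
  ext n
  rw [Th, coeff_gsum _ (Nat.lt_succ_self n), map_sum, AddSubmonoidClass.coe_finset_sum]
  have h1 : ∀ k ∈ Finset.range (n + 1), ((PowerSeries.coeff n ((-PowerSeries.X) ^ k *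
      tauB hi (PowerSeries.coeff k (tauB hi b))) : B) : L) =
        (((-1) ^ k * (n.choose k : ℤ) : ℤ) : L) * dE δ π0 n b := by
    intro k hk
    have h2 : k ≤ n := by simpa [Nat.lt_succ_iff] using hk
    rw [coeff_negX, if_pos h2]
    push_cast
    rw [coe_coeff_tauB, coe_coeff_tauB, dE_dE δ hπ, Nat.sub_add_cancel h2,
      Nat.choose_symm h2, mul_assoc]
  rw [Finset.sum_congr rfl h1, ← Finset.sum_mul, ← Int.cast_sum,
    Int.alternating_sum_range_choose, PowerSeries.coeff_C]
  split_ifs with h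
  · subst h
    simp [dE_zero]
  · simp

end TauB

variable {p : ℕ} {w : Valuation L ℝ≥0} {B : Subring L}

theorem tau_mem_AB (hi : ∀ b ∈ B, ∀ k, dE δ π0 k b ∈ B) (hC : Chart G p w B) (b : B) :
    (fun h : G => tauB hi ⟨h • (b : L), hC.stab h b b.2⟩) ∈ AB G δ π0 B := by
  simp only [mem_AB, io_tauB]
  exact tau_mem_FamRing trivial

/-- no inertia at the horizontal primes -/
theorem horiz (hF : Flow G p w δ π0) (hC : Chart G p w B) (hCF : ChartFlow G p δ π0 B)
    (Q : Ideal (PowerSeries B)) [hQ : Q.IsPrime] (hp : PowerSeries.C (p : B) ∉ Q) (g : G)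
    (hg : g ≠ 1) : ∃ c ∈ AB G δ π0 B, c 1 - c g ∉ Q := by
  have := hC.noeth
  let τ := tauB hCF.int
  let P : Ideal B := Q.comap τ
  have hP : P.IsPrime := Ideal.comap_isPrime _ _
  have hpP : (p : B) ∉ P := fun h => hp (by
    have h1 : τ p ∈ Q := h
    rwa [map_natCast, ← map_natCast (PowerSeries.C (R := B))] at h1)
  by_cases hin : ∀ b b' : B, (b' : L) = g • (b : L) → b' - b ∈ P
  swap
  · push Not at hin
    obtain ⟨b, b', h1, h2⟩ := hin
    refine ⟨_, tau_mem_AB hCF.int hC b, fun h => h2 ?_⟩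
    have h3 : (⟨g • (b : L), hC.stab g b b.2⟩ : B) = b' := Subtype.ext h1.symm
    have h4 : (⟨(1 : G) • (b : L), hC.stab 1 b b.2⟩ : B) = b := Subtype.ext (one_smul _ _)
    simp only [h3, h4] at h
    change τ (b' - b) ∈ Q
    rw [map_sub, ← neg_sub]
    exact Q.neg_mem h
  obtain ⟨hE, hmax, f, hf, ⟨β, hβ, hβf⟩, β', hβ', hβf'⟩ := hCF.ram P hP hpP g hg hin
  have hE' : ∀ b ∈ P, ∀ k, PowerSeries.coeff k (τ b) ∈ P := fun b hb k =>
    hE b hb k _ (coe_coeff_tauB _ _ _)
  have h1 : ∀ b ∈ P, PowerSeries.C b ∈ Q := by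
    intro b hb
    obtain ⟨n, s, hs⟩ := Submodule.fg_iff_exists_fin_generating_family.1
      (IsNoetherian.noetherian P)
    obtain ⟨u, hu⟩ := exists_comb s (τ b) fun k => by
      rw [Ideal.span, hs]; exact hE' b hb k
    rw [← Th_tau hCF.int hF.π0_const b]
    change Th hCF.int (τ b) ∈ Q
    rw [hu, Th_sum]
    refine Q.sum_mem fun i _ => ?_
    rw [Th_C_mul]
    have h2 : s i ∈ P := by rw [← hs]; exact Submodule.subset_span ⟨i, rfl⟩
    exact Q.mul_mem_right _ h2
  have h2 : ∀ b, b ∉ P → PowerSeries.C b ∉ Q := by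
    intro b hb h
    obtain ⟨b', m, h3⟩ := hmax b hb
    have h4 := h1 _ h3
    rw [map_sub, map_mul, map_pow] at h4
    have h5 := Q.sub_mem (Q.mul_mem_right (PowerSeries.C b') h) h4
    rw [sub_sub_cancel] at h5
    exact hp (hQ.mem_of_pow_mem _ h5)
  have hfP : f ∈ P := hf 1 f (one_smul _ _).symm
  have hf0 : f ≠ 0 := by
    rintro rfl
    refine hg (hF.faith g fun z => ?_)
    have h3 : ∀ b ∈ B, g • b = b := by
      intro b hb
      obtain ⟨c, hc⟩ := hβf _ (hin ⟨b, hb⟩ ⟨g • b, hC.stab g b hb⟩ rfl)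
      rw [zero_mul, mul_eq_zero] at hc
      rcases hc with hc | hc
      · exact absurd (hc ▸ P.zero_mem) hβ
      · exact sub_eq_zero.1 (congrArg Subtype.val hc)
    obtain ⟨c, hc, hc0, hcz⟩ := hC.frac z
    have h4 := h3 _ hcz
    rw [smul_mul', h3 c hc] at h4
    exact mul_left_cancel₀ hc0 h4
  have hf0' : (f : L) ≠ 0 := fun h => hf0 (Subtype.ext h)
  have hCf : PowerSeries.C f ≠ 0 := fun h =>
    hf0 (PowerSeries.C_injective (h.trans (map_zero _).symm))
  let fh : G → B := fun h => ⟨h • (f : L), hC.stab h f f.2⟩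
  have h3 : ∀ h, ∃ u : PowerSeries B, PowerSeries.C β * τ (fh h) = PowerSeries.C f * u := by
    intro h
    choose a ha using fun k => hβf _ (hE' (fh h) (hf h _ rfl) k)
    refine ⟨PowerSeries.mk a, ?_⟩
    ext k : 1
    rw [PowerSeries.coeff_C_mul, PowerSeries.coeff_C_mul, PowerSeries.coeff_mk, ha]
  choose u hu using h3
  have hf1 : fh 1 = f := Subtype.ext (one_smul _ _)
  have h4 : u 1 ∉ Q := by
    intro h
    have h5 := congrArg (Th hCF.int) (hu 1)
    rw [Th_C_mul, Th_C_mul, hf1] at h5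
    have h6 := hu 1
    rw [hf1] at h6
    have h7 : Th hCF.int (τ f) = PowerSeries.C f := Th_tau hCF.int hF.π0_const f
    rw [h7] at h5
    have h8 : τ β * PowerSeries.C β = u 1 * Th hCF.int (u 1) := by
      apply mul_left_cancel₀ hCf
      change τ β * PowerSeries.C f = τ f * Th hCF.int (u 1) at h5
      linear_combination PowerSeries.C β * h5 + Th hCF.int (u 1) * h6
    have h9 : τ β * PowerSeries.C β ∈ Q := h8 ▸ Q.mul_mem_right _ h
    exact (hQ.mem_or_mem h9).elim hβ (h2 β hβ)
  refine ⟨u, ?_, fun h => ?_⟩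
  · have h5 := C_mul_mem (tau_mem_FamRing (G := G) (δ := δ) (π0 := π0) (B := ⊤) (z := (f : L))
      trivial) ((f : L)⁻¹ * β)
    rw [mem_AB]
    convert h5 using 2 with h
    have h6 := congrArg (io B) (hu h)
    rw [map_mul, map_mul, io_C, io_C, io_tauB] at h6
    rw [map_mul, mul_assoc, h6, ← mul_assoc, ← map_mul, inv_mul_cancel₀ hf0', map_one, one_mul]
  · obtain ⟨a, ha⟩ := hβf' f hfP
    have h5 : β' * f = (f - fh g) * a := Subtype.ext ha
    have h6 := congrArg τ h5
    rw [map_mul, map_mul, map_sub] at h6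
    have h7 := hu 1
    rw [hf1] at h7
    have h8 : (u 1 - u g) * τ a = u 1 * τ β' := by
      apply mul_left_cancel₀ hCf
      linear_combination (τ β' - τ a) * h7 + τ a * hu g - PowerSeries.C β * h6
    have h9 : u 1 * τ β' ∈ Q := h8 ▸ Q.mul_mem_right _ h
    exact (hQ.mem_or_mem h9).elim h4 hβ'

end BetaH

end P179W
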