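import Vale.Agent.P179W.BetaB

/-!
# P179W : the vertical primes and the separating family
-/

set_option linter.all false

open scoped NNReal Classical
open Filter Topology Polynomial

noncomputable section

namespace P179W

namespace BetaH

variable {L : Type} [Field L] [CharZero L] {G : Type} [Group G] [MulSemiringAction G L]
  {δ : Derivation ℤ L L} {π0 : L} {p : ℕ} {w : Valuation L ℝ≥0} {B : Subring L}

theorem den [Finite G] (hC : Chart G p w B) (T : Finset L) :
    ∃ f ∈ B, f ≠ 0 ∧ (∀ g : G, g • f = f) ∧ ∀ z ∈ T, f * z ∈ B := by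
  induction T using Finset.induction_on with
  | empty => exact ⟨1, B.one_mem, one_ne_zero, fun g => smul_one g, by simp⟩
  | insert a T _ ih =>
    obtain ⟨f, h1, h2, h3, h4⟩ := ih
    obtain ⟨s, hs, hs0, hsa⟩ := hC.frac a
    have := Fintype.ofFinite G
    have h5 : ∏ g : G, g • s = s * ∏ g ∈ Finset.univ.erase (1 : G), g • s := by
      rw [← Finset.mul_prod_erase _ _ (Finset.mem_univ (1 : G)), one_smul]
    have h6 : ∏ g ∈ Finset.univ.erase (1 : G), g • s ∈ B := prod_mem fun g _ => hC.stab g s hs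
    refine ⟨f * ∏ g : G, g • s, B.mul_mem h1 (prod_mem fun g _ => hC.stab g s hs),
      mul_ne_zero h2 (Finset.prod_ne_zero_iff.2 fun g _ => (smul_ne_zero_iff_ne g).2 hs0),
      fun g => by rw [smul_mul', h3, Finset.smul_prod_perm], fun z hz => ?_⟩
    rcases Finset.mem_insert.1 hz with rfl | hz
    · rw [h5]
      convert B.mul_mem (B.mul_mem h1 h6) hsa using 1
      ring
    · rw [mul_right_comm]
      exact B.mul_mem (h4 z hz) (prod_mem fun g _ => hC.stab g s hs)

theorem clear [Finite G] (hC : Chart G p w B) (hi : ∀ b ∈ B, ∀ k, dE δ π0 k b ∈ B)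
    {c : G → PowerSeries L} (hc : c ∈ Fam G δ π0 Set.univ) :
    ∃ f ∈ B, f ≠ 0 ∧ (∀ g : G, g • f = f) ∧
      ∀ h, PowerSeries.C f * tau δ π0 f * c h ∈ (io B).range := by
  have h0 : ∀ f ∈ B, PowerSeries.C f * tau δ π0 f ∈ (io B).range := fun f hf =>
    ⟨PowerSeries.C ⟨f, hf⟩ * tauB hi ⟨f, hf⟩, by rw [map_mul, io_C, io_tauB]⟩
  refine Fam_induction (P := fun c => ∃ f ∈ B, f ≠ 0 ∧ (∀ g : G, g • f = f) ∧
      ∀ h, PowerSeries.C f * tau δ π0 f * c h ∈ (io B).range) ?_ ?_ ?_ ?_ hc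
  · exact ⟨1, B.one_mem, one_ne_zero, fun g => smul_one g, fun h => by simp⟩
  · rintro a b ⟨f, h1, h2, h3, h4⟩ ⟨f', h1', h2', h3', h4'⟩
    refine ⟨f * f', B.mul_mem h1 h1', mul_ne_zero h2 h2', fun g => by rw [smul_mul', h3, h3'],
      fun h => ?_⟩
    convert add_mem (mul_mem (h0 f' h1') (h4 h)) (mul_mem (h0 f h1) (h4' h)) using 1
    rw [map_mul, tau_mul, Pi.add_apply]
    ring
  · rintro a ⟨f, h1, h2, h3, h4⟩
    exact ⟨f, h1, h2, h3, fun h => by rw [Pi.neg_apply, mul_neg]; exact neg_mem (h4 h)⟩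
  · intro ρ z _ _
    obtain ⟨f, h1, h2, h3, h4⟩ := den hC (insert z (ρ.support.image ρ.coeff))
    refine ⟨f, h1, h2, h3, fun h => ?_⟩
    have h5 : PowerSeries.C f * (ρ : PowerSeries L) ∈ (io B).range := exists_io fun k => by
      rw [PowerSeries.coeff_C_mul, Polynomial.coeff_coe]
      by_cases hk : k ∈ ρ.support
      · exact h4 _ (Finset.mem_insert_of_mem (Finset.mem_image_of_mem _ hk))
      · rw [notMem_support_iff.1 hk, mul_zero]
        exact B.zero_mem
    have h6 : tau δ π0 (h • (f * z)) ∈ (io B).range :=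
      ⟨tauB hi ⟨_, hC.stab h _ (h4 z (Finset.mem_insert_self _ _))⟩, io_tauB _ _⟩
    rw [smul_mul', h3, tau_mul] at h6
    convert mul_mem h5 h6 using 1
    ring

/-- no inertia at the vertical primes -/
theorem vert [Finite G] (hF : Flow G p w δ π0) (hC : Chart G p w B)
    (hi : ∀ b ∈ B, ∀ k, dE δ π0 k b ∈ B) {g : G} {c : G → PowerSeries L}
    (hc : c ∈ Fam G δ π0 Set.univ) (h1 : ∀ h k, w (PowerSeries.coeff k (c h)) ≤ 1)
    (h2 : ∃ k, w (PowerSeries.coeff k (c 1 - c g)) = 1) :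
    ∃ c' ∈ AB G δ π0 B, gN w (io B (c' 1 - c' g)) = 1 := by
  have := hC.noeth
  obtain ⟨f, hf, hf0, hfG, h3⟩ := clear hC hi hc
  choose c1 hc1 using h3
  have hcb : ∀ h, c h ∈ BddPS w := fun h => ⟨1, h1 h⟩
  have hFb : PowerSeries.C f * tau δ π0 f ∈ BddPS w := mul_mem (C_mem_BddPS f) (hF.tau_mem f)
  have hFn : gN w (PowerSeries.C f * tau δ π0 f) = w (f * f) := by
    rw [gN_C_mul _ (hF.tau_mem f), hF.gN_tau, map_mul]
  let I : Ideal B :=
    { carrier := {b | w (b : L) ≤ w (f * f)}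
      add_mem' := fun {a b} ha hb => w.map_add_le ha hb
      zero_mem' := by simp
      smul_mem' := fun a b hb => by
        change w ((a : L) * b) ≤ _
        rw [map_mul]
        exact (mul_le_mul' (hC.le_one a a.2) hb).trans (one_mul _).le }
  obtain ⟨n, b, hb⟩ := Submodule.fg_iff_exists_fin_generating_family.1 (IsNoetherian.noetherian I)
  have hff : f * f ≠ 0 := mul_ne_zero hf0 hf0
  have h4 : ∀ i, ∃ s ∈ B, w s = 1 ∧ s * ((b i : L) / (f * f)) ∈ B := fun i => hC.loc _ (by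
    have h5 : b i ∈ I := by rw [← hb]; exact Submodule.subset_span ⟨i, rfl⟩
    rw [map_div₀]
    exact div_le_one_of_le₀ h5 zero_le)
  choose s hs hs1 hsb using h4
  have h5 : ∀ a ∈ I, (∏ i, s i) / (f * f) * (a : L) ∈ B := by
    intro a ha
    rw [← hb] at ha
    obtain ⟨r, rfl⟩ := (Submodule.mem_span_range_iff_exists_fun B).1 ha
    push_cast
    rw [Finset.mul_sum]
    refine sum_mem fun i _ => ?_
    rw [← Finset.mul_prod_erase _ _ (Finset.mem_univ i)]
    convert B.mul_mem (B.mul_mem (r i).2 (prod_mem fun j (_ : j ∈ Finset.univ.erase i) => hs j))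
      (hsb i) using 1
    rw [smul_eq_mul]
    push_cast
    ring
  have h6 : ∀ h, ∃ c' : PowerSeries B, io B c' = PowerSeries.C ((∏ i, s i) / (f * f)) *
      (PowerSeries.C f * tau δ π0 f * c h) := fun h => exists_io fun k => by
    rw [PowerSeries.coeff_C_mul, ← hc1, coeff_io]
    refine h5 _ ?_
    change w _ ≤ _
    rw [← coeff_io, hc1]
    refine (le_gN (mul_mem hFb (hcb h)) k).trans ((gN_mul_le hFb (hcb h)).trans ?_)
    rw [hFn]
    exact (mul_le_mul' le_rfl (gN_le (h1 h))).trans (mul_one _).le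
  choose c' hc' using h6
  refine ⟨c', ?_, ?_⟩
  · rw [mem_AB]
    simp only [hc']
    refine C_mul_mem ?_ _
    have h7 := (FamRing G δ π0 ⊤).mul_mem (C_mul_mem (tau_mem_FamRing (G := G) (δ := δ)
      (π0 := π0) (B := ⊤) (z := f) trivial) f) (mem_FamRing_top.2 hc)
    simp only [hfG] at h7
    exact h7
  · have h7 : gN w (c 1 - c g) = 1 := by
      obtain ⟨k, hk⟩ := h2
      refine le_antisymm (gN_le fun k => ?_) (hk ▸ le_gN (sub_mem (hcb 1) (hcb g)) k)
      rw [map_sub]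
      exact w.map_sub_le (h1 _ _) (h1 _ _)
    rw [map_sub, hc', hc', ← mul_sub, ← mul_sub,
      gN_C_mul _ (mul_mem hFb (sub_mem (hcb 1) (hcb g))),
      gN_mul hF.disc hFb (sub_mem (hcb 1) (hcb g)), hFn, h7, mul_one, ← map_mul,
      div_mul_cancel₀ _ hff, map_prod]
    exact Finset.prod_eq_one fun i _ => hs1 i

theorem div_of (hC : Chart G p w B) (hp : p ≠ 0) (N : ℕ) (b : B)
    (h : ∀ g : G, cw G w g b ≤ cw G w g ((p : L) ^ N)) : ∃ b' : B, b = (p : B) ^ N * b' := by
  have hq : (p : L) ^ N ≠ 0 := pow_ne_zero _ (Nat.cast_ne_zero.2 hp)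
  refine ⟨⟨b / (p : L) ^ N, hC.mp _ N ?_ fun g => ?_⟩, Subtype.ext ?_⟩
  · rw [mul_div_cancel₀ _ hq]
    exact b.2
  · rw [← cw_apply, map_div₀]
    exact div_le_one_of_le₀ (h g) zero_le
  · push_cast
    rw [mul_div_cancel₀ _ hq]

theorem trace_poly [Fintype G] (hF : Flow G p w δ π0) (hC : Chart G p w B) (hp : p ≠ 0) (N : ℕ)
    {c : G → PowerSeries B} (hc : c ∈ AB G δ π0 B) :
    ∃ (ρ : B[X]) (u : PowerSeries B), ∑ g, c g = ρ + PowerSeries.C ((p : B) ^ N) * u := by
  have hq : (p : L) ^ N ≠ 0 := pow_ne_zero _ (Nat.cast_ne_zero.2 hp)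
  have h1 : (fun h => ∑ g, io B (c (h * g))) ∈ FamRing G δ π0 ⊤ := by
    have h2 := (FamRing G δ π0 ⊤).sum_mem fun g (_ : g ∈ Finset.univ) => transl_mem (mem_AB.1 hc) g
    convert h2 using 1
    funext h
    rw [Finset.sum_apply]
  have h2 : ∀ g, io B (∑ g, c g) ∈ NullPS (cw G w g) := by
    intro g
    have h3 := (hF.cw g).Fam_const (mem_FamRing_top.1 h1) fun h =>
      (Fintype.sum_equiv (Equiv.mulLeft h) _ _ fun x => by simp)
    simpa [map_sum] using h3
  have h3 : ∀ g, ∃ K, ∀ k, K ≤ k → cw G w g (PowerSeries.coeff k (io B (∑ g, c g))) <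
      cw G w g ((p : L) ^ N) := fun g => null_iff.1 (h2 g) _ (zero_lt_iff.2 (by
        rwa [Valuation.ne_zero_iff]))
  choose K hK using h3
  have h4 : ∀ k, ∃ b' : B, PowerSeries.coeff k (∑ g, c g -
      ((PowerSeries.trunc (Finset.univ.sup K) (∑ g, c g) : B[X]) : PowerSeries B)) =
      (p : B) ^ N * b' := by
    intro k
    rw [map_sub, Polynomial.coeff_coe, PowerSeries.coeff_trunc]
    split_ifs with hk
    · exact ⟨0, by simp⟩
    · rw [sub_zero]
      refine div_of hC hp N _ fun g => ?_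
      rw [← coeff_io]
      exact (hK g k ((Finset.le_sup (Finset.mem_univ g)).trans (not_lt.1 hk))).le
  choose u hu using h4
  refine ⟨PowerSeries.trunc (Finset.univ.sup K) (∑ g, c g), PowerSeries.mk u, ?_⟩
  rw [← sub_eq_iff_eq_add']
  ext k : 1
  rw [hu, PowerSeries.coeff_C_mul, PowerSeries.coeff_mk]

/-- **The separating family.** -/
theorem sepFam (hI : InertStmt) [hp : Fact p.Prime] [Finite G] (hF : Flow G p w δ π0)
    (hC : Chart G p w B) (hCF : ChartFlow G p δ π0 B) :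
    ∃ c ∈ AB G δ π0 B, ∀ g, PowerSeries.constantCoeff (c g) = if g = 1 then 1 else 0 := by
  have := hC.noeth
  have := Fintype.ofFinite G
  have h1 : PowerSeries.C (p : B) ∈ (idl (AB G δ π0 B)).radical := by
    rw [Ideal.radical_eq_sInf, Submodule.mem_sInf]
    rintro Q ⟨h1, hQ⟩
    by_contra h2
    have h3 : ∀ g : G, ∃ c ∈ AB G δ π0 B, g ≠ 1 → c 1 - c g ∉ Q := by
      intro g
      by_cases hg : g = 1
      · exact ⟨0, zero_mem _, fun h => absurd hg h⟩
      · obtain ⟨c, h4, h5⟩ := horiz hF hC hCF Q h2 g hg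
        exact ⟨c, h4, fun _ => h5⟩
    choose c hc hc' using h3
    obtain ⟨g, hg, h4⟩ := Ideal.IsPrime.prod_mem_iff.1 (h1 (prod_mem_idl c hc))
    exact hc' g (Finset.ne_of_mem_erase hg) h4
  obtain ⟨N, hN⟩ := h1
  rw [← map_pow] at hN
  have h2 : ∀ h g : G, ∃ c ∈ AB G δ π0 B, g ≠ 1 → gN (cw G w h) (io B (c 1 - c g)) = 1 := by
    intro h g
    by_cases hg : g = 1
    · exact ⟨0, zero_mem _, fun h => absurd hg h⟩
    · obtain ⟨c, h3, h4, h5⟩ := hI p L G (cw G w h) δ π0 (hF.cw h) g hg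
      obtain ⟨c', h6, h7⟩ := vert (hF.cw h) (hC.cw h) hCF.int h3 h4 h5
      exact ⟨c', h6, fun _ => h7⟩
  choose c hc hc' using h2
  have hq : (p : B) ^ N ≠ 0 := pow_ne_zero _ (Nat.cast_ne_zero.2 hp.out.ne_zero)
  have hb : ∀ h f, io B f ∈ BddPS (cw G w h) := fun h f =>
    IntPS_le_BddPS _ (io_int (hC.cw h).le_one f)
  refine exists_sep (AB G δ π0 B) ((p : B) ^ N) (fun f hf => ?_) poly_mem_AB
    (fun c hc g => transl_mem_AB hc g) (fun c hc => trace_poly hF hC hp.out.ne_zero N hc)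
    (fun c hc => sat_AB hq hc) hN _ (fun h => prod_mem_idl (c h) (hc h)) fun d hd => ?_
  · refine (mul_eq_zero.1 hf).resolve_left fun h => hq ?_
    exact PowerSeries.C_injective (h.trans (map_zero _).symm)
  · have h3 : ∀ k, ∃ b' : B, PowerSeries.coeff k d = (p : B) ^ N * b' := by
      intro k
      refine div_of hC hp.out.ne_zero N _ fun h => ?_
      obtain ⟨t, ht⟩ := hd h
      have h4 := congrArg (fun f => gN (cw G w h) (io B f)) ht
      simp only [map_mul] at h4
      rw [gN_mul (hF.cw h).disc (hb h _) (hb h _), map_prod,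
        gN_prod (hF.cw h).disc _ fun g _ => hb h _,
        Finset.prod_eq_one fun g hg => hc' h g (Finset.ne_of_mem_erase hg), one_mul, io_C,
        gN_C_mul _ (hb h _)] at h4
      rw [← coeff_io]
      refine (le_gN (hb h d) k).trans ?_
      rw [h4]
      push_cast
      exact (mul_le_mul' le_rfl (gN_le (io_int (hC.cw h).le_one t))).trans (mul_one _).le
    choose u hu using h3
    refine ⟨PowerSeries.mk u, ?_⟩
    ext k : 1
    rw [hu, PowerSeries.coeff_C_mul, PowerSeries.coeff_mk]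

end BetaH

end P179W
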