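import Vale.Agent.P179W.InertA

/-!
# P179W : trivial inertia (helper53)
-/

set_option linter.all false

open scoped NNReal Classical
open Filter Topology Polynomial

noncomputable section

namespace P179W

namespace Ine

variable {L : Type} [Field L] [CharZero L] {G : Type} [Group G] [MulSemiringAction G L]
  {w : Valuation L ℝ≥0} {δ : Derivation ℤ L L} {π0 : L} {R : Type} [Field R] {rd : L → R}

variable (G w δ π0) in
/-- integral families -/
def AI : Subring (G → PowerSeries L) where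
  carrier := {c | c ∈ FamRing G δ π0 ⊤ ∧ ∀ h, c h ∈ IntPS w}
  one_mem' := ⟨one_mem _, fun _ => one_mem _⟩
  zero_mem' := ⟨zero_mem _, fun _ => zero_mem _⟩
  add_mem' ha hb := ⟨add_mem ha.1 hb.1, fun h => add_mem (ha.2 h) (hb.2 h)⟩
  mul_mem' ha hb := ⟨mul_mem ha.1 hb.1, fun h => mul_mem (ha.2 h) (hb.2 h)⟩
  neg_mem' ha := ⟨neg_mem ha.1, fun h => neg_mem (ha.2 h)⟩

theorem AI_transl {c : G → PowerSeries L} (hc : c ∈ AI G w δ π0) (g : G) :
    (fun h => c (h * g)) ∈ AI G w δ π0 :=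
  ⟨Fam_transl (S := Set.univ) g (fun _ _ => trivial) hc.1, fun h => hc.2 _⟩

variable (w δ π0 rd) in
/-- the inertia condition -/
def Ir (g : G) : Prop := ∀ c ∈ AI G w δ π0, rdPS rd (c g) = rdPS rd (c 1)

variable (w δ π0 rd) in
/-- the decomposition condition -/
def Dc (g : G) : Prop := ∀ c ∈ AI G w δ π0, rdPS rd (c g) = 0 → rdPS rd (c 1) = 0

theorem Ir.pow {g : G} (h : Ir w δ π0 rd g) (j : ℕ) : Ir w δ π0 rd (g ^ j) := by
  induction j with
  | zero => intro c _; rw [pow_zero]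
  | succ j ih =>
    intro c hc
    have := h _ (AI_transl hc (g ^ j))
    simp only [one_mul] at this
    rw [pow_succ', this, ih c hc]

theorem Dc.symm [Finite G] {g : G} (h : Dc w δ π0 rd g) {c : G → PowerSeries L}
    (hc : c ∈ AI G w δ π0) (h1 : rdPS rd (c 1) = 0) : rdPS rd (c g) = 0 := by
  have key : ∀ j : ℕ, rdPS rd (c (g ^ (j + 1))) = 0 → rdPS rd (c g) = 0 := by
    intro j
    induction j with
    | zero => simp
    | succ j ih =>
      intro h2
      have := h _ (AI_transl hc (g ^ (j + 1)))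
      simp only [one_mul] at this
      exact ih (this (by rwa [← pow_succ']))
  obtain ⟨j, hj⟩ := Nat.exists_eq_succ_of_ne_zero (orderOf_pos g).ne'
  exact key j (by rwa [← Nat.succ_eq_add_one, ← hj, pow_orderOf_eq_one])

variable (G w δ π0) in
/-- evaluation and reduction -/
def red (hr : IsRed w rd) (g : G) : AI G w δ π0 →+* PowerSeries R :=
  hr.psHom.comp (((Pi.evalRingHom (fun _ : G => PowerSeries L) g).comp
    (AI G w δ π0).subtype).codRestrict (IntPS w) fun c => c.2.2 g)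

theorem red_apply (hr : IsRed w rd) (g : G) (c : AI G w δ π0) :
    red G w δ π0 hr g c = rdPS rd (c.1 g) := rfl

variable [Finite G] {p : ℕ} [hp : Fact p.Prime]

/-- the reductions are integral over the polynomial ring -/
theorem exists_poly (hF : Flow G p w δ π0) (hr : IsRed w rd) {c : G → PowerSeries L}
    (hc : c ∈ AI G w δ π0) : ∃ P : (PowerSeries R)[X], P ≠ 0 ∧ (∀ i, ∃ ρ : R[X], P.coeff i = ρ) ∧
      P.eval (rdPS rd (c 1)) = 0 := by
  haveI := Fintype.ofFinite G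
  set F : (AI G w δ π0)[X] := ∏ g : G, (X - C ⟨_, AI_transl hc g⟩) with hFd
  have hev : ∀ x : G, ∀ i, ((F.coeff i : AI G w δ π0) : G → PowerSeries L) x =
      (∏ g : G, (X - C (c g))).coeff i := by
    intro x i
    have h1 := Polynomial.coeff_map ((Pi.evalRingHom (fun _ : G => PowerSeries L) x).comp
      (AI G w δ π0).subtype) i (p := F)
    have h2 : ∏ g : G, (X - C (c (x * g))) = ∏ g : G, (X - C (c g)) :=
      Fintype.prod_equiv (Equiv.mulLeft x) _ _ fun g => rfl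
    rw [← h2]
    refine h1.symm.trans ?_
    rw [hFd, Polynomial.map_prod]
    simp
  refine ⟨F.map (red G w δ π0 hr 1), ?_, fun i => ?_, ?_⟩
  · exact ((Polynomial.monic_prod_of_monic _ _ fun g _ => Polynomial.monic_X_sub_C _).map _).ne_zero
  · rw [Polynomial.coeff_map, red_apply]
    exact hr.ps_poly (hF.Fam_const (F.coeff i).2.1 fun h => by rw [hev, hev])
  · rw [hFd, Polynomial.map_prod, Polynomial.eval_prod]
    refine Finset.prod_eq_zero (Finset.mem_univ 1) ?_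
    simp [red_apply]

/-- the residues of the invariant families -/
def resInv (hr : IsRed w rd) (H : Subgroup G) : Subring (PowerSeries R) :=
  Subring.map (red G w δ π0 hr 1)
    { carrier := {c | ∀ u ∈ H, c.1 u = c.1 1}
      one_mem' := fun _ _ => rfl
      zero_mem' := fun _ _ => rfl
      add_mem' := fun {a b} ha hb u hu => by
        show a.1 u + b.1 u = a.1 1 + b.1 1
        rw [ha u hu, hb u hu]
      mul_mem' := fun {a b} ha hb u hu => by
        show a.1 u * b.1 u = a.1 1 * b.1 1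
        rw [ha u hu, hb u hu]
      neg_mem' := fun {a} ha u hu => by
        show - a.1 u = - a.1 1
        rw [ha u hu] }

theorem mem_resInv (hr : IsRed w rd) (H : Subgroup G) {y : PowerSeries R} :
    y ∈ resInv (δ := δ) (π0 := π0) hr H ↔
      ∃ c ∈ AI G w δ π0, (∀ u ∈ H, c u = c 1) ∧ rdPS rd (c 1) = y :=
  ⟨fun ⟨c, h1, h2⟩ => ⟨c.1, c.2, h1, h2⟩, fun ⟨c, h0, h1, h2⟩ => ⟨⟨c, h0⟩, h1, h2⟩⟩

theorem poly_mem_resInv (hr : IsRed w rd) (hs : ∀ r, ∃ a, w a ≤ 1 ∧ rd a = r) (H : Subgroup G)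
    (ρ : R[X]) : (ρ : PowerSeries R) ∈ resInv (δ := δ) (π0 := π0) hr H := by
  induction ρ using Polynomial.induction_on' with
  | add a b ha hb => rw [Polynomial.coe_add]; exact add_mem ha hb
  | monomial n r =>
    obtain ⟨a, ha, rfl⟩ := hs r
    rw [← Polynomial.C_mul_X_pow_eq_monomial, Polynomial.coe_mul, Polynomial.coe_pow,
      Polynomial.coe_C, Polynomial.coe_X]
    refine mul_mem ?_ (pow_mem ?_ n)
    · exact (mem_resInv hr H).2 ⟨fun _ => PowerSeries.C a,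
        ⟨C_mem_FamRing trivial, fun _ => C_mem_IntPS w ha⟩, fun _ _ => rfl, hr.ps_C a⟩
    · exact (mem_resInv hr H).2 ⟨fun _ => PowerSeries.X,
        ⟨X_mem_FamRing, fun _ => X_mem_IntPS w⟩, fun _ _ => rfl, hr.ps_X⟩

theorem prod_transl {c : G → PowerSeries L} (hc : c ∈ AI G w δ π0) (H : Subgroup G) [Fintype H] :
    (fun h => ∏ u : H, c (h * u)) ∈ AI G w δ π0 ∧
      ∀ v ∈ H, ∏ u : H, c (v * u) = ∏ u : H, c (1 * u) := by
  refine ⟨?_, fun v hv => Fintype.prod_equiv (Equiv.mulLeft (⟨v, hv⟩ : H)) _ _ fun u => by simp⟩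
  have := (AI G w δ π0).prod_mem (t := Finset.univ) (f := fun (u : H) h => c (h * u))
    fun u _ => AI_transl hc u
  convert this using 1
  funext h
  rw [Finset.prod_apply]

theorem sum_transl {c : G → PowerSeries L} (hc : c ∈ AI G w δ π0) (H : Subgroup G) [Fintype H] :
    (fun h => ∑ u : H, c (h * u)) ∈ AI G w δ π0 ∧
      ∀ v ∈ H, ∑ u : H, c (v * u) = ∑ u : H, c (1 * u) := by
  refine ⟨?_, fun v hv => Fintype.sum_equiv (Equiv.mulLeft (⟨v, hv⟩ : H)) _ _ fun u => by simp⟩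
  have := (AI G w δ π0).sum_mem (t := Finset.univ) (f := fun (u : H) h => c (h * u))
    fun u _ => AI_transl hc u
  convert this using 1
  funext h
  rw [Finset.sum_apply]

/-- the residues are fractions of residues of invariant families -/
theorem key (hF : Flow G p w δ π0) (hr : IsRed w rd) (hs : ∀ r, ∃ a, w a ≤ 1 ∧ rd a = r)
    (H : Subgroup G) (hH : ∀ u ∈ H, Ir w δ π0 rd u) (hprime : (Nat.card H).Prime)
    {c : G → PowerSeries L} (hc : c ∈ AI G w δ π0) :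
    ∃ a ∈ resInv (δ := δ) (π0 := π0) hr H, ∃ b ∈ resInv (δ := δ) (π0 := π0) hr H,
      b ≠ 0 ∧ b * rdPS rd (c 1) = a := by
  haveI := Fintype.ofFinite H
  haveI := hr.charP hF.wp
  rw [Nat.card_eq_fintype_card] at hprime
  by_cases hl : Fintype.card H = p
  · obtain ⟨P, h0, h1, h2⟩ := exists_poly hF hr hc
    obtain ⟨h3, h4⟩ := prod_transl hc H
    refine exists_frac (p := p) _ (poly_mem_resInv hr hs H) _ P h0 h1 h2 1 _ 1
      ((mem_resInv hr H).2 ⟨_, h3, h4, rfl⟩) (one_mem _) one_ne_zero ?_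
    rw [hr.ps_prod _ fun u _ => hc.2 _, Finset.prod_congr rfl fun (u : H) _ =>
      show rdPS rd (c (1 * u)) = rdPS rd (c 1) by rw [one_mul]; exact hH u u.2 c hc]
    simp [hl]
  · obtain ⟨h3, h4⟩ := sum_transl hc H
    refine ⟨_, (mem_resInv hr H).2 ⟨_, h3, h4, rfl⟩, Fintype.card H, natCast_mem _ _, ?_, ?_⟩
    · rw [← map_natCast (PowerSeries.C (R := R)), Ne, map_eq_zero_iff _ PowerSeries.C_injective,
        CharP.cast_eq_zero_iff R p]
      exact fun h => hl ((Nat.prime_dvd_prime_iff_eq hp.out hprime).1 h).symm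
    · rw [hr.ps_sum _ fun u _ => hc.2 _, Finset.sum_congr rfl fun (u : H) _ =>
        show rdPS rd (c (1 * u)) = rdPS rd (c 1) by rw [one_mul]; exact hH u u.2 c hc]
      simp

/-- the projector -/
theorem exists_proj (hr : IsRed w rd) (H : Subgroup G) (hH : ∀ u ∈ H, Ir w δ π0 rd u) :
    ∃ a ∈ AI G w δ π0, (∀ u ∈ H, a u = a 1) ∧ rdPS rd (a 1) ≠ 0 ∧
      ∀ g, ¬ Dc w δ π0 rd g → rdPS rd (a g) = 0 := by
  haveI := Fintype.ofFinite G
  haveI := Fintype.ofFinite H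
  have h1 : ∀ g : G, ∃ c ∈ AI G w δ π0, rdPS rd (c 1) ≠ 0 ∧
      (¬ Dc w δ π0 rd g → rdPS rd (c g) = 0) := by
    intro g
    by_cases hg : Dc w δ π0 rd g
    · exact ⟨1, one_mem _, by rw [Pi.one_apply, hr.ps_one]; exact one_ne_zero,
        fun h => absurd hg h⟩
    · simp only [Dc, not_forall] at hg
      obtain ⟨c, hc, h1, h2⟩ := hg
      exact ⟨c, hc, h2, fun _ => h1⟩
  choose c hc h2 h3 using h1
  have h4 : ∏ g, c g ∈ AI G w δ π0 := prod_mem fun g _ => hc g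
  obtain ⟨h5, h6⟩ := prod_transl h4 H
  refine ⟨_, h5, h6, ?_, fun g hg => ?_⟩
  · rw [hr.ps_prod _ fun u _ => h4.2 _, Finset.prod_ne_zero_iff]
    intro u _
    rw [one_mul, hH u u.2 _ h4, Finset.prod_apply, hr.ps_prod _ fun g _ => (hc g).2 _,
      Finset.prod_ne_zero_iff]
    exact fun g _ => h2 g
  · rw [hr.ps_prod _ fun u _ => h4.2 _]
    refine Finset.prod_eq_zero (Finset.mem_univ 1) ?_
    rw [OneMemClass.coe_one, mul_one, Finset.prod_apply, hr.ps_prod _ fun g _ => (hc g).2 _]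
    exact Finset.prod_eq_zero (Finset.mem_univ g) (h3 g hg)

theorem exists_pow_mul_le {ι : Type} [Finite ι] (a b : ι → ℝ≥0) :
    ∃ N : ℕ, ∀ i, a i < 1 → a i ^ N * b i ≤ 1 := by
  have h3 : ∀ i, ∀ᶠ N : ℕ in atTop, a i < 1 → a i ^ N * b i ≤ 1 := by
    intro i
    by_cases hi : a i < 1
    · have := (NNReal.tendsto_pow_atTop_nhds_zero_of_lt_one hi).mul_const (b i)
      rw [zero_mul] at this
      exact (this.eventually (gt_mem_nhds one_pos)).mono fun N h _ => h.le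
    · exact Eventually.of_forall fun N h => absurd h hi
  exact (eventually_all.2 h3).exists

theorem trivial_of_Ir (hF : Flow G p w δ π0) (hr : IsRed w rd)
    (hs : ∀ r, ∃ a, w a ≤ 1 ∧ rd a = r) (H : Subgroup G) (hH : ∀ u ∈ H, Ir w δ π0 rd u)
    (hprime : (Nat.card H).Prime) (x : L) : ∀ u ∈ H, u • x = x := by
  obtain ⟨a, ha, ha1, ha2, ha3⟩ := exists_proj hr H hH
  obtain ⟨ϖ, hϖ0, hϖ, hϖ'⟩ : ∃ ϖ : L, ϖ ≠ 0 ∧ w ϖ < 1 ∧ ∀ z, w z < 1 → w z ≤ w ϖ := by
    obtain ⟨ϖ, h0, h1, h2⟩ := hF.disc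
    refine ⟨ϖ, h0, h1, fun z hz => ?_⟩
    by_cases hz0 : z = 0
    · simp [hz0]
    obtain ⟨m, hm⟩ := h2 z hz0
    have hp0 : 0 < w ϖ := zero_lt_iff.2 (by simpa using h0)
    rw [hm] at hz ⊢
    have := (zpow_lt_one_iff_right_of_lt_one₀ hp0 h1).1 hz
    calc w ϖ ^ m ≤ w ϖ ^ (1 : ℤ) := (zpow_le_zpow_iff_right_of_lt_one₀ hp0 h1).2 this
      _ = _ := zpow_one _
  have hw0 : w ϖ ≠ 0 := by simpa using hϖ0
  obtain ⟨N0, hN0⟩ := exists_pow_mul_le (fun _ : G => w ϖ) (fun g => w (g • x))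
  set c0 : G → PowerSeries L := fun g => PowerSeries.C (ϖ ^ N0) * tau δ π0 (g • x) with hc0
  have hB : ∀ ν : ℕ, ∃ (m2 m : PowerSeries L) (c : G → PowerSeries L), c ∈ FamRing G δ π0 ⊤ ∧
      (∀ g, Dc w δ π0 rd g → c g ∈ IntPS w) ∧ m2 ∈ IntPS w ∧ rdPS rd m2 ≠ 0 ∧
      ∀ u ∈ H, m2 * c0 u - m = PowerSeries.C (ϖ ^ ν) * c u := by
    intro ν
    induction ν with
    | zero =>
      refine ⟨1, 0, c0, mul_mem (C_mem_FamRing trivial) (tau_mem_FamRing trivial),
        fun g _ k => ?_, one_mem _, by rw [hr.ps_one]; exact one_ne_zero, fun u _ => by simp⟩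
      rw [hc0, PowerSeries.coeff_C_mul, map_mul, map_pow, coeff_tau]
      exact (mul_le_mul_of_nonneg_left (hF.bound k _) zero_le).trans (hN0 g hϖ)
    | succ ν ih =>
      obtain ⟨m2, m, c, hc, hc1, h1, h2, h3⟩ := ih
      obtain ⟨N, hN⟩ := exists_pow_mul_le (fun g : G => gN w (a g)) (fun g => gN w (c g))
      have hac : a ^ N * c ∈ AI G w δ π0 := by
        refine ⟨mul_mem (pow_mem ha.1 N) hc, fun g => ?_⟩
        by_cases hg : Dc w δ π0 rd g
        · exact mul_mem (pow_mem (ha.2 g) N) (hc1 g hg)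
        · have b1 := IntPS_le_BddPS w (ha.2 g)
          have b2 := hF.Fam_bdd hc g
          rw [Pi.mul_apply, Pi.pow_apply, mem_IntPS_iff_gN (mul_mem (pow_mem b1 N) b2),
            gN_mul hF.disc (pow_mem b1 N) b2, gN_pow hF.disc b1]
          exact hN g ((gN_lt_iff hF.disc b1).2 ((hr.ps_eq_zero_iff (ha.2 g)).1 (ha3 g hg)))
      obtain ⟨_, hα, _, hβ, hb0, hab⟩ := key hF hr hs H hH hprime hac
      obtain ⟨μ, hμ, hμ1, rfl⟩ := (mem_resInv hr H).1 hα
      obtain ⟨μ2, hμ2, hμ21, rfl⟩ := (mem_resInv hr H).1 hβ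
      have hd : μ2 * (a ^ N * c) - μ ∈ AI G w δ π0 := sub_mem (mul_mem hμ2 hac) hμ
      have hd1 : rdPS rd ((μ2 * (a ^ N * c) - μ) 1) = 0 := by
        rw [Pi.sub_apply, Pi.mul_apply, hr.ps_sub (mul_mem (hμ2.2 1) (hac.2 1)) (hμ.2 1),
          hr.ps_mul (hμ2.2 1) (hac.2 1), hab, sub_self]
      refine ⟨μ2 1 * a 1 ^ N * m2, μ2 1 * a 1 ^ N * m + PowerSeries.C (ϖ ^ ν) * μ 1,
        (fun _ => PowerSeries.C ϖ⁻¹) * (μ2 * (a ^ N * c) - μ),
        mul_mem (C_mem_FamRing trivial) hd.1, fun g hg k => ?_,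
        mul_mem (mul_mem (hμ2.2 1) (pow_mem (ha.2 1) N)) h1, ?_, fun u hu => ?_⟩
      · rw [Pi.mul_apply, PowerSeries.coeff_C_mul, map_mul, map_inv₀,
          inv_mul_le_one₀ (pos_iff_ne_zero.2 hw0)]
        exact hϖ' _ ((hr.ps_eq_zero_iff (hd.2 g)).1 (hg.symm hd hd1) k)
      · rw [hr.ps_mul (mul_mem (hμ2.2 1) (pow_mem (ha.2 1) N)) h1,
          hr.ps_mul (hμ2.2 1) (pow_mem (ha.2 1) N), hr.ps_pow (ha.2 1)]
        exact mul_ne_zero (mul_ne_zero hb0 (pow_ne_zero _ ha2)) h2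
      · have e1 : PowerSeries.C (ϖ ^ (ν + 1)) * PowerSeries.C ϖ⁻¹ = PowerSeries.C (ϖ ^ ν) := by
          rw [← map_mul, pow_succ, mul_inv_cancel_right₀ hϖ0]
        simp only [Pi.mul_apply, Pi.sub_apply, Pi.pow_apply]
        rw [← mul_assoc (PowerSeries.C (ϖ ^ (ν + 1))), e1, hμ1 u hu, hμ21 u hu, ha1 u hu]
        linear_combination (μ2 1 * a 1 ^ N) * h3 u hu
  intro u hu
  by_contra hne
  have hpos : 0 < w (ϖ ^ N0 * (x - u • x)) := zero_lt_iff.2 (by
    rw [Ne, map_eq_zero]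
    exact mul_ne_zero (pow_ne_zero _ hϖ0) (sub_ne_zero.2 (Ne.symm hne)))
  obtain ⟨ν, hν⟩ := ((NNReal.tendsto_pow_atTop_nhds_zero_of_lt_one hϖ).eventually
    (gt_mem_nhds hpos)).exists
  obtain ⟨m2, m, c, hc, hc1, h1, h2, h3⟩ := hB ν
  have e1 : m2 * (PowerSeries.C (ϖ ^ N0) * tau δ π0 (x - u • x)) =
      PowerSeries.C (ϖ ^ ν) * (c 1 - c u) := by
    have h4 := h3 1 (one_mem _)
    have h5 := h3 u hu
    simp only [hc0, one_smul] at h4 h5
    rw [tau_sub]
    linear_combination h4 - h5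
  have b1 := IntPS_le_BddPS w h1
  have b2 : c 1 - c u ∈ IntPS w := sub_mem (hc1 1 fun _ _ h => h)
    (hc1 u fun c hc h => by rw [← hH u hu c hc, h])
  have e2 := congrArg (gN w) e1
  rw [gN_mul hF.disc b1 (mul_mem (C_mem_BddPS _) (hF.tau_mem _)), gN_C_mul _ (hF.tau_mem _),
    hF.gN_tau, (hr.ps_ne_zero_iff hF.disc h1).1 h2, one_mul, ← map_mul,
    gN_C_mul _ (IntPS_le_BddPS w b2), map_pow] at e2
  rw [e2] at hν
  exact absurd hν (not_lt.2 (mul_le_of_le_one_right' (gN_le b2)))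

end Ine

open Ine in
theorem inert_holds : InertStmt := by
  intro p hp L _ _ G _ _ _ w δ π0 hF g hg
  obtain ⟨R, _, rd, hr, hs⟩ := exists_isRed w
  by_contra hn
  push Not at hn
  have hI : Ir w δ π0 rd g := by
    intro c hc
    have h1 := sub_mem (hc.2 1) (hc.2 g)
    symm
    rw [← sub_eq_zero, ← hr.ps_sub (hc.2 1) (hc.2 g), hr.ps_eq_zero_iff h1]
    exact fun k => lt_of_le_of_ne (h1 k) (hn c hc.1 hc.2 k)
  obtain ⟨l, hl, hlg⟩ := Nat.exists_prime_and_dvd (n := orderOf g) (by rwa [Ne, orderOf_eq_one_iff])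
  have ho : orderOf (g ^ (orderOf g / l)) = l := orderOf_pow_orderOf_div (orderOf_pos g).ne' hlg
  have h1 := trivial_of_Ir hF hr hs (Subgroup.zpowers (g ^ (orderOf g / l))) (fun u hu => by
    obtain ⟨j, rfl⟩ := (mem_powers_iff_mem_zpowers).2 hu
    exact (hI.pow _).pow j) (by rwa [Nat.card_zpowers, ho])
  have h2 := hF.faith _ fun z => h1 z _ (Subgroup.mem_zpowers _)
  rw [h2, orderOf_one] at ho
  exact hl.ne_one ho.symm

end P179W
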