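import Vale.Agent.P179W.Beta
import Vale.Agent.P179W.Inert

/-!
# P179W : `BetaStmt`, unconditionally
-/

namespace P179W

theorem beta_holds : BetaStmt := beta_of inert_holds

end P179W
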