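import Vale.Agent.P179W.PS

/-!
# P179W : the Taylor series of a derivation (`BoundStmt`)
-/

set_option linter.all false

open scoped NNReal Classical
open Filter Topology Finset

noncomputable section

namespace P179W

variable {L : Type} [Field L] {δ : Derivation ℤ L L} {π0 : L} {w : Valuation L ℝ≥0} {p : ℕ}

attribute [local simp] dE_zero dE_zero'

theorem w_nat_le (w : Valuation L ℝ≥0) (n : ℕ) : w n ≤ 1 := by
  induction n with
  | zero => simp
  | succ n ih => rw [Nat.cast_succ]; exact (w.map_add _ _).trans (max_le ih w.map_one.le)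

theorem w_int_le (w : Valuation L ℝ≥0) (n : ℤ) : w n ≤ 1 := by
  obtain ⟨m, rfl | rfl⟩ := n.eq_nat_or_neg <;> simpa using w_nat_le w m

theorem w_nat_eq [hp : Fact p.Prime] (h : w (p : L) < 1) {n : ℕ} (hn : ¬p ∣ n) : w n = 1 := by
  refine (w_nat_le w n).antisymm (not_lt.1 fun h1 => ?_)
  obtain ⟨a, b, e⟩ := Nat.isCoprime_iff_coprime.2 (hp.out.coprime_iff_not_dvd.2 hn)
  have e' : (a : L) * p + b * n = 1 := by exact_mod_cast congrArg (Int.cast : ℤ → L) e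
  refine (w.map_add_lt (x := a * p) (y := b * n) ?_ ?_).ne (by rw [e', w.map_one]) <;>
    rw [w.map_mul] <;> exact mul_lt_one_of_nonneg_of_lt_one_right (w_int_le w _) zero_le ‹_›

theorem w_nat_val [hp : Fact p.Prime] (h : w (p : L) < 1) {n : ℕ} (hn : n ≠ 0) :
    w n = w (p : L) ^ padicValNat p n := by
  obtain ⟨e, m, hm, rfl⟩ := Nat.exists_eq_pow_mul_and_not_dvd hn p hp.out.ne_one
  rw [padicValNat.mul (pow_pos hp.out.pos _).ne' (right_ne_zero_of_mul hn), padicValNat.prime_pow,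
    padicValNat.eq_zero_of_not_dvd hm, Nat.cast_mul, w.map_mul, w_nat_eq h hm, Nat.cast_pow,
    w.map_pow, mul_one, add_zero]

theorem exists_gain [CharZero L] [hp : Fact p.Prime] (h : w (p : L) < 1)
    (h' : w π0 ^ (p - 1) < w (p : L)) : ∃ ρ : ℝ≥0, ρ < 1 ∧
      (∀ k : ℕ, w (π0 ^ k / k.factorial) ≤ ρ ^ k) ∧
      ∀ k : ℕ, w (π0 ^ k / (k + 1).factorial) ≤ ρ ^ k := by
  have p1 : p - 1 ≠ 0 := by have := hp.out.two_le; omega
  have q0 : 0 < w (p : L) := zero_le.trans_lt h'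
  obtain ⟨r, hr⟩ : ∃ r : ℝ≥0, r ^ (p - 1) = w (p : L) := ⟨_, NNReal.rpow_inv_natCast_pow _ p1⟩
  have r0 : 0 < r := pos_of_ne_zero fun e => by simp [e, p1, q0.ne] at hr
  have r1 : r ≤ 1 := (pow_lt_one_iff p1).1 (hr ▸ h) |>.le
  have key : ∀ k m : ℕ, (p - 1) * padicValNat p m.factorial ≤ k →
      w (π0 ^ k / m.factorial) ≤ (w π0 / r) ^ k := fun k m hk => by
    rw [map_div₀, w.map_pow, div_pow, w_nat_val h m.factorial_ne_zero, ← hr, ← pow_mul]
    exact div_le_div_of_nonneg_left zero_le (pow_pos r0 _) (pow_le_pow_of_le_one zero_le r1 hk)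
  refine ⟨w π0 / r, (div_lt_one r0).2 (lt_of_pow_lt_pow_left₀ _ r0.le (hr ▸ h')),
    fun k => key k k ?_, fun k => key k _ (Nat.lt_succ_iff.1
      (sub_one_mul_padicValNat_factorial_lt_of_ne_zero p k.succ_ne_zero))⟩
  rw [sub_one_mul_padicValNat_factorial]; omega

/-- bounded sets have elements of maximal valuation -/
theorem IsDisc.exists_max (h : IsDisc w) {T : Set L} (hT : T.Nonempty) {C : ℝ≥0}
    (hC : ∀ z ∈ T, w z ≤ C) : ∃ z ∈ T, ∀ z' ∈ T, w z' ≤ w z := by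
  obtain ⟨ϖ, h0, h1, h2⟩ := h
  have q0 : 0 < w ϖ := (w.pos_iff).2 h0
  by_cases hz : ∀ z ∈ T, z = 0
  · exact hT.imp fun z a => ⟨a, fun z' b => by simp [hz z' b]⟩
  push Not at hz
  obtain ⟨N, hN⟩ := pow_unbounded_of_one_lt C ((one_lt_inv₀ q0).2 h1)
  obtain ⟨m, ⟨z, a, b⟩, hm⟩ := Int.exists_least_of_bdd (P := fun m => ∃ z ∈ T, w z = w ϖ ^ m)
    ⟨-N, fun m ⟨z, a, b⟩ => ((zpow_lt_zpow_iff_right_of_lt_one₀ q0 h1).1 (by
      rw [← b, zpow_neg, zpow_natCast, ← inv_pow]; exact (hC z a).trans_lt hN)).le⟩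
    (let ⟨z, a, b⟩ := hz; (h2 z b).imp fun m c => ⟨z, a, c⟩)
  refine ⟨z, a, fun z' c => ?_⟩
  by_cases e : z' = 0
  · simp [e]
  obtain ⟨m', d⟩ := h2 z' e
  rw [b, d]
  exact zpow_le_zpow_right_of_le_one₀ q0 h1.le (hm m' ⟨z', c, d⟩)

/-- the first coefficient of maximal valuation -/
theorem IsDisc.exists_first (h : IsDisc w) (a : ℕ → L) {C : ℝ≥0} (hC : ∀ k, w (a k) ≤ C) :
    ∃ i, (∀ k, w (a k) ≤ w (a i)) ∧ ∀ k < i, w (a k) < w (a i) := by
  obtain ⟨_, ⟨j, rfl⟩, hj⟩ := h.exists_max (Set.range_nonempty a) (Set.forall_mem_range.2 hC)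
  have : ∃ i, ∀ k, w (a k) ≤ w (a i) := ⟨j, fun k => hj _ ⟨k, rfl⟩⟩
  refine ⟨_, Nat.find_spec this, fun k hk => ?_⟩
  obtain ⟨l, hl⟩ := not_forall.1 (Nat.find_min this hk)
  exact (not_le.1 hl).trans_le (Nat.find_spec this l)

/-- the Gauss norm is multiplicative -/
theorem w_coeff_mul {f g : PowerSeries L} {i j : ℕ}
    (hf : (∀ k, w (f.coeff k) ≤ w (f.coeff i)) ∧ ∀ k < i, w (f.coeff k) < w (f.coeff i))
    (hg : (∀ k, w (g.coeff k) ≤ w (g.coeff j)) ∧ ∀ k < j, w (g.coeff k) < w (g.coeff j)) :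
    w ((f * g).coeff (i + j)) = w (f.coeff i) * w (g.coeff j) := by
  have z : ∀ {f : PowerSeries L} {i}, (∀ k, w (f.coeff k) ≤ w (f.coeff i)) → f.coeff i = 0 →
      f = 0 := fun h e => PowerSeries.ext fun k => by simpa [e] using h k
  by_cases e1 : f.coeff i = 0
  · simp [z hf.1 e1]
  by_cases e2 : g.coeff j = 0
  · simp [z hg.1 e2]
  rw [PowerSeries.coeff_mul, w.map_sum_eq_of_lt (j := (i, j)) (by simp), w.map_mul]
  rintro ⟨a, b⟩ hab
  replace hab : a + b = i + j ∧ ¬(a = i ∧ b = j) := by simpa using hab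
  simp only [w.map_mul]
  rcases lt_or_ge a i with h | h
  · exact mul_lt_mul_of_lt_of_le_of_nonneg_of_pos (hf.2 a h) (hg.1 b) zero_le (w.pos_iff.2 e2)
  · exact mul_lt_mul_of_le_of_lt_of_nonneg_of_pos (hf.1 a)
      (hg.2 b (by omega)) zero_le (w.pos_iff.2 e1)

theorem bound_of_bdd [CharZero L] (h : IsDisc w) (hb : ∀ z, ∃ C, ∀ k, w (dE δ π0 k z) ≤ C)
    (k : ℕ) (z : L) : w (dE δ π0 k z) ≤ w z := by
  by_cases e : z = 0
  · simp [e]
  obtain ⟨i, hi⟩ := h.exists_first _ (hb z).choose_spec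
  obtain ⟨j, hj⟩ := h.exists_first _ (hb z⁻¹).choose_spec
  have h1 := w_coeff_mul (w := w) (f := tau δ π0 z) (g := tau δ π0 z⁻¹) (i := i) (j := j)
    (by simpa using hi) (by simpa using hj)
  rw [← tauHom_apply, ← tauHom_apply, ← map_mul, mul_inv_cancel₀ e, map_one] at h1
  simp only [tauHom_apply, coeff_tau, PowerSeries.coeff_one] at h1
  split_ifs at h1 with h2
  · obtain rfl : i = 0 := by omega
    simpa using hi.1 k
  · have a := hi.1 0
    have b := hj.1 0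
    rw [w.map_zero, eq_comm, mul_eq_zero] at h1
    rcases h1 with h1 | h1
    · simp [h1, e] at a
    · simp [h1, e] at b

theorem bound_holds : BoundStmt := fun p _ L _ _ δ π0 =>
  ⟨⟨(tauHom δ π0).map_one, (tauHom δ π0).map_add, (tauHom δ π0).map_mul⟩, dE_dE δ,
    fun w hw => ⟨exists_gain hw, fun G _ _ _ hd ⟨C, hC⟩ => bound_of_bdd hd fun z =>
      let ⟨c, hc⟩ := (Set.finite_range fun g : G => w (g • z)).bddAbove
      ⟨C * c, fun k => hC k z c fun g => hc ⟨g, rfl⟩⟩⟩⟩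

end P179W
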