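import Vale.Agent.P179W.ChartB

/-!
# P179W : the two charts (`ChartStmt`)
-/

set_option linter.all false

open scoped NNReal Classical
open Filter Topology Polynomial

noncomputable section

namespace P179W

namespace CA

variable {L : Type} [Field L]

theorem y_mem_val {E : WeierstrassCurve L} {x y : L} (h : E.toAffine.Equation x y)
    (V : ValuationSubring L) (hE : CoeffIn E V) (hx : x ∈ V) : y ∈ V := by
  rw [WeierstrassCurve.Affine.equation_iff] at h
  obtain ⟨h1, h2, h3, h4, h6⟩ := hE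
  by_contra hy
  have hy1 : 1 < V.valuation y := not_le.1 fun h => hy ((V.valuation_le_one_iff y).1 h)
  have hle : ∀ z, z ∈ V → V.valuation z ≤ 1 := fun z => (V.valuation_le_one_iff z).2
  have hy0 : 0 < V.valuation y := zero_lt_one.trans hy1
  have e : y * y = -((E.a₁ * x + E.a₃) * y) + (x ^ 3 + E.a₂ * x ^ 2 + E.a₄ * x + E.a₆) := by
    linear_combination h
  have hA : E.a₁ * x + E.a₃ ∈ V := V.add_mem _ _ (V.mul_mem _ _ h1 hx) h3
  have hB : x ^ 3 + E.a₂ * x ^ 2 + E.a₄ * x + E.a₆ ∈ V :=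
    V.add_mem _ _ (V.add_mem _ _ (V.add_mem _ _ (V.toSubring.pow_mem hx 3)
      (V.mul_mem _ _ h2 (V.toSubring.pow_mem hx 2))) (V.mul_mem _ _ h4 hx)) h6
  have hlt : V.valuation y < V.valuation (y * y) := by
    rw [map_mul]; exact lt_mul_of_one_lt_left hy0 hy1
  have : V.valuation (y * y) ≤ V.valuation y := by
    rw [e]
    refine V.valuation.map_add_le ?_ ((hle _ hB).trans hy1.le)
    rw [Valuation.map_neg, map_mul]
    exact mul_le_of_le_one_left' (hle _ hA)
  exact absurd hlt (not_lt.2 this)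

theorem adj_mono_right (K : Set L) {S T : Set L} (h : S ⊆ T) : adj K S ≤ adj K T :=
  Subfield.closure_mono (Set.union_subset_union_right _ h)

theorem mem_adj_left {K : Set L} (T : Set L) {z : L} (h : z ∈ K) : z ∈ adj K T :=
  Subfield.subset_closure (Set.mem_union_left _ h)

theorem mem_adj_right (K : Set L) {T : Set L} {z : L} (h : z ∈ T) : z ∈ adj K T :=
  Subfield.subset_closure (Set.mem_union_right _ h)

theorem adj_inv (K : Set L) (x : L) : adj K {x⁻¹} = adj K {x} := by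
  have : ∀ x : L, adj K {x⁻¹} ≤ adj K {x} := fun x => by
    refine Subfield.closure_le.2 ?_
    rintro z (hz | rfl)
    · exact mem_adj_left _ hz
    · exact inv_mem (mem_adj_right K (Set.mem_singleton x))
  refine le_antisymm (this x) ?_
  simpa using this x⁻¹

theorem finiteDim_aux (F0 : Subfield L) (G : Type) [Group G] [Finite G] [MulSemiringAction G L]
    (y : L) (hy : ∀ g : G, g • y = y) (h0 : ∀ z ∈ F0, ∀ g : G, g • z = z)
    (h : ∀ z, (∀ g : G, g • z = z) → ∃ a ∈ F0, ∃ b ∈ F0, z = a + b * y) :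
    FiniteDimensional F0 L := by
  let F := FixedPoints.subfield G L
  have hle : F0 ≤ F := fun z hz g => h0 z hz g
  letI : Algebra F0 F := (Subfield.inclusion hle).toAlgebra
  haveI : IsScalarTower F0 F L := IsScalarTower.of_algebraMap_eq fun _ => rfl
  haveI : Module.Finite F0 F := by
    let y' : F := ⟨y, hy⟩
    refine ⟨⟨{1, y'}, eq_top_iff.2 fun z _ => ?_⟩⟩
    obtain ⟨a, ha, b, hb, hz⟩ := h z z.2
    have : z = (⟨a, ha⟩ : F0) • (1 : F) + (⟨b, hb⟩ : F0) • y' := by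
      apply Subtype.ext
      rw [hz]
      show _ = a * 1 + b * y
      rw [mul_one]
    rw [this]
    exact add_mem (Submodule.smul_mem _ _ (Submodule.subset_span (by simp)))
      (Submodule.smul_mem _ _ (Submodule.subset_span (by simp)))
  exact Module.Finite.trans F L

theorem exists_gens (A : Subring L) [Module.Finite A (integralClosure A L)] :
    ∃ T : Finset L, (T : Set L) ⊆ (integralClosure A L).toSubring ∧
      ∀ b ∈ (integralClosure A L).toSubring, ∃ a : L → L, (∀ t, a t ∈ A) ∧ b = ∑ t ∈ T, a t * t := by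
  have h : (Subalgebra.toSubmodule (integralClosure A L)).FG :=
    Module.Finite.iff_fg.1 (inferInstanceAs (Module.Finite A (integralClosure A L)))
  obtain ⟨T, hT⟩ := h
  refine ⟨T, fun t ht => ?_, fun b hb => ?_⟩
  · have : t ∈ Submodule.span A (T : Set L) := Submodule.subset_span ht
    rw [hT] at this
    exact this
  · have : b ∈ Submodule.span A (T : Set L) := by rw [hT]; exact hb
    obtain ⟨a, -, ha⟩ := Submodule.mem_span_finset.1 this
    exact ⟨fun t => a t, fun t => (a t).2, ha.symm⟩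

end CA

open CA

namespace Core

variable {p n : ℕ} {L : Type} [Field L] {G : Type} [Group G] [MulSemiringAction G L]
  {R : Type} [Field R] (c : Core p n L G R)

theorem mem_B {u z : L} : z ∈ c.B u ↔ IsIntegral (AS c.w c.K u) z := Iff.rfl

theorem mem_B_iff_val {u z : L} : z ∈ c.B u ↔
    ∀ V : ValuationSubring L, (∀ a ∈ c.K, c.w a ≤ 1 → a ∈ V) → u ∈ V → z ∈ V := by
  rw [mem_B, isIntegral_closure_iff]
  constructor
  · intro h V h1 h2
    refine h V ?_
    rintro a (ha | rfl)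
    · exact h1 a ha.1 ha.2
    · exact h2
  · intro h V hV
    exact h V (fun a h1 h2 => hV a (Or.inl ⟨h1, h2⟩)) (hV u (Or.inr rfl))

theorem gd {u : L} (hu : u = c.x ∨ u = c.x⁻¹) : GD c.w c.K u := by
  have h : GD c.w c.K c.x := ⟨c.wx, c.gauss⟩
  rcases hu with rfl | rfl
  · exact h
  · exact h.inv

theorem adj_u {u : L} (hu : u = c.x ∨ u = c.x⁻¹) :
    adj (c.K : Set L) {u} = adj (c.K : Set L) {c.x} := by
  rcases hu with rfl | rfl
  · rfl
  · exact adj_inv _ _

theorem fix_K {a : L} (ha : a ∈ c.K) (g : G) : g • a = a :=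
  (c.fixed a).2 (mem_adj_left _ ha) g

theorem fix_adj {a : L} (ha : a ∈ adj (c.K : Set L) {c.x}) (g : G) : g • a = a :=
  (c.fixed a).2 (adj_mono_right _ (by simp) ha) g

theorem fix_x (g : G) : g • c.x = c.x := (c.fixed _).2 (mem_adj_right _ (by simp)) g

theorem fix_y (g : G) : g • c.y = c.y := (c.fixed _).2 (mem_adj_right _ (by simp)) g

theorem fix_A {u : L} (hu : u = c.x ∨ u = c.x⁻¹) {a : L} (ha : a ∈ AS c.w c.K u) (g : G) :
    g • a = a :=
  c.fix_adj (by rw [← c.adj_u hu]; exact (c.gd hu).A_le_adj ha) g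

include c in
theorem p_ne [hp : Fact p.Prime] : (p : L) ≠ 0 := by
  haveI := c.charZero
  exact Nat.cast_ne_zero.2 hp.out.ne_zero

theorem ge (hG : GaussEllStmt) :
    (∀ z ∈ adj (c.K : Set L) {c.x, c.y}, ∃ a ∈ adj (c.K : Set L) {c.x},
      ∃ b ∈ adj (c.K : Set L) {c.x}, z = a + b * c.y) ∧
    (∀ a ∈ adj (c.K : Set L) {c.x}, ∀ b ∈ adj (c.K : Set L) {c.x},
      c.w (a + b * c.y) = max (c.w a) (c.w b)) ∧
    (∀ z ∈ adj (c.K : Set L) {c.x, c.y}, ∃ a ∈ c.K, c.w z = c.w a) := by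
  obtain ⟨h1, h2, h3, -⟩ := hG L ℝ≥0 c.w c.K c.E c.x c.y c.coeff_K c.coeff_int c.wΔ c.eqn c.wx
    c.gauss
  exact ⟨h1, h2, h3⟩

theorem finiteDim (hG : GaussEllStmt) : FiniteDimensional (adj (c.K : Set L) {c.x}) L := by
  haveI := c.fin
  exact finiteDim_aux _ G c.y c.fix_y (fun z hz => c.fix_adj hz)
    fun z hz => (c.ge hG).1 z ((c.fixed z).1 hz)

/-- elements all of whose conjugates are `w`-integral are integral over the Gauss ring of `K(x)` -/
theorem int_W0 (hG : GaussEllStmt) {z : L} (hz : ∀ g : G, c.w (g • z) ≤ 1) :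
    IsIntegral (OS c.w (adj (c.K : Set L) {c.x})) z := by
  haveI := c.fin
  haveI := Fintype.ofFinite G
  rw [isIntegral_iff_val]
  intro V hV
  have hK : ∀ a ∈ c.K, c.w a ≤ 1 → a ∈ V := fun a ha hw => hV a ⟨mem_adj_left _ ha, hw⟩
  have hy : c.y ∈ V := by
    obtain ⟨h1, h2, h3, h4, h6⟩ := c.coeff_K
    obtain ⟨h1', h2', h3', h4', h6'⟩ := c.coeff_int
    exact y_mem_val c.eqn V ⟨hK _ h1 h1', hK _ h2 h2', hK _ h3 h3', hK _ h4 h4', hK _ h6 h6'⟩
      (hV _ ⟨mem_adj_right _ rfl, c.wx⟩)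
  refine mem_val_of_monic V (MulSemiringAction.monic_charpoly G z) (fun k => ?_)
    (MulSemiringAction.eval_charpoly G z)
  have h1 : MulSemiringAction.charpoly G z ∈ polys c.w.valuationSubring.toSubring := by
    rw [MulSemiringAction.charpoly_eq]
    exact prod_mem fun g _ => sub_mem (X_mem_polys _) (C_mem_polys (hz g))
  have h2 : c.w ((MulSemiringAction.charpoly G z).coeff k) ≤ 1 := h1 k
  obtain ⟨a, ha, b, hb, hab⟩ := (c.ge hG).1 _
    ((c.fixed _).1 (MulSemiringAction.smul_coeff_charpoly z k))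
  rw [hab, (c.ge hG).2.1 a ha b hb, max_le_iff] at h2
  rw [hab]
  exact V.add_mem _ _ (hV a ⟨ha, h2.1⟩) (V.mul_mem _ _ (hV b ⟨hb, h2.2⟩) hy)

theorem B_stab {u : L} (hu : u = c.x ∨ u = c.x⁻¹) (g : G) {b : L} (hb : b ∈ c.B u) :
    g • b ∈ c.B u := by
  rw [mem_B, isIntegral_iff_val] at hb ⊢
  intro V hV
  refine hb (V.comap (MulSemiringAction.toRingHom G L g)) fun a ha => ?_
  show g • a ∈ V
  rw [c.fix_A hu ha]
  exact hV a ha

theorem B_le_one {u : L} (hu : u = c.x ∨ u = c.x⁻¹) {b : L} (hb : b ∈ c.B u) : c.w b ≤ 1 :=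
  val_le_one_of_isIntegral c.w (fun a ha => (c.gd hu).A_le_one ha) hb

theorem A_le_B (u : L) {a : L} (ha : a ∈ AS c.w c.K u) : a ∈ c.B u := isIntegral_of_mem ha

theorem B_loc (hG : GaussEllStmt) {u : L} (hu : u = c.x ∨ u = c.x⁻¹) {z : L} (hz : c.w z ≤ 1) :
    ∃ s ∈ c.B u, c.w s = 1 ∧ s * z ∈ c.B u := by
  haveI := c.finiteDim hG
  have h1 : IsIntegral (adj (c.K : Set L) {c.x}) z := Algebra.IsIntegral.isIntegral z
  have h2 : IsIntegral (adj (c.K : Set L) {u}).toSubring z := by rw [c.adj_u hu]; exact h1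
  obtain ⟨s, hs, h3, h4⟩ := (c.gd hu).loc0 h2 hz
  exact ⟨s, h3, hs, h4⟩

theorem B_mp [Fact p.Prime] (hG : GaussEllStmt) {u : L} (hu : u = c.x ∨ u = c.x⁻¹) {z : L}
    (h1 : IsIntegral (KS c.K u) z) (h2 : ∀ g : G, c.w (g • z) ≤ 1) : z ∈ c.B u := by
  refine (c.gd hu).mp0 c.disc (natCast_mem c.K p) c.p_ne c.wp h1 ?_
  rw [c.adj_u hu]
  exact c.int_W0 hG h2

theorem int_of_pow_mul [Fact p.Prime] {u z : L} {N : ℕ} (h : (p : L) ^ N * z ∈ c.B u) :
    IsIntegral (KS c.K u) z := by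
  have h1 : IsIntegral (KS c.K u) ((p : L) ^ N * z) := isIntegral_mono (AS_le_KS _ _ _) h
  have h2 : IsIntegral (KS c.K u) ((p : L) ^ N)⁻¹ :=
    isIntegral_of_mem (K_mem_KS u (c.K.inv_mem (c.K.pow_mem (natCast_mem c.K p) N)))
  have h3 := h2.mul h1
  rwa [← mul_assoc, inv_mul_cancel₀ (pow_ne_zero _ c.p_ne), one_mul] at h3

theorem B_fin [Fact p.Prime] (hG : GaussEllStmt) {u : L} (hu : u = c.x ∨ u = c.x⁻¹) :
    IsNoetherianRing (integralClosure (AS c.w c.K u) L) ∧
      Module.Finite (AS c.w c.K u) (integralClosure (AS c.w c.K u) L) := by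
  haveI := c.charZero
  haveI : FiniteDimensional (adj (c.K : Set L) {u}) L := by
    rw [c.adj_u hu]; exact c.finiteDim hG
  exact ((c.gd hu).closed_fin c.disc (natCast_mem c.K p) c.p_ne c.wp).2

end Core

theorem chart_of (hG : GaussEllStmt) : ChartStmt := by
  intro p _ n _ L _ G _ _ R _ c u hu
  refine ⟨⟨(c.B_fin hG hu).1, fun g b hb => c.B_stab hu g hb, fun b hb => c.B_le_one hu hb,
    fun z => ?_, fun z N h1 h2 => c.B_mp hG hu (c.int_of_pow_mul h1) h2,
    fun z hz => c.B_loc hG hu hz⟩, ?_, fun z hz => ?_, fun y hy _ => ?_⟩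
  · obtain ⟨N, hN⟩ := exists_pow_mul_le c.wp z
    obtain ⟨s, hs, hs1, hsz⟩ := c.B_loc hG hu hN
    refine ⟨s * (p : L) ^ N, mul_mem hs (pow_mem (natCast_mem _ p) N), mul_ne_zero ?_
      (pow_ne_zero _ c.p_ne), by rwa [mul_assoc]⟩
    rintro rfl
    simp at hs1
  · haveI := (c.B_fin hG hu).2
    exact exists_gens (AS c.w c.K u)
  · refine (c.gd hu).int_K (natCast_mem c.K p) c.wp ?_
    rw [isIntegral_closure_iff]
    exact fun V hV => hz V (fun a ha => hV a (Or.inl ha)) (hV u (Or.inr rfl))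
  · obtain ⟨b, hb, hA, h1⟩ := (c.gd hu).max0 y hy
    exact ⟨b, hb, c.fix_A hu hA, h1⟩

end P179W

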