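import Vale.Agent.P179W.Stmts

/-!
# P179W : integrality in a field (valuative criterion, polynomial subrings, minimal polynomials)
-/

set_option linter.all false

open scoped NNReal Classical
open Filter Topology Polynomial

noncomputable section

namespace P179W

namespace CA

variable {L : Type} [Field L]

/-- polynomials with coefficients in a subring come from the subring -/
theorem exists_map (S : Subring L) (f : L[X]) (hf : ∀ k, f.coeff k ∈ S) :
    ∃ g : S[X], g.map S.subtype = f ∧ (f.Monic → g.Monic) := by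
  have h : (↑f.coeffs : Set L) ⊆ S := by
    intro c hc
    obtain ⟨k, -, rfl⟩ := mem_coeffs_iff.1 hc
    exact hf k
  exact ⟨f.toSubring S h, map_toSubring f S h, fun hm => (monic_toSubring f S h).2 hm⟩

theorem coeff_map_mem (S : Subring L) (g : S[X]) (k : ℕ) : (g.map S.subtype).coeff k ∈ S := by
  rw [coeff_map]; exact (g.coeff k).2

/-- the polynomials with coefficients in `S` -/
def polys (S : Subring L) : Subring L[X] where
  carrier := {f | ∀ k, f.coeff k ∈ S}
  one_mem' := by
    intro k
    rw [coeff_one]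
    split_ifs
    · exact S.one_mem
    · exact S.zero_mem
  zero_mem' := fun k => by simpa using S.zero_mem
  add_mem' := fun ha hb k => by rw [coeff_add]; exact S.add_mem (ha k) (hb k)
  neg_mem' := fun ha k => by rw [coeff_neg]; exact S.neg_mem (ha k)
  mul_mem' := fun ha hb k => by
    rw [coeff_mul]
    exact S.sum_mem fun c _ => S.mul_mem (ha _) (hb _)

theorem mem_polys {S : Subring L} {f : L[X]} : f ∈ polys S ↔ ∀ k, f.coeff k ∈ S := Iff.rfl

theorem X_mem_polys (S : Subring L) : (X : L[X]) ∈ polys S := by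
  intro k
  rw [coeff_X]
  split_ifs
  · exact S.one_mem
  · exact S.zero_mem

theorem C_mem_polys {S : Subring L} {c : L} (hc : c ∈ S) : C c ∈ polys S := by
  intro k
  rw [coeff_C]
  split_ifs
  · exact hc
  · exact S.zero_mem

theorem eval_mem {S : Subring L} {f : L[X]} (hf : ∀ k, f.coeff k ∈ S) {u : L} (hu : u ∈ S) :
    f.eval u ∈ S := by
  rw [eval_eq_sum_range]
  exact S.sum_mem fun k _ => S.mul_mem (hf k) (S.pow_mem hu k)

theorem mem_closure_iff (S : Subring L) (u a : L) :
    a ∈ Subring.closure ((S : Set L) ∪ {u}) ↔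
      ∃ f : L[X], (∀ k, f.coeff k ∈ S) ∧ f.eval u = a := by
  constructor
  · intro ha
    have : Subring.closure ((S : Set L) ∪ {u}) ≤ (polys S).map (evalRingHom u) := by
      rw [Subring.closure_le]
      rintro z (hz | rfl)
      · exact ⟨C z, C_mem_polys hz, by simp⟩
      · exact ⟨X, X_mem_polys S, by simp⟩
    obtain ⟨f, hf, rfl⟩ := this ha
    exact ⟨f, hf, rfl⟩
  · rintro ⟨f, hf, rfl⟩
    exact eval_mem (fun k => Subring.subset_closure (Set.mem_union_left _ (hf k)))
      (Subring.subset_closure (Set.mem_union_right _ rfl))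

theorem isIntegral_iff (S : Subring L) (z : L) :
    IsIntegral S z ↔ ∃ f : L[X], f.Monic ∧ (∀ k, f.coeff k ∈ S) ∧ f.eval z = 0 := by
  constructor
  · rintro ⟨g, hg, hz⟩
    exact ⟨g.map S.subtype, hg.map _, coeff_map_mem S g, by rw [eval_map]; exact hz⟩
  · rintro ⟨f, hf, hc, hz⟩
    obtain ⟨g, rfl, hg⟩ := exists_map S f hc
    exact ⟨g, hg hf, by rw [eval_map] at hz; exact hz⟩

theorem isIntegral_mono {S T : Subring L} (h : S ≤ T) {z : L} (hz : IsIntegral S z) :
    IsIntegral T z := by
  obtain ⟨f, hf, hc, hz⟩ := (isIntegral_iff S z).1 hz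
  exact (isIntegral_iff T z).2 ⟨f, hf, fun k => h (hc k), hz⟩

theorem isIntegral_of_mem {S : Subring L} {z : L} (hz : z ∈ S) : IsIntegral S z :=
  isIntegral_algebraMap (x := (⟨z, hz⟩ : S))

/-- valuation rings are integrally closed -/
theorem mem_val_of_isIntegral {S : Subring L} (V : ValuationSubring L) (h : ∀ a ∈ S, a ∈ V)
    {z : L} (hz : IsIntegral S z) : z ∈ V := by
  have h1 : IsIntegral V.toSubring z := isIntegral_mono (fun a ha => h a ha) hz
  have h2 : IsIntegral V z := h1
  obtain ⟨y, rfl⟩ := (IsIntegrallyClosed.isIntegral_iff (R := V) (K := L)).1 h2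
  exact y.2

theorem mem_val_of_monic (V : ValuationSubring L) {f : L[X]} (hf : f.Monic)
    (hc : ∀ k, f.coeff k ∈ V) {z : L} (hz : f.eval z = 0) : z ∈ V :=
  mem_val_of_isIntegral (S := V.toSubring) V (fun _ h => h)
    ((isIntegral_iff _ _).2 ⟨f, hf, hc, hz⟩)

/-- the valuative criterion -/
theorem isIntegral_closure_iff (s : Set L) (z : L) :
    IsIntegral (Subring.closure s) z ↔ ∀ V : ValuationSubring L, (∀ a ∈ s, a ∈ V) → z ∈ V := by
  constructor
  · intro hz V hV
    refine mem_val_of_isIntegral V (fun a ha => ?_) hz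
    have : Subring.closure s ≤ V.toSubring := Subring.closure_le.2 hV
    exact this ha
  · intro h
    have h1 : z ∈ (integralClosure (Subring.closure s) L).toSubring := by
      rw [← iInf_valuationSubring_superset, Subring.mem_iInf]
      exact fun V => h V.1 V.2
    exact h1

theorem isIntegral_iff_val (S : Subring L) (z : L) :
    IsIntegral S z ↔ ∀ V : ValuationSubring L, (∀ a ∈ S, a ∈ V) → z ∈ V := by
  have := isIntegral_closure_iff (S : Set L) z
  rwa [Subring.closure_eq] at this

theorem val_le_one_of_isIntegral {Γ : Type} [LinearOrderedCommGroupWithZero Γ]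
    (w : Valuation L Γ) {S : Subring L} (h : ∀ a ∈ S, w a ≤ 1) {z : L} (hz : IsIntegral S z) :
    w z ≤ 1 :=
  (mem_val_of_isIntegral w.valuationSubring h hz : z ∈ w.valuationSubring)

/-- the minimal polynomial over a subfield -/
theorem exists_minpoly (F : Subfield L) {z : L} (hz : IsIntegral F.toSubring z) :
    ∃ q : L[X], q.Monic ∧ (∀ k, q.coeff k ∈ F) ∧ q.eval z = 0 ∧
      ∀ S : Subring L, S ≤ F.toSubring → IsIntegral S z → ∀ k, IsIntegral S (q.coeff k) := by
  have hz' : IsIntegral F z := hz
  refine ⟨(minpoly F z).map F.subtype, (minpoly.monic hz').map _, fun k => ?_, ?_, ?_⟩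
  · rw [coeff_map]; exact ((minpoly F z).coeff k).2
  · rw [eval_map]; exact minpoly.aeval F z
  · rintro S hS ⟨g, hg, hgz⟩ k
    refine isIntegral_coeff_of_dvd g _ hg ((minpoly.monic hz').map _) ?_ k
    have h1 : minpoly F z ∣ g.map (Subring.inclusion hS) := by
      refine minpoly.dvd F z ?_
      rw [aeval_def, eval₂_map]
      exact hgz
    have h2 := Polynomial.map_dvd F.subtype h1
    rw [Polynomial.map_map] at h2
    exact h2

/-- `S[u]` is a polynomial ring -/
theorem nonempty_equiv (S : Subring L) (u : L)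
    (hu : ∀ f : L[X], (∀ k, f.coeff k ∈ S) → f.eval u = 0 → f = 0) :
    Nonempty (S[X] ≃+* Subring.closure ((S : Set L) ∪ {u})) := by
  let φ : S[X] →+* L := eval₂RingHom S.subtype u
  have hφ : ∀ g : S[X], φ g = (g.map S.subtype).eval u := fun g => by
    rw [eval_map]; rfl
  have hr : φ.range = Subring.closure ((S : Set L) ∪ {u}) := by
    ext a
    rw [mem_closure_iff]
    constructor
    · rintro ⟨g, rfl⟩
      exact ⟨_, coeff_map_mem S g, (hφ g).symm⟩
    · rintro ⟨f, hf, rfl⟩
      obtain ⟨g, rfl, -⟩ := exists_map S f hf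
      exact ⟨g, hφ g⟩
  have hinj : Function.Injective φ := by
    rw [injective_iff_map_eq_zero]
    intro g hg
    rw [hφ] at hg
    exact (Polynomial.map_eq_zero_iff S.subtype_injective).1 (hu _ (coeff_map_mem S g) hg)
  exact ⟨(RingEquiv.ofBijective φ.rangeRestrict
    ⟨fun a b h => hinj (congrArg Subtype.val h), φ.rangeRestrict_surjective⟩).trans
      (RingEquiv.subringCongr hr)⟩

/-- the localisation trick: an element of a valuation ring is a quotient of integral elements -/
theorem exists_denom {Γ : Type} [LinearOrderedCommGroupWithZero Γ] (w : Valuation L Γ)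
    (f : L[X]) (hf : ∀ k, w (f.coeff k) ≤ 1) (h1 : ∃ k, w (f.coeff k) = 1) {z : L}
    (hz : f.eval z = 0) (hw : w z ≤ 1) :
    ∃ s, w s = 1 ∧ ∀ V : ValuationSubring L, (∀ k, f.coeff k ∈ V) → s ∈ V ∧ s * z ∈ V := by
  have hex : ∃ j, w (f.coeff j) = 1 ∧ ∀ i, j < i → w (f.coeff i) < 1 := by
    obtain ⟨k, hk⟩ := h1
    have hle : ∀ i, w (f.coeff i) = 1 → i ≤ f.natDegree := fun i hi =>
      le_natDegree_of_ne_zero (by intro h; rw [h, map_zero] at hi; exact zero_ne_one hi)
    refine ⟨Nat.findGreatest (fun i => w (f.coeff i) = 1) f.natDegree,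
      Nat.findGreatest_spec (P := fun i => w (f.coeff i) = 1) (hle k hk) hk, fun i hi => ?_⟩
    refine lt_of_le_of_ne (hf i) fun h => ?_
    exact Nat.findGreatest_is_greatest hi (hle i h) h
  obtain ⟨j, hj, hj'⟩ := hex
  have hjd : j ≤ f.natDegree :=
    le_natDegree_of_ne_zero (by intro h; rw [h, map_zero] at hj; exact zero_ne_one hj)
  obtain ⟨m, hm⟩ := Nat.exists_eq_add_of_le hjd
  set s := ∑ k ∈ Finset.range (m + 1), f.coeff (j + k) * z ^ k with hs
  have key : ∑ i ∈ Finset.range j, f.coeff i * z ^ i + s * z ^ j = 0 := by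
    rw [← hz, eval_eq_sum_range, hm, add_assoc, Finset.sum_range_add, hs, Finset.sum_mul]
    congr 1
    refine Finset.sum_congr rfl fun k _ => ?_
    rw [pow_add]; ring
  refine ⟨s, ?_, fun V hV => ?_⟩
  · rw [hs, Finset.sum_range_succ', pow_zero, mul_one, add_zero, add_comm,
      Valuation.map_add_eq_of_lt_left, hj]
    rw [hj]
    refine w.map_sum_lt one_ne_zero fun k _ => ?_
    rw [map_mul, map_pow]
    exact mul_lt_one_of_lt_of_le (hj' _ (by omega)) (pow_le_one₀ zero_le hw)
  · by_cases hzV : z ∈ V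
    · have : s ∈ V := by
        rw [hs]
        exact V.toSubring.sum_mem fun k _ => V.toSubring.mul_mem (hV _) (V.toSubring.pow_mem hzV k)
      exact ⟨this, V.mul_mem _ _ this hzV⟩
    · have hi : z⁻¹ ∈ V := (V.mem_or_inv_mem z).resolve_left hzV
      have h0 : z ≠ 0 := by rintro rfl; exact hzV V.zero_mem
      have h2 : s * z = -∑ i ∈ Finset.range j, f.coeff i * z⁻¹ ^ (j - 1 - i) := by
        have h3 : z ^ j ≠ 0 := pow_ne_zero _ h0
        apply mul_right_cancel₀ h3
        have h4 : s * z * z ^ j = -(∑ i ∈ Finset.range j, f.coeff i * z ^ i) * z := by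
          linear_combination z * key
        rw [h4, neg_mul, neg_mul, Finset.sum_mul, Finset.sum_mul]
        congr 1
        refine Finset.sum_congr rfl fun i hi => ?_
        have hi' := Finset.mem_range.1 hi
        obtain ⟨r, rfl⟩ := Nat.exists_eq_add_of_lt hi'
        have : i + r + 1 - 1 - i = r := by omega
        rw [this, pow_succ, pow_add, inv_pow]
        field_simp
      have h5 : s * z ∈ V := by
        rw [h2]
        exact V.neg_mem _ (V.toSubring.sum_mem fun i _ =>
          V.toSubring.mul_mem (hV _) (V.toSubring.pow_mem hi _))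
      refine ⟨?_, h5⟩
      have : s = s * z * z⁻¹ := by field_simp
      rw [this]
      exact V.mul_mem _ _ h5 hi

end CA

end P179W
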