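import Vale.Agent.P179W.ChartA

/-!
# P179W : the ring `O[u]` for a Gauss point `u`
-/

set_option linter.all false

open scoped NNReal Classical
open Filter Topology Polynomial

noncomputable section

namespace P179W

namespace CA

variable {L : Type} [Field L]

/-- the ring of integers of `K` -/
def OS (w : Valuation L ℝ≥0) (K : Subfield L) : Subring L where
  carrier := {z | z ∈ K ∧ w z ≤ 1}
  one_mem' := ⟨K.one_mem, by simp⟩
  zero_mem' := ⟨K.zero_mem, by simp⟩
  add_mem' := fun ha hb => ⟨K.add_mem ha.1 hb.1, w.map_add_le ha.2 hb.2⟩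
  neg_mem' := fun ha => ⟨K.neg_mem ha.1, by rw [w.map_neg]; exact ha.2⟩
  mul_mem' := fun ha hb => ⟨K.mul_mem ha.1 hb.1, by rw [map_mul]; exact mul_le_one' ha.2 hb.2⟩

theorem mem_OS {w : Valuation L ℝ≥0} {K : Subfield L} {z : L} :
    z ∈ OS w K ↔ z ∈ K ∧ w z ≤ 1 := Iff.rfl

/-- `O[u]` -/
abbrev AS (w : Valuation L ℝ≥0) (K : Subfield L) (u : L) : Subring L :=
  Subring.closure ((OS w K : Set L) ∪ {u})

/-- `K[u]` -/
abbrev KS (K : Subfield L) (u : L) : Subring L := Subring.closure ((K : Set L) ∪ {u})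

theorem mem_KS {K : Subfield L} {u a : L} :
    a ∈ KS K u ↔ ∃ f : L[X], (∀ k, f.coeff k ∈ K) ∧ f.eval u = a :=
  mem_closure_iff K.toSubring u a

theorem mem_AS {w : Valuation L ℝ≥0} {K : Subfield L} {u a : L} :
    a ∈ AS w K u ↔ ∃ f : L[X], (∀ k, f.coeff k ∈ K ∧ w (f.coeff k) ≤ 1) ∧ f.eval u = a :=
  mem_closure_iff (OS w K) u a

theorem AS_le_KS (w : Valuation L ℝ≥0) (K : Subfield L) (u : L) : AS w K u ≤ KS K u :=
  Subring.closure_mono (Set.union_subset_union_left _ fun _ h => h.1)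

theorem K_mem_KS {K : Subfield L} (u : L) {c : L} (hc : c ∈ K) : c ∈ KS K u :=
  Subring.subset_closure (Set.mem_union_left _ hc)

theorem O_mem_AS {w : Valuation L ℝ≥0} {K : Subfield L} (u : L) {c : L} (hc : c ∈ K)
    (hw : w c ≤ 1) : c ∈ AS w K u :=
  Subring.subset_closure (Set.mem_union_left _ ⟨hc, hw⟩)

theorem u_mem_AS (w : Valuation L ℝ≥0) (K : Subfield L) (u : L) : u ∈ AS w K u :=
  Subring.subset_closure (Set.mem_union_right _ rfl)

theorem KS_le_adj (K : Subfield L) (u : L) : KS K u ≤ (adj (K : Set L) {u}).toSubring :=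
  Subring.closure_le.2 Subfield.subset_closure

theorem mem_adj_iff {K : Subfield L} {u z : L} :
    z ∈ adj (K : Set L) {u} ↔ ∃ a ∈ KS K u, ∃ b ∈ KS K u, b ≠ 0 ∧ z = a / b := by
  constructor
  · intro hz
    obtain ⟨a, ha, b, hb, rfl⟩ := Subfield.mem_closure_iff.1 hz
    by_cases h : b = 0
    · exact ⟨0, zero_mem _, 1, one_mem _, one_ne_zero, by simp [h]⟩
    · exact ⟨a, ha, b, hb, h, rfl⟩
  · rintro ⟨a, ha, b, hb, -, rfl⟩
    exact div_mem (KS_le_adj K u ha) (KS_le_adj K u hb)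

theorem exists_pow_mul_le {w : Valuation L ℝ≥0} {π : L} (hπ : w π < 1) (c : L) :
    ∃ N : ℕ, w (π ^ N * c) ≤ 1 := by
  by_cases hc : w c = 0
  · exact ⟨0, by simp [hc]⟩
  obtain ⟨N, hN⟩ := exists_pow_lt₀ hπ (Units.mk0 (w c)⁻¹ (inv_ne_zero hc))
  refine ⟨N, ?_⟩
  rw [map_mul, map_pow]
  have h : w π ^ N ≤ (w c)⁻¹ := hN.le
  calc w π ^ N * w c ≤ (w c)⁻¹ * w c := mul_le_mul_left h _
    _ = 1 := inv_mul_cancel₀ hc

theorem pow_mul_le_mono {w : Valuation L ℝ≥0} {π : L} (hπ : w π ≤ 1) {c : L} {N M : ℕ}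
    (h : w (π ^ N * c) ≤ 1) (hNM : N ≤ M) : w (π ^ M * c) ≤ 1 := by
  obtain ⟨r, rfl⟩ := Nat.exists_eq_add_of_le hNM
  rw [add_comm, pow_add, mul_assoc, map_mul, map_pow]
  exact mul_le_one' (pow_le_one₀ zero_le hπ) h

/-- the ring of integers of a subfield of a discretely valued field is principal -/
theorem OS_pid {w : Valuation L ℝ≥0} (hd : IsDisc w) (K : Subfield L) :
    IsPrincipalIdealRing (OS w K) := by
  obtain ⟨ϖ, h0, h1, hϖ⟩ := hd
  have hw0 : 0 < w ϖ := zero_lt_iff.2 ((map_ne_zero w).2 h0)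
  refine ⟨fun I => ?_⟩
  by_cases hI : I = ⊥
  · rw [hI]; exact bot_isPrincipal
  have hex : ∃ m : ℕ, ∃ a ∈ I, w (a : L) = w ϖ ^ m := by
    obtain ⟨a, ha, ha0⟩ := Submodule.exists_mem_ne_zero_of_ne_bot hI
    obtain ⟨m, hm⟩ := hϖ a (fun h => ha0 (Subtype.ext h))
    have hm0 : 0 ≤ m := by
      have := a.2.2
      rw [hm] at this
      exact (zpow_le_one_iff_right_of_lt_one₀ hw0 h1).1 this
    obtain ⟨m, rfl⟩ := Int.eq_ofNat_of_zero_le hm0
    exact ⟨m, a, ha, by rw [hm, zpow_natCast]⟩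
  obtain ⟨a, ha, hm⟩ := Nat.find_spec hex
  have ha0 : (a : L) ≠ 0 := by
    intro h
    rw [h, map_zero] at hm
    exact (pow_pos hw0 _).ne hm
  refine ⟨a, le_antisymm (fun b hb => ?_) ((Ideal.span_singleton_le_iff_mem _).2 ha)⟩
  have hle : w (b : L) ≤ w (a : L) := by
    by_cases hb0 : (b : L) = 0
    · rw [hb0, map_zero]; exact zero_le
    obtain ⟨m, hm'⟩ := hϖ b hb0
    have hm0 : 0 ≤ m := by
      have := b.2.2
      rw [hm'] at this
      exact (zpow_le_one_iff_right_of_lt_one₀ hw0 h1).1 this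
    obtain ⟨m, rfl⟩ := Int.eq_ofNat_of_zero_le hm0
    rw [zpow_natCast] at hm'
    rw [hm', hm]
    exact pow_le_pow_right_of_le_one' h1.le (Nat.find_min' hex ⟨b, hb, hm'⟩)
  refine Ideal.mem_span_singleton'.2 ⟨⟨(b : L) / a, K.div_mem b.2.1 a.2.1, ?_⟩, ?_⟩
  · rw [map_div₀]
    exact div_le_one_of_le₀ hle zero_le
  · exact Subtype.ext (div_mul_cancel₀ _ ha0)

theorem closed_fin_aux (A : Subring L) (F : Subfield L) (hle : A ≤ F.toSubring)
    [IsNoetherianRing A] [IsIntegrallyClosed A] (hfr : ∀ z ∈ F, ∃ a ∈ A, ∃ b ∈ A, z = a / b) :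
    (∀ z ∈ F, IsIntegral A z → z ∈ A) ∧
    ([CharZero L] → [FiniteDimensional F L] →
      IsNoetherianRing (integralClosure A L) ∧ Module.Finite A (integralClosure A L)) := by
  let ι : A →+* F := Subring.inclusion hle
  letI : Algebra A F := ι.toAlgebra
  haveI : IsScalarTower A F L := IsScalarTower.of_algebraMap_eq fun _ => rfl
  haveI : FaithfulSMul A F :=
    (faithfulSMul_iff_algebraMap_injective _ _).2 (Subring.inclusion_injective hle)
  haveI : IsFractionRing A F := by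
    refine IsFractionRing.of_field _ _ fun z => ?_
    obtain ⟨a, ha, b, hb, hz⟩ := hfr z z.2
    exact ⟨⟨a, ha⟩, ⟨b, hb⟩, Subtype.ext hz⟩
  refine ⟨fun z hz hi => ?_, ?_⟩
  · have h1 : IsIntegral A (⟨z, hz⟩ : F) :=
      (isIntegral_algHom_iff (IsScalarTower.toAlgHom A F L) Subtype.val_injective).1 hi
    obtain ⟨y, hy⟩ := IsIntegrallyClosed.isIntegral_iff.1 h1
    have : (y : L) = z := congrArg Subtype.val hy
    rw [← this]; exact y.2
  · intro _ _
    exact ⟨IsIntegralClosure.isNoetherianRing A F L _, IsIntegralClosure.finite A F L _⟩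

/-- `u` is a Gauss point over `K` -/
structure GD (w : Valuation L ℝ≥0) (K : Subfield L) (u : L) : Prop where
  wu : w u ≤ 1
  gauss : ∀ f : L[X], (∀ k, f.coeff k ∈ K) → ∀ k, w (f.coeff k) ≤ w (f.eval u)

namespace GD

variable {w : Valuation L ℝ≥0} {K : Subfield L} {u : L} (h : GD w K u)
include h

theorem transc (f : L[X]) (hf : ∀ k, f.coeff k ∈ K) (h0 : f.eval u = 0) : f = 0 := by
  ext k
  have := h.gauss f hf k
  rw [h0, map_zero] at this
  simpa using this

theorem w_u : w u = 1 := by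
  refine le_antisymm h.wu ?_
  have := h.gauss X (X_mem_polys K.toSubring) 1
  simpa using this

theorem u_ne : u ≠ 0 := by
  intro h0
  have := h.w_u
  rw [h0, map_zero] at this
  exact zero_ne_one this

theorem inv : GD w K u⁻¹ := by
  refine ⟨by rw [map_inv₀, h.w_u, inv_one], fun f hf k => ?_⟩
  by_cases hk : k ≤ f.natDegree
  · have h1 := h.gauss f.reverse (fun j => by rw [coeff_reverse]; exact hf _) (f.natDegree - k)
    rw [coeff_reverse, revAt_le (Nat.sub_le _ _), Nat.sub_sub_self hk] at h1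
    letI := invertibleOfNonzero (inv_ne_zero h.u_ne)
    have h2 := eval₂_reverse_mul_pow (RingHom.id L) u⁻¹ f
    rw [invOf_eq_inv, inv_inv, eval₂_id, eval₂_id] at h2
    rw [← h2, map_mul, map_pow, map_inv₀, h.w_u, inv_one, one_pow, mul_one]
    exact h1
  · rw [coeff_eq_zero_of_natDegree_lt (not_le.1 hk), map_zero]
    exact zero_le

theorem A_le_one {a : L} (ha : a ∈ AS w K u) : w a ≤ 1 := by
  have : AS w K u ≤ w.valuationSubring.toSubring := by
    rw [Subring.closure_le]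
    rintro z (hz | rfl)
    · exact hz.2
    · exact h.wu
  exact this ha

theorem mem_A_of_le {a : L} (ha : a ∈ KS K u) (hw : w a ≤ 1) : a ∈ AS w K u := by
  obtain ⟨f, hf, rfl⟩ := mem_KS.1 ha
  exact mem_AS.2 ⟨f, fun k => ⟨hf k, (h.gauss f hf k).trans hw⟩, rfl⟩

theorem exists_val {a : L} (ha : a ∈ KS K u) : ∃ c ∈ K, w a = w c := by
  obtain ⟨f, hf, rfl⟩ := mem_KS.1 ha
  obtain ⟨k, -, hk⟩ := (Finset.range (f.natDegree + 1)).exists_max_image
    (fun k => w (f.coeff k)) ⟨0, by simp⟩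
  refine ⟨f.coeff k, hf k, le_antisymm ?_ (h.gauss f hf k)⟩
  rw [eval_eq_sum_range]
  refine w.map_sum_le fun i hi => ?_
  rw [map_mul, map_pow, h.w_u, one_pow, mul_one]
  exact hk i hi

theorem exists_val_adj {z : L} (hz : z ∈ adj (K : Set L) {u}) : ∃ c ∈ K, w z = w c := by
  obtain ⟨a, ha, b, hb, -, rfl⟩ := mem_adj_iff.1 hz
  obtain ⟨c, hc, hca⟩ := h.exists_val ha
  obtain ⟨d, hd, hdb⟩ := h.exists_val hb
  exact ⟨c / d, K.div_mem hc hd, by rw [map_div₀, map_div₀, hca, hdb]⟩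

/-- elements of `K(u)` have a denominator in `O[u]` which is a unit for `w` -/
theorem exists_unit_denom {z : L} (hz : z ∈ adj (K : Set L) {u}) :
    ∃ b ∈ AS w K u, w b = 1 ∧ b * z ∈ KS K u := by
  obtain ⟨a, ha, b, hb, hb0, rfl⟩ := mem_adj_iff.1 hz
  obtain ⟨d, hd, hdb⟩ := h.exists_val hb
  have hd0 : w d ≠ 0 := by rw [← hdb]; exact (map_ne_zero w).2 hb0
  have h1 : w (d⁻¹ * b) = 1 := by rw [map_mul, map_inv₀, hdb, inv_mul_cancel₀ hd0]
  refine ⟨d⁻¹ * b, h.mem_A_of_le (mul_mem (K_mem_KS u (K.inv_mem hd)) hb) h1.le, h1, ?_⟩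
  rw [mul_assoc, mul_div_cancel₀ _ hb0]
  exact mul_mem (K_mem_KS u (K.inv_mem hd)) ha

theorem exists_pow_mem {π : L} (hπ : π ∈ K) (hw : w π < 1) {a : L} (ha : a ∈ KS K u) :
    ∃ N : ℕ, ∀ M, N ≤ M → π ^ M * a ∈ AS w K u := by
  obtain ⟨N, hN⟩ := exists_pow_mul_le hw a
  exact ⟨N, fun M hM => h.mem_A_of_le (mul_mem (K_mem_KS u (K.pow_mem hπ M)) ha)
    (pow_mul_le_mono hw.le hN hM)⟩

/-- integral over `K[u]` implies integral over `O[u]` after multiplication by a power of `π` -/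
theorem int_K {π : L} (hπ : π ∈ K) (hw : w π < 1) {z : L} (hz : IsIntegral (KS K u) z) :
    ∃ N : ℕ, IsIntegral (AS w K u) (π ^ N * z) := by
  obtain ⟨f, hf, hc, hz⟩ := (isIntegral_iff _ _).1 hz
  choose N hN using fun k => h.exists_pow_mem hπ hw (hc k)
  let M := (Finset.range (f.natDegree + 1)).sup N
  refine ⟨M, (isIntegral_iff _ _).2 ⟨f.scaleRoots (π ^ M), (monic_scaleRoots_iff _).2 hf,
    fun k => ?_, ?_⟩⟩
  · rw [coeff_scaleRoots]
    rcases lt_trichotomy k f.natDegree with hk | rfl | hk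
    · rw [← pow_mul, mul_comm]
      refine hN k _ ?_
      have h1 : N k ≤ M := Finset.le_sup (f := N) (Finset.mem_range.2 (by omega))
      exact h1.trans (Nat.le_mul_of_pos_right _ (by omega))
    · rw [hf.coeff_natDegree, Nat.sub_self, pow_zero, mul_one]; exact one_mem _
    · rw [coeff_eq_zero_of_natDegree_lt hk, zero_mul]; exact zero_mem _
  · have := scaleRoots_eval_mul f z (π ^ M)
    rw [this, hz, mul_zero]

theorem equiv : Nonempty ((OS w K)[X] ≃+* AS w K u) :=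
  nonempty_equiv (OS w K) u fun f hf => h.transc f fun k => (hf k).1

theorem A_noeth (hd : IsDisc w) : IsNoetherianRing (AS w K u) := by
  obtain ⟨e⟩ := h.equiv
  haveI := OS_pid hd K
  exact isNoetherianRing_of_ringEquiv _ e

theorem A_closed (hd : IsDisc w) : IsIntegrallyClosed (AS w K u) := by
  obtain ⟨e⟩ := h.equiv
  haveI := OS_pid hd K
  exact IsIntegrallyClosed.of_equiv e

theorem A_le_adj : AS w K u ≤ (adj (K : Set L) {u}).toSubring :=
  (AS_le_KS w K u).trans (KS_le_adj K u)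

theorem exists_frac {π : L} (hπ : π ∈ K) (h0 : π ≠ 0) (hw : w π < 1) {z : L}
    (hz : z ∈ adj (K : Set L) {u}) : ∃ a ∈ AS w K u, ∃ b ∈ AS w K u, b ≠ 0 ∧ z = a / b := by
  obtain ⟨a, ha, b, hb, hb0, rfl⟩ := mem_adj_iff.1 hz
  obtain ⟨N, hN⟩ := h.exists_pow_mem hπ hw ha
  obtain ⟨M, hM⟩ := h.exists_pow_mem hπ hw hb
  refine ⟨_, hN (max N M) (le_max_left _ _), _, hM (max N M) (le_max_right _ _),
    mul_ne_zero (pow_ne_zero _ h0) hb0, ?_⟩
  rw [mul_div_mul_left _ _ (pow_ne_zero _ h0)]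

/-- `O[u]` is integrally closed in `K(u)`; finiteness of the integral closure -/
theorem closed_fin (hd : IsDisc w) {π : L} (hπ : π ∈ K) (h0 : π ≠ 0) (hw : w π < 1) :
    (∀ z ∈ adj (K : Set L) {u}, IsIntegral (AS w K u) z → z ∈ AS w K u) ∧
    ([CharZero L] → [FiniteDimensional (adj (K : Set L) {u}) L] →
      IsNoetherianRing (integralClosure (AS w K u) L) ∧
      Module.Finite (AS w K u) (integralClosure (AS w K u) L)) := by
  haveI := h.A_noeth hd
  haveI := h.A_closed hd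
  exact closed_fin_aux _ _ h.A_le_adj fun z hz => by
    obtain ⟨a, ha, b, hb, -, hz⟩ := h.exists_frac hπ h0 hw hz
    exact ⟨a, ha, b, hb, hz⟩

/-- `O[u] = K[u] ∩ O_w`, for integral elements -/
theorem mp0 (hd : IsDisc w) {π : L} (hπ : π ∈ K) (h0 : π ≠ 0) (hw : w π < 1) {z : L}
    (h1 : IsIntegral (KS K u) z) (h2 : IsIntegral (OS w (adj (K : Set L) {u})) z) :
    IsIntegral (AS w K u) z := by
  obtain ⟨q, hq, hc, hz, hS⟩ := exists_minpoly (adj (K : Set L) {u})
    (isIntegral_mono (KS_le_adj K u) h1)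
  refine (isIntegral_iff _ _).2 ⟨q, hq, fun k => ?_, hz⟩
  obtain ⟨N, hN⟩ := h.int_K hπ hw (hS _ (KS_le_adj K u) h1 k)
  have h3 := (h.closed_fin hd hπ h0 hw).1 _
    (mul_mem (KS_le_adj K u (K_mem_KS u (K.pow_mem hπ N))) (hc k)) hN
  refine h.mem_A_of_le ?_ (val_le_one_of_isIntegral w (fun a ha => (mem_OS.1 ha).2)
    (hS _ (fun a ha => (mem_OS.1 ha).1) h2 k))
  have h4 : q.coeff k = (π ^ N)⁻¹ * (π ^ N * q.coeff k) := by
    rw [← mul_assoc, inv_mul_cancel₀ (pow_ne_zero _ h0), one_mul]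
  rw [h4]
  exact mul_mem (K_mem_KS u (K.inv_mem (K.pow_mem hπ N))) (AS_le_KS w K u h3)

/-- the valuation ring is the localisation of the integral closure -/
theorem loc0 {z : L} (hz : IsIntegral (adj (K : Set L) {u}).toSubring z) (hw : w z ≤ 1) :
    ∃ s, w s = 1 ∧ IsIntegral (AS w K u) s ∧ IsIntegral (AS w K u) (s * z) := by
  obtain ⟨f, hf, hc, hz⟩ := (isIntegral_iff _ _).1 hz
  choose b hbA hb1 hb using fun k => h.exists_unit_denom (hc k)
  let β := ∏ k ∈ Finset.range (f.natDegree + 1), b k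
  have hβ1 : w β = 1 := by
    rw [map_prod]; exact Finset.prod_eq_one fun k _ => hb1 k
  have hβ : ∀ k, β * f.coeff k ∈ KS K u := by
    intro k
    by_cases hk : k ≤ f.natDegree
    · have : β = (∏ j ∈ (Finset.range (f.natDegree + 1)).erase k, b j) * b k :=
        (Finset.prod_erase_mul _ _ (Finset.mem_range.2 (by omega))).symm
      rw [this, mul_assoc]
      exact mul_mem (prod_mem fun j _ => AS_le_KS w K u (hbA j)) (hb k)
    · rw [coeff_eq_zero_of_natDegree_lt (not_le.1 hk), mul_zero]; exact zero_mem _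
  obtain ⟨j, -, hj⟩ := (Finset.range (f.natDegree + 1)).exists_max_image
    (fun k => w (f.coeff k)) ⟨0, by simp⟩
  have hj' : ∀ k, w (f.coeff k) ≤ w (f.coeff j) := by
    intro k
    by_cases hk : k ≤ f.natDegree
    · exact hj k (Finset.mem_range.2 (by omega))
    · rw [coeff_eq_zero_of_natDegree_lt (not_le.1 hk), map_zero]; exact zero_le
  have hj0 : w (f.coeff j) ≠ 0 := by
    have := hj' f.natDegree
    rw [hf.coeff_natDegree, map_one] at this
    exact (zero_lt_one.trans_le this).ne'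
  obtain ⟨c, hcK, hcj⟩ := h.exists_val_adj (hc j)
  have hval : ∀ k, w ((C (c⁻¹ * β) * f).coeff k) = (w (f.coeff j))⁻¹ * w (f.coeff k) := by
    intro k
    rw [coeff_C_mul, map_mul, map_mul, map_inv₀, hβ1, mul_one, hcj]
  have hle : ∀ k, w ((C (c⁻¹ * β) * f).coeff k) ≤ 1 := by
    intro k
    rw [hval, ← inv_mul_cancel₀ hj0]
    exact mul_le_mul_right (hj' k) _
  have hA : ∀ k, (C (c⁻¹ * β) * f).coeff k ∈ AS w K u := by
    intro k
    refine h.mem_A_of_le ?_ (hle k)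
    rw [coeff_C_mul, mul_assoc]
    exact mul_mem (K_mem_KS u (K.inv_mem hcK)) (hβ k)
  obtain ⟨s, hs, hV⟩ := exists_denom w (C (c⁻¹ * β) * f) hle
    ⟨j, by rw [hval, inv_mul_cancel₀ hj0]⟩ (by rw [eval_mul, hz, mul_zero]) hw
  exact ⟨s, hs, (isIntegral_iff_val _ _).2 fun V hV' => (hV V fun k => hV' _ (hA k)).1,
    (isIntegral_iff_val _ _).2 fun V hV' => (hV V fun k => hV' _ (hA k)).2⟩

/-- maximal ideals of the integral closure contain a unit for `w` of `O[u]` -/
theorem max0 (y : Ideal (integralClosure (AS w K u) L)) (hy : y.IsMaximal) :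
    ∃ b ∈ y, (b : L) ∈ AS w K u ∧ w (b : L) = 1 := by
  by_contra hne
  push Not at hne
  have hm := Ideal.isMaximal_comap_of_isIntegral_of_isMaximal (R := AS w K u) y
  let m : Ideal (AS w K u) :=
    { carrier := {a | w (a : L) < 1}
      zero_mem' := by simp
      add_mem' := fun ha hb => w.map_add_lt ha hb
      smul_mem' := fun c a ha => by
        show w ((c : L) * a) < 1
        rw [map_mul]
        exact (mul_le_of_le_one_left' (h.A_le_one c.2)).trans_lt ha }
  have hle : y.comap (algebraMap (AS w K u) (integralClosure (AS w K u) L)) ≤ m := by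
    intro a ha
    exact lt_of_le_of_ne (h.A_le_one a.2) (hne _ ha a.2)
  have hm1 : m ≠ ⊤ := by
    rw [Ne, Ideal.eq_top_iff_one]
    intro h1
    have : w (1 : L) < 1 := h1
    simp at this
  have heq := hm.eq_of_le hm1 hle
  rw [heq] at hm
  have hu : (⟨u, u_mem_AS w K u⟩ : AS w K u) ∉ m := by
    intro h1
    have : w u < 1 := h1
    exact this.ne h.w_u
  obtain ⟨a, c, hc, hac⟩ := hm.exists_inv hu
  obtain ⟨f, hf, hfa⟩ := mem_AS.1 a.2
  have h2 : (a : L) * u + c = 1 := congrArg Subtype.val hac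
  have h3 := h.gauss (1 - f * X) (sub_mem (one_mem (polys K.toSubring))
    (mul_mem (fun k => (hf k).1) (X_mem_polys _))) 0
  have h4 : (1 - f * X : L[X]).eval u = c := by
    rw [eval_sub, eval_one, eval_mul, eval_X, hfa, ← h2]; ring
  rw [h4] at h3
  have h5 : w (c : L) < 1 := hc
  simp at h3
  exact absurd h3 (not_le.2 h5)

end GD

end CA

end P179W
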