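import Vale.Agent.P179W.ChartFlowA

/-!
# P179W : logarithmic vector fields preserve the charts (`ChartFlowStmt`)
-/

set_option linter.all false

open scoped NNReal Classical
open Filter Topology Polynomial

noncomputable section

namespace P179W

open CA

theorem CA.comb_apply {L : Type} [Field L] {ι : Type} [Fintype ι] (J : ι → L)
    (D : ι → Derivation ℤ L L) (z : L) : comb J D z = ∑ i, J i * D i z := by
  unfold comb
  induction (Finset.univ : Finset ι) using Finset.induction_on with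
  | empty => simp
  | insert a s ha ih => rw [Finset.sum_insert ha, Finset.sum_insert ha, Derivation.add_apply, ih,
      Derivation.smul_apply, smul_eq_mul]

namespace Core

variable {p n : ℕ} {L : Type} [Field L] {G : Type} [Group G] [MulSemiringAction G L]
  {R : Type} [Field R] (c : Core p n L G R)

theorem B_le_V {u : L} (V : ValuationSubring L) (hK : ∀ a ∈ c.K, a ∈ V) (hu : u ∈ V) {b : L}
    (hb : b ∈ c.B u) : b ∈ V :=
  c.mem_B_iff_val.1 hb V (fun a ha _ => hK a ha) hu

theorem val_K (V : ValuationSubring L) (hK : ∀ a ∈ c.K, a ∈ V) {a : L} (ha : a ∈ c.K)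
    (h0 : a ≠ 0) : V.valuation a = 1 := by
  have h1 := (V.valuation_le_one_iff _).2 (hK a ha)
  have h2 := (V.valuation_le_one_iff _).2 (hK _ (c.K.inv_mem ha))
  rw [map_inv₀] at h2
  exact le_antisymm h1 ((inv_le_one₀ (zero_lt_iff.2 ((map_ne_zero V.valuation).2 h0))).1 h2)

theorem locAt [Fact p.Prime] (hG : GaussEllStmt) {u : L} (hu : u = c.x ∨ u = c.x⁻¹)
    (V : ValuationSubring L) (hK : ∀ a ∈ c.K, a ∈ V) (huV : u ∈ V) :
    LocAt V.valuation (c.B u) := by
  refine ⟨(c.B_fin hG hu).1, fun b hb => (V.valuation_le_one_iff _).2 (c.B_le_V V hK huV hb),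
    fun z hz => ?_⟩
  haveI := c.finiteDim hG
  have h1 : IsIntegral (adj (c.K : Set L) {c.x}) z := Algebra.IsIntegral.isIntegral z
  have h2 : IsIntegral (adj (c.K : Set L) {u}).toSubring z := by rw [c.adj_u hu]; exact h1
  haveI := KS_pid c.K u (c.gd hu).transc
  have hS : ∀ a ∈ KS c.K u, V.valuation a ≤ 1 := by
    have : KS c.K u ≤ V.toSubring := by
      rw [Subring.closure_le]
      rintro a (ha | rfl)
      · exact hK a ha
      · exact huV
    exact fun a ha => (V.valuation_le_one_iff _).2 (this ha)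
  obtain ⟨s, hs, h3, h4⟩ := loc_gen V.valuation (KS c.K u) (adj (c.K : Set L) {u}) (fun a' ha' hv => by
    obtain ⟨a, ha, b, hb, hb0, rfl⟩ := mem_adj_iff.1 ha'
    exact denom_of_pid _ _ hS ha hb hb0 hv) h2 hz
  obtain ⟨N, hN⟩ := (c.gd hu).int_K (natCast_mem c.K p) c.wp h3
  obtain ⟨M, hM⟩ := (c.gd hu).int_K (natCast_mem c.K p) c.wp h4
  have hp : ∀ k : ℕ, (p : L) ^ k ∈ c.B u := fun k => pow_mem (natCast_mem _ p) k
  refine ⟨(p : L) ^ M * ((p : L) ^ N * s), mul_mem (hp M) hN, ?_, ?_⟩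
  · rw [map_mul, map_mul, map_pow, map_pow, c.val_K V hK (natCast_mem c.K p) c.p_ne, hs]
    simp
  · have : (p : L) ^ M * ((p : L) ^ N * s) * z = (p : L) ^ N * ((p : L) ^ M * (s * z)) := by ring
    rw [this]
    exact mul_mem (hp N) hM

theorem dE_smul [NeZero n] {J : ZMod n → L} (hJ : ∀ j (g : G), g • J j = J j) (g : G) (k : ℕ)
    (z : L) : g • dE (comb J c.D) c.π0 k z = dE (comb J c.D) c.π0 k (g • z) := by
  have h1 : ∀ z, comb J c.D (g • z) = g • comb J c.D z := by
    intro z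
    rw [comb_apply, comb_apply, Finset.smul_sum]
    exact Finset.sum_congr rfl fun j _ => by rw [smul_mul', hJ, c.D_equiv]
  have h2 : ∀ k z, (comb J c.D : L → L)^[k] (g • z) = g • (comb J c.D : L → L)^[k] z := by
    intro k
    induction k with
    | zero => intro z; rfl
    | succ k ih => intro z; rw [Function.iterate_succ_apply, Function.iterate_succ_apply, h1, ih]
  unfold dE
  rw [smul_mul', h2, c.fix_K (c.K.div_mem (c.K.pow_mem c.π0_mem k) (natCast_mem c.K _))]

section

variable [NeZero n] {u : L} {J : ZMod n → L} (hJ : ∀ j, J j ∈ c.B u)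
  (hA : ∀ V : ValuationSubring L, (∀ a ∈ c.K, a ∈ V) → u ∈ V → ∀ j,
      Above V c.x c.y (c.xP j) (c.yP j) → V.valuation (J j) ≤ V.valuation (c.x - c.xP j))
  (V : ValuationSubring L) (hK : ∀ a ∈ c.K, a ∈ V) (huV : u ∈ V)
include hJ hA hK huV

theorem log_self {j : ZMod n} (hj : Above V c.x c.y (c.xP j) (c.yP j)) (z : L) :
    V.valuation (J j * c.D j z) ≤ V.valuation z := by
  refine le_trans ?_ (c.log' V hK j hj z)
  rw [map_mul, map_mul]
  exact mul_le_mul_left (hA V hK huV j hj) _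

theorem comb_mem {z : L} (hz : z ∈ V) : comb J c.D z ∈ V := by
  rw [comb_apply]
  refine V.toSubring.sum_mem fun j _ => ?_
  by_cases hj : Above V c.x c.y (c.xP j) (c.yP j)
  · exact (V.valuation_le_one_iff _).1
      ((c.log_self hJ hA V hK huV hj z).trans ((V.valuation_le_one_iff _).2 hz))
  · exact V.mul_mem _ _ (c.B_le_V V hK huV (hJ j)) (c.pres V hK j hj z hz)

theorem comb_log {j : ZMod n} (hj : Above V c.x c.y (c.xP j) (c.yP j)) (z : L) :
    V.valuation (comb J c.D z) ≤ V.valuation z := by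
  rw [comb_apply]
  refine V.valuation.map_sum_le fun l _ => ?_
  by_cases hl : l = j
  · subst hl
    exact c.log_self hJ hA V hK huV hj z
  · rw [map_mul]
    exact (mul_le_of_le_one_left' ((V.valuation_le_one_iff _).2
      (c.B_le_V V hK huV (hJ l)))).trans (c.log V hK l j hj hl z)

theorem dE_mem (k : ℕ) {z : L} (hz : z ∈ V) : dE (comb J c.D) c.π0 k z ∈ V := by
  refine V.mul_mem _ _ (hK _ (c.K.div_mem (c.K.pow_mem c.π0_mem k) (natCast_mem c.K _))) ?_
  induction k with
  | zero => exact hz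
  | succ k ih => rw [Function.iterate_succ_apply']; exact c.comb_mem hJ hA V hK huV ih

theorem dE_log {j : ZMod n} (hj : Above V c.x c.y (c.xP j) (c.yP j)) (k : ℕ) (z : L) :
    V.valuation (dE (comb J c.D) c.π0 k z) ≤ V.valuation z := by
  unfold dE
  rw [map_mul]
  refine (mul_le_of_le_one_left' ((V.valuation_le_one_iff _).2
    (hK _ (c.K.div_mem (c.K.pow_mem c.π0_mem k) (natCast_mem c.K _))))).trans ?_
  induction k with
  | zero => exact le_rfl
  | succ k ih =>
    rw [Function.iterate_succ_apply']; exact (c.comb_log hJ hA V hK huV hj _).trans ih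

end

/-- inverses modulo a place above a rational point -/
theorem exists_inv_mod [Fact p.Prime] {u : L} (hu : u = c.x ∨ u = c.x⁻¹)
    (V : ValuationSubring L) (hK : ∀ a ∈ c.K, a ∈ V) (huV : u ∈ V) {a : L} (ha : a ∈ c.K)
    (hxa : V.valuation (c.x - a) < 1) {β : L} (hβ : β ∈ c.B u) (hβ1 : V.valuation β = 1) :
    ∃ β' ∈ c.B u, ∃ m : ℕ, V.valuation (β * β' - (p : L) ^ m) < 1 := by
  have hle : ∀ z, z ∈ V → V.valuation z ≤ 1 := fun z => (V.valuation_le_one_iff z).2
  obtain ⟨u0, hu0K, hu0⟩ : ∃ u0 ∈ c.K, V.valuation (u - u0) < 1 := by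
    rcases hu with rfl | rfl
    · exact ⟨a, ha, hxa⟩
    · have hx0 : c.x ≠ 0 := (c.gd (Or.inl rfl)).u_ne
      have hx1 : 1 ≤ V.valuation c.x := by
        have := hle _ huV
        rw [map_inv₀] at this
        exact (inv_le_one₀ (zero_lt_iff.2 ((map_ne_zero V.valuation).2 hx0))).1 this
      have ha0 : a ≠ 0 := by
        rintro rfl
        rw [sub_zero] at hxa
        exact absurd hxa (not_lt.2 hx1)
      refine ⟨a⁻¹, c.K.inv_mem ha, ?_⟩
      have : c.x⁻¹ - a⁻¹ = -(c.x⁻¹ * a⁻¹) * (c.x - a) := by field_simp; ring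
      rw [this, map_mul, Valuation.map_neg]
      exact (mul_le_of_le_one_left' (hle _ (V.mul_mem _ _ huV (hK _ (c.K.inv_mem ha))))).trans_lt
        hxa
  have hS : KS c.K u ≤ V.toSubring := by
    rw [Subring.closure_le]
    rintro a (ha | rfl)
    · exact hK a ha
    · exact huV
  have hres : ∀ z ∈ KS c.K u, ∃ z0 ∈ c.K, V.valuation (z - z0) < 1 := by
    intro z hz
    induction hz using Subring.closure_induction with
    | mem z hz =>
      rcases hz with hz | rfl
      · exact ⟨z, hz, by simp⟩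
      · exact ⟨u0, hu0K, hu0⟩
    | zero => exact ⟨0, zero_mem _, by simp⟩
    | one => exact ⟨1, one_mem _, by simp⟩
    | add a b _ _ ha hb =>
      obtain ⟨a0, ha0, ha⟩ := ha
      obtain ⟨b0, hb0, hb⟩ := hb
      refine ⟨a0 + b0, add_mem ha0 hb0, ?_⟩
      rw [add_sub_add_comm]
      exact V.valuation.map_add_lt ha hb
    | neg a _ ha =>
      obtain ⟨a0, ha0, ha⟩ := ha
      refine ⟨-a0, neg_mem ha0, ?_⟩
      rwa [neg_sub_neg, Valuation.map_sub_swap]
    | mul a b ha' _ ha hb =>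
      obtain ⟨a0, ha0, ha⟩ := ha
      obtain ⟨b0, hb0, hb⟩ := hb
      refine ⟨a0 * b0, mul_mem ha0 hb0, ?_⟩
      have : a * b - a0 * b0 = a * (b - b0) + b0 * (a - a0) := by ring
      rw [this]
      refine V.valuation.map_add_lt ?_ ?_
      · rw [map_mul]; exact (mul_le_of_le_one_left' (hle _ (hS ha'))).trans_lt hb
      · rw [map_mul]; exact (mul_le_of_le_one_left' (hle _ (hK _ hb0))).trans_lt ha
  let B' := integralClosure (KS c.K u) L
  have hB' : ∀ b : B', (b : L) ∈ V := fun b => mem_val_of_isIntegral V (fun a ha => hS ha) b.2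
  let P : Ideal B' :=
    { carrier := {b | V.valuation (b : L) < 1}
      zero_mem' := by simp
      add_mem' := fun ha hb => V.valuation.map_add_lt ha hb
      smul_mem' := fun r a ha => by
        show V.valuation ((r : L) * a) < 1
        rw [map_mul]
        exact (mul_le_of_le_one_left' (hle _ (hB' r))).trans_lt ha }
  have hP : ∀ b : B', b ∈ P ↔ V.valuation (b : L) < 1 := fun _ => Iff.rfl
  haveI : P.IsPrime := by
    refine ⟨(Ideal.ne_top_iff_one _).2 fun h1 => ?_, fun {a b} hab => ?_⟩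
    · have : V.valuation (1 : L) < 1 := h1
      simp at this
    · by_contra hne
      push Not at hne
      have h1 : V.valuation (a : L) = 1 := le_antisymm (hle _ (hB' a)) (not_lt.1 hne.1)
      have h2 : V.valuation (b : L) = 1 := le_antisymm (hle _ (hB' b)) (not_lt.1 hne.2)
      have h3 : V.valuation ((a : L) * b) < 1 := hab
      rw [map_mul, h1, h2, one_mul] at h3
      exact lt_irrefl _ h3
  have hmax : P.IsMaximal := by
    refine Ideal.isMaximal_of_isIntegral_of_isMaximal_comap (R := KS c.K u) P ?_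
    refine Ideal.isMaximal_iff.2 ⟨fun h1 => ?_, fun I z hI hz hzI => ?_⟩
    · have : V.valuation (1 : L) < 1 := h1
      simp at this
    · obtain ⟨z0, hz0K, hz0⟩ := hres z z.2
      have hz1 : ¬ V.valuation (z : L) < 1 := hz
      have hne : z0 ≠ 0 := by
        rintro rfl
        rw [sub_zero] at hz0
        exact hz1 hz0
      have h1 : (z - ⟨z0, K_mem_KS u hz0K⟩ : KS c.K u) ∈ I := hI hz0
      have h2 := I.mul_mem_left ⟨z0⁻¹, K_mem_KS u (c.K.inv_mem hz0K)⟩ (I.sub_mem hzI h1)
      convert h2 using 1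
      apply Subtype.ext
      show (1 : L) = z0⁻¹ * (z - (z - z0))
      rw [sub_sub_cancel, inv_mul_cancel₀ hne]
  obtain ⟨y, e, he, hye⟩ := hmax.exists_inv (x := ⟨β, isIntegral_mono (AS_le_KS _ _ _) hβ⟩)
    (by rw [hP]; exact hβ1.not_lt)
  have h1 : (y : L) * β + e = 1 := congrArg Subtype.val hye
  obtain ⟨m, hm⟩ := (c.gd hu).int_K (natCast_mem c.K p) c.wp y.2
  refine ⟨_, hm, m, ?_⟩
  have : β * ((p : L) ^ m * y) - (p : L) ^ m = -((p : L) ^ m * e) := by
    linear_combination (p : L) ^ m * h1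
  rw [this, Valuation.map_neg, map_mul]
  exact (mul_le_of_le_one_left' (hle _ (hK _ (c.K.pow_mem (natCast_mem c.K p) m)))).trans_lt he

end Core

theorem chartFlow_of (hG : GaussEllStmt) (hV : ValExtStmt) (hT : TameStmt) : ChartFlowStmt := by
  intro p _ n _ L _ G _ _ R _ c u hu J hJ hA hb
  haveI := c.fin
  haveI := c.charZero
  have hJ1 : ∀ j, J j ∈ c.B u := fun j => (hJ j).1
  have hint : ∀ b ∈ c.B u, ∀ k, dE (comb J c.D) c.π0 k b ∈ c.B u := by
    intro b hbB k
    refine c.B_mp hG hu ?_ fun g => ?_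
    · rw [isIntegral_closure_iff]
      intro V hV
      have hK : ∀ a ∈ c.K, a ∈ V := fun a ha => hV a (Or.inl ha)
      have huV : u ∈ V := hV u (Or.inr rfl)
      exact c.dE_mem hJ1 hA V hK huV k (c.B_le_V V hK huV hbB)
    · rw [c.dE_smul fun j => (hJ j).2]
      exact (hb k _).trans (c.B_le_one hu (c.B_stab hu g hbB))
  refine ⟨hint, fun P hP hpP g hg hgP => ?_⟩
  obtain ⟨V, hVP⟩ := hV.2 (c.B u) L (c.B u).subtype P hP fun b hb => by
    have : b = 0 := Subtype.ext hb
    rw [this]; exact P.zero_mem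
  have hBV : ∀ b ∈ c.B u, b ∈ V := fun b hb => (hVP ⟨b, hb⟩).1
  have hPV : ∀ b : c.B u, V.valuation (b : L) < 1 ↔ b ∈ P := fun b => (hVP b).2
  have hle : ∀ z, z ∈ V → V.valuation z ≤ 1 := fun z => (V.valuation_le_one_iff z).2
  have hone : ∀ b : c.B u, b ∉ P ↔ V.valuation (b : L) = 1 := fun b => by
    rw [← hPV, not_lt]
    exact ⟨fun h => le_antisymm (hle _ (hBV _ b.2)) h, fun h => h.ge⟩
  have hp1 : V.valuation (p : L) = 1 := by
    have := (hone _).1 hpP
    rwa [Subring.coe_natCast] at this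
  have huV : u ∈ V := hBV u (c.A_le_B u (u_mem_AS _ _ _))
  have hK : ∀ a ∈ c.K, a ∈ V := by
    intro a ha
    obtain ⟨N, hN⟩ := exists_pow_mul_le c.wp a
    have h1 := hle _ (hBV _ (c.A_le_B u (O_mem_AS u
      (c.K.mul_mem (c.K.pow_mem (natCast_mem c.K p) N) ha) hN)))
    rw [map_mul, map_pow, hp1, one_pow, one_mul] at h1
    exact (V.valuation_le_one_iff _).1 h1
  have hL := c.locAt hG hu V hK huV
  have hg1 : ∀ b ∈ c.B u, V.valuation (g • b - b) < 1 := fun b hb =>
    (hPV (⟨g • b, c.B_stab hu g hb⟩ - ⟨b, hb⟩)).2 (hgP ⟨b, hb⟩ ⟨g • b, _⟩ rfl)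
  have hg2 : ∀ z, V.valuation z ≤ 1 → V.valuation (g • z - z) < 1 := by
    intro z hz
    obtain ⟨s, hs, hs1, hsz⟩ := hL.loc z hz
    have h1 := hg1 s hs
    have h2 := hg1 _ hsz
    have h3 : V.valuation (g • s) = 1 := by
      have : g • s = s + (g • s - s) := by ring
      rw [this, Valuation.map_add_eq_of_lt_left, hs1]
      rwa [hs1]
    have h4 : g • s * (g • z - z) = (g • (s * z) - s * z) - (g • s - s) * z := by
      rw [smul_mul']; ring
    have h5 : V.valuation (g • s * (g • z - z)) < 1 := by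
      rw [h4]
      refine V.valuation.map_sub_lt h2 ?_
      rw [map_mul]
      exact (mul_le_of_le_one_right' hz).trans_lt h1
    rwa [map_mul, h3, one_mul] at h5
  obtain ⟨j, hj⟩ : ∃ j, Above V c.x c.y (c.xP j) (c.yP j) := by
    by_contra hne
    exact hg (c.inert V hK hne g fun z hz => hg2 z (hle z hz))
  refine ⟨fun b hbP k b' hb' => ?_, fun β hβ => ?_, ?_⟩
  · rw [← hPV, hb']
    exact (c.dE_log hJ1 hA V hK huV hj k b).trans_lt ((hPV b).2 hbP)
  · obtain ⟨β', hβ', m, hm⟩ := c.exists_inv_mod hu V hK huV (c.P_mem j).1 hj.1 β.2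
      ((hone β).1 hβ)
    refine ⟨⟨β', hβ'⟩, m, (hPV _).1 ?_⟩
    simpa using hm
  have hx : c.x - c.xP j ≠ 0 := by
    intro h0
    have := (c.gd (Or.inl rfl)).transc (X - C (c.xP j))
      (sub_mem (X_mem_polys c.K.toSubring) (C_mem_polys (c.P_mem j).1)) (by simpa using h0)
    exact X_sub_C_ne_zero _ this
  obtain ⟨ϖ, hϖB, hϖ0, hϖ1, hϖ⟩ := hL.exists_unif ⟨_, hx, hj.1⟩
  have hex : ∀ h : G, ∃ s ∈ c.B u, V.valuation s = 1 ∧
      (V.valuation (h • ϖ) < 1 ∨ V.valuation (h • s) < 1) := by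
    intro h
    by_cases hr : ∀ b ∈ c.B u, V.valuation (h • b) < 1 → V.valuation b < 1
    · refine ⟨1, one_mem _, map_one _, Or.inl ?_⟩
      have hk : ∀ k : ℕ, ∀ b ∈ c.B u, V.valuation (h ^ k • b) < 1 → V.valuation b < 1 := by
        intro k
        induction k with
        | zero => intro b _ hb; simpa using hb
        | succ k ih =>
          intro b hb h1
          rw [pow_succ', mul_smul] at h1
          exact ih b hb (hr _ (c.B_stab hu _ hb) h1)
      refine hk (orderOf h - 1) _ (c.B_stab hu h hϖB) ?_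
      rw [← mul_smul, ← pow_succ, Nat.sub_add_cancel (orderOf_pos h), pow_orderOf_eq_one, one_smul]
      exact hϖ1
    · push Not at hr
      obtain ⟨s, hs, h1, h2⟩ := hr
      exact ⟨s, hs, le_antisymm (hle _ (hBV s hs)) h2, Or.inr h1⟩
  choose s hsB hs1 hs using hex
  haveI := Fintype.ofFinite G
  have hfB : ϖ * ∏ h, s h ∈ c.B u := mul_mem hϖB (prod_mem fun h _ => hsB h)
  have hfv : V.valuation (ϖ * ∏ h, s h) = V.valuation ϖ := by
    rw [map_mul, map_prod, Finset.prod_eq_one fun h _ => hs1 h, mul_one]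
  set f := ϖ * ∏ h, s h with hf
  have hf0 : f ≠ 0 := by
    intro h0
    rw [h0, map_zero] at hfv
    exact (map_ne_zero V.valuation).2 hϖ0 hfv.symm
  have hmax : ∀ z, V.valuation z < 1 → V.valuation z ≤ V.valuation f := by
    rw [hfv]; exact hϖ
  have hgen : ∀ f' : L, f' ≠ 0 → (∀ z, V.valuation z < 1 → V.valuation z ≤ V.valuation f') →
      ∃ β : c.B u, β ∉ P ∧ ∀ b ∈ P, ∃ e : c.B u, (β : L) * b = f' * e := by
    intro f' h0 hm
    obtain ⟨β, hβ, hβ1, h⟩ := hL.gen h0 hm
    refine ⟨⟨β, hβ⟩, (hone _).2 hβ1, fun b hb => ?_⟩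
    obtain ⟨e, he, h'⟩ := h b b.2 ((hPV b).2 hb)
    exact ⟨⟨e, he⟩, h'⟩
  have hconj : ∀ h : G, V.valuation (h • f) < 1 := by
    intro h
    rw [hf, smul_mul', Finset.smul_prod', map_mul, map_prod]
    have h1 : ∀ h', V.valuation (h • s h') ≤ 1 := fun h' => hle _ (hBV _ (c.B_stab hu h (hsB h')))
    rcases hs h with h2 | h2
    · exact (mul_le_of_le_one_right' (Finset.prod_le_one' fun h' _ => h1 h')).trans_lt h2
    · refine (mul_le_of_le_one_left' (hle _ (hBV _ (c.B_stab hu h hϖB)))).trans_lt ?_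
      rw [← Finset.mul_prod_erase _ _ (Finset.mem_univ h)]
      exact (mul_le_of_le_one_right' (Finset.prod_le_one' fun h' _ => h1 h')).trans_lt h2
  refine ⟨⟨f, hfB⟩, fun h f' hf' => (hPV _).1 (by rw [hf']; exact hconj h), ?_, ?_⟩
  · obtain ⟨β, hβ, h⟩ := hgen f hf0 hmax
    refine ⟨β, hβ, fun b hb => ?_⟩
    obtain ⟨e, he⟩ := h b hb
    exact ⟨e, Subtype.ext he⟩
  have hfg : V.valuation f ≤ V.valuation (f - g • f) := by
    by_contra hlt
    rw [not_le, Valuation.map_sub_swap] at hlt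
    obtain ⟨hT1, hT2⟩ := hT L _ V.valuation ⊤ (MulSemiringAction.toRingEquiv G L g)
      fun _ _ => trivial
    have h1 := hT2 f trivial
      (fun z _ hz => hL.disc hf0 (by rw [hfv]; exact hϖ1) hmax z hz) (fun z _ hz => hg2 z hz) hlt
    have h2 : ∀ (k : ℕ) (z : L), (MulSemiringAction.toRingEquiv G L g : L → L)^[k] z = g ^ k • z := by
      intro k
      induction k with
      | zero => intro z; simp
      | succ k ih => intro z; rw [Function.iterate_succ_apply', ih, pow_succ', mul_smul]; rfl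
    have h3 := hT1 (orderOf g)
      (c.val_K V hK (natCast_mem c.K _) (Nat.cast_ne_zero.2 (orderOf_pos g).ne'))
      (fun z _ => by rw [h2, pow_orderOf_eq_one, one_smul]) h1
    exact hg (c.faith g fun z => h3 z trivial)
  refine hgen _ (fun h0 => ?_) fun z hz => (hmax z hz).trans hfg
  have h0' : f - g • f = 0 := h0
  rw [h0', map_zero] at hfg
  exact (map_ne_zero V.valuation).2 hf0 (le_zero_iff.1 hfg)

end P179W

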