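import Vale.Agent.P179W.Chart

/-!
# P179W : places of the generic fibre of a chart
-/

set_option linter.all false

open scoped NNReal Classical
open Filter Topology Polynomial

noncomputable section

namespace P179W

namespace CA

variable {L : Type} [Field L] {Γ : Type} [LinearOrderedCommGroupWithZero Γ]

/-- a valuation ring is a localisation of the integral closure -/
theorem loc_gen (v : Valuation L Γ) (S : Subring L) (F : Subfield L)
    (hF : ∀ c ∈ F, v c ≤ 1 → ∃ b ∈ S, v b = 1 ∧ b * c ∈ S) {z : L}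
    (hz : IsIntegral F.toSubring z) (hw : v z ≤ 1) :
    ∃ s, v s = 1 ∧ IsIntegral S s ∧ IsIntegral S (s * z) := by
  obtain ⟨f, hf, hc, hz⟩ := (isIntegral_iff _ _).1 hz
  obtain ⟨j, -, hj⟩ := (Finset.range (f.natDegree + 1)).exists_max_image
    (fun k => v (f.coeff k)) ⟨0, by simp⟩
  have hj' : ∀ k, v (f.coeff k) ≤ v (f.coeff j) := by
    intro k
    by_cases hk : k ≤ f.natDegree
    · exact hj k (Finset.mem_range.2 (by omega))
    · rw [coeff_eq_zero_of_natDegree_lt (not_le.1 hk), map_zero]; exact zero_le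
  have hj0 : v (f.coeff j) ≠ 0 := by
    have := hj' f.natDegree
    rw [hf.coeff_natDegree, map_one] at this
    exact (zero_lt_one.trans_le this).ne'
  have hle : ∀ k, v ((f.coeff j)⁻¹ * f.coeff k) ≤ 1 := by
    intro k
    rw [map_mul, map_inv₀, ← inv_mul_cancel₀ hj0]
    exact mul_le_mul_right (hj' k) _
  choose b hbA hb1 hb using fun k => hF _ (F.mul_mem (F.inv_mem (hc j)) (hc k)) (hle k)
  let β := ∏ k ∈ Finset.range (f.natDegree + 1), b k
  have hβ1 : v β = 1 := by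
    rw [map_prod]; exact Finset.prod_eq_one fun k _ => hb1 k
  have hβ : ∀ k, (C (β * (f.coeff j)⁻¹) * f).coeff k ∈ S := by
    intro k
    rw [coeff_C_mul]
    by_cases hk : k ≤ f.natDegree
    · have : β = (∏ j ∈ (Finset.range (f.natDegree + 1)).erase k, b j) * b k :=
        (Finset.prod_erase_mul _ _ (Finset.mem_range.2 (by omega))).symm
      rw [this, mul_assoc, mul_assoc]
      exact mul_mem (prod_mem fun j _ => hbA j) (hb k)
    · rw [coeff_eq_zero_of_natDegree_lt (not_le.1 hk), mul_zero]; exact zero_mem _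
  have hval : ∀ k, v ((C (β * (f.coeff j)⁻¹) * f).coeff k) = v ((f.coeff j)⁻¹ * f.coeff k) := by
    intro k
    rw [coeff_C_mul, mul_assoc, map_mul, hβ1, one_mul]
  obtain ⟨s, hs, hV⟩ := exists_denom v (C (β * (f.coeff j)⁻¹) * f)
    (fun k => by rw [hval]; exact hle k)
    ⟨j, by rw [hval, map_mul, map_inv₀, inv_mul_cancel₀ hj0]⟩ (by rw [eval_mul, hz, mul_zero]) hw
  exact ⟨s, hs, (isIntegral_iff_val _ _).2 fun V hV' => (hV V fun k => hV' _ (hβ k)).1,
    (isIntegral_iff_val _ _).2 fun V hV' => (hV V fun k => hV' _ (hβ k)).2⟩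

theorem KS_pid (K : Subfield L) (u : L)
    (hu : ∀ f : L[X], (∀ k, f.coeff k ∈ K) → f.eval u = 0 → f = 0) :
    IsPrincipalIdealRing (KS K u) := by
  obtain ⟨e⟩ := nonempty_equiv K.toSubring u hu
  haveI : IsPrincipalIdealRing K.toSubring[X] := inferInstanceAs (IsPrincipalIdealRing K[X])
  exact IsPrincipalIdealRing.of_surjective e.toRingHom e.surjective

theorem denom_of_pid (v : Valuation L Γ) (S : Subring L) [IsPrincipalIdealRing S]
    (hS : ∀ a ∈ S, v a ≤ 1) {a b : L} (ha : a ∈ S) (hb : b ∈ S) (hb0 : b ≠ 0)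
    (h : v (a / b) ≤ 1) : ∃ b' ∈ S, v b' = 1 ∧ b' * (a / b) ∈ S := by
  obtain ⟨d, hd⟩ := (IsPrincipalIdealRing.principal
    (Ideal.span {(⟨a, ha⟩ : S), ⟨b, hb⟩})).principal
  have hd' : Ideal.span {(⟨a, ha⟩ : S), ⟨b, hb⟩} = Ideal.span {d} := hd
  have h1 : (⟨a, ha⟩ : S) ∈ Ideal.span {d} := by rw [← hd']; exact Ideal.subset_span (by simp)
  have h2 : (⟨b, hb⟩ : S) ∈ Ideal.span {d} := by rw [← hd']; exact Ideal.subset_span (by simp)
  have h3 : d ∈ Ideal.span {(⟨a, ha⟩ : S), ⟨b, hb⟩} := by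
    rw [hd']; exact Ideal.subset_span (by simp)
  obtain ⟨a', ha'⟩ := Ideal.mem_span_singleton'.1 h1
  obtain ⟨b', hb'⟩ := Ideal.mem_span_singleton'.1 h2
  obtain ⟨s, t, hst⟩ := Ideal.mem_span_pair.1 h3
  have e1 : (a' : L) * d = a := congrArg Subtype.val ha'
  have e2 : (b' : L) * d = b := congrArg Subtype.val hb'
  have e3 : (s : L) * a + t * b = d := congrArg Subtype.val hst
  have hvb : v b ≠ 0 := (map_ne_zero v).2 hb0
  have hab : v a ≤ v b := by
    rw [map_div₀] at h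
    exact (div_le_one₀ (zero_lt_iff.2 hvb)).1 h
  have hdb : v d ≤ v b := by
    rw [← e3]
    refine v.map_add_le ?_ ?_
    · rw [map_mul]; exact (mul_le_of_le_one_left' (hS _ s.2)).trans hab
    · rw [map_mul]; exact mul_le_of_le_one_left' (hS _ t.2)
  have hd0 : (d : L) ≠ 0 := by
    intro h0
    rw [h0, mul_zero] at e2
    exact hb0 e2.symm
  have hb'0 : (b' : L) ≠ 0 := by
    intro h0
    rw [h0, zero_mul] at e2
    exact hb0 e2.symm
  refine ⟨b', b'.2, le_antisymm (hS _ b'.2) ?_, ?_⟩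
  · rw [← e2, map_mul] at hdb
    exact (le_mul_iff_one_le_left (zero_lt_iff.2 ((map_ne_zero v).2 hd0))).1 hdb
  · have : (b' : L) * (a / b) = a' := by
      rw [← e1, ← e2]; field_simp
    rw [this]; exact a'.2

/-- the valuation ring of `v` is a localisation of the noetherian ring `B` -/
structure LocAt (v : Valuation L Γ) (B : Subring L) : Prop where
  noeth : IsNoetherianRing B
  le_one : ∀ b ∈ B, v b ≤ 1
  loc : ∀ z, v z ≤ 1 → ∃ s ∈ B, v s = 1 ∧ s * z ∈ B

namespace LocAt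

variable {v : Valuation L Γ} {B : Subring L} (h : LocAt v B)
include h

/-- the elements of `B` of valuation `≤ γ` after multiplication by `c` -/
def idl (c : L) (γ : Γ) : Ideal B where
  carrier := {a | v (a * c) ≤ γ}
  zero_mem' := by simp
  add_mem' := by
    intro a b ha hb
    show v (((a : L) + b) * c) ≤ γ
    rw [add_mul]
    exact v.map_add_le ha hb
  smul_mem' := by
    intro r a ha
    show v ((r : L) * a * c) ≤ γ
    rw [mul_assoc, map_mul]
    exact (mul_le_of_le_one_left' (h.le_one _ r.2)).trans ha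

/-- the centre -/
def ctr : Ideal B where
  carrier := {a | v a < 1}
  zero_mem' := by simp
  add_mem' := fun ha hb => v.map_add_lt ha hb
  smul_mem' := by
    intro r a ha
    show v ((r : L) * a) < 1
    rw [map_mul]
    exact (mul_le_of_le_one_left' (h.le_one _ r.2)).trans_lt ha

theorem exists_unif (hne : ∃ z : L, z ≠ 0 ∧ v z < 1) :
    ∃ ϖ ∈ B, ϖ ≠ 0 ∧ v ϖ < 1 ∧ ∀ z, v z < 1 → v z ≤ v ϖ := by
  haveI := h.noeth
  obtain ⟨T, hT⟩ := IsNoetherian.noetherian h.ctr
  have key : ∀ γ : Γ, (∀ t ∈ T, v (t : L) ≤ γ) → ∀ z, v z < 1 → v z ≤ γ := by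
    intro γ hγ z hz
    obtain ⟨s, hs, hs1, hsz⟩ := h.loc z hz.le
    have h1 : (⟨s * z, hsz⟩ : B) ∈ h.ctr := by
      show v (s * z) < 1
      rwa [map_mul, hs1, one_mul]
    have h2 : h.ctr ≤ h.idl 1 γ := by
      rw [← hT, Submodule.span_le]
      intro t ht
      show v ((t : L) * 1) ≤ γ
      rw [mul_one]; exact hγ t ht
    have h3 : v (s * z * 1) ≤ γ := h2 h1
    rwa [mul_one, map_mul, hs1, one_mul] at h3
  obtain ⟨z, hz0, hz⟩ := hne
  have hvz : 0 < v z := zero_lt_iff.2 ((map_ne_zero v).2 hz0)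
  rcases T.eq_empty_or_nonempty with rfl | hTne
  · exact absurd (key 0 (by simp) z hz) (not_le.2 hvz)
  obtain ⟨t, ht, hmax⟩ := T.exists_max_image (fun t => v (t : L)) hTne
  have htc : t ∈ h.ctr := by rw [← hT]; exact Submodule.subset_span ht
  refine ⟨t, t.2, fun h0 => ?_, htc, key _ hmax⟩
  have := key _ hmax z hz
  rw [h0, map_zero] at this
  exact absurd this (not_le.2 hvz)

theorem gen {f : L} (hf0 : f ≠ 0) (hmax : ∀ z, v z < 1 → v z ≤ v f) :
    ∃ β ∈ B, v β = 1 ∧ ∀ b ∈ B, v b < 1 → ∃ c ∈ B, β * b = f * c := by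
  haveI := h.noeth
  obtain ⟨T, hT⟩ := IsNoetherian.noetherian h.ctr
  have hvf : 0 < v f := zero_lt_iff.2 ((map_ne_zero v).2 hf0)
  have hex : ∀ t : B, ∃ s ∈ B, v s = 1 ∧ (t ∈ T → s * (t / f) ∈ B) := by
    intro t
    by_cases ht : t ∈ T
    · have htc : t ∈ h.ctr := by rw [← hT]; exact Submodule.subset_span ht
      obtain ⟨s, hs, hs1, hsz⟩ := h.loc (t / f)
        (by rw [map_div₀]; exact (div_le_one₀ hvf).2 (hmax _ htc))
      exact ⟨s, hs, hs1, fun _ => hsz⟩
    · exact ⟨1, one_mem _, map_one _, fun h => absurd h ht⟩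
  choose s hsB hs1 hs using hex
  refine ⟨∏ t ∈ T, s t, prod_mem fun t _ => hsB t,
    by rw [map_prod]; exact Finset.prod_eq_one fun t _ => hs1 t, fun b hb hb1 => ?_⟩
  have h1 : (⟨b, hb⟩ : B) ∈ Submodule.span B (T : Set B) := by rw [hT]; exact hb1
  have key : ∀ b : B, b ∈ Submodule.span B (T : Set B) → (∏ t ∈ T, s t) * (b / f) ∈ B := by
    intro b hb
    induction hb using Submodule.span_induction with
    | mem t ht =>
      rw [← Finset.prod_erase_mul _ _ ht, mul_assoc]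
      exact mul_mem (prod_mem fun t _ => hsB t) (hs t ht)
    | zero => simp
    | add a b _ _ ha hb =>
      rw [Subring.coe_add, add_div, mul_add]
      exact add_mem ha hb
    | smul r a _ ha =>
      have : (∏ t ∈ T, s t) * (((r • a : B) : L) / f) = r * ((∏ t ∈ T, s t) * (a / f)) := by
        rw [smul_eq_mul, Subring.coe_mul]; ring
      rw [this]
      exact mul_mem r.2 ha
  refine ⟨_, key _ h1, ?_⟩
  field_simp

theorem disc {ϖ : L} (h0 : ϖ ≠ 0) (h1 : v ϖ < 1) (hmax : ∀ z, v z < 1 → v z ≤ v ϖ) (z : L)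
    (hz : z ≠ 0) : ∃ k : ℤ, v z = v (ϖ ^ k) := by
  haveI := h.noeth
  have hv0 : 0 < v ϖ := zero_lt_iff.2 ((map_ne_zero v).2 h0)
  have key : ∀ z : L, z ≠ 0 → v z ≤ 1 → ∃ k : ℕ, v z = v (ϖ ^ k) := by
    intro z hz hz1
    have hvz : 0 < v z := zero_lt_iff.2 ((map_ne_zero v).2 hz)
    have hex : ∃ k : ℕ, ¬ v z ≤ v (ϖ ^ (k + 1)) := by
      by_contra hne
      push Not at hne
      let I : ℕ →o Ideal B := ⟨fun k => h.idl (ϖ ^ k) (v z), monotone_nat_of_le_succ fun k a ha => by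
        show v (a * ϖ ^ (k + 1)) ≤ v z
        rw [pow_succ, ← mul_assoc, map_mul]
        exact (mul_le_of_le_one_right' h1.le).trans ha⟩
      obtain ⟨k, hk⟩ := monotone_stabilizes_iff_noetherian.2 inferInstance I
      have hp : v (ϖ ^ (k + 1)) ≠ 0 := (map_ne_zero v).2 (pow_ne_zero _ h0)
      obtain ⟨s, hs, hs1, hsz⟩ := h.loc (z / ϖ ^ (k + 1))
        (by rw [map_div₀]; exact (div_le_one₀ (zero_lt_iff.2 hp)).2 (hne k))
      have h2 : (⟨_, hsz⟩ : B) ∈ I (k + 1) := by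
        show v (s * (z / ϖ ^ (k + 1)) * ϖ ^ (k + 1)) ≤ v z
        rw [mul_assoc, div_mul_cancel₀ _ (pow_ne_zero _ h0), map_mul, hs1, one_mul]
      rw [← hk (k + 1) (Nat.le_succ k)] at h2
      have h3 : v (s * (z / ϖ ^ (k + 1)) * ϖ ^ k) ≤ v z := h2
      have h4 : s * (z / ϖ ^ (k + 1)) * ϖ ^ k = s * (z / ϖ) := by
        rw [pow_succ]; field_simp
      rw [h4, map_mul, hs1, one_mul, map_div₀, div_le_iff₀ hv0] at h3
      exact absurd h3 (not_le.2 (mul_lt_of_lt_one_right hvz h1))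
    let k := Nat.find hex
    have hk : ¬ v z ≤ v (ϖ ^ (k + 1)) := Nat.find_spec hex
    have hk' : v z ≤ v (ϖ ^ k) := by
      rcases Nat.eq_zero_or_pos k with h | h
      · rw [h, pow_zero, map_one]; exact hz1
      · have := Nat.find_min hex (m := k - 1) (by omega)
        rw [Nat.sub_add_cancel h, not_not] at this
        exact this
    refine ⟨k, le_antisymm hk' (not_lt.1 fun hlt => hk ?_)⟩
    have hp : 0 < v (ϖ ^ k) := zero_lt_iff.2 ((map_ne_zero v).2 (pow_ne_zero _ h0))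
    have := hmax (z / ϖ ^ k) (by rw [map_div₀]; exact (div_lt_one₀ hp).2 hlt)
    rw [map_div₀, div_le_iff₀ hp] at this
    rw [pow_succ, map_mul, mul_comm]
    exact this
  rcases le_total (v z) 1 with hz1 | hz1
  · obtain ⟨k, hk⟩ := key z hz hz1
    exact ⟨k, by rw [hk, zpow_natCast]⟩
  · obtain ⟨k, hk⟩ := key z⁻¹ (inv_ne_zero hz) (by rw [map_inv₀]; exact inv_le_one_of_one_le₀ hz1)
    refine ⟨-k, ?_⟩
    rw [zpow_neg, zpow_natCast, map_inv₀, ← hk, map_inv₀, inv_inv]

end LocAt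

end CA

end P179W
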