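import Vale.Agent.P179W.ChartFlow

/-!
# P179W : connectedness of the special fibre (`ConnStmt`)
-/

set_option linter.all false

open scoped NNReal Classical
open Filter Topology Polynomial

noncomputable section

namespace P179W

namespace CA

variable {L : Type} [Field L]

theorem int_scale {S S' : Subring L} {π : L}
    (h : ∀ a ∈ S, ∃ N : ℕ, ∀ M, N ≤ M → π ^ M * a ∈ S') {z : L} (hz : IsIntegral S z) :
    ∃ N : ℕ, IsIntegral S' (π ^ N * z) := by
  obtain ⟨f, hf, hc, hz⟩ := (isIntegral_iff _ _).1 hz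
  choose N hN using fun k => h _ (hc k)
  let M := (Finset.range (f.natDegree + 1)).sup N
  refine ⟨M, (isIntegral_iff _ _).2 ⟨f.scaleRoots (π ^ M), (monic_scaleRoots_iff _).2 hf,
    fun k => ?_, ?_⟩⟩
  · rw [coeff_scaleRoots]
    rcases lt_trichotomy k f.natDegree with hk | rfl | hk
    · rw [← pow_mul, mul_comm]
      refine hN k _ ?_
      have h1 : N k ≤ M := Finset.le_sup (f := N) (Finset.mem_range.2 (by omega))
      exact h1.trans (Nat.le_mul_of_pos_right _ (by omega))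
    · rw [hf.coeff_natDegree, Nat.sub_self, pow_zero, mul_one]; exact one_mem _
    · rw [coeff_eq_zero_of_natDegree_lt hk, zero_mul]; exact zero_mem _
  · have := scaleRoots_eval_mul f z (π ^ M)
    rw [this, hz, mul_zero]

theorem flip (w : Valuation L ℝ≥0) (K : Subfield L) {u u' : L} (huu : u' * u = 1) {z : L}
    (hz : IsIntegral (AS w K u) z) :
    ∃ N : ℕ, ∀ M, N ≤ M → IsIntegral (AS w K u') (u' ^ M * z) := by
  have hu' : ∀ M : ℕ, u' ^ M ∈ AS w K u' := fun M => pow_mem (u_mem_AS w K u') M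
  have key : ∀ a ∈ AS w K u, ∃ N : ℕ, ∀ M, N ≤ M → u' ^ M * a ∈ AS w K u' := by
    intro a ha
    induction ha using Subring.closure_induction with
    | mem a ha =>
      rcases ha with ha | rfl
      · exact ⟨0, fun M _ => mul_mem (hu' M) (O_mem_AS u' ha.1 ha.2)⟩
      · refine ⟨1, fun M hM => ?_⟩
        obtain ⟨r, rfl⟩ := Nat.exists_eq_add_of_le' hM
        rw [pow_succ, mul_assoc, huu, mul_one]
        exact hu' r
    | zero => exact ⟨0, fun M _ => by rw [mul_zero]; exact zero_mem _⟩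
    | one => exact ⟨0, fun M _ => by rw [mul_one]; exact hu' M⟩
    | add a b _ _ ha hb =>
      obtain ⟨N, hN⟩ := ha
      obtain ⟨N', hN'⟩ := hb
      exact ⟨N + N', fun M hM => by
        rw [mul_add]; exact add_mem (hN M (by omega)) (hN' M (by omega))⟩
    | neg a _ ha =>
      obtain ⟨N, hN⟩ := ha
      exact ⟨N, fun M hM => by rw [mul_neg]; exact neg_mem (hN M hM)⟩
    | mul a b _ _ ha hb =>
      obtain ⟨N, hN⟩ := ha
      obtain ⟨N', hN'⟩ := hb
      refine ⟨N + N', fun M hM => ?_⟩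
      obtain ⟨r, rfl⟩ := Nat.exists_eq_add_of_le hM
      have : u' ^ (N + N' + r) * (a * b) = (u' ^ N * a) * (u' ^ (N' + r) * b) := by ring
      rw [this]
      exact mul_mem (hN N le_rfl) (hN' _ (by omega))
  obtain ⟨N, hN⟩ := int_scale key hz
  refine ⟨N, fun M hM => ?_⟩
  obtain ⟨r, rfl⟩ := Nat.exists_eq_add_of_le' hM
  rw [pow_add, mul_assoc]
  exact (isIntegral_of_mem (hu' r)).mul hN

/-- bounded torsion -/
theorem bounded_torsion (O : Subring L) [IsNoetherianRing O] (M N : Submodule O L) (hM : M.FG)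
    (π : O) : ∃ r : ℕ, ∀ z ∈ M ⊔ N, ∀ k : ℕ, π ^ k • z ∈ N → π ^ r • z ∈ N := by
  haveI := isNoetherian_of_fg_of_noetherian M hM
  let T : ℕ →o Submodule O M := ⟨fun k => N.comap (π ^ k • M.subtype),
    monotone_nat_of_le_succ fun k z hz => by
      have h1 : π ^ k • (z : L) ∈ N := hz
      show π ^ (k + 1) • (z : L) ∈ N
      rw [pow_succ', mul_smul]
      exact N.smul_mem _ h1⟩
  obtain ⟨r, hr⟩ := monotone_stabilizes_iff_noetherian.2 inferInstance T
  refine ⟨r, fun z hz k hk => ?_⟩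
  obtain ⟨a, ha, b, hb, rfl⟩ := Submodule.mem_sup.1 hz
  have h1 : (⟨a, ha⟩ : M) ∈ T (r + k) := by
    show π ^ (r + k) • a ∈ N
    rw [pow_add, mul_smul]
    refine N.smul_mem _ ?_
    have := N.sub_mem hk (N.smul_mem (π ^ k) hb)
    rwa [smul_add, add_sub_cancel_right] at this
  rw [← hr _ (Nat.le_add_right _ _)] at h1
  have h2 : π ^ r • a ∈ N := h1
  rw [smul_add]
  exact N.add_mem h2 (N.smul_mem _ hb)

end CA

open CA

namespace Core

variable {p n : ℕ} {L : Type} [Field L] {G : Type} [Group G] [MulSemiringAction G L]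
  {R : Type} [Field R] (c : Core p n L G R)

theorem O_mem_B (u : L) (a : OS c.w c.K) : (a : L) ∈ c.B u :=
  c.A_le_B u (O_mem_AS u a.2.1 a.2.2)

/-- the torsion of `H¹` is bounded -/
theorem torsion [Fact p.Prime] (hG : GaussEllStmt) : ∃ r : ℕ, ∀ (z : L) (k N : ℕ),
    c.x ^ k * z ∈ c.B c.x → (∃ a ∈ c.B c.x, ∃ b ∈ c.B c.x⁻¹, (p : L) ^ N * z = a + b) →
    ∃ a ∈ c.B c.x, ∃ b ∈ c.B c.x⁻¹, (p : L) ^ r * z = a + b := by
  have hx0 : c.x ≠ 0 := (c.gd (Or.inl rfl)).u_ne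
  haveI := OS_pid c.disc c.K
  haveI := (c.B_fin hG (Or.inl rfl)).2
  obtain ⟨T, hT, hgen⟩ := exists_gens (AS c.w c.K c.x)
  have hfl : ∀ t : L, ∃ m : ℕ, t ∈ T → ∀ M, m ≤ M → c.x⁻¹ ^ M * t ∈ c.B c.x⁻¹ := by
    intro t
    by_cases ht : t ∈ T
    · obtain ⟨m, hm⟩ := flip c.w c.K (inv_mul_cancel₀ hx0) (hT ht)
      exact ⟨m, fun _ => hm⟩
    · exact ⟨0, fun h => absurd h ht⟩
  choose m hm using hfl
  let N : Submodule (OS c.w c.K) L :=
    { carrier := {z | ∃ a ∈ c.B c.x, ∃ b ∈ c.B c.x⁻¹, z = a + b}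
      zero_mem' := ⟨0, zero_mem _, 0, zero_mem _, by simp⟩
      add_mem' := by
        rintro _ _ ⟨a, ha, b, hb, rfl⟩ ⟨a', ha', b', hb', rfl⟩
        exact ⟨a + a', add_mem ha ha', b + b', add_mem hb hb', by ring⟩
      smul_mem' := by
        rintro r _ ⟨a, ha, b, hb, rfl⟩
        exact ⟨r * a, mul_mem (c.O_mem_B _ r) ha, r * b, mul_mem (c.O_mem_B _ r) hb,
          mul_add _ _ _⟩ }
  let M : Submodule (OS c.w c.K) L := Submodule.span _
    ((T ×ˢ Finset.range (T.sup m)).image fun q => c.x⁻¹ ^ q.2 * q.1 : Finset L)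
  obtain ⟨r, hr⟩ := bounded_torsion (OS c.w c.K) M N ⟨_, rfl⟩ (p : OS c.w c.K)
  refine ⟨r, fun z k N' hz h => ?_⟩
  have hsm : ∀ j : ℕ, (p : OS c.w c.K) ^ j • z = (p : L) ^ j * z := fun j => by
    rw [Subring.smul_def, SubmonoidClass.coe_pow, Subring.coe_natCast, smul_eq_mul]
  have h1 := hr z ?_ N' (by rw [hsm]; exact h)
  · rw [hsm] at h1; exact h1
  obtain ⟨a, ha, hza⟩ := hgen _ hz
  have h2 : z = ∑ t ∈ T, a t * (c.x⁻¹ ^ k * t) := by
    have : z = c.x⁻¹ ^ k * (c.x ^ k * z) := by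
      rw [← mul_assoc, ← mul_pow, inv_mul_cancel₀ hx0, one_pow, one_mul]
    rw [this, hza, Finset.mul_sum]
    exact Finset.sum_congr rfl fun t _ => by ring
  rw [h2]
  refine Submodule.sum_mem _ fun t ht => ?_
  obtain ⟨f, hf, hfa⟩ := mem_AS.1 (ha t)
  rw [← hfa, eval_eq_sum_range, Finset.sum_mul]
  refine Submodule.sum_mem _ fun i _ => ?_
  rw [mul_assoc]
  refine (M ⊔ N).smul_mem (⟨f.coeff i, hf i⟩ : OS c.w c.K) ?_
  rcases le_total k i with hik | hik
  · obtain ⟨j, rfl⟩ := Nat.exists_eq_add_of_le' hik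
    refine Submodule.mem_sup_right ⟨c.x ^ j * t, mul_mem (c.A_le_B _ (pow_mem (u_mem_AS _ _ _) j))
      (hT ht), 0, zero_mem _, ?_⟩
    rw [pow_add, inv_pow]; field_simp; simp
  · obtain ⟨j, rfl⟩ := Nat.exists_eq_add_of_le hik
    have h3 : c.x ^ i * (c.x⁻¹ ^ (i + j) * t) = c.x⁻¹ ^ j * t := by
      rw [pow_add, inv_pow]; field_simp
    rw [h3]
    by_cases hj : j < T.sup m
    · refine Submodule.mem_sup_left (Submodule.subset_span ?_)
      rw [Finset.coe_image]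
      exact ⟨(t, j), by simp [ht, hj], rfl⟩
    · exact Submodule.mem_sup_right ⟨0, zero_mem _, _,
        hm t ht j ((Finset.le_sup ht).trans (not_lt.1 hj)), (zero_add _).symm⟩

/-- the prime ideal of the chart defined by a conjugate of `w` -/
def pr {u : L} (hu : u = c.x ∨ u = c.x⁻¹) (g : G) : Ideal (c.B u) where
  carrier := {b | c.w (g • (b : L)) < 1}
  zero_mem' := by simp
  add_mem' := by
    intro a b ha hb
    show c.w (g • ((a : L) + b)) < 1
    rw [smul_add]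
    exact c.w.map_add_lt ha hb
  smul_mem' := by
    intro r a ha
    show c.w (g • ((r : L) * a)) < 1
    rw [smul_mul', map_mul]
    exact (mul_le_of_le_one_left' (c.B_le_one hu (c.B_stab hu g r.2))).trans_lt ha

theorem exists_idem {u : L} (hu : u = c.x ∨ u = c.x⁻¹) (S : Set G)
    (h : ∀ g₁ ∈ S, ∀ g₂ ∉ S, c.pr hu g₁ ⊔ c.pr hu g₂ = ⊤) {ε : ℝ≥0} (hε : ε ≠ 0) :
    ∃ e ∈ c.B u, (∀ g ∈ S, c.w (g • e) ≤ ε) ∧ ∀ g ∉ S, c.w (g • (1 - e)) ≤ ε := by
  haveI := c.fin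
  haveI := Fintype.ofFinite G
  have h1 : IsCoprime (∏ g ∈ Finset.univ.filter (· ∈ S), c.pr hu g)
      (∏ g ∈ Finset.univ.filter (· ∉ S), c.pr hu g) :=
    IsCoprime.prod_left fun g₁ h₁ => IsCoprime.prod_right fun g₂ h₂ =>
      Ideal.isCoprime_iff_sup_eq.2 (h g₁ (by simpa using h₁) g₂ (by simpa using h₂))
  obtain ⟨a, ha, b, hb, hab⟩ := Ideal.isCoprime_iff_exists.1 h1
  have ha' : ∀ g ∈ S, c.w (g • (a : L)) < 1 := fun g hg =>
    (Ideal.prod_le_inf.trans (Finset.inf_le (by simpa using hg)) : _ ≤ c.pr hu g) ha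
  have hb' : ∀ g ∉ S, c.w (g • (b : L)) < 1 := fun g hg =>
    (Ideal.prod_le_inf.trans (Finset.inf_le (by simpa using hg)) : _ ≤ c.pr hu g) hb
  have hex : ∀ g : G, ∃ N : ℕ, (g ∈ S → c.w (g • (a : L)) ^ N ≤ ε) ∧
      (g ∉ S → c.w (g • (b : L)) ^ N ≤ ε) := by
    intro g
    by_cases hg : g ∈ S
    · obtain ⟨N, hN⟩ := exists_pow_lt₀ (ha' g hg) (Units.mk0 ε hε)
      exact ⟨N, fun _ => hN.le, fun h => absurd hg h⟩
    · obtain ⟨N, hN⟩ := exists_pow_lt₀ (hb' g hg) (Units.mk0 ε hε)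
      exact ⟨N, fun h => absurd h hg, fun _ => hN.le⟩
  choose N hN using hex
  have hco : IsCoprime a b := ⟨1, 1, by simpa using hab⟩
  obtain ⟨s, t, hst⟩ := hco.pow (m := Finset.univ.sup N) (n := Finset.univ.sup N)
  have key : ∀ (g : G) (s a : c.B u), c.w (g • (a : L)) ^ N g ≤ ε →
      c.w (g • ((s * a ^ Finset.univ.sup N : c.B u) : L)) ≤ ε := by
    intro g s a h
    rw [Subring.coe_mul, SubmonoidClass.coe_pow, smul_mul', smul_pow', map_mul, map_pow]
    refine (mul_le_of_le_one_left' (c.B_le_one hu (c.B_stab hu g s.2))).trans (le_trans ?_ h)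
    exact pow_le_pow_right_of_le_one' (c.B_le_one hu (c.B_stab hu g a.2))
      (Finset.le_sup (Finset.mem_univ g))
  refine ⟨_, (s * a ^ Finset.univ.sup N).2, fun g hg => key g s a ((hN g).1 hg), fun g hg => ?_⟩
  have : (1 : L) - (s * a ^ Finset.univ.sup N : c.B u) = (t * b ^ Finset.univ.sup N : c.B u) := by
    rw [sub_eq_iff_eq_add', ← Subring.coe_add, hst]; rfl
  rw [this]
  exact key g t b ((hN g).2 hg)

end Core

theorem conn_of (hG : GaussEllStmt) : ConnStmt := by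
  intro p _ n _ L _ G _ _ R _ c α Γ h g₁ g₂
  by_contra hne
  let S : Set G := {g | Γ g = Γ g₁}
  have hsup : ∀ {u : L} (hu : u = c.x ∨ u = c.x⁻¹), ∀ a ∈ S, ∀ b ∉ S,
      c.pr hu a ⊔ c.pr hu b = ⊤ := by
    intro u hu a ha b hb
    by_contra hne
    obtain ⟨y, hy, hle⟩ := Ideal.exists_le_maximal _ hne
    exact hb ((h u hu y hy a b (fun z hz => hle (Ideal.mem_sup_left hz))
      (fun z hz => hle (Ideal.mem_sup_right hz))).symm.trans ha)
  obtain ⟨r, hr⟩ := c.torsion hG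
  have hp0 : (p : L) ^ (r + 1) ≠ 0 := pow_ne_zero _ c.p_ne
  have hε : c.w ((p : L) ^ (r + 1)) ≠ 0 := (map_ne_zero c.w).2 hp0
  have hε1 : c.w ((p : L) ^ (r + 1)) < 1 := by
    rw [map_pow]; exact pow_lt_one₀ zero_le c.wp (Nat.succ_ne_zero r)
  have h0 : c.x = c.x ∨ c.x = c.x⁻¹ := Or.inl rfl
  have h1 : c.x⁻¹ = c.x ∨ c.x⁻¹ = c.x⁻¹ := Or.inr rfl
  have hx0 : c.x ≠ 0 := (c.gd h0).u_ne
  obtain ⟨e, he, he1, he2⟩ := c.exists_idem h0 S (hsup h0) hε
  obtain ⟨e', he', he1', he2'⟩ := c.exists_idem h1 S (hsup h1) hε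
  have hp : ∀ (g : G) (k : ℕ), g • (p : L) ^ k = (p : L) ^ k := fun g k =>
    c.fix_K (c.K.pow_mem (natCast_mem c.K p) k) g
  have hη : ∀ g : G, c.w (g • ((e - e') / (p : L) ^ (r + 1))) ≤ 1 := by
    intro g
    rw [smul_div₀', hp, map_div₀]
    refine div_le_one_of_le₀ ?_ zero_le
    by_cases hg : g ∈ S
    · rw [smul_sub]; exact c.w.map_sub_le (he1 g hg) (he1' g hg)
    · have : e - e' = (1 - e') - (1 - e) := by ring
      rw [this, smul_sub]; exact c.w.map_sub_le (he2' g hg) (he2 g hg)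
  obtain ⟨k, hk⟩ := flip c.w c.K (mul_inv_cancel₀ hx0) he'
  have h2 : c.x ^ k * ((e - e') / (p : L) ^ (r + 1)) ∈ c.B c.x := by
    refine c.B_mp hG h0 (c.int_of_pow_mul (N := r + 1) ?_) fun g => ?_
    · have : (p : L) ^ (r + 1) * (c.x ^ k * ((e - e') / (p : L) ^ (r + 1))) =
          c.x ^ k * e - c.x ^ k * e' := by field_simp
      rw [this]
      exact sub_mem (mul_mem (c.A_le_B _ (pow_mem (u_mem_AS _ _ _) k)) he) (hk k le_rfl)
    · rw [smul_mul', smul_pow', c.fix_x, map_mul, map_pow, (c.gd h0).w_u, one_pow, one_mul]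
      exact hη g
  obtain ⟨a, ha, b, hb, hab⟩ := hr _ k (r + 1) h2
    ⟨e, he, -e', neg_mem he', by field_simp; ring⟩
  have h3 : e - p * a = e' + p * b := by
    have h4 : (p : L) * ((p : L) ^ r * ((e - e') / (p : L) ^ (r + 1))) = e - e' := by
      rw [← mul_assoc, ← pow_succ', mul_div_cancel₀ _ hp0]
    rw [hab] at h4
    linear_combination -h4
  have hγ0 : e - p * a ∈ c.B c.x := sub_mem he (mul_mem (natCast_mem _ p) ha)
  have hγ1 : e - p * a ∈ c.B c.x⁻¹ := by rw [h3]; exact add_mem he' (mul_mem (natCast_mem _ p) hb)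
  have halg : Alg c.K (e - p * a) := by
    have : IsIntegral c.K.toSubring (e - p * a) := by
      rw [isIntegral_iff_val]
      intro V hV
      rcases V.mem_or_inv_mem c.x with hx | hx
      · exact c.B_le_V V hV hx hγ0
      · exact c.B_le_V V hV hx hγ1
    obtain ⟨f, hf, hc, hz⟩ := (isIntegral_iff _ _).1 this
    exact ⟨f, hf.ne_zero, hc, hz⟩
  have hpa : ∀ g : G, c.w (g • ((p : L) * a)) < 1 := by
    intro g
    rw [smul_mul', c.fix_K (natCast_mem c.K p), map_mul]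
    exact (mul_le_of_le_one_right' (c.B_le_one h0 (c.B_stab h0 g ha))).trans_lt c.wp
  have h5 : c.w (g₁ • (e - p * a)) < 1 := by
    rw [smul_sub]
    exact c.w.map_sub_lt ((he1 g₁ rfl).trans_lt hε1) (hpa g₁)
  have h6 : c.w (g₂ • (e - p * a)) = 1 := by
    have : g₂ • (e - p * a) = 1 + -(g₂ • (1 - e) + g₂ • ((p : L) * a)) := by
      rw [smul_sub, smul_sub, smul_one]; ring
    rw [this, Valuation.map_add_eq_of_lt_left, map_one]
    rw [map_one, Valuation.map_neg]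
    exact c.w.map_add_lt ((he2 g₂ fun h => hne (Eq.symm h)).trans_lt hε1) (hpa g₂)
  rw [c.uniq _ halg] at h5 h6
  exact h5.ne h6

end P179W

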