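import Vale.Agent.P179W.CoreC

/-!
# P179W : the core theorem
-/

set_option linter.all false

open scoped NNReal Classical
open Filter Topology

noncomputable section

namespace P179W

namespace CoreH

variable {p n : ℕ} [hp : Fact p.Prime] [NeZero n] {L : Type} [Field L] {G : Type} [Group G]
  [MulSemiringAction G L] {R : Type} [Field R] (c : Core p n L G R)

/-- the group generated by the groups of the first break -/
def Gam0 : Subgroup G := ⨆ j, fixG G (M0 c.w (c.D j) c.π0)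

theorem fixed_iff (z : L) : (∀ g ∈ Gam0 c, g • z = z) ↔ ∀ j, z ∈ M0 c.w (c.D j) c.π0 := by
  haveI := c.charZero
  haveI := c.fin
  constructor
  · intro h j
    exact Gam.mem_M0_of_fixed (flow c j) z fun g hg =>
      h g (le_iSup (fun j => fixG G (M0 c.w (c.D j) c.π0)) j hg)
  · intro h g hg
    have : Gam0 c ≤ MulAction.stabilizer G z := iSup_le fun j g hg => hg z (h j)
    exact this hg

theorem wild {g : G} (hg : g ∈ Gam0 c) (z : L) (hz : z ≠ 0) : c.w (g • z - z) < c.w z := by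
  haveI := c.charZero
  haveI := c.fin
  have : Gam0 c ≤ Gam.Lead G c.w z hz := iSup_le fun j g hg =>
    ⟨(gamma_holds p L G c.w (c.D j) c.π0 (flow c j)).2.1 g hg,
      Gam.wild_of_mem_fixG (flow c j) g hg z hz⟩
  exact (this hg).2

theorem Gam0_p : IsPGroup p (Gam0 c) := by
  haveI := c.fin
  rintro ⟨g, hg⟩
  obtain ⟨k, hk⟩ := Gam.wild_pow hp.out c.wp g (wild c hg)
  exact ⟨k, Subtype.ext (c.faith _ hk)⟩

theorem Gam0_ne : Gam0 c ≠ ⊥ := by
  haveI := c.fin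
  intro h
  obtain ⟨j, z, a, ha, hz⟩ := c.spec2
  have h1 : ∀ z, z ∈ M0 c.w (c.D j) c.π0 := fun z =>
    (fixed_iff c z).1 (fun g hg => by rw [h, Subgroup.mem_bot] at hg; rw [hg, one_smul]) j
  choose N hN using fun g : G => null_iff.1 (h1 (g • z)) a ha
  haveI := Fintype.ofFinite G
  obtain ⟨g, hg⟩ := hz (Finset.univ.sup N)
  rw [← (flow c j).dE_smul] at hg
  exact (hN g _ ((Finset.le_sup (Finset.mem_univ g)).trans
    (Nat.lt_pow_self hp.out.one_lt).le)).not_ge hg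

/-- Kummer generators -/
theorem exists_kummer (χ : Gam0 c →* Multiplicative (ZMod p)) (hχ : χ ≠ 1) : ∃ b e0, Good c b e0 ∧
    (∀ g : Gam0 c, (g : G) • b = c.ζ ^ (Multiplicative.toAdd (χ g)).val * b) ∧
    ∃ i, b ∉ M0 c.w (c.D i) c.π0 := by
  haveI := c.fin
  obtain ⟨b, hb, h⟩ := kummer_holds p L (Gam0 c) (fun g hg => Subtype.ext (c.faith _ hg)) c.ζ
    c.ζ_prim (fun g => K_fix c c.ζ_mem g) χ
  have h' : ∀ g : Gam0 c, (g : G) • b = c.ζ ^ (Multiplicative.toAdd (χ g)).val * b := h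
  obtain ⟨e0, he0⟩ := exists_good_idx c hb ((fixed_iff c _).1 fun g hg => by
    rw [smul_pow', h' ⟨g, hg⟩, mul_pow, ← pow_mul, mul_comm _ p, pow_mul, c.ζ_prim.pow_eq_one,
      one_pow, one_mul])
  refine ⟨b, e0, he0, h', ?_⟩
  by_contra hn
  push Not at hn
  apply hχ
  ext g
  have h1 := h' g
  rw [(fixed_iff c b).2 hn g g.2] at h1
  have h2 : c.ζ ^ (Multiplicative.toAdd (χ g)).val = 1 :=
    mul_right_cancel₀ hb (h1.symm.trans (one_mul b).symm)
  have h3 := Nat.eq_zero_of_dvd_of_lt ((c.ζ_prim.pow_eq_one_iff_dvd _).1 h2) (ZMod.val_lt _)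
  rw [ZMod.val_eq_zero] at h3
  simpa using h3

theorem key (hCF : ChartFlowStmt) (hReg : RegularStmt) (hR : RankStmt) (hNV : NVStmt)
    (hβ : BetaStmt) {u : L} (hu : u = c.x ∨ u = c.x⁻¹) (y : Ideal (c.B u)) (hy : y.IsMaximal)
    (h0 : ∀ b : c.B u, c.w (b : L) < 1 → b ∈ y) (g : G)
    (hg : ∀ b : c.B u, c.w (g • (b : L)) < 1 → b ∈ y) :
    Gam0 c ≤ (Gam0 c).comap (MulAut.conj g).toMonoidHom := by
  haveI := c.charZero
  haveI := c.fin
  haveI := c.charP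
  obtain ⟨hC, -, -, hC4⟩ := chart_of gaussEll_holds p n L G R c u hu
  let f : c.B u →+* R := c.red.hom.comp ((c.B u).subtype.codRestrict c.w.valuationSubring
    fun b => hC.le_one b b.2)
  obtain ⟨P, hP⟩ := valExt_holds.2 (c.B u) R f y hy.isPrime fun b hb =>
    h0 b ((c.red.eq_zero _ (hC.le_one b b.2)).1 hb)
  replace hP : ∀ b : c.B u, c.rd b ∈ P ∧ (P.valuation (c.rd b) < 1 ↔ b ∈ y) := hP
  have hkb : ∀ z ∈ c.kb, z ∈ P := kb_mem c fun a ha h => (hP ⟨a, O_mem_B c ha h⟩).1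
  have hPl : (deg c).IsPl P := by
    obtain ⟨b, hb, h1, h2⟩ := hC4 y hy (h0 _ (by simpa using c.wp))
    refine ⟨hkb, (c.rd b)⁻¹, inv_mem (rd_F c h1 h2.le), fun h => ?_⟩
    have h3 := (hP b).2.2 hb
    have h4 : c.rd b ≠ 0 := (c.red.ne_zero_iff h2.le).2 h2
    rw [← val_le_iff, map_inv₀, inv_le_one₀ (zero_lt_iff.2 (by simpa using h4))] at h
    exact h3.not_ge h
  have hB : ∀ b ∈ c.B u, c.w b ≤ 1 ∧ c.rd b ∈ P := fun b hb => ⟨hC.le_one b hb, (hP ⟨b, hb⟩).1⟩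
  choose T hT h1 h2 h3 using exists_T c hu hkb hB
  choose b e hb hχ hb' using fun χ : {χ : Gam0 c →* Multiplicative (ZMod p) // χ ≠ 1} =>
    exists_kummer c χ.1 χ.2
  obtain ⟨t, ht, ht'⟩ := c.infin
  haveI : Finite (Gam0 c →* Multiplicative (ZMod p)) :=
    Finite.of_injective (fun χ => (χ : Gam0 c → Multiplicative (ZMod p))) DFunLike.coe_injective
  have hval : ∀ χ j, P.valuation (c.rd (T j) ^ p ^ e χ * om c (b χ) (e χ) j) =
      P.valuation ((deg c).tt P j ^ p ^ e χ * om c (b χ) (e χ) j) := fun χ j => by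
    rw [map_mul, map_mul, map_pow, map_pow, h3]
  obtain ⟨N, hN⟩ := exists_good P (fun j : ZMod n => j.val) (ZMod.val_injective n)
    (fun χ j => c.rd (T j) ^ p ^ e χ * om c (b χ) (e χ) j)
    (fun χ j => by rw [← val_le_iff, hval, val_le_iff]; exact regular c hCF hReg (hb χ) hPl j)
    (fun χ => by simp only [hval]; exact nonvanish c hCF hReg hR hNV (hb χ) (hb' χ) hPl)
    (fun χ N => c.rd (t N) ^ p ^ e χ)
    (fun χ N => pow_mem (hkb _ (c.rd_K _ (ht N).1 (ht N).2)) _)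
    (fun χ N M h => by
      rw [← sub_pow_char_pow, map_pow, ← c.red.sub (ht N).2 (ht M).2, val_eq_one hkb
        (c.rd_K _ (sub_mem (ht N).1 (ht M).1) (ht' N M h).le)
        ((c.red.ne_zero_iff (ht' N M h).le).2 (ht' N M h)), one_pow])
  let J : ZMod n → L := fun j => t N ^ j.val * T j
  have hJ : ∀ j, J j ∈ c.B u ∧ ∀ g : G, g • J j = J j := fun j =>
    ⟨mul_mem (pow_mem (O_mem_B c (ht N).1 (ht N).2) _) (hT j), fun g => by
      simp only [J]; rw [smul_mul', smul_pow', K_fix c (ht N).1, h1]⟩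
  obtain ⟨k1, k2, k3⟩ := transf c (J := J) fun i => ⟨(hJ i).2, (hB _ (hJ i).1).1⟩
  have k4 := hCF p n L G R c u hu J hJ (fun W hW hu' i hi => by
    simp only [J]
    rw [map_mul]
    exact (mul_le_of_le_one_left' (Pl.vpow_le _ ((val_le_iff W _).2 (hW _ (ht N).1)) _)).trans
      (h2 i W hW hu' hi)) k1.bound
  refine hβ p L G c.w (comb J c.D) c.π0 c.ζ (c.B u) k1 hC k4 c.ζ_prim (K_fix c c.ζ_mem)
    (by simp [TransfH.comb_apply, c.ζ_D]) y hy h0 g hg _ _ (fun z hz => ?_)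
    (fun z hz => k2 z ((fixed_iff c z).1 hz)) (Gam0_p c) R c.rd P c.red hP fun χ hχ1 => ?_
  · rw [k1.mem_M0_cw]
    refine k2 _ ((fixed_iff c _).1 fun γ hγ => ?_)
    have := hz (g⁻¹ * γ * g) (by simpa [Subgroup.mem_comap, mul_assoc] using hγ)
    rwa [mul_smul, mul_smul, inv_smul_eq_iff] at this
  · obtain ⟨m, hT', h⟩ := k3 _ _ (hb ⟨χ, hχ1⟩) _ le_rfl
    refine ⟨_, (hb ⟨χ, hχ1⟩).ne, hχ ⟨χ, hχ1⟩, _, hT', fun e' he' => ?_⟩
    obtain ⟨m', rfl⟩ := Nat.exists_eq_add_of_le he'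
    rw [tail_pow hp.out.one_le c.red hT' le_rfl, h, map_pow, map_pow]
    have : ∑ i, c.rd (J i) ^ p ^ e ⟨χ, hχ1⟩ * om c (b ⟨χ, hχ1⟩) (e ⟨χ, hχ1⟩) i =
        ∑ i : ZMod n, (c.rd (t N) ^ p ^ e ⟨χ, hχ1⟩) ^ i.val *
          (c.rd (T i) ^ p ^ e ⟨χ, hχ1⟩ * om c (b ⟨χ, hχ1⟩) (e ⟨χ, hχ1⟩) i) := by
      refine Finset.sum_congr rfl fun i _ => ?_
      simp only [J]
      rw [c.red.mul _ _ (Pl.vpow_le _ (ht N).2 _) (hB _ (hT i)).1, c.red.pow (ht N).2]
      ring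
    rw [this, hN, one_pow, one_pow]

end CoreH

open CoreH in
theorem core_of (hCF : ChartFlowStmt) (hReg : RegularStmt) (hR : RankStmt) (hNV : NVStmt)
    (hβ : BetaStmt) (hC : ConnStmt) : CoreStmt := by
  intro p hp n _ L _ G _ _ R _ c
  haveI := c.charZero
  haveI := c.fin
  have h1 : ∀ u, (u = c.x ∨ u = c.x⁻¹) → ∀ y : Ideal (c.B u), y.IsMaximal → ∀ g₁ g₂ : G,
      (∀ b : c.B u, c.w (g₁ • (b : L)) < 1 → b ∈ y) →
      (∀ b : c.B u, c.w (g₂ • (b : L)) < 1 → b ∈ y) →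
      (Gam0 c).comap (MulAut.conj g₂).toMonoidHom ≤
        (Gam0 c).comap (MulAut.conj g₁).toMonoidHom := by
    intro u hu y hy g₁ g₂ k1 k2
    have hC := (chart_of gaussEll_holds p n L G R c u hu).1
    let φ : c.B u →+* c.B u := ((MulSemiringAction.toRingHom G L g₂⁻¹).comp
      (c.B u).subtype).codRestrict (c.B u) fun b => hC.stab _ b b.2
    have hφ : ∀ b, (φ b : L) = g₂⁻¹ • (b : L) := fun b => rfl
    have hs : Function.Surjective φ := fun b =>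
      ⟨⟨g₂ • (b : L), hC.stab _ _ b.2⟩, Subtype.ext (by rw [hφ, inv_smul_smul])⟩
    have := key c hCF hReg hR hNV hβ hu (y.comap φ) (Ideal.comap_isMaximal_of_surjective φ hs)
      (fun b hb => k2 _ (by rwa [hφ, smul_inv_smul])) (g₁ * g₂⁻¹)
      (fun b hb => k1 _ (by rwa [hφ, ← mul_smul]))
    intro γ hγ
    simpa [Subgroup.mem_comap, mul_assoc] using this hγ
  have h2 := hC p n L G R c (Subgroup G) (fun g => (Gam0 c).comap (MulAut.conj g).toMonoidHom)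
    fun u hu y hy g₁ g₂ k1 k2 => le_antisymm (h1 u hu y hy g₂ g₁ k2 k1) (h1 u hu y hy g₁ g₂ k1 k2)
  refine ⟨Gam0 c, ⟨fun γ hγ g => ?_⟩, Gam0_p c, Gam0_ne c⟩
  have h3 : γ ∈ (Gam0 c).comap (MulAut.conj (1 : G)).toMonoidHom := by
    simpa [Subgroup.mem_comap] using hγ
  rw [h2 1 g] at h3
  exact h3

end P179W
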