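import Vale.Agent.P179W.GammaB

/-!
# P179W : the group of the first break (helper53)
-/

set_option linter.all false

open scoped NNReal Classical
open Filter Topology Polynomial

noncomputable section

namespace P179W

namespace Gam

variable {L : Type} [Field L]

/-- the product of two bounded null series is null -/
theorem null_mul {w : Valuation L ℝ≥0} {y z : PowerSeries L} {A B : ℝ≥0}
    (hA : ∀ k, w (PowerSeries.coeff k y) ≤ A) (hB : ∀ k, w (PowerSeries.coeff k z) ≤ B)
    (hy : Tendsto (fun k => w (PowerSeries.coeff k y)) atTop (𝓝 0))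
    (hz : Tendsto (fun k => w (PowerSeries.coeff k z)) atTop (𝓝 0)) :
    Tendsto (fun k => w (PowerSeries.coeff k (y * z))) atTop (𝓝 0) := by
  rw [tendsto_order]
  refine ⟨fun a ha => absurd ha (not_lt.2 zero_le), fun ε hε => ?_⟩
  have h1 := hy.mul_const B
  have h2 := hz.const_mul A
  rw [zero_mul] at h1
  rw [mul_zero] at h2
  obtain ⟨N, hN⟩ := eventually_atTop.1
    ((h1.eventually (gt_mem_nhds hε)).and (h2.eventually (gt_mem_nhds hε)))
  refine eventually_atTop.2 ⟨N + N, fun k hk => ?_⟩
  rw [PowerSeries.coeff_mul]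
  refine w.map_sum_lt hε.ne' fun ij hij => ?_
  have h := Finset.HasAntidiagonal.mem_antidiagonal.1 hij
  rw [map_mul]
  rcases le_or_gt N ij.1 with h3 | h3
  · exact lt_of_le_of_lt (mul_le_mul_of_nonneg_left (hB _) zero_le) (hN _ h3).1
  · exact lt_of_le_of_lt (mul_le_mul_of_nonneg_right (hA _) zero_le) (hN ij.2 (by omega)).2

theorem mem_M0_of_le {w : Valuation L ℝ≥0} {δ : Derivation ℤ L L} {π0 z : L} {ρ C : ℝ≥0}
    (hρ : ρ < 1) (h : ∀ k, w (dE δ π0 k z) ≤ C * ρ ^ k) : z ∈ M0 w δ π0 := by
  have := (NNReal.tendsto_pow_atTop_nhds_zero_of_lt_one hρ).const_mul C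
  rw [mul_zero] at this
  exact tendsto_of_tendsto_of_tendsto_of_le_of_le tendsto_const_nhds this (fun _ => zero_le) h

variable {G : Type} [Group G] [Finite G] [MulSemiringAction G L] [CharZero L] {p : ℕ}
  {w : Valuation L ℝ≥0} {δ : Derivation ℤ L L} {π0 : L}

theorem fixed_mem_M0 (h : Flow G p w δ π0) (z : L) (hz : ∀ g : G, g • z = z) :
    z ∈ M0 w δ π0 := by
  obtain ⟨ρ, hρ, hb⟩ := h.gain
  exact mem_M0_of_le (C := w z) hρ fun k => by rw [mul_comm]; exact hb z hz k

/-- `M0` as an intermediate field -/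
def M0F (h : Flow G p w δ π0) : IntermediateField (FixedPoints.subfield G L) L :=
  Subalgebra.IsAlgebraic.toIntermediateField (S :=
    { carrier := M0 w δ π0
      mul_mem' := by
        intro a b ha hb
        have := null_mul (w := w) (y := tau δ π0 a) (z := tau δ π0 b) (A := w a) (B := w b)
          (fun k => by rw [coeff_tau]; exact h.bound k a)
          (fun k => by rw [coeff_tau]; exact h.bound k b)
          (by simp only [coeff_tau]; exact ha) (by simp only [coeff_tau]; exact hb)
        rw [← tau_mul] at this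
        simp only [coeff_tau] at this
        exact this
      add_mem' := by
        intro a b ha hb
        have := Tendsto.max ha hb
        rw [max_self] at this
        refine tendsto_of_tendsto_of_tendsto_of_le_of_le tendsto_const_nhds this
          (fun _ => zero_le) fun k => ?_
        show w (dE δ π0 k (a + b)) ≤ _
        rw [← coeff_tau, tau_add, map_add, coeff_tau, coeff_tau]
        exact w.map_add _ _
      algebraMap_mem' := fun r => fixed_mem_M0 h _ r.2 })
    (fun x _ => Algebra.IsAlgebraic.isAlgebraic x)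

theorem mem_M0F (h : Flow G p w δ π0) {z : L} : z ∈ M0F h ↔ z ∈ M0 w δ π0 := Iff.rfl

theorem mem_M0_of_fixed (h : Flow G p w δ π0) (z : L)
    (hz : ∀ g ∈ fixG G (M0 w δ π0), g • z = z) : z ∈ M0 w δ π0 := by
  rw [← mem_M0F h, ← IsGalois.fixedField_fixingSubgroup (M0F h),
    IntermediateField.mem_fixedField_iff]
  intro f hf
  obtain ⟨g, rfl⟩ := FixedPoints.toAlgAut_surjective G L f
  exact hz g fun y hy => (IntermediateField.mem_fixingSubgroup_iff _ _).1 hf y hy

/-- the group of the first break is contained in the wild inertia group -/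
theorem wild_of_mem_fixG [Fact p.Prime] (h : Flow G p w δ π0) (g : G)
    (hg : g ∈ fixG G (M0 w δ π0)) : ∀ c : L, c ≠ 0 → w (g • c - c) < w c := by
  by_contra hn
  obtain ⟨z, hz, h1, h2, h3⟩ := exists_sep_of_not_wild h.wp g hn
  obtain ⟨ρ, hρ, hb⟩ := h.gain
  exact h3 (hg z (mem_M0_of_le hρ (bd_tau_of_sep δ π0 hb z hz h1 h2)))

end Gam

open Gam in
theorem gamma_holds : GammaStmt := by
  intro p hp L _ _ G _ _ _ w δ π0 h
  refine ⟨?_, fun g hg z => ?_, ⟨(M0F h).toSubfield, rfl⟩, fixed_mem_M0 h, mem_M0_of_fixed h⟩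
  · rintro ⟨g, hg⟩
    obtain ⟨k, hk⟩ := wild_pow hp.out h.wp g (wild_of_mem_fixG h g hg)
    exact ⟨k, Subtype.ext (h.faith _ hk)⟩
  · by_cases hz : z = 0
    · simp [hz]
    · exact w.map_eq_of_sub_lt (wild_of_mem_fixG h g hg z hz)

end P179W
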