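import Vale.Agent.P179W.PlaceA

/-!
# P179W : the places of the function field of an elliptic curve (B3)
-/

open scoped NNReal Classical
open Polynomial

noncomputable section

namespace P179W

namespace Pl

variable {R : Type} [Field R] {k : Subfield R} {Γ : Type} [LinearOrderedCommGroupWithZero Γ]
  {v : Valuation R Γ}

theorem algClosed_of
    (h : ∀ f : R[X], (∀ j, f.coeff j ∈ k) → 0 < f.natDegree → ∃ z ∈ k, f.eval z = 0) :
    IsAlgClosed k := by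
  refine IsAlgClosed.of_exists_root k fun f _ hf => ?_
  obtain ⟨z, hz, e⟩ := h _ (coeff_map_mem k f) (by
    rw [natDegree_map]
    exact hf.natDegree_pos)
  refine ⟨⟨z, hz⟩, Subtype.ext ?_⟩
  rw [eval_map_algebraMap] at e
  exact (aeval_algebraMap_apply_eq_algebraMap_eval (⟨z, hz⟩ : k) f).symm.trans e

theorem vk (hk : ∀ c ∈ k, v c ≤ 1) {c : R} (hc : c ∈ k) (h0 : c ≠ 0) : v c = 1 := by
  refine le_antisymm (hk c hc) ?_
  have := hk _ (inv_mem hc)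
  rwa [map_inv₀, inv_le_one₀ (v.pos_iff.2 h0)] at this

theorem quad_le {η l c : R} (h : η * (η + l) = c) (hl : v l ≤ 1) (hc : v c ≤ 1) : v η ≤ 1 := by
  by_contra hy
  push Not at hy
  rw [← h, map_mul, v.map_add_eq_of_lt_left (hl.trans_lt hy)] at hc
  exact (one_lt_mul_of_lt_of_le' hy hy.le).not_ge hc

theorem lt_of_mul_lt {a b : R} (h : v (a * b) < 1) : v a < 1 ∨ v b < 1 := by
  by_contra hc
  push Not at hc
  rw [map_mul] at h
  exact (one_le_mul hc.1 hc.2).not_gt h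

theorem lead_poly (hk : ∀ c ∈ k, v c ≤ 1) {s : R} (hs : v s < 1) {f : k[X]} (hf : f ≠ 0) :
    ∃ (m : ℕ) (g : k[X]), v (aeval s g) = 1 ∧ aeval s f = s ^ m * aeval s g := by
  obtain ⟨g, h1, h2⟩ := exists_eq_pow_rootMultiplicity_mul_and_not_dvd f hf 0
  refine ⟨f.rootMultiplicity 0, g, ?_, by conv_lhs => rw [h1]; simp⟩
  rw [map_zero, sub_zero, X_dvd_iff] at h2
  have h3 : v (g.coeff 0 : R) = 1 := vk hk (g.coeff 0).2 fun e => h2 (Subtype.ext e)
  rw [← X_mul_divX_add g, map_add, map_mul, aeval_X, aeval_C, ← h3]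
  refine v.map_add_eq_of_lt_right ?_
  rw [show v (algebraMap k R (g.coeff 0)) = 1 from h3]
  exact vmul_lt' v hs (aeval_le hs.le _ fun j => hk _ ((divX g).coeff j).2)

theorem lead1 (hk : ∀ c ∈ k, v c ≤ 1) {s : R} (s0 : s ≠ 0) (hs : v s < 1) {z : R}
    (hz : z ∈ adj k {s}) (z0 : z ≠ 0) : ∃ (m : ℤ) (f g : k[X]), v (aeval s f) = 1 ∧
      v (aeval s g) = 1 ∧ z = s ^ m * (aeval s f * (aeval s g)⁻¹) := by
  obtain ⟨f, g, rfl⟩ := mem_adj1.1 hz
  obtain ⟨m, f', h1, h2⟩ := lead_poly hk hs (f := f) (by rintro rfl; simp at z0)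
  obtain ⟨n, g', h3, h4⟩ := lead_poly hk hs (f := g) (by rintro rfl; simp at z0)
  refine ⟨m - n, f', g', h1, h3, ?_⟩
  rw [h2, h4, zpow_sub₀ s0, zpow_natCast, zpow_natCast, mul_div_mul_comm, div_eq_mul_inv (aeval s f')]

theorem val1 (hk : ∀ c ∈ k, v c ≤ 1) {s : R} (s0 : s ≠ 0) (hs : v s < 1) {z : R}
    (hz : z ∈ adj k {s}) (z0 : z ≠ 0) : ∃ m : ℤ, v z = v s ^ m := by
  obtain ⟨m, f, g, h1, h2, rfl⟩ := lead1 hk s0 hs hz z0
  exact ⟨m, by rw [map_mul, map_mul, map_inv₀, h1, h2, map_zpow₀]; simp⟩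

/-- a subring containing the constants and the inverses of its elements of value one -/
structure Cl (v : Valuation R Γ) (k : Subfield R) (T : Subring R) : Prop where
  base : ∀ c ∈ k, c ∈ T
  inv : ∀ u ∈ T, v u = 1 → u⁻¹ ∈ T

theorem Cl.aeval {T : Subring R} (h : Cl v k T) {s : R} (hs : s ∈ T) (f : k[X]) :
    aeval s f ∈ T := by
  rw [aeval_eq_sum_range]
  refine sum_mem fun i _ => ?_
  rw [Algebra.smul_def]
  exact mul_mem (h.base _ (f.coeff i).2) (pow_mem hs i)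

theorem Cl.gen1 {T : Subring R} (h : Cl v k T) (hk : ∀ c ∈ k, v c ≤ 1) {s : R} (s0 : s ≠ 0)
    (hs : v s < 1) (hsT : s ∈ T) {z : R} (hz : z ∈ adj k {s}) (h1 : v z ≤ 1) : z ∈ T := by
  by_cases z0 : z = 0
  · exact z0 ▸ zero_mem T
  obtain ⟨m, f, g, h2, h3, rfl⟩ := lead1 hk s0 hs hz z0
  rw [map_mul, map_mul, map_inv₀, h2, h3, map_zpow₀, inv_one, mul_one, mul_one,
    zpow_le_one_iff_right_of_lt_one₀ (v.pos_iff.2 s0) hs] at h1
  obtain ⟨n, rfl⟩ := Int.eq_ofNat_of_zero_le h1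
  rw [zpow_natCast]
  exact mul_mem (pow_mem hsT n) (mul_mem (h.aeval hsT f) (h.inv _ (h.aeval hsT g) h3))

/-- a ramified place -/
theorem parity (hk : ∀ c ∈ k, v c ≤ 1) {s η : R} (η0 : η ≠ 0) (hη : v η < 1) (hs : v s = v η ^ 2)
    {α β : R} (hα : α ∈ adj k {s}) (hβ : β ∈ adj k {s}) :
    (α + β * η ≠ 0 → ∃ m : ℤ, v (α + β * η) = v η ^ m) ∧
      ∀ T, Cl v k T → s ∈ T → η ∈ T → v (α + β * η) ≤ 1 → α + β * η ∈ T := by
  have e0 := v.pos_iff.2 η0
  have s0 : s ≠ 0 := v.pos_iff.1 (hs ▸ pow_pos e0 2)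
  have s1 : v s < 1 := hs ▸ pow_lt_one₀ e0.le hη two_ne_zero
  have ev {z : R} (hz : z ∈ adj k {s}) (z0 : z ≠ 0) : ∃ m : ℤ, v z = v η ^ (2 * m) := by
    obtain ⟨m, h⟩ := val1 hk s0 s1 hz z0
    exact ⟨m, by rw [h, hs, zpow_mul, zpow_ofNat]⟩
  by_cases b0 : β = 0
  · rw [b0, zero_mul, add_zero]
    exact ⟨fun h => ⟨_, (ev hα h).choose_spec⟩, fun T hT h1 _ h2 => hT.gen1 hk s0 s1 h1 hα h2⟩
  obtain ⟨n, hn⟩ := ev hβ b0
  have h1 : v (β * η) = v η ^ (2 * n + 1) := by rw [map_mul, hn, zpow_add_one₀ e0.ne']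
  have h2 (h : v (β * η) ≤ 1) : v β ≤ 1 := by
    rw [h1, zpow_le_one_iff_right_of_lt_one₀ e0 hη] at h
    rw [hn, zpow_le_one_iff_right_of_lt_one₀ e0 hη]
    omega
  by_cases a0 : α = 0
  · rw [a0, zero_add]
    exact ⟨fun _ => ⟨_, h1⟩, fun T hT h3 h4 h5 => mul_mem (hT.gen1 hk s0 s1 h3 hβ (h2 h5)) h4⟩
  obtain ⟨m, hm⟩ := ev hα a0
  have h3 : v (α + β * η) = max (v α) (v (β * η)) := v.map_add_of_distinct_val fun e => by
    rw [hm, h1] at e
    have := zpow_right_injective₀ e0 hη.ne e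
    omega
  refine ⟨fun _ => ?_, fun T hT h4 h5 h6 => ?_⟩
  · rw [h3]
    rcases max_choice (v α) (v (β * η)) with e | e <;> rw [e]
    exacts [⟨_, hm⟩, ⟨_, h1⟩]
  · rw [h3, max_le_iff] at h6
    exact add_mem (hT.gen1 hk s0 s1 h4 hα h6.1) (mul_mem (hT.gen1 hk s0 s1 h4 hβ (h2 h6.2)) h5)

/-- a split place -/
theorem split (hk : ∀ c ∈ k, v c ≤ 1) {s y y' : R} (s0 : s ≠ 0) (hs : v s < 1) (hy : v y ≤ 1)
    (hyy : v (y - y') = 1) (hl : y + y' ∈ adj k {s}) {α β : R} (hα : α ∈ adj k {s})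
    (hβ : β ∈ adj k {s}) (hN : (α + β * y) * (α + β * y') ∈ adj k {s}) :
    (α + β * y ≠ 0 → ∃ m : ℤ, v (α + β * y) = v s ^ m) ∧
      ∀ T, Cl v k T → s ∈ T → y ∈ T → v (α + β * y) ≤ 1 → α + β * y ∈ T := by
  by_cases h0 : α + β * y ∈ adj k {s}
  · exact ⟨val1 hk s0 hs h0, fun T hT h1 _ h2 => hT.gen1 hk s0 hs h1 h0 h2⟩
  have b0 : β ≠ 0 := by
    rintro rfl
    exact h0 (by simpa using hα)
  have z0 : α + β * y' ≠ 0 := fun e => h0 (by
    rw [show α + β * y = α + α + β * (y + y') by linear_combination -e]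
    exact add_mem (add_mem hα hα) (mul_mem hβ hl))
  have hy' : v y' ≤ 1 := by
    rw [show y' = y - (y - y') by ring]
    exact v.map_sub_le hy hyy.le
  have h1 : v (β * (y - y')) = v β := by rw [map_mul, hyy, mul_one]
  have h2 : v (β * y) ≤ v β := by
    rw [map_mul]
    exact mul_le_of_le_one_right' hy
  have h3 (h : v (α + β * y) < v β) : v (α + β * y') = v β := by
    rw [show α + β * y' = α + β * y - β * (y - y') by ring, v.map_sub_eq_of_lt_right (h1 ▸ h), h1]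
  refine ⟨fun z1 => ?_, fun T hT h4 h5 h6 => ?_⟩
  · rcases lt_trichotomy (v (α + β * y)) (v β) with h | h | h
    · obtain ⟨m, hm⟩ := val1 hk s0 hs (div_mem hN hβ) (div_ne_zero (mul_ne_zero z1 z0) b0)
      exact ⟨m, by rwa [map_div₀, map_mul, h3 h, mul_div_cancel_right₀ _ (v.ne_zero_iff.2 b0)] at hm⟩
    · rw [h]
      exact val1 hk s0 hs hβ b0
    · have : v α = v (α + β * y) := by
        rw [show v α = v (α + β * y - β * y) by ring_nf, v.map_sub_eq_of_lt_left (h2.trans_lt h)]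
      rw [← this]
      exact val1 hk s0 hs hα (v.ne_zero_iff.1 (this ▸ v.ne_zero_iff.2 z1))
  · have h7 : v α ≤ max (v (α + β * y)) (v β) := by
      rw [show v α = v (α + β * y - β * y) by ring_nf]
      exact v.map_sub_le (le_max_left _ _) (h2.trans (le_max_right _ _))
    rcases le_or_gt (v β) 1 with h | h
    · exact add_mem (hT.gen1 hk s0 hs h4 hα (h7.trans (max_le h6 h)))
        (mul_mem (hT.gen1 hk s0 hs h4 hβ h) h5)
    · have h8 := h3 (h6.trans_lt h)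
      have vb := v.ne_zero_iff.2 b0
      have h9 : α / β + y' ∈ T := by
        rw [show y' = y + y' - y by ring]
        refine add_mem (hT.gen1 hk s0 hs h4 (div_mem hα hβ) ?_)
          (sub_mem (hT.gen1 hk s0 hs h4 hl (v.map_add_le hy hy')) h5)
        rw [map_div₀, div_le_one₀ (zero_lt_iff.2 vb)]
        exact h7.trans (max_le (h6.trans h.le) le_rfl)
      have e : α / β + y' = (α + β * y') / β := by field_simp
      rw [show α + β * y = (α + β * y) * (α + β * y') / β / β * β * (α / β + y')⁻¹ by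
        rw [e]; field_simp, div_mul_cancel₀ _ b0]
      refine mul_mem (hT.gen1 hk s0 hs h4 (div_mem hN hβ) ?_) (hT.inv _ h9 ?_)
      · rwa [map_div₀, map_mul, h8, mul_div_cancel_right₀ _ vb]
      · rw [e, map_div₀, h8, div_self vb]

theorem adj_sub {x a : R} (ha : a ∈ k) : adj k {x - a} = adj k {x} := by
  refine le_antisymm (adj_le (fun _ => mem_adj_base) (Set.singleton_subset_iff.2
    (sub_mem (x_mem1 _ x) (mem_adj_base ha)))) (adj_le (fun _ => mem_adj_base)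
    (Set.singleton_subset_iff.2 ?_))
  simpa using add_mem (x_mem1 (k : Set R) (x - a)) (mem_adj_base ha)

theorem adj_inv (x : R) : adj k {x⁻¹} = adj k {x} := by
  refine le_antisymm (adj_le (fun _ => mem_adj_base) (Set.singleton_subset_iff.2
    (inv_mem (x_mem1 _ x)))) (adj_le (fun _ => mem_adj_base) (Set.singleton_subset_iff.2 ?_))
  simpa using inv_mem (x_mem1 (k : Set R) x⁻¹)

theorem transc_sub_ne {x a : R} (h : Transc k x) (ha : a ∈ k) : x - a ≠ 0 := fun e =>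
  X_sub_C_ne_zero (⟨a, ha⟩ : k) (transc_aeval h (by
    rw [map_sub, aeval_X, aeval_C]
    exact e))

variable {E : WeierstrassCurve R} {x y : R}

theorem exists_center [IsAlgClosed k] (hk : ∀ c ∈ k, v c ≤ 1) (hE : CoeffIn E k)
    (h : E.toAffine.Equation x y) (hx : v x ≤ 1) (hV : ∃ z ∈ adj k {x, y}, 1 < v z) :
    ∃ a ∈ k, v (x - a) < 1 := by
  by_contra hc
  push Not at hc
  have h1 (f : k[X]) : f ≠ 0 → v (aeval x f) = 1 := by
    induction IsAlgClosed.splits f using Submonoid.closure_induction with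
    | mem g hg =>
      rcases hg with ⟨a, rfl⟩ | ⟨a, rfl⟩
      · exact fun h0 => by
          rw [aeval_C]
          exact vk hk a.2 fun e => h0 (by rw [show a = 0 from Subtype.ext e, map_zero])
      · intro _
        rw [map_add, aeval_X, aeval_C]
        refine le_antisymm (v.map_add_le hx (hk _ a.2)) ?_
        have := hc _ (neg_mem a.2)
        rwa [sub_neg_eq_add] at this
    | one => simp
    | mul f g _ _ hf hg =>
      exact fun h0 => by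
        rw [map_mul, map_mul, hf (left_ne_zero_of_mul h0), hg (right_ne_zero_of_mul h0), mul_one]
  have h2 {a : R} (ha : a ∈ adj k {x}) : v a ≤ 1 := by
    obtain ⟨f, g, rfl⟩ := mem_adj1.1 ha
    by_cases g0 : g = 0
    · simp [g0]
    · rw [map_div₀, h1 g g0, div_one]
      exact aeval_le hx f fun j => hk _ (f.coeff j).2
  obtain ⟨z, hz, h3⟩ := hV
  obtain ⟨a, ha, b, hb, rfl⟩ := mem_adj2 hE h hz
  exact h3.not_ge (v.map_add_le (h2 ha) (vmul_le v (h2 hb) (y_le ⟨hk _ hE.1, hk _ hE.2.1,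
    hk _ hE.2.2.1, hk _ hE.2.2.2.1, hk _ hE.2.2.2.2⟩ h hx)))

theorem exists_center_y [IsAlgClosed k] (hk : ∀ c ∈ k, v c ≤ 1) (hE : CoeffIn E k)
    (h : E.toAffine.Equation x y) (hy : v y ≤ 1) {a : R} (ha : a ∈ k) (hx : v (x - a) < 1) :
    ∃ b ∈ k, E.toAffine.Equation a b ∧ v (y - b) < 1 := by
  have l1 : E.a₁ * a + E.a₃ ∈ k := add_mem (mul_mem hE.1 ha) hE.2.2.1
  have l2 : a ^ 3 + E.a₂ * a ^ 2 + E.a₄ * a + E.a₆ ∈ k :=
    add_mem (add_mem (add_mem (pow_mem ha 3) (mul_mem hE.2.1 (pow_mem ha 2)))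
      (mul_mem hE.2.2.2.1 ha)) hE.2.2.2.2
  obtain ⟨b, hb⟩ := IsAlgClosed.exists_root (X ^ 2 + C (⟨_, l1⟩ : k) * X - C ⟨_, l2⟩) (by
    rw [show (X ^ 2 + C (⟨_, l1⟩ : k) * X - C ⟨_, l2⟩ : k[X]).degree = 2 by compute_degree!]
    decide)
  have e : (b : R) ^ 2 + (E.a₁ * a + E.a₃) * b - (a ^ 3 + E.a₂ * a ^ 2 + E.a₄ * a + E.a₆) = 0 := by
    simpa using congrArg Subtype.val hb.eq_zero
  have hx1 : v x ≤ 1 := by
    rw [show x = x - a + a by ring]
    exact v.map_add_le hx.le (hk a ha)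
  have e1 : (y - b) * (y - (-b - (E.a₁ * a + E.a₃))) =
      (x - a) * (x ^ 2 + x * a + a ^ 2 + E.a₂ * (x + a) + E.a₄ - E.a₁ * y) := by
    linear_combination eqn h - e
  have h1 : v ((y - b) * (y - (-b - (E.a₁ * a + E.a₃)))) < 1 := e1 ▸ vmul_lt' v hx
    (v.map_sub_le (v.map_add_le (v.map_add_le (v.map_add_le (v.map_add_le (vpow_le v hx1 2)
      (vmul_le v hx1 (hk a ha))) (vpow_le v (hk a ha) 2)) (vmul_le v (hk _ hE.2.1)
      (v.map_add_le hx1 (hk a ha)))) (hk _ hE.2.2.2.1)) (vmul_le v (hk _ hE.1) hy))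
  rcases lt_of_mul_lt h1 with h2 | h2
  · exact ⟨b, b.2, (WeierstrassCurve.Affine.equation_iff _ _).2 (by linear_combination e), h2⟩
  · exact ⟨_, sub_mem (neg_mem b.2) l1,
      (WeierstrassCurve.Affine.equation_iff _ _).2 (by linear_combination e), h2⟩

theorem phi_ne (hΔ : E.Δ ≠ 0) {a b : R} (h : E.toAffine.Equation a b) (h1 : psi E a b = 0) :
    phi E a b ≠ 0 := fun h2 => by
  rw [WeierstrassCurve.Affine.equation_iff_nonsingular_of_Δ_ne_zero hΔ,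
    WeierstrassCurve.Affine.nonsingular_iff'] at h
  unfold psi at h1
  unfold phi at h2
  exact h.2.elim (fun h => h (by linear_combination -h2)) fun h => h h1

/-- the structure of a place -/
theorem place_core [IsAlgClosed k] (hk : ∀ c ∈ k, v c ≤ 1) (hE : CoeffIn E k) (hΔ : E.Δ ≠ 0)
    (h : E.toAffine.Equation x y) (htr : Transc k x) (hV : ∃ z ∈ adj k {x, y}, 1 < v z) :
    ∃ t ∈ adj k {x, y}, t ≠ 0 ∧ v t < 1 ∧
      (∀ z ∈ adj k {x, y}, z ≠ 0 → ∃ m : ℤ, v z = v t ^ m) ∧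
      (∀ T, Cl v k T → (1 < v x → x⁻¹ ∈ T ∧ y / x ^ 2 ∈ T) → (v x ≤ 1 → x ∈ T ∧ y ∈ T) →
        ∀ z ∈ adj k {x, y}, v z ≤ 1 → z ∈ T) ∧
      ((1 < v x ∧ t = x / y ∧ v x = v t ^ (-2 : ℤ) ∧ v y = v t ^ (-3 : ℤ)) ∨
        ∃ a ∈ k, ∃ b ∈ k, E.toAffine.Equation a b ∧ v (x - a) < 1 ∧ v (y - b) < 1 ∧
          ((psi E a b ≠ 0 ∧ t = x - a) ∨
            (psi E a b = 0 ∧ t = y - b ∧ v (x - a) = v t ^ 2))) := by
  have c1 := hk _ hE.1
  have c2 := hk _ hE.2.1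
  have c3 := hk _ hE.2.2.1
  have c4 := hk _ hE.2.2.2.1
  have c6 := hk _ hE.2.2.2.2
  rcases lt_or_ge 1 (v x) with hx | hx
  · have x0 : x ≠ 0 := v.pos_iff.1 (zero_lt_one.trans hx)
    have s1 : v x⁻¹ < 1 := by rwa [map_inv₀, inv_lt_one₀ (zero_lt_one.trans hx)]
    obtain ⟨η, hη⟩ : ∃ η, η = y / x ^ 2 := ⟨_, rfl⟩
    have ey : y = η * x ^ 2 := by
      rw [hη]
      field_simp
    have e : η * (η + (E.a₁ + E.a₃ * x⁻¹) * x⁻¹) =
        x⁻¹ * (1 + (E.a₂ + (E.a₄ + E.a₆ * x⁻¹) * x⁻¹) * x⁻¹) := by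
      have := eqn h
      rw [ey] at this
      field_simp
      linear_combination this
    have l1 : v (E.a₁ + E.a₃ * x⁻¹) ≤ 1 := v.map_add_le c1 (vmul_le v c3 s1.le)
    have l2 : v ((E.a₂ + (E.a₄ + E.a₆ * x⁻¹) * x⁻¹) * x⁻¹) < 1 := vmul_lt v
      (v.map_add_le c2 (vmul_le v (v.map_add_le c4 (vmul_le v c6 s1.le)) s1.le)) s1
    have l3 : v η ≤ 1 := quad_le e (vmul_le v l1 s1.le)
      (vmul_le v s1.le (v.map_one_add_of_lt l2).le)
    have e' : η * η = x⁻¹ * (1 + ((E.a₂ + (E.a₄ + E.a₆ * x⁻¹) * x⁻¹) * x⁻¹ -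
        (E.a₁ + E.a₃ * x⁻¹) * η)) := by linear_combination e
    have l4 : v η < 1 := (lt_of_mul_lt (e' ▸ vmul_lt' v s1 (v.map_add_le v.map_one.le
      (v.map_sub_le l2.le (vmul_le v l1 l3))))).elim id id
    have l5 : v x⁻¹ = v η ^ 2 := by
      rw [sq, ← map_mul, e', map_mul, v.map_one_add_of_lt (v.map_sub_lt l2 (vmul_lt v l1 l4)),
        mul_one]
    have η0 : η ≠ 0 := by
      rintro rfl
      simp [x0] at l5
    have vη := v.ne_zero_iff.2 η0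
    have l6 : v x = v η ^ (-2 : ℤ) := by rw [zpow_neg, zpow_ofNat, ← l5, map_inv₀, inv_inv]
    have l7 : v y = v η ^ (-3 : ℤ) := by
      rw [ey, map_mul, map_pow, l6, ← zpow_natCast, ← zpow_mul, ← zpow_one_add₀ vη]
      norm_num
    have l8 : v (x / y) = v η := by
      rw [map_div₀, l6, l7, ← zpow_sub₀ vη]
      norm_num
    have key (z : R) (hz : z ∈ adj k {x, y}) : ∃ α ∈ adj k {x⁻¹}, ∃ β ∈ adj k {x⁻¹},
        z = α + β * η := by
      obtain ⟨a, ha, b, hb, rfl⟩ := mem_adj2 hE h hz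
      rw [adj_inv]
      exact ⟨a, ha, b * x ^ 2, mul_mem hb (pow_mem (x_mem1 _ x) 2), by rw [ey]; ring⟩
    refine ⟨x / y, div_mem (x_mem2 _ x y) (y_mem2 _ x y), v.ne_zero_iff.1 (l8 ▸ vη), l8 ▸ l4,
      fun z hz z0 => ?_, fun T hT h1 _ z hz h2 => ?_, .inl ⟨hx, rfl, l8 ▸ l6, l8 ▸ l7⟩⟩
    · obtain ⟨α, hα, β, hβ, rfl⟩ := key z hz
      exact l8 ▸ (parity hk η0 l4 l5 hα hβ).1 z0
    · obtain ⟨α, hα, β, hβ, rfl⟩ := key z hz
      exact (parity hk η0 l4 l5 hα hβ).2 T hT (h1 hx).1 (hη ▸ (h1 hx).2) h2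
  have hy := y_le ⟨c1, c2, c3, c4, c6⟩ h hx
  obtain ⟨a, ha, hxa⟩ := exists_center hk hE h hx hV
  obtain ⟨b, hb, hab, hyb⟩ := exists_center_y hk hE h hy ha hxa
  have s0 := transc_sub_ne htr ha
  by_cases hψ : psi E a b = 0
  · have hφ := phi_ne hΔ hab hψ
    have φk : phi E a b ∈ k := sub_mem (add_mem (add_mem (mul_mem (ofNat_mem k 3) (pow_mem ha 2))
      (mul_mem (mul_mem (ofNat_mem k 2) hE.2.1) ha)) hE.2.2.2.1) (mul_mem hE.1 hb)
    have e : (y - b) ^ 2 = (x - a) * (phi E a b +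
        ((x - a + (3 * a + E.a₂)) * (x - a) - E.a₁ * (y - b))) := by
      unfold psi at hψ
      unfold phi
      linear_combination eqn h - eqn hab - (y - b) * hψ
    have l1 : v (x - a) = v (y - b) ^ 2 := by
      rw [← map_pow, e, map_mul, v.map_add_eq_of_lt_left, vk hk φk hφ, mul_one]
      rw [vk hk φk hφ]
      exact v.map_sub_lt (vmul_lt v (v.map_add_le hxa.le
        (hk _ (add_mem (mul_mem (ofNat_mem k 3) ha) hE.2.1))) hxa) (vmul_lt v c1 hyb)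
    have η0 : y - b ≠ 0 := fun e => s0 (by simpa [e] using l1)
    have key (z : R) (hz : z ∈ adj k {x, y}) : ∃ α ∈ adj k {x - a}, ∃ β ∈ adj k {x - a},
        z = α + β * (y - b) := by
      obtain ⟨c, hc, d, hd, rfl⟩ := mem_adj2 hE h hz
      rw [adj_sub ha]
      exact ⟨_, add_mem hc (mul_mem hd (mem_adj_base hb)), d, hd, by ring⟩
    refine ⟨y - b, sub_mem (y_mem2 _ x y) (mem_adj_base hb), η0, hyb, fun z hz z0 => ?_,
      fun T hT _ h1 z hz h2 => ?_, .inr ⟨a, ha, b, hb, hab, hxa, hyb, .inr ⟨hψ, rfl, l1⟩⟩⟩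
    · obtain ⟨α, hα, β, hβ, rfl⟩ := key z hz
      exact (parity hk η0 hyb l1 hα hβ).1 z0
    · obtain ⟨α, hα, β, hβ, rfl⟩ := key z hz
      exact (parity hk η0 hyb l1 hα hβ).2 T hT (sub_mem (h1 hx).1 (hT.base a ha))
        (sub_mem (h1 hx).2 (hT.base b hb)) h2
  · have ψk : psi E a b ∈ k :=
      add_mem (add_mem (mul_mem (ofNat_mem k 2) hb) (mul_mem hE.1 ha)) hE.2.2.1
    have l1 : v (y - (-y - (E.a₁ * x + E.a₃))) = 1 := by
      rw [show y - (-y - (E.a₁ * x + E.a₃)) = psi E a b + (2 * (y - b) + E.a₁ * (x - a)) by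
        unfold psi; ring, v.map_add_eq_of_lt_left, vk hk ψk hψ]
      rw [vk hk ψk hψ]
      exact v.map_add_lt (vmul_lt v (hk _ (ofNat_mem k 2)) hyb) (vmul_lt v c1 hxa)
    have l2 : y + (-y - (E.a₁ * x + E.a₃)) ∈ adj k {x - a} := by
      rw [adj_sub ha, show y + (-y - (E.a₁ * x + E.a₃)) = -(E.a₁ * x + E.a₃) by ring]
      exact neg_mem (lin_mem hE x)
    refine ⟨x - a, sub_mem (x_mem2 _ x y) (mem_adj_base ha), s0, hxa, fun z hz z0 => ?_,
      fun T hT _ h1 z hz h2 => ?_, .inr ⟨a, ha, b, hb, hab, hxa, hyb, .inl ⟨hψ, rfl⟩⟩⟩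
    · obtain ⟨α, hα, β, hβ, rfl⟩ := mem_adj2 hE h hz
      have hN := norm_mem hE h hα hβ
      rw [← adj_sub ha] at hα hβ hN
      exact (split hk s0 hxa hy l1 l2 hα hβ hN).1 z0
    · obtain ⟨α, hα, β, hβ, rfl⟩ := mem_adj2 hE h hz
      have hN := norm_mem hE h hα hβ
      rw [← adj_sub ha] at hα hβ hN
      exact (split hk s0 hxa hy l1 l2 hα hβ hN).2 T hT (sub_mem (h1 hx).1 (hT.base a ha))
        (h1 hx).2 h2

/-- the elements congruent to a constant -/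
def resRing (hk : ∀ c ∈ k, v c ≤ 1) : Subring R where
  carrier := {z | ∃ c ∈ k, v (z - c) < 1}
  zero_mem' := ⟨0, zero_mem _, by simp⟩
  one_mem' := ⟨1, one_mem _, by simp⟩
  add_mem' := by
    rintro a b ⟨c, hc, h1⟩ ⟨d, hd, h2⟩
    exact ⟨c + d, add_mem hc hd, by
      rw [show a + b - (c + d) = a - c + (b - d) by ring]; exact v.map_add_lt h1 h2⟩
  neg_mem' := by
    rintro a ⟨c, hc, h1⟩
    exact ⟨-c, neg_mem hc, by rwa [show -a - -c = -(a - c) by ring, v.map_neg]⟩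
  mul_mem' := by
    rintro a b ⟨c, hc, h1⟩ ⟨d, hd, h2⟩
    exact ⟨c * d, mul_mem hc hd, by
      rw [show a * b - c * d = (a - c) * (b - d + d) + c * (b - d) by ring]
      exact v.map_add_lt (vmul_lt' v h1 (v.map_add_le h2.le (hk d hd))) (vmul_lt v (hk c hc) h2)⟩

theorem resRing_cl (hk : ∀ c ∈ k, v c ≤ 1) : Cl v k (resRing hk) := by
  refine ⟨fun c hc => ⟨c, hc, by simp⟩, ?_⟩
  rintro u ⟨c, hc, h1⟩ h2
  have u0 : u ≠ 0 := fun e => by simp [e] at h2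
  have c0 : c ≠ 0 := fun e => by simp [e, h2] at h1
  refine ⟨c⁻¹, inv_mem hc, ?_⟩
  rw [show u⁻¹ - c⁻¹ = -((u - c) / (u * c)) by field_simp; ring, v.map_neg, map_div₀, map_mul, h2,
    vk hk hc c0, mul_one, div_one]
  exact h1

end Pl

open Pl

theorem place_holds : PlaceStmt := by
  intro R _ k E x y hac hE hΔ h htr V hV hz
  have := algClosed_of hac
  have hk : ∀ c ∈ k, V.valuation c ≤ 1 := fun c hc => (V.valuation_le_one_iff c).2 (hV c hc)
  have nm {z : R} : 1 < V.valuation z ↔ z ∉ V := by rw [← V.valuation_le_one_iff, not_le]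
  obtain ⟨t, h1, h2, h3, h4, h5, h6⟩ := place_core hk hE hΔ h htr (by simpa only [nm] using hz)
  simp only [map_zpow₀, map_pow]
  refine ⟨t, h1, h2, h3, h4, fun z hz hzV => h5 _ (resRing_cl hk) (fun hx => ?_) (fun hx => ?_) z hz
    ((V.valuation_le_one_iff z).2 hzV), h6.imp (fun h => ⟨nm.1 h.1, h.2⟩)
      fun ⟨a, ha, b, hb, e1, e2, e3, e4⟩ => ⟨a, ha, b, hb, e1, ⟨e2, e3⟩, e4⟩⟩
  · rcases h6 with ⟨-, -, e1, e2⟩ | ⟨a, ha, b, hb, -, e2, -⟩
    · have t0 := V.valuation.pos_iff.2 h2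
      refine ⟨⟨0, zero_mem _, ?_⟩, 0, zero_mem _, ?_⟩
      · rwa [sub_zero, map_inv₀, inv_lt_one₀ (zero_lt_one.trans hx)]
      · rw [sub_zero, map_div₀, map_pow, e1, e2, ← zpow_natCast, ← zpow_mul, ← zpow_sub₀ t0.ne',
          zpow_lt_one_iff_right_of_lt_one₀ t0 h3]
        norm_num
    · refine absurd hx (not_lt.2 ?_)
      rw [show x = x - a + a by ring]
      exact V.valuation.map_add_le e2.le (hk a ha)
  · rcases h6 with ⟨e, -⟩ | ⟨a, ha, b, hb, -, e2, e3, -⟩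
    · exact absurd hx e.not_ge
    · exact ⟨⟨a, ha, e2⟩, b, hb, e3⟩

end P179W
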