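import Vale.Agent.P179W.PS2
import Vale.Agent.P179W.Gamma
import Vale.Agent.P179W.PlaceB
import Vale.Agent.P179W.AmbVal
import Vale.Agent.P179W.AmbBasic

/-!
# P179W : general lemmas for the core
-/

set_option linter.all false

open scoped NNReal Classical
open Filter Topology

noncomputable section

namespace P179W

namespace CoreH

section Place

variable {R : Type} [Field R]

theorem val_le_iff (P : ValuationSubring R) (z : R) : P.valuation z ≤ 1 ↔ z ∈ P :=
  P.valuation_le_one_iff z

theorem val_eq_one {P : ValuationSubring R} {k : Subfield R} (hk : ∀ c ∈ k, c ∈ P) {c : R}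
    (hc : c ∈ k) (h0 : c ≠ 0) : P.valuation c = 1 :=
  Pl.vk (fun c hc => (val_le_iff P c).2 (hk c hc)) hc h0

theorem mem_of_alg {P : ValuationSubring R} {k : Subfield R} (hk : ∀ c ∈ k, c ∈ P) {z : R}
    (hz : Alg k z) : z ∈ P := by
  by_cases h0 : z = 0
  · rw [h0]; exact P.zero_mem
  obtain ⟨m, hm, c, hc, hc0, h⟩ := arch_holds R _ P.valuation k z hz h0
  rw [val_eq_one hk hc hc0, map_pow] at h
  rw [← val_le_iff]
  exact ((pow_eq_one_iff_of_nonneg zero_le hm.ne').1 h).le

theorem mem_of_pow_mem {P : ValuationSubring R} {z : R} {m : ℕ} (hm : m ≠ 0) (h : z ^ m ∈ P) :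
    z ∈ P := by
  rw [← val_le_iff] at h ⊢
  rw [map_pow] at h
  exact (pow_le_one_iff hm).1 h

/-- places of a function field of one variable have rank one -/
theorem place_arch {P : ValuationSubring R} {F : Subfield R} (hF : ∀ z, Alg F z) {t : R}
    (ht0 : t ≠ 0) (ht : P.valuation t < 1)
    (h : ∀ z ∈ F, z ≠ 0 → ∃ m : ℤ, P.valuation z = P.valuation (t ^ m)) (a c : R) (ha : a ≠ 0)
    (hc : 1 < P.valuation c) : ∃ N : ℕ, 1 < P.valuation (a * c ^ N) := by
  have hc0 : c ≠ 0 := by rintro rfl; simp at hc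
  have hp : 0 < P.valuation t := zero_lt_iff.2 (by simpa using ht0)
  obtain ⟨m, hm, a', ha', ha0, h1⟩ := arch_holds R _ P.valuation F a (hF a) ha
  obtain ⟨m', hm', c', hc', hc0', h2⟩ := arch_holds R _ P.valuation F c (hF c) hc0
  obtain ⟨k, hk⟩ := h a' ha' ha0
  obtain ⟨k', hk'⟩ := h c' hc' hc0'
  rw [hk, map_pow, map_zpow₀] at h1
  rw [hk', map_pow, map_zpow₀] at h2
  have h3 : k' < 0 := by
    rw [← zpow_lt_zpow_iff_right_of_lt_one₀ hp ht, zpow_zero, ← h2]
    exact one_lt_pow₀ hc hm'.ne'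
  refine ⟨m' * (k.natAbs + 1), ?_⟩
  by_contra hle
  have h4 := pow_le_one₀ zero_le (not_lt.1 hle) (n := m)
  rw [map_mul, map_pow, mul_pow, h1, pow_mul, h2, ← zpow_natCast, ← zpow_natCast, ← zpow_mul,
    ← zpow_mul, ← zpow_add₀ hp.ne', ← zpow_zero (P.valuation t),
    zpow_le_zpow_iff_right_of_lt_one₀ hp ht] at h4
  have h5 : (1 : ℤ) ≤ m := by exact_mod_cast hm
  have h6 : k ≤ k.natAbs := Int.le_natAbs
  have h7 : (0 : ℤ) ≤ k.natAbs := Int.natCast_nonneg _
  push_cast at h4
  rw [← Int.natCast_natAbs] at h4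
  nlinarith [mul_nonneg (sub_nonneg.2 h5) (by linarith : (0 : ℤ) ≤ k.natAbs + 1),
    mul_nonneg (by linarith : (0 : ℤ) ≤ -k' - 1)
      (mul_nonneg (by linarith : (0 : ℤ) ≤ k.natAbs + 1) (by linarith : (0 : ℤ) ≤ m))]

/-- avoiding finitely many hyperplanes -/
theorem exists_good (P : ValuationSubring R) {ι X : Type} [Fintype ι] [Finite X] (idx : ι → ℕ)
    (hidx : Function.Injective idx) (α : X → ι → R) (hα : ∀ χ j, α χ j ∈ P)
    (h1 : ∀ χ, ∃ j, P.valuation (α χ j) = 1) (s : X → ℕ → R) (hs : ∀ χ N, s χ N ∈ P)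
    (hs' : ∀ χ N M, N ≠ M → P.valuation (s χ N - s χ M) = 1) :
    ∃ N, ∀ χ, P.valuation (∑ j, s χ N ^ idx j * α χ j) = 1 := by
  have key : ∀ a : P, IsLocalRing.residue P a = 0 ↔ P.valuation (a : R) < 1 := fun a => by
    rw [IsLocalRing.residue_eq_zero_iff, ValuationSubring.valuation_lt_one_iff]
  have hfin : ∀ χ, {N | ¬ P.valuation (∑ j, s χ N ^ idx j * α χ j) = 1}.Finite := by
    intro χ
    let f : Polynomial (IsLocalRing.ResidueField P) :=
      ∑ j, Polynomial.monomial (idx j) (IsLocalRing.residue P ⟨α χ j, hα χ j⟩)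
    have hf : f ≠ 0 := by
      obtain ⟨j, hj⟩ := h1 χ
      intro h0
      have := congrArg (fun g => Polynomial.coeff g (idx j)) h0
      simp only [f, Polynomial.finset_sum_coeff, Polynomial.coeff_monomial, hidx.eq_iff,
        Finset.sum_ite_eq', Finset.mem_univ, if_true, Polynomial.coeff_zero] at this
      exact ((key _).1 this).ne hj
    have hinj : Function.Injective fun N => IsLocalRing.residue P ⟨s χ N, hs χ N⟩ := by
      intro N M h
      by_contra hne
      have := (key (⟨s χ N, hs χ N⟩ - ⟨s χ M, hs χ M⟩)).1 (by rw [map_sub]; exact sub_eq_zero.2 h)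
      exact this.ne (hs' χ N M hne)
    refine ((Polynomial.finite_setOf_isRoot hf).preimage hinj.injOn).subset fun N hN => ?_
    let a : P := ∑ j, ⟨s χ N, hs χ N⟩ ^ idx j * ⟨α χ j, hα χ j⟩
    have ha : (a : R) = ∑ j, s χ N ^ idx j * α χ j := by simp [a]
    have h2 : IsLocalRing.residue P a = 0 := by
      rw [key, ha]
      exact lt_of_le_of_ne (by rw [← ha]; exact P.valuation_le_one a) hN
    simp only [Set.mem_preimage, Set.mem_setOf_eq, Polynomial.IsRoot.def, f,
      Polynomial.eval_finset_sum, Polynomial.eval_monomial]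
    rw [← h2]
    simp only [a, map_sum, map_mul, map_pow, mul_comm]
  obtain ⟨N, hN⟩ := (Set.finite_iUnion hfin).exists_notMem
  exact ⟨N, fun χ => by simpa using fun h => hN (Set.mem_iUnion.2 ⟨χ, h⟩)⟩

end Place

section Res

variable {L : Type} [Field L] {G : Type} [Group G] [MulSemiringAction G L] {w : Valuation L ℝ≥0}
  {R : Type} [Field R] {rd : L → R} (h : IsRed w rd)

/-- the action of the decomposition group on the residue field -/
def actFun (g : Gam.Dec G w) (z : h.range) : h.range :=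
  ⟨rd (g.1 • z.2.choose), _, by rw [g.2]; exact z.2.choose_spec.1, rfl⟩

theorem actFun_spec (g : Gam.Dec G w) (z : h.range) {a : L} (ha : w a ≤ 1) (hz : rd a = z) :
    (actFun h g z : R) = rd (g.1 • a) := by
  have h1 := z.2.choose_spec
  show rd (g.1 • z.2.choose) = _
  rw [h.eq_iff (by rw [g.2]; exact h1.1) (by rw [g.2]; exact ha), ← smul_sub, g.2,
    ← h.eq_iff h1.1 ha, h1.2, hz]

theorem actFun_mul (g g' : Gam.Dec G w) (z : h.range) :
    actFun h (g * g') z = actFun h g (actFun h g' z) := by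
  obtain ⟨a, ha, hz⟩ := z.2
  apply Subtype.ext
  rw [actFun_spec h _ z ha hz, actFun_spec h g _ (a := g'.1 • a) (by rw [g'.2]; exact ha)
    (actFun_spec h g' z ha hz).symm, Subgroup.coe_mul, mul_smul]

theorem actFun_one (z : h.range) : actFun h (1 : Gam.Dec G w) z = z := by
  obtain ⟨a, ha, hz⟩ := z.2
  apply Subtype.ext
  rw [actFun_spec h _ z ha hz, Subgroup.coe_one, one_smul, hz]

/-- the action of the decomposition group on the residue field -/
def act : Gam.Dec G w →* RingAut h.range where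
  toFun g :=
    { toFun := actFun h g
      invFun := actFun h g⁻¹
      left_inv := fun z => by rw [← actFun_mul, inv_mul_cancel, actFun_one]
      right_inv := fun z => by rw [← actFun_mul, mul_inv_cancel, actFun_one]
      map_mul' := fun z z' => by
        obtain ⟨a, ha, hz⟩ := z.2
        obtain ⟨b, hb, hz'⟩ := z'.2
        apply Subtype.ext
        rw [actFun_spec h g _ (a := a * b) (by rw [map_mul]; exact mul_le_one' ha hb)
          (by rw [h.mul _ _ ha hb, hz, hz']; rfl), smul_mul', h.mul _ _ (by rw [g.2]; exact ha)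
          (by rw [g.2]; exact hb), ← actFun_spec h g z ha hz, ← actFun_spec h g z' hb hz']
        rfl
      map_add' := fun z z' => by
        obtain ⟨a, ha, hz⟩ := z.2
        obtain ⟨b, hb, hz'⟩ := z'.2
        apply Subtype.ext
        rw [actFun_spec h g _ (a := a + b) (w.map_add_le ha hb)
          (by rw [h.add _ _ ha hb, hz, hz']; rfl), smul_add, h.add _ _ (by rw [g.2]; exact ha)
          (by rw [g.2]; exact hb), ← actFun_spec h g z ha hz, ← actFun_spec h g z' hb hz']
        rfl }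
  map_one' := RingEquiv.ext (actFun_one h)
  map_mul' g g' := RingEquiv.ext (actFun_mul h g g')

theorem act_spec (g : Gam.Dec G w) (z : h.range) {a : L} (ha : w a ≤ 1) (hz : rd a = z) :
    (act h g z : R) = rd (g.1 • a) := actFun_spec h g z ha hz

theorem coeff_one_add_pow (z : R) (N k : ℕ) :
    PowerSeries.coeff k ((1 + PowerSeries.C z * PowerSeries.X) ^ N) = (N.choose k : R) * z ^ k := by
  have := congrArg (PowerSeries.coeff k) (congrArg (PowerSeries.rescale z)
    (Polynomial.coe_pow (φ := (1 + Polynomial.X : Polynomial R)) N))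
  rw [PowerSeries.coeff_rescale, Polynomial.coeff_coe, Polynomial.coeff_one_add_X_pow, map_pow,
    Polynomial.coe_add, Polynomial.coe_one, Polynomial.coe_X, map_add, map_one,
    PowerSeries.rescale_X] at this
  rw [← this, mul_comm]

/-- the invariants of the decomposition group are purely inseparable over the residue field of
the fixed field -/
theorem inv_pow [Finite G] [CharZero L] {p : ℕ} [hp : Fact p.Prime] (hw : w (p : L) < 1) :
    ∃ a : ℕ, ∀ z : h.range, (∀ g : Gam.Dec G w, act h g z = z) →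
      ∃ f : L, (∀ g : G, g • f = f) ∧ w f ≤ 1 ∧ rd f = (z : R) ^ p ^ a := by
  haveI := h.charP hw
  haveI := Fintype.ofFinite G
  obtain ⟨a, m, hm, ham⟩ := Nat.exists_eq_pow_mul_and_not_dvd
    (n := (Finset.univ.filter (· ∈ Gam.Dec G w)).card)
    (Finset.card_pos.2 ⟨1, by simp [one_mem]⟩).ne' p hp.out.ne_one
  refine ⟨a, fun z hz => ?_⟩
  by_cases hz0 : (z : R) = 0
  · exact ⟨0, by simp, by simp, by rw [hz0, h.zero, zero_pow (pow_ne_zero _ hp.out.ne_zero)]⟩
  obtain ⟨c, hc, hcz⟩ := z.2
  have hc1 : w c = 1 := (h.ne_zero_iff hc).1 (by rwa [hcz])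
  obtain ⟨c', h1, h2⟩ := Gam.exists_modify (G := G) hp.out hw c (by rintro rfl; simp at hc1)
  rw [hc1] at h1 h2
  have h3 : ∀ g : G, w (g • c') ≤ 1 := fun g => by
    by_cases hg : g ∈ Gam.Dec G w
    · have := w.map_add_le (h1 g hg).le (show w (g • c) ≤ 1 by rw [hg]; exact hc)
      rwa [sub_add_cancel] at this
    · exact (h2 g hg).le
  have h4 : ∀ g : G, rd (g • c') = if g ∈ Gam.Dec G w then (z : R) else 0 := fun g => by
    split_ifs with hg
    · rw [(h.eq_iff (h3 g) (by rw [hg]; exact hc)).2 (h1 g hg), ← act_spec h ⟨g, hg⟩ z hc hcz, hz]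
    · exact (h.eq_zero _ (h3 g)).2 (h2 g hg)
  let F : PowerSeries L := ∏ g : G, (1 + PowerSeries.C (g • c') * PowerSeries.X)
  have hi : ∀ g ∈ (Finset.univ : Finset G),
      1 + PowerSeries.C (g • c') * PowerSeries.X ∈ IntPS w := fun g _ =>
    add_mem (one_mem _) (mul_mem (C_mem_IntPS w (h3 g)) (X_mem_IntPS w))
  have hF : F ∈ IntPS w := prod_mem hi
  have h5 : rdPS rd F = (1 + PowerSeries.C (z : R) * PowerSeries.X) ^ (p ^ a * m) := by
    rw [h.ps_prod _ hi, ← ham, ← Finset.prod_const, Finset.prod_filter]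
    refine Finset.prod_congr rfl fun g _ => ?_
    rw [h.ps_add (one_mem _) (mul_mem (C_mem_IntPS w (h3 g)) (X_mem_IntPS w)),
      h.ps_mul (C_mem_IntPS w (h3 g)) (X_mem_IntPS w), h.ps_one, h.ps_C, h.ps_X, h4]
    split_ifs <;> simp
  have h6 := congrArg (PowerSeries.coeff (p ^ a)) h5
  have h7 : ((p ^ a * m).choose (p ^ a) : R) = m := by
    have := Choose.choose_pow_mul_pow_mul_modEq_choose_nat (p := p) (k := a) (a := m) (b := 1)
    rw [mul_one, Nat.choose_one_right] at this
    exact (CharP.natCast_eq_natCast R p).2 this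
  rw [coeff_rdPS, coeff_one_add_pow, h7] at h6
  have hm1 : w (m : L) = 1 := Gam.val_natCast_eq hp.out hw hm
  have hm2 : (m : R) ≠ 0 := by rw [← h.natCast, h.ne_zero_iff hm1.le]; exact hm1
  refine ⟨PowerSeries.coeff (p ^ a) F / m, fun g => ?_, ?_, ?_⟩
  · rw [smul_div₀', smul_natCast']
    congr 1
    have : PowerSeries.map (MulSemiringAction.toRingHom G L g) F = F := by
      simp only [F, map_prod, map_add, map_one, map_mul, PowerSeries.map_C, PowerSeries.map_X,
        MulSemiringAction.toRingHom_apply]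
      exact Fintype.prod_equiv (Equiv.mulLeft g) _ _ fun g' => by simp [mul_smul]
    conv_rhs => rw [← this, PowerSeries.coeff_map]
    rfl
  · rw [map_div₀, hm1, div_one]; exact hF _
  · rw [h.div (hF _) hm1, h6, h.natCast, mul_div_cancel_left₀ _ hm2]

end Res

end CoreH

end P179W
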