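import Vale.Agent.P179W.PtMap

/-!
# P179W : reduction of points (B2)
-/

set_option linter.all false

open scoped NNReal Classical
open WeierstrassCurve WeierstrassCurve.Affine

noncomputable section

namespace P179W

section
variable {K : Type} [Field K] {Γ : Type} [LinearOrderedCommGroupWithZero Γ] {v : Valuation K Γ}

theorem quad_le {y a b : K} {M : Γ} (ha : v a ≤ 1) (e : y ^ 2 + a * y = b) (hb : v b ≤ M)
    (h1 : 1 ≤ M) : v y ^ 2 ≤ M := by
  by_cases hy : v y ≤ 1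
  · exact le_trans (pow_le_one₀ zero_le' hy) h1
  · rw [not_le] at hy
    have h2 : v (a * y) < v (y ^ 2) := by
      rw [map_mul, map_pow]
      calc v a * v y ≤ 1 * v y := mul_le_mul_left ha _
        _ = v y ^ 1 := by simp
        _ < v y ^ 2 := pow_lt_pow_right₀ hy (by norm_num)
    rw [← map_pow, ← Valuation.map_add_eq_of_lt_left v h2, e]
    exact hb

theorem quad_le_one {y a b : K} (ha : v a ≤ 1) (e : y ^ 2 + a * y = b) (hb : v b ≤ 1) :
    v y ≤ 1 :=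
  (pow_le_one_iff (by norm_num)).1 (quad_le ha e hb le_rfl)

theorem val_mul_le {a b : K} {r s : Γ} (ha : v a ≤ r) (hb : v b ≤ s) : v (a * b) ≤ r * s := by
  rw [map_mul]; exact mul_le_mul' ha hb

theorem val_mul_le_one {a b : K} (ha : v a ≤ 1) (hb : v b ≤ 1) : v (a * b) ≤ 1 := by
  simpa using val_mul_le ha hb

theorem val_pow_le_one {a : K} (ha : v a ≤ 1) (n : ℕ) : v (a ^ n) ≤ 1 := by
  rw [map_pow]; exact pow_le_one₀ zero_le' ha

variable {E : WeierstrassCurve K}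

theorem y_int (hc : CoeffIn E {z | v z ≤ 1}) {x y : K} (e : E.toAffine.Equation x y)
    (hx : v x ≤ 1) : v y ≤ 1 := by
  obtain ⟨c1, c2, c3, c4, c6⟩ := hc
  rw [equation_iff] at e
  refine quad_le_one (a := E.a₁ * x + E.a₃) (b := x ^ 3 + E.a₂ * x ^ 2 + E.a₄ * x + E.a₆)
    (v.map_add_le (val_mul_le_one c1 hx) c3) (by linear_combination e) ?_
  exact v.map_add_le (v.map_add_le (v.map_add_le (val_pow_le_one hx 3)
    (val_mul_le_one c2 (val_pow_le_one hx 2))) (val_mul_le_one c4 hx)) c6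

theorem ker_aux (hc : CoeffIn E {z | v z ≤ 1}) {x₁ x₂ x₃ l n : K}
    (s1 : x₁ + x₂ + x₃ = l ^ 2 + E.a₁ * l - E.a₂)
    (s2 : x₁ * x₂ + x₁ * x₃ + x₂ * x₃ = E.a₄ - 2 * l * n - E.a₁ * n - E.a₃ * l)
    (s3 : x₁ * x₂ * x₃ = n ^ 2 + E.a₃ * n - E.a₆) (h₂ : 1 < v x₂) (h : v x₂ ≤ v x₁) :
    ¬ v x₃ ≤ 1 := by
  intro h₃
  obtain ⟨c1, c2, c3, c4, c6⟩ := hc
  simp only [Set.mem_setOf_eq] at c1 c2 c3 c4 c6
  have h₁ : 1 < v x₁ := lt_of_lt_of_le h₂ h
  have p₁ : 0 < v x₁ := lt_trans zero_lt_one h₁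
  have p₂ : 0 < v x₂ := lt_trans zero_lt_one h₂
  have h12 : v x₁ < v x₁ * v x₂ := lt_mul_of_one_lt_right p₁ h₂
  have h12' : 1 < v x₁ * v x₂ := lt_trans h₁ h12
  have p12 : 0 < v x₁ * v x₂ := lt_trans zero_lt_one h12'
  have hl : v l ^ 2 ≤ v x₁ :=
    quad_le (b := x₁ + x₂ + x₃ + E.a₂) c1 (by linear_combination -s1)
      (v.map_add_le (v.map_add_le (v.map_add_le le_rfl h) (le_trans h₃ h₁.le)) (le_trans c2 h₁.le))
      h₁.le
  have hn : v n ^ 2 ≤ v x₁ * v x₂ := by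
    refine quad_le (b := x₁ * x₂ * x₃ + E.a₆) c3 (by linear_combination -s3)
      (v.map_add_le ?_ (le_trans c6 h12'.le)) h12'.le
    simpa using val_mul_le (le_of_eq (map_mul v x₁ x₂)) h₃
  have hsq : v x₁ * v x₂ < (v x₁ * v x₂) ^ 2 := by
    calc v x₁ * v x₂ = (v x₁ * v x₂) ^ 1 := (pow_one _).symm
      _ < _ := pow_lt_pow_right₀ h12' (by norm_num)
  have hl' : v l < v x₁ * v x₂ :=
    lt_of_pow_lt_pow_left₀ 2 zero_le' (lt_of_le_of_lt hl (lt_trans h12 hsq))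
  have hn' : v n < v x₁ * v x₂ := lt_of_pow_lt_pow_left₀ 2 zero_le' (lt_of_le_of_lt hn hsq)
  have hln : v l * v n < v x₁ * v x₂ := by
    refine lt_of_pow_lt_pow_left₀ 2 zero_le' ?_
    calc (v l * v n) ^ 2 = v l ^ 2 * v n ^ 2 := mul_pow _ _ _
      _ ≤ v x₁ * (v x₁ * v x₂) := mul_le_mul' hl hn
      _ < (v x₁ * v x₂) * (v x₁ * v x₂) := mul_lt_mul_of_pos_right h12 p12
      _ = (v x₁ * v x₂) ^ 2 := (pow_two _).symm
  have two : v 2 ≤ 1 := by
    have : (2 : K) = 1 + 1 := by norm_num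
    rw [this]; exact v.map_add_le (le_of_eq v.map_one) (le_of_eq v.map_one)
  have e : x₁ * x₂ = E.a₄ - 2 * l * n - E.a₁ * n - E.a₃ * l - x₁ * x₃ - x₂ * x₃ := by
    linear_combination s2
  have : v (x₁ * x₂) < v x₁ * v x₂ := by
    rw [e]
    refine v.map_sub_lt (v.map_sub_lt (v.map_sub_lt (v.map_sub_lt (v.map_sub_lt
      (lt_of_le_of_lt c4 h12') ?_) ?_) ?_) ?_) ?_
    · refine lt_of_le_of_lt ?_ hln
      simpa using val_mul_le (val_mul_le two (le_refl (v l))) (le_refl (v n))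
    · refine lt_of_le_of_lt ?_ hn'
      simpa using val_mul_le c1 (le_refl (v n))
    · refine lt_of_le_of_lt ?_ hl'
      simpa using val_mul_le c3 (le_refl (v l))
    · refine lt_of_le_of_lt ?_ h12
      simpa using val_mul_le (le_refl (v x₁)) h₃
    · refine lt_of_le_of_lt ?_ h12
      simpa using val_mul_le h h₃
  rw [map_mul] at this
  exact lt_irrefl _ this

/-- the kernel of reduction -/
def KerV (v : Valuation K Γ) : E.toAffine.Point → Prop
  | .zero => True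
  | .some x _ _ => ¬ v x ≤ 1

theorem kerV_zero : KerV v (0 : E.toAffine.Point) := trivial

theorem kerV_neg {P : E.toAffine.Point} : KerV v (-P) ↔ KerV v P := by
  rcases P with _ | ⟨x, y, h⟩ <;> rfl

theorem kerV_add (hc : CoeffIn E {z | v z ≤ 1}) {P Q : E.toAffine.Point} (hP : KerV v P)
    (hQ : KerV v Q) : KerV v (P + Q) := by
  rcases P with _ | ⟨x₁, y₁, h₁⟩
  · exact (zero_add Q).symm ▸ hQ
  rcases Q with _ | ⟨x₂, y₂, h₂⟩
  · exact hP
  by_cases hxy : x₁ = x₂ ∧ y₁ = E.toAffine.negY x₂ y₂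
  · rw [Point.add_of_Y_eq hxy.1 hxy.2]; trivial
  · rw [Point.add_some hxy]
    obtain ⟨l, n, x₃, hl, hx₃, -, -, -, s1, s2, s3⟩ := line_rel h₁.1 h₂.1 hxy
    show ¬ v _ ≤ 1
    rw [← hl, ← hx₃]
    rcases le_total (v x₂) (v x₁) with h | h
    · exact ker_aux hc s1 s2 s3 (not_le.1 hQ) h
    · exact ker_aux hc (x₁ := x₂) (x₂ := x₁) (l := l) (n := n)
        (by linear_combination s1) (by linear_combination s2)
        (by linear_combination s3) (not_le.1 hP) h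

end

section Red
variable {K : Type} [Field K] {Γ : Type} [LinearOrderedCommGroupWithZero Γ] {v : Valuation K Γ}
  {R : Type} [Field R] {E₀ : WeierstrassCurve v.integer} {ρ : v.integer →+* R} {r : K → R}

theorem coeffIn_map (E₀ : WeierstrassCurve v.integer) :
    CoeffIn (E₀.map v.integer.subtype) {z | v z ≤ 1} :=
  ⟨E₀.a₁.2, E₀.a₂.2, E₀.a₃.2, E₀.a₄.2, E₀.a₆.2⟩

theorem red_nonsing (hΔ : ρ E₀.Δ ≠ 0) {x y : v.integer}
    (h : (E₀.map v.integer.subtype).toAffine.Equation x y) :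
    (E₀.map ρ).toAffine.Nonsingular (ρ x) (ρ y) :=
  nonsing_of_Δ (by rwa [map_Δ])
    (((map_equation E₀.toAffine Subtype.val_injective x y).1 h).map ρ)

/-- the reduction map of an integral model -/
abbrev redP (E₀ : WeierstrassCurve v.integer) (ρ : v.integer →+* R) (r : K → R) :
    (E₀.map v.integer.subtype).toAffine.Point → (E₀.map ρ).toAffine.Point :=
  ptRed (E := E₀.map v.integer.subtype) {z | v z ≤ 1} r (E₀.map ρ)

variable (hΔ : ρ E₀.Δ ≠ 0) (hr : ∀ a : v.integer, r a = ρ a)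
include hΔ hr

theorem red_some {x y : v.integer} (h : (E₀.map v.integer.subtype).toAffine.Nonsingular x y) :
    redP E₀ ρ r (.some x y h) = .some (ρ x) (ρ y) (red_nonsing hΔ h.1) := by
  have hx : (x : K) ∈ {z | v z ≤ 1} := x.2
  simp only [redP, ptRed, if_pos hx, hr]
  exact pt_of _

omit hΔ hr in
/-- a point outside the kernel has integral coordinates -/
theorem exists_int {Q : (E₀.map v.integer.subtype).toAffine.Point} (hQ : ¬ KerV v Q) :
    ∃ (x y : v.integer) (h : (E₀.map v.integer.subtype).toAffine.Nonsingular x y),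
      Q = .some x y h := by
  rcases Q with _ | ⟨x, y, h⟩
  · exact absurd trivial hQ
  · have hx : v x ≤ 1 := not_not.1 hQ
    exact ⟨⟨x, hx⟩, ⟨y, y_int (coeffIn_map E₀) h.1 hx⟩, h, rfl⟩

theorem red_eq_zero (Q : (E₀.map v.integer.subtype).toAffine.Point) : redP E₀ ρ r Q = 0 ↔ KerV v Q := by
  by_cases hQ : KerV v Q
  · refine ⟨fun _ => hQ, fun _ => ?_⟩
    rcases Q with _ | ⟨x, y, h⟩
    · rfl
    · exact if_neg hQ
  · obtain ⟨x, y, h, rfl⟩ := exists_int hQ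
    rw [red_some hΔ hr]
    exact ⟨fun e => absurd e (Point.some_ne_zero _), fun e => absurd e hQ⟩

theorem red_neg (Q : (E₀.map v.integer.subtype).toAffine.Point) : redP E₀ ρ r (-Q) = -redP E₀ ρ r Q := by
  by_cases hQ : KerV v Q
  · rw [(red_eq_zero hΔ hr Q).2 hQ, (red_eq_zero hΔ hr (-Q)).2 (kerV_neg.2 hQ), neg_zero]
  · obtain ⟨x, y, h, rfl⟩ := exists_int hQ
    have e0 : (E₀.map v.integer.subtype).toAffine.negY x y = (E₀.toAffine.negY x y : v.integer) :=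
      map_negY v.integer.subtype x y
    have h' : (E₀.map v.integer.subtype).toAffine.Nonsingular x
        (E₀.toAffine.negY x y : v.integer) := by
      rw [← e0]; exact (nonsingular_neg _ _).2 h
    have e : -(Point.some (x : K) (y : K) h) = .some _ _ h' := by
      rw [Point.neg_some]
      congr 1
    rw [e, red_some hΔ hr, red_some hΔ hr, Point.neg_some]
    congr 1
    exact (map_negY ρ x y).symm

omit hΔ hr in
theorem div_int (hρ : ∀ c : v.integer, ρ c = 0 ↔ v c < 1) {l : K} {a b : v.integer}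
    (hb : ρ b ≠ 0) (h : l * b = a) : v l ≤ 1 := by
  rw [Ne, hρ, not_lt] at hb
  have hb1 : v (b : K) = 1 := le_antisymm b.2 hb
  have ha : v (a : K) ≤ 1 := a.2
  rwa [← h, map_mul, hb1, mul_one] at ha

theorem red_add_int (hρ : ∀ c : v.integer, ρ c = 0 ↔ v c < 1)
    {P Q : (E₀.map v.integer.subtype).toAffine.Point} (hP : ¬ KerV v P) (hQ : ¬ KerV v Q) :
    redP E₀ ρ r (P + Q) = redP E₀ ρ r P + redP E₀ ρ r Q := by
  obtain ⟨x₁, y₁, h₁, rfl⟩ := exists_int hP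
  obtain ⟨x₂, y₂, h₂, rfl⟩ := exists_int hQ
  rw [red_some hΔ hr, red_some hΔ hr]
  by_cases hxy : (x₁ : K) = x₂ ∧ (y₁ : K) = (E₀.map v.integer.subtype).toAffine.negY x₂ y₂
  · rw [Point.add_of_Y_eq hxy.1 hxy.2]
    have e1 : x₁ = x₂ := Subtype.ext hxy.1
    have e2 : y₁ = E₀.toAffine.negY x₂ y₂ :=
      Subtype.ext (hxy.2.trans (map_negY v.integer.subtype x₂ y₂))
    rw [Point.add_of_Y_eq (by rw [e1]) (by rw [e2]; exact (map_negY ρ x₂ y₂).symm)]
    rfl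
  obtain ⟨hl, hk⟩ := slope_rel h₁.1 h₂.1 hxy
  set l := (E₀.map v.integer.subtype).toAffine.slope x₁ x₂ y₁ y₂ with hldef
  simp only [map_a₁, map_a₂, map_a₃, map_a₄, Subring.subtype_apply] at hk
  have red2 : ∀ hlO : v l ≤ 1, ρ y₁ - ρ y₂ = ρ ⟨l, hlO⟩ * (ρ x₁ - ρ x₂) ∧
      ρ ⟨l, hlO⟩ * (ρ y₁ + ρ y₂ + ρ E₀.a₁ * ρ x₂ + ρ E₀.a₃) =
        ρ x₁ ^ 2 + ρ x₁ * ρ x₂ + ρ x₂ ^ 2 + ρ E₀.a₂ * (ρ x₁ + ρ x₂) + ρ E₀.a₄ - ρ E₀.a₁ * ρ y₁ := by
    intro hlO
    have a1 : y₁ - y₂ = (⟨l, hlO⟩ : v.integer) * (x₁ - x₂) := Subtype.ext (by push_cast; exact hl)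
    have a2 : (⟨l, hlO⟩ : v.integer) * (y₁ + y₂ + E₀.a₁ * x₂ + E₀.a₃) =
        x₁ ^ 2 + x₁ * x₂ + x₂ ^ 2 + E₀.a₂ * (x₁ + x₂) + E₀.a₄ - E₀.a₁ * y₁ :=
      Subtype.ext (by push_cast; exact hk)
    have b1 := congrArg ρ a1
    have b2 := congrArg ρ a2
    simp only [map_sub, map_mul, map_add, map_pow] at b1 b2
    exact ⟨b1, b2⟩
  by_cases hxy' : ρ x₁ = ρ x₂ ∧ ρ y₁ = (E₀.map ρ).toAffine.negY (ρ x₂) (ρ y₂)
  · rw [Point.add_of_Y_eq hxy'.1 hxy'.2, red_eq_zero hΔ hr, Point.add_some hxy]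
    intro h3
    rw [← hldef] at h3
    have hlO : v l ≤ 1 := by
      refine quad_le_one (a := E₀.a₁) E₀.a₁.2
        (b := (E₀.map v.integer.subtype).toAffine.addX x₁ x₂ l + E₀.a₂ + x₁ + x₂) ?_
        (v.map_add_le (v.map_add_le (v.map_add_le h3 E₀.a₂.2) x₁.2) x₂.2)
      simp only [addX, map_a₁, map_a₂, Subring.subtype_apply]
      ring
    obtain ⟨b1, b2⟩ := red2 hlO
    obtain ⟨c1, c2⟩ := hxy'
    simp only [negY, map_a₁, map_a₃] at c2
    rw [c1, sub_self, mul_zero] at b1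
    rw [c1] at b2
    rcases ((nonsing_iff _ _).1 (red_nonsing hΔ h₂.1)).2 with h5 | h5
    · apply h5
      simp only [phi, map_a₁, map_a₂, map_a₄]
      linear_combination -b2 + ρ ⟨l, hlO⟩ * c2 + ρ E₀.a₁ * b1
    · apply h5
      simp only [psi, map_a₁, map_a₃]
      linear_combination c2 - b1
  · have hne : ρ x₁ - ρ x₂ ≠ 0 ∨ ρ y₁ + ρ y₂ + ρ E₀.a₁ * ρ x₂ + ρ E₀.a₃ ≠ 0 := by
      by_contra hc
      push Not at hc
      refine hxy' ⟨sub_eq_zero.1 hc.1, ?_⟩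
      simp only [negY, map_a₁, map_a₃]
      linear_combination hc.2
    have hlO : v l ≤ 1 := by
      rcases hne with h5 | h5
      · rw [← map_sub] at h5
        exact div_int hρ (a := y₁ - y₂) h5 (by push_cast; exact hl.symm)
      · rw [← map_mul, ← map_add, ← map_add, ← map_add] at h5
        exact div_int hρ
          (a := x₁ ^ 2 + x₁ * x₂ + x₂ ^ 2 + E₀.a₂ * (x₁ + x₂) + E₀.a₄ - E₀.a₁ * y₁) h5
          (by push_cast; exact hk)
    obtain ⟨b1, b2⟩ := red2 hlO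
    obtain ⟨c1, c2⟩ := slope_rel (red_nonsing hΔ h₁.1).1 (red_nonsing hΔ h₂.1).1 hxy'
    simp only [map_a₁, map_a₂, map_a₃, map_a₄] at c2
    have hm : (E₀.map ρ).toAffine.slope (ρ x₁) (ρ x₂) (ρ y₁) (ρ y₂) = ρ ⟨l, hlO⟩ := by
      rcases hne with h5 | h5
      · apply mul_right_cancel₀ h5
        rw [← c1, ← b1]
      · apply mul_right_cancel₀ h5
        rw [c2, b2]
    rw [Point.add_some hxy, Point.add_some hxy']
    set L : v.integer := ⟨l, hlO⟩ with hL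
    have ex : (E₀.map v.integer.subtype).toAffine.addX x₁ x₂ l =
        (E₀.toAffine.addX x₁ x₂ L : v.integer) := map_addX v.integer.subtype x₁ x₂ L
    have ey : (E₀.map v.integer.subtype).toAffine.addY x₁ x₂ y₁ l =
        (E₀.toAffine.addY x₁ x₂ y₁ L : v.integer) := map_addY v.integer.subtype x₁ y₁ x₂ L
    have h3 := nonsingular_add h₁ h₂ hxy
    rw [← hldef, ex, ey] at h3
    have e3 : Point.some _ _ (nonsingular_add h₁ h₂ hxy) = .some _ _ h3 := by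
      congr 1
    rw [e3, red_some hΔ hr]
    congr 1
    · rw [hm]; exact (map_addX ρ x₁ x₂ L).symm
    · rw [hm]; exact (map_addY ρ x₁ y₁ x₂ L).symm

theorem red_add_ker (hρ : ∀ c : v.integer, ρ c = 0 ↔ v c < 1)
    {P Q : (E₀.map v.integer.subtype).toAffine.Point} (hP : ¬ KerV v P) (hQ : KerV v Q) :
    redP E₀ ρ r (P + Q) = redP E₀ ρ r P := by
  have hS : ¬ KerV v (P + Q) := by
    intro h
    apply hP
    have := kerV_add (coeffIn_map E₀) h (kerV_neg.2 hQ)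
    rwa [add_neg_cancel_right] at this
  have h := red_add_int hΔ hr hρ hS (fun h => hP (kerV_neg.1 h))
  rw [add_neg_cancel_comm, (red_eq_zero hΔ hr Q).2 hQ, red_neg hΔ hr] at h
  exact add_neg_eq_zero.1 h.symm

theorem red_add (hρ : ∀ c : v.integer, ρ c = 0 ↔ v c < 1)
    (P Q : (E₀.map v.integer.subtype).toAffine.Point) : redP E₀ ρ r (P + Q) = redP E₀ ρ r P + redP E₀ ρ r Q := by
  by_cases hP : KerV v P
  · by_cases hQ : KerV v Q
    · rw [(red_eq_zero hΔ hr P).2 hP, (red_eq_zero hΔ hr Q).2 hQ,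
        (red_eq_zero hΔ hr _).2 (kerV_add (coeffIn_map E₀) hP hQ), add_zero]
    · rw [add_comm, red_add_ker hΔ hr hρ hQ hP, (red_eq_zero hΔ hr P).2 hP, zero_add]
  · by_cases hQ : KerV v Q
    · rw [red_add_ker hΔ hr hρ hP hQ, (red_eq_zero hΔ hr Q).2 hQ, add_zero]
    · exact red_add_int hΔ hr hρ hP hQ

end Red

section
variable {K : Type} [Field K] {Γ : Type} [LinearOrderedCommGroupWithZero Γ] {v : Valuation K Γ}

theorem exists_int_model {E : WeierstrassCurve K} (hc : CoeffIn E {z | v z ≤ 1}) :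
    ∃ E₀ : WeierstrassCurve v.integer, E₀.map v.integer.subtype = E :=
  ⟨⟨⟨E.a₁, hc.1⟩, ⟨E.a₂, hc.2.1⟩, ⟨E.a₃, hc.2.2.1⟩, ⟨E.a₄, hc.2.2.2.1⟩, ⟨E.a₆, hc.2.2.2.2⟩⟩, rfl⟩

/-- the reduction as a ring homomorphism -/
theorem exists_rho {R : Type} [Field R] {r : K → R} (h1 : r 1 = 1)
    (ha : ∀ a b, v a ≤ 1 → v b ≤ 1 → r (a + b) = r a + r b)
    (hm : ∀ a b, v a ≤ 1 → v b ≤ 1 → r (a * b) = r a * r b)
    (h0 : ∀ a, v a ≤ 1 → (r a = 0 ↔ v a < 1)) :
    ∃ ρ : v.integer →+* R, (∀ a : v.integer, r a = ρ a) ∧ ∀ c : v.integer, ρ c = 0 ↔ v c < 1 :=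
  ⟨{ toFun := fun a => r a
     map_one' := h1
     map_mul' := fun a b => hm a b a.2 b.2
     map_zero' := (h0 0 (by simp)).2 (by simp)
     map_add' := fun a b => ha a b a.2 b.2 }, fun _ => rfl, fun c => h0 c c.2⟩

/-- the residue field -/
theorem exists_red (v : Valuation K Γ) : ∃ (R : Type) (_ : Field R) (r : K → R), r 1 = 1 ∧
    (∀ a b, v a ≤ 1 → v b ≤ 1 → r (a + b) = r a + r b) ∧
    (∀ a b, v a ≤ 1 → v b ≤ 1 → r (a * b) = r a * r b) ∧
    (∀ a, v a ≤ 1 → (r a = 0 ↔ v a < 1)) ∧ ∀ z, ∃ a, v a ≤ 1 ∧ r a = z := by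
  let r : K → IsLocalRing.ResidueField v.valuationSubring := fun a =>
    if h : a ∈ v.valuationSubring then IsLocalRing.residue _ ⟨a, h⟩ else 0
  have hr : ∀ a (h : v a ≤ 1), r a = IsLocalRing.residue v.valuationSubring ⟨a, h⟩ :=
    fun a h => dif_pos h
  refine ⟨_, inferInstance, r, ?_, ?_, ?_, ?_, ?_⟩
  · rw [hr 1 (by simp)]; exact map_one _
  · intro a b ha hb
    rw [hr a ha, hr b hb, hr _ (v.map_add_le ha hb), ← map_add]; rfl
  · intro a b ha hb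
    rw [hr a ha, hr b hb, hr _ (val_mul_le_one ha hb), ← map_mul]; rfl
  · intro a ha
    rw [hr a ha, IsLocalRing.residue_eq_zero_iff, Valuation.mem_maximalIdeal_iff]
  · intro z
    obtain ⟨a, rfl⟩ := IsLocalRing.residue_surjective z
    exact ⟨a, a.2, hr a a.2⟩

end

theorem ptRed_holds : PtRedStmt := by
  intro K _ Γ _ v E hc hΔ
  obtain ⟨E₀, rfl⟩ := exists_int_model hc
  have hΔ' : ∀ {R : Type} [Field R] {ρ : v.integer →+* R}, (∀ c : v.integer, ρ c = 0 ↔ v c < 1) →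
      ρ E₀.Δ ≠ 0 := by
    intro R _ ρ hρ h
    rw [hρ] at h
    rw [map_Δ] at hΔ
    exact h.ne hΔ
  refine ⟨fun x y e hx => y_int hc e hx, ?_, ?_⟩
  · intro R _ r Eb h1 ha hm h0 e1 e2 e3 e4 e6
    obtain ⟨ρ, hr, hρ⟩ := exists_rho h1 ha hm h0
    have hE : Eb = E₀.map ρ := by
      ext
      exacts [e1.trans (hr _), e2.trans (hr _), e3.trans (hr _), e4.trans (hr _), e6.trans (hr _)]
    subst hE
    refine ⟨by rw [map_Δ]; exact hΔ' hρ, fun x y e hx => ?_, red_add (hΔ' hρ) hr hρ⟩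
    have := red_nonsing (x := ⟨x, hx⟩) (y := ⟨y, y_int hc e hx⟩) (hΔ' hρ) e
    rwa [← hr, ← hr] at this
  · intro x y a b x' y' a' b' Q e₁ e₂ e₃ e₄ ha ha' t₁ t₂ hx hy
    obtain ⟨R, _, r, h1, hadd, hm, h0, -⟩ := exists_red v
    obtain ⟨ρ, hr, hρ⟩ := exists_rho h1 hadd hm h0
    have hΔ0 : (E₀.map v.integer.subtype).Δ ≠ 0 := by
      intro h; rw [h, map_zero] at hΔ; exact zero_ne_one hΔ
    have cong : ∀ s t : v.integer, ρ s = ρ t ↔ v ((s : K) - t) < 1 := by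
      intro s t
      rw [← sub_eq_zero, ← map_sub, hρ]; rfl
    have hx1 : v x ≤ 1 := by
      have : x = (x - a) + a := by ring
      rw [this]; exact v.map_add_le hx.le ha
    lift x to v.integer using hx1
    lift a to v.integer using ha
    lift a' to v.integer using ha'
    lift y to v.integer using y_int hc e₁ x.2
    lift b to v.integer using y_int hc e₂ a.2
    lift b' to v.integer using y_int hc e₄ a'.2
    have r₁ := congrArg (redP E₀ ρ r) t₁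
    have r₂ := congrArg (redP E₀ ρ r) t₂
    rw [red_add (hΔ' hρ) hr hρ, pt_of (nonsing_of_Δ hΔ0 e₁), red_some (hΔ' hρ) hr,
      pt_of (nonsing_of_Δ hΔ0 e₃)] at r₁
    rw [red_add (hΔ' hρ) hr hρ, pt_of (nonsing_of_Δ hΔ0 e₂), red_some (hΔ' hρ) hr,
      pt_of (nonsing_of_Δ hΔ0 e₄), red_some (hΔ' hρ) hr] at r₂
    have e5 : Point.some _ _ (red_nonsing (hΔ' hρ) (nonsing_of_Δ hΔ0 e₁).1) =
        Point.some _ _ (red_nonsing (hΔ' hρ) (nonsing_of_Δ hΔ0 e₂).1) := by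
      congr 1
      exacts [(cong _ _).2 hx, (cong _ _).2 hy]
    rw [e5, ← r₂] at r₁
    have hx' : v x' ≤ 1 := by
      by_contra h
      rw [(red_eq_zero (hΔ' hρ) hr (.some x' y' (nonsing_of_Δ hΔ0 e₃))).2 h] at r₁
      exact Point.some_ne_zero _ r₁.symm
    lift x' to v.integer using hx'
    lift y' to v.integer using y_int hc e₃ x'.2
    rw [red_some (hΔ' hρ) hr] at r₁
    injection r₁ with f₁ f₂
    exact ⟨(cong _ _).1 f₁, (cong _ _).1 f₂⟩

end P179W
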