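import Vale.Agent.P179W.CoreA
import Vale.Agent.P179W.PtRed
import Vale.Agent.P179W.Bound

/-!
# P179W : basic facts on the core data
-/

set_option linter.all false

open scoped NNReal Classical
open Filter Topology

noncomputable section

namespace P179W

namespace CoreH

variable {p n : ℕ} {L : Type} [Field L] {G : Type} [Group G]
  [MulSemiringAction G L] {R : Type} [Field R] (c : Core p n L G R)

theorem K_fix {a : L} (ha : a ∈ c.K) (g : G) : g • a = a := (c.fixed a).2 (le_adj _ _ ha) g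

theorem x_fix (g : G) : g • c.x = c.x := (c.fixed _).2 (Pl.x_mem2 _ _ _) g

theorem y_fix (g : G) : g • c.y = c.y := (c.fixed _).2 (Pl.y_mem2 _ _ _) g

theorem wy : c.w c.y ≤ 1 := Pl.y_le c.coeff_int c.eqn c.wx

theorem wyP (j : ZMod n) : c.w (c.yP j) ≤ 1 := Pl.y_le c.coeff_int (c.eqnP j) (c.wP j)

theorem wx1 : c.w c.x = 1 := by
  have := c.gauss Polynomial.X (mem_polyIn.1 X_mem_polyIn) 1
  exact le_antisymm c.wx (by simpa using this)

theorem flow [Fact p.Prime] (j : ZMod n) : Flow G p c.w (c.D j) c.π0 := by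
  haveI := c.charZero
  haveI := c.fin
  obtain ⟨-, -, h⟩ := bound_holds p L (c.D j) c.π0
  obtain ⟨h1, h2⟩ := h c.w c.wp
  obtain ⟨ρ, hρ, h3, -⟩ := h1 c.spec3
  obtain ⟨C, hC⟩ := c.spec1
  refine ⟨c.wp, c.disc, c.faith, c.D_equiv j, K_fix c c.π0_mem, c.π0_D j,
    h2 G c.disc ⟨C, hC j⟩, ρ, hρ, fun f hf k => ?_⟩
  have h4 : ∀ k : ℕ, (∀ g : G, g • (c.D j : L → L)^[k] f = (c.D j : L → L)^[k] f) ∧
      c.w ((c.D j : L → L)^[k] f) ≤ c.w f := by
    intro k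
    induction k with
    | zero => exact ⟨hf, le_rfl⟩
    | succ k ih =>
      rw [Function.iterate_succ_apply']
      exact ⟨fun g => by rw [← c.D_equiv, ih.1], (c.D_w j _ ih.1).trans ih.2⟩
  rw [dE, map_mul]
  exact mul_le_mul' (h3 k) (h4 k).2

theorem rd_eval {f : Polynomial L} (hf : f ∈ polyIn c.K) (h : c.w (f.eval c.x) ≤ 1) :
    c.rd (f.eval c.x) ∈ adj (c.kb : Set R) {c.rd c.x, c.rd c.y} := by
  have h1 : ∀ k, c.w (f.coeff k) ≤ 1 := fun k => (c.gauss f (mem_polyIn.1 hf) k).trans h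
  rw [Polynomial.eval_eq_sum_range, c.red.sum _ fun k _ => Pl.vmul_le _ (h1 k) (Pl.vpow_le _ c.wx k)]
  refine sum_mem fun k _ => ?_
  rw [c.red.mul _ _ (h1 k) (Pl.vpow_le _ c.wx k), c.red.pow c.wx]
  exact mul_mem (le_adj _ _ (c.rd_K _ (mem_polyIn.1 hf k) (h1 k))) (pow_mem (Pl.x_mem2 _ _ _) k)

theorem rd_F1 {a : L} (ha : a ∈ adj (c.K : Set L) {c.x}) (h : c.w a ≤ 1) :
    c.rd a ∈ adj (c.kb : Set R) {c.rd c.x, c.rd c.y} := by
  obtain ⟨A, hA, B, hB, hB0, hab⟩ := mem_adj_one.1 ha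
  obtain ⟨d, hd, hd1⟩ := Pl.Gauss.val1 c.gauss c.wx
    (eval_mem hB (le_adj _ _) (Pl.x_mem1 _ _))
  have hd0 : c.w d ≠ 0 := by rw [← hd1]; simpa using hB0
  have hd0' : d ≠ 0 := by simpa using hd0
  have h1 : c.w ((Polynomial.C d⁻¹ * B).eval c.x) = 1 := by
    rw [Polynomial.eval_mul, Polynomial.eval_C, map_mul, hd1, map_inv₀, inv_mul_cancel₀ hd0]
  have h2 : a = (Polynomial.C d⁻¹ * A).eval c.x / (Polynomial.C d⁻¹ * B).eval c.x := by
    simp only [Polynomial.eval_mul, Polynomial.eval_C, ← hab]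
    field_simp
  have h3 : c.w ((Polynomial.C d⁻¹ * A).eval c.x) ≤ 1 := by
    rw [h2, map_div₀, h1, div_one] at h
    exact h
  rw [h2, c.red.div h3 h1]
  exact div_mem (rd_eval c (mul_mem (C_mem_polyIn (inv_mem hd)) hA) h3)
    (rd_eval c (mul_mem (C_mem_polyIn (inv_mem hd)) hB) h1.le)

theorem rd_F {f : L} (hf : ∀ g : G, g • f = f) (h : c.w f ≤ 1) :
    c.rd f ∈ adj (c.kb : Set R) {c.rd c.x, c.rd c.y} := by
  obtain ⟨h1, h2, -⟩ := gaussEll_holds L _ c.w c.K c.E c.x c.y c.coeff_K c.coeff_int c.wΔ c.eqn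
    c.wx c.gauss
  obtain ⟨a, ha, b, hb, rfl⟩ := h1 f ((c.fixed f).1 hf)
  rw [h2 a ha b hb, max_le_iff] at h
  rw [c.red.add _ _ h.1 (Pl.vmul_le _ h.2 (wy c)), c.red.mul _ _ h.2 (wy c)]
  exact add_mem (rd_F1 c ha h.1) (mul_mem (rd_F1 c hb h.2) (Pl.y_mem2 _ _ _))

theorem rd_psi {a b : L} (ha : c.w a ≤ 1) (hb : c.w b ≤ 1) :
    c.rd (psi c.E a b) = psi c.Eb (c.rd a) (c.rd b) := by
  have h2 : c.w (2 : L) ≤ 1 := by simpa using w_nat_le c.w 2
  have h3 : c.rd (2 : L) = 2 := by simpa using c.red.natCast 2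
  rw [psi, psi, c.red.add _ _ (c.w.map_add_le (Pl.vmul_le _ h2 hb) (Pl.vmul_le _ c.coeff_int.1 ha))
    c.coeff_int.2.2.1, c.red.add _ _ (Pl.vmul_le _ h2 hb) (Pl.vmul_le _ c.coeff_int.1 ha),
    c.red.mul _ _ h2 hb, c.red.mul _ _ c.coeff_int.1 ha, h3, c.Eb_eq.1, c.Eb_eq.2.2.1]

theorem red_E : c.Eb.Δ ≠ 0 ∧ ∀ x y, c.E.toAffine.Equation x y → c.w x ≤ 1 →
    c.Eb.toAffine.Equation (c.rd x) (c.rd y) := by
  obtain ⟨-, h, -⟩ := ptRed_holds L _ c.w c.E c.coeff_int c.wΔ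
  obtain ⟨h1, h2, -⟩ := h R c.rd c.Eb c.red.one c.red.add c.red.mul c.red.eq_zero c.Eb_eq.1
    c.Eb_eq.2.1 c.Eb_eq.2.2.1 c.Eb_eq.2.2.2.1 c.Eb_eq.2.2.2.2
  exact ⟨h1, fun x y h hx => (h2 x y h hx).1⟩

/-- the special fibre -/
def deg : Deg p n R where
  kb := c.kb
  E := c.Eb
  x := c.rd c.x
  y := c.rd c.y
  xP j := c.rd (c.xP j)
  yP j := c.rd (c.yP j)
  σ := c.σb
  Q := c.Q
  charP := c.charP
  kb_alg := c.kb_alg
  coeff := by
    obtain ⟨h1, h2, h3, h4, h6⟩ := c.Eb_eq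
    obtain ⟨k1, k2, k3, k4, k6⟩ := c.coeff_K
    obtain ⟨i1, i2, i3, i4, i6⟩ := c.coeff_int
    exact ⟨h1 ▸ c.rd_K _ k1 i1, h2 ▸ c.rd_K _ k2 i2, h3 ▸ c.rd_K _ k3 i3, h4 ▸ c.rd_K _ k4 i4,
      h6 ▸ c.rd_K _ k6 i6⟩
  Δ_ne := (red_E c).1
  eqn := (red_E c).2 _ _ c.eqn c.wx
  eqnP j := (red_E c).2 _ _ (c.eqnP j) (c.wP j)
  P_mem j := ⟨c.rd_K _ (c.P_mem j).1 (c.wP j), c.rd_K _ (c.P_mem j).2 (wyP c j)⟩
  P_inj j l h := by
    by_contra hne
    exact ((c.red.eq_iff (c.wP j) (c.wP l)).1 h).ne (c.wP_sub j l hne)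
  P_psi j := by
    rw [← rd_psi c (c.wP j) (wyP c j), c.red.ne_zero_iff (c.wP_psi j).le]
    exact c.wP_psi j
  transc := c.transc
  R_alg := c.R_alg
  σ_kb := c.σb_kb
  σ_E := c.σb_E
  Q_on := c.Q_on
  σ_a := c.σb_a
  σ_P := c.σb_P
  period := c.period

theorem mem_B_iff {u b : L} :
    b ∈ c.B u ↔ ∀ V : ValuationSubring L, (∀ a ∈ c.O, a ∈ V) → u ∈ V → b ∈ V := by
  rw [Core.B, ← iInf_valuationSubring_superset, Subring.mem_iInf]
  constructor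
  · intro h V h1 h2
    exact h ⟨V, Set.union_subset h1 (Set.singleton_subset_iff.2 h2)⟩
  · intro h V
    exact h V.1 (fun a ha => V.2 (Or.inl ha)) (V.2 (Or.inr rfl))

theorem O_mem_B {u a : L} (ha : a ∈ c.K) (h : c.w a ≤ 1) : a ∈ c.B u :=
  (mem_B_iff c).2 fun _ h1 _ => h1 a ⟨ha, h⟩

theorem u_mem_B (u : L) : u ∈ c.B u := (mem_B_iff c).2 fun _ _ h => h

/-- the composite valuation ring -/
def compV (P : ValuationSubring R) : ValuationSubring L where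
  carrier := {a | c.w a ≤ 1 ∧ c.rd a ∈ P}
  one_mem' := ⟨by simp, by rw [c.red.one]; exact P.one_mem⟩
  zero_mem' := ⟨by simp, by rw [c.red.zero]; exact P.zero_mem⟩
  add_mem' := fun {a b} ha hb =>
    ⟨c.w.map_add_le ha.1 hb.1, by rw [c.red.add _ _ ha.1 hb.1]; exact P.add_mem _ _ ha.2 hb.2⟩
  mul_mem' := fun {a b} ha hb =>
    ⟨Pl.vmul_le _ ha.1 hb.1, by rw [c.red.mul _ _ ha.1 hb.1]; exact P.mul_mem _ _ ha.2 hb.2⟩
  neg_mem' := fun {a} ha =>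
    ⟨by rw [Valuation.map_neg]; exact ha.1, by rw [c.red.neg ha.1]; exact P.neg_mem _ ha.2⟩
  mem_or_inv_mem' a := by
    rcases lt_trichotomy (c.w a) 1 with h | h | h
    · exact Or.inl ⟨h.le, by rw [(c.red.eq_zero a h.le).2 h]; exact P.zero_mem⟩
    · rcases P.mem_or_inv_mem (c.rd a) with h1 | h1
      · exact Or.inl ⟨h.le, h1⟩
      · exact Or.inr ⟨by rw [map_inv₀, h, inv_one], by rw [c.red.inv h]; exact h1⟩
    · have h1 : c.w a⁻¹ < 1 := by rw [map_inv₀]; exact inv_lt_one_of_one_lt₀ h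
      exact Or.inr ⟨h1.le, by rw [(c.red.eq_zero _ h1.le).2 h1]; exact P.zero_mem⟩

theorem rd_B {P : ValuationSubring R} (hP : ∀ z ∈ c.kb, z ∈ P) {u : L} (hu : c.w u ≤ 1)
    (hu' : c.rd u ∈ P) {b : L} (hb : b ∈ c.B u) : c.w b ≤ 1 ∧ c.rd b ∈ P :=
  (mem_B_iff c).1 hb (compV c P) (fun a ha => ⟨ha.2, hP _ (c.rd_K a ha.1 ha.2)⟩) ⟨hu, hu'⟩

theorem kb_mem {P : ValuationSubring R} (hP : ∀ a ∈ c.K, c.w a ≤ 1 → c.rd a ∈ P) :
    ∀ z ∈ c.kb, z ∈ P := by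
  let k1 : Subfield R :=
    { carrier := {r | ∃ a ∈ c.K, c.w a ≤ 1 ∧ c.rd a = r}
      one_mem' := ⟨1, one_mem _, by simp, c.red.one⟩
      zero_mem' := ⟨0, zero_mem _, by simp, c.red.zero⟩
      add_mem' := by
        rintro _ _ ⟨a, ha', ha, rfl⟩ ⟨b, hb', hb, rfl⟩
        exact ⟨a + b, add_mem ha' hb', c.w.map_add_le ha hb, c.red.add a b ha hb⟩
      mul_mem' := by
        rintro _ _ ⟨a, ha', ha, rfl⟩ ⟨b, hb', hb, rfl⟩
        exact ⟨a * b, mul_mem ha' hb', Pl.vmul_le _ ha hb, c.red.mul a b ha hb⟩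
      neg_mem' := by
        rintro _ ⟨a, ha', ha, rfl⟩
        exact ⟨-a, neg_mem ha', by rwa [Valuation.map_neg], c.red.neg ha⟩
      inv_mem' := by
        rintro _ ⟨a, ha', ha, rfl⟩
        by_cases h0 : c.rd a = 0
        · exact ⟨0, zero_mem _, by simp, by rw [h0, c.red.zero, inv_zero]⟩
        · have h1 := (c.red.ne_zero_iff ha).1 h0
          exact ⟨a⁻¹, inv_mem ha', by rw [map_inv₀, h1, inv_one], c.red.inv h1⟩ }
  intro z hz
  refine mem_of_alg (k := k1) ?_ ((c.kb_over z hz).mono (Subfield.closure_le.2 ?_))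
  · rintro _ ⟨a, ha', ha, rfl⟩
    exact hP a ha' ha
  · rintro _ ⟨a, ⟨ha', ha⟩, rfl⟩
    exact ⟨a, ha', ha, rfl⟩

theorem horiz {V : ValuationSubring L} (hV : ∀ a ∈ c.K, a ∈ V) (j : ZMod n)
    (h : Above V c.x c.y (c.xP j) (c.yP j)) :
    V.valuation (c.y - c.yP j) ≤ V.valuation (c.x - c.xP j) := by
  have hv : ∀ a ∈ c.K, V.valuation a ≤ 1 := fun a ha => (val_le_iff V a).2 (hV a ha)
  obtain ⟨k1, k2, k3, k4, k6⟩ := c.coeff_K
  have ha := hv _ (c.P_mem j).1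
  have hb := hv _ (c.P_mem j).2
  have hx : V.valuation c.x ≤ 1 := by
    simpa using V.valuation.map_add_le h.1.le ha
  have e : (c.y - c.yP j) * (psi c.E (c.xP j) (c.yP j) + ((c.y - c.yP j) + c.E.a₁ * (c.x - c.xP j)))
      = (c.x - c.xP j) * (c.x ^ 2 + c.x * c.xP j + c.xP j ^ 2 + c.E.a₂ * (c.x + c.xP j) + c.E.a₄
        - c.E.a₁ * c.yP j) := by
    rw [psi]
    linear_combination Pl.eqn c.eqn - Pl.eqn (c.eqnP j)
  have hψ : V.valuation (psi c.E (c.xP j) (c.yP j)) = 1 := by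
    refine val_eq_one hV ?_ fun h0 => by simpa [h0] using c.wP_psi j
    exact add_mem (add_mem (mul_mem (by exact_mod_cast natCast_mem c.K 2) (c.P_mem j).2)
      (mul_mem k1 (c.P_mem j).1)) k3
  have e2 := congrArg V.valuation e
  rw [map_mul, map_mul, V.valuation.map_add_eq_of_lt_left (by
    rw [hψ]; exact V.valuation.map_add_lt h.2 (Pl.vmul_lt _ (hv _ k1) h.1)), hψ, mul_one] at e2
  rw [e2]
  refine mul_le_of_le_one_right' ?_
  exact V.valuation.map_sub_le (V.valuation.map_add_le (V.valuation.map_add_le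
    (V.valuation.map_add_le (V.valuation.map_add_le (Pl.vpow_le _ hx 2) (Pl.vmul_le _ hx ha))
    (Pl.vpow_le _ ha 2)) (Pl.vmul_le _ (hv _ k2) (V.valuation.map_add_le hx ha))) (hv _ k4))
    (Pl.vmul_le _ (hv _ k1) hb)

theorem x_ne : c.x ≠ 0 := fun h => by simpa [h] using wx1 c

theorem exists_s {u : L} (hu : u = c.x ∨ u = c.x⁻¹) : ∃ s ∈ c.B u, c.x * s ∈ c.B u ∧
    c.y * s ^ 2 ∈ c.B u ∧ (∀ g : G, g • s = s) ∧ c.w s = 1 ∧
    (∀ V : ValuationSubring L, u ∈ V → s ∈ V) ∧ (s = 1 ∨ c.rd c.x * c.rd s = 1) := by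
  have key : ∀ s ∈ c.B u, c.x * s ∈ c.B u → c.y * s ^ 2 ∈ c.B u := by
    intro s hs hxs
    rw [mem_B_iff] at hs hxs ⊢
    intro V h1 h2
    have h3 := (val_le_iff V _).2 (hs V h1 h2)
    have h4 := (val_le_iff V _).2 (hxs V h1 h2)
    obtain ⟨k1, k2, k3, k4, k6⟩ := c.coeff_K
    obtain ⟨i1, i2, i3, i4, i6⟩ := c.coeff_int
    have j1 := (val_le_iff V _).2 (h1 _ ⟨k1, i1⟩)
    have j2 := (val_le_iff V _).2 (h1 _ ⟨k2, i2⟩)
    have j3 := (val_le_iff V _).2 (h1 _ ⟨k3, i3⟩)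
    have j4 := (val_le_iff V _).2 (h1 _ ⟨k4, i4⟩)
    have j6 := (val_le_iff V _).2 (h1 _ ⟨k6, i6⟩)
    rw [← val_le_iff]
    refine Pl.quad_le (l := c.E.a₁ * (c.x * s) * s + c.E.a₃ * s ^ 2)
      (c := (c.x * s) ^ 3 * s + c.E.a₂ * (c.x * s) ^ 2 * s ^ 2 + c.E.a₄ * (c.x * s) * s ^ 3
        + c.E.a₆ * s ^ 4) (by linear_combination s ^ 4 * Pl.eqn c.eqn) ?_ ?_
    · exact V.valuation.map_add_le (Pl.vmul_le _ (Pl.vmul_le _ j1 h4) h3)
        (Pl.vmul_le _ j3 (Pl.vpow_le _ h3 _))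
    · exact V.valuation.map_add_le (V.valuation.map_add_le (V.valuation.map_add_le
        (Pl.vmul_le _ (Pl.vpow_le _ h4 _) h3)
        (Pl.vmul_le _ (Pl.vmul_le _ j2 (Pl.vpow_le _ h4 _)) (Pl.vpow_le _ h3 _)))
        (Pl.vmul_le _ (Pl.vmul_le _ j4 h4) (Pl.vpow_le _ h3 _)))
        (Pl.vmul_le _ j6 (Pl.vpow_le _ h3 _))
  rcases hu with rfl | rfl
  · have h := u_mem_B c c.x
    exact ⟨1, one_mem _, by rwa [mul_one], key 1 (one_mem _) (by rwa [mul_one]), fun g => smul_one g,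
      map_one _, fun V _ => V.one_mem, Or.inl rfl⟩
  · have h := u_mem_B c c.x⁻¹
    have h1 : c.x * c.x⁻¹ ∈ c.B c.x⁻¹ := by rw [mul_inv_cancel₀ (x_ne c)]; exact one_mem _
    refine ⟨_, h, h1, key _ h h1, fun g => by rw [smul_inv'', x_fix], by
      rw [map_inv₀, wx1, inv_one], fun V h => h, Or.inr ?_⟩
    rw [c.red.inv (wx1 c), mul_inv_cancel₀ ((c.red.ne_zero_iff c.wx).2 (wx1 c))]

/-- logarithmic generators in a chart -/
theorem exists_T {u : L} (hu : u = c.x ∨ u = c.x⁻¹) {P : ValuationSubring R}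
    (hP : ∀ z ∈ c.kb, z ∈ P) (hB : ∀ b ∈ c.B u, c.w b ≤ 1 ∧ c.rd b ∈ P) (j : ZMod n) :
    ∃ T ∈ c.B u, (∀ g : G, g • T = T) ∧
      (∀ V : ValuationSubring L, (∀ a ∈ c.K, a ∈ V) → u ∈ V → Above V c.x c.y (c.xP j) (c.yP j) →
        V.valuation T ≤ V.valuation (c.x - c.xP j)) ∧
      P.valuation (c.rd T) = P.valuation ((deg c).tt P j) := by
  obtain ⟨s, hs, hxs, hys, hfix, hws, hV, hs1⟩ := exists_s c hu
  have ha : P.valuation (c.rd (c.xP j)) ≤ 1 := (val_le_iff P _).2 (hP _ ((deg c).P_mem j).1)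
  have hs' := (val_le_iff P _).2 (hB s hs).2
  have hunit : P.valuation (c.rd c.x) ≤ 1 → P.valuation (c.rd s) = 1 := fun hx => by
    rcases hs1 with rfl | h
    · rw [c.red.one, map_one]
    · have := congrArg P.valuation h
      rw [map_mul, map_one] at this
      exact le_antisymm hs' (by rw [← this]; exact mul_le_of_le_one_left' hx)
  have hx : P.valuation (c.rd c.x - c.rd (c.xP j)) < 1 → P.valuation (c.rd c.x) ≤ 1 := fun h => by
    simpa using P.valuation.map_add_le h.le ha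
  have hT1 : (c.x - c.xP j) * s ∈ c.B u := by
    rw [sub_mul]; exact sub_mem hxs (mul_mem (O_mem_B c (c.P_mem j).1 (c.wP j)) hs)
  have hT2 : (c.y - c.yP j) * s ^ 2 ∈ c.B u := by
    rw [sub_mul]; exact sub_mem hys (mul_mem (O_mem_B c (c.P_mem j).2 (wyP c j)) (pow_mem hs 2))
  have e1 : c.rd ((c.x - c.xP j) * s) = (c.rd c.x - c.rd (c.xP j)) * c.rd s := by
    rw [c.red.mul _ _ (c.w.map_sub_le c.wx (c.wP j)) hws.le, c.red.sub c.wx (c.wP j)]
  have e2 : c.rd ((c.y - c.yP j) * s ^ 2) = (c.rd c.y - c.rd (c.yP j)) * c.rd s ^ 2 := by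
    rw [c.red.mul _ _ (c.w.map_sub_le (wy c) (wyP c j)) (Pl.vpow_le _ hws.le 2),
      c.red.sub (wy c) (wyP c j), c.red.pow hws.le]
  by_cases h : P.valuation (c.rd c.x - c.rd (c.xP j)) < 1 ∧
      ¬ P.valuation (c.rd c.y - c.rd (c.yP j)) < 1
  · refine ⟨_, hT2, fun g => ?_, fun V h1 h2 h3 => ?_, ?_⟩
    · rw [smul_mul', smul_sub, smul_pow', hfix, y_fix, K_fix c (c.P_mem j).2]
    · rw [map_mul]
      exact (mul_le_of_le_one_right' (Pl.vpow_le _ ((val_le_iff V _).2 (hV V h2)) 2)).trans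
        (horiz c h1 j h3)
    · rw [Deg.tt, if_neg fun h' => h.2 h'.2, map_one]
      refine le_antisymm ((val_le_iff P _).2 (hB _ hT2).2) ?_
      rw [e2, map_mul, map_pow, hunit (hx h.1), one_pow, mul_one]
      exact not_lt.1 h.2
  · refine ⟨_, hT1, fun g => ?_, fun V h1 h2 h3 => ?_, ?_⟩
    · rw [smul_mul', smul_sub, hfix, x_fix, K_fix c (c.P_mem j).1]
    · rw [map_mul]
      exact mul_le_of_le_one_right' ((val_le_iff V _).2 (hV V h2))
    · rw [Deg.tt]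
      split_ifs with h'
      · rw [e1, map_mul, hunit (hx h'.1), mul_one]; rfl
      · have h1 : ¬ P.valuation (c.rd c.x - c.rd (c.xP j)) < 1 := fun h1 =>
          h' ⟨h1, by by_contra h2; exact h ⟨h1, h2⟩⟩
        rw [map_one]
        refine le_antisymm ((val_le_iff P _).2 (hB _ hT1).2) ?_
        rw [e1, map_mul]
        by_cases h2 : P.valuation (c.rd c.x) ≤ 1
        · rw [hunit h2, mul_one]; exact not_lt.1 h1
        · rcases hs1 with rfl | h3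
          · rw [c.red.one, map_one, mul_one]; exact not_lt.1 h1
          · rw [P.valuation.map_sub_eq_of_lt_left (ha.trans_lt (not_le.1 h2)), ← map_mul, h3,
              map_one]

/-- places of the special fibre have rank one -/
theorem pl_arch {P : ValuationSubring R} (hP : (deg c).IsPl P) (a b : R) (ha : a ≠ 0)
    (hb : 1 < P.valuation b) : ∃ N : ℕ, 1 < P.valuation (a * b ^ N) := by
  obtain ⟨t, -, ht0, ht, h, -⟩ := place_holds R c.kb c.Eb (c.rd c.x) (c.rd c.y) c.kb_alg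
    (deg c).coeff (deg c).Δ_ne (deg c).eqn c.transc P hP.1 hP.2
  exact place_arch c.R_alg ht0 ht h a b ha hb

/-- every place lies in one of the two charts -/
theorem exists_chart {P : ValuationSubring R} (hP : ∀ z ∈ c.kb, z ∈ P) :
    ∃ u, (u = c.x ∨ u = c.x⁻¹) ∧ ∀ b ∈ c.B u, c.w b ≤ 1 ∧ c.rd b ∈ P := by
  rcases P.mem_or_inv_mem (c.rd c.x) with h | h
  · exact ⟨_, Or.inl rfl, fun b hb => rd_B c hP c.wx h hb⟩
  · exact ⟨_, Or.inr rfl, fun b hb => rd_B c hP (by rw [map_inv₀, wx1, inv_one])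
      (by rwa [c.red.inv (wx1 c)]) hb⟩

end CoreH

end P179W
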