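import Vale.Agent.P179W.Gap

/-!
# P179W : tails of Kummer generators (`TailStmt`)
-/

set_option linter.all false

open scoped NNReal Classical
open Filter Topology Finset PowerSeries

noncomputable section

namespace P179W

namespace TailH

open GapH

variable {p : ℕ} [hp : Fact p.Prime]

theorem binom {A B : Type} [CommRing A] [CommRing B] (φ : A →+* B) {x y : A} (hx : φ x = 1)
    (hy : φ y = 0) : ∃ t, (x + y) ^ p = x ^ p + y ^ p + p * y * t ∧ φ t = 1 := by
  have p2 := hp.out.two_le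
  refine ⟨x * ∑ k ∈ Ioo 0 p, x ^ (k - 1) * y ^ (p - k - 1) * ↑(p.choose k / p),
    by rw [add_pow_prime_eq hp.out]; ring, ?_⟩
  rw [map_mul, map_sum, sum_eq_single_of_mem (p - 1) (mem_Ioo.2 ⟨by omega, by omega⟩)
    fun k h1 h2 => by
      rw [mem_Ioo] at h1
      simp [hy, show p - k - 1 ≠ 0 by omega]]
  simp [hx, show p - (p - 1) - 1 = 0 by omega, Nat.choose_symm hp.out.one_le, hp.out.pos]

theorem coeff_pow_p {R : Type} [Field R] [CharP R p] (f : R⟦X⟧) (k : ℕ) :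
    coeff (p * k) (f ^ p) = coeff k f ^ p := by
  have : PowerSeries.map (frobenius R p) (expand p hp.out.ne_zero f) = f ^ p :=
    MvPowerSeries.map_frobenius_expand p hp.out.ne_zero
  rw [← this, coeff_map, coeff_expand_mul, frobenius_def]

variable {L : Type} [Field L] [CharZero L] {w : Valuation L ℝ≥0}

theorem w_pi (hw : w (p : L) < 1) {ζ : L} (hζ : IsPrimitiveRoot ζ p) :
    w ((ζ - 1) ^ p + p * (ζ - 1)) < w (p * (ζ - 1)) := by
  obtain ⟨R, _, rd, h, -⟩ := exists_isRed w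
  have := h.charP hw
  have z1 : w ζ ≤ 1 := (pow_le_one_iff hp.out.ne_zero).1
    (by rw [← w.map_pow, hζ.pow_eq_one, w.map_one])
  have z2 : w (ζ - 1) ≤ 1 := w.map_sub_le z1 w.map_one.le
  obtain ⟨t, h1, h2⟩ := binom (p := p) h.hom (x := 1) (y := ⟨ζ - 1, z2⟩) (map_one _)
    (pow_eq_zero_iff hp.out.ne_zero |>.1 (by
      rw [h.hom_apply, h.sub z1 w.map_one.le, sub_pow_char, ← h.pow z1, hζ.pow_eq_one, h.one]
      simp))
  have h3 : (1 + (ζ - 1)) ^ p = 1 ^ p + (ζ - 1) ^ p + p * (ζ - 1) * (t : L) :=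
    congrArg Subtype.val h1
  rw [add_sub_cancel, hζ.pow_eq_one, one_pow] at h3
  rw [show (ζ - 1) ^ p + p * (ζ - 1) = p * (ζ - 1) * (1 - t) by linear_combination -h3, w.map_mul]
  exact mul_lt_of_lt_one_right (w.pos_iff.2 (mul_ne_zero (Nat.cast_ne_zero.2 hp.out.ne_zero)
    (sub_ne_zero.2 (hζ.ne_one hp.out.one_lt)))) ((h.eq_iff w.map_one.le t.2).1 (h.one.trans h2.symm))

theorem level (hw : w (p : L) < 1) {f : L⟦X⟧} (h0 : coeff 0 f = 1)
    (h1 : ∀ k, 0 < k → w (coeff k f) < 1) (hN : f ^ p ∈ NullPS w) {c : L} (c0 : c ≠ 0)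
    (c1 : w c < 1) (hK : ∀ᶠ k in atTop, w (coeff k f) ≤ w c) : ∃ A B : ℕ → L,
    (∀ k, w (A k) ≤ 1 ∧ w (B k) ≤ 1) ∧ (∀ᶠ k in atTop, w (A (p * k) - (coeff k f / c) ^ p) < 1 ∧
      w (B k - coeff k f / c) < 1) ∧
    Tendsto (fun k => w (c ^ p * A k + p * c * B k)) atTop (𝓝 0) := by
  obtain ⟨R, _, rd, h, -⟩ := exists_isRed w
  have := h.charP hw
  obtain ⟨K, hK⟩ := eventually_atTop.1 hK
  obtain ⟨r, hr⟩ : ∃ r, r = (f - trunc (K + 1) f) * C c⁻¹ := ⟨_, rfl⟩
  have r1 : ∀ k, coeff k r = if k < K + 1 then 0 else coeff k f / c := fun k => by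
    rw [hr, coeff_mul_C, map_sub, Polynomial.coeff_coe, coeff_trunc]
    split_ifs <;> simp [div_eq_mul_inv]
  have r2 : r ∈ IntPS w := fun k => by
    rw [r1]
    split_ifs with e
    · simp
    · rw [map_div₀]; exact div_le_one_of_le₀ (hK k (by omega)) zero_le
  have f1 : ∀ k, w (coeff k f) ≤ 1 := fun k => k.eq_zero_or_pos.elim (fun e => by simp [e, h0])
    fun e => (h1 k e).le
  obtain ⟨t, t1, t2⟩ := binom (p := p) h.psHom (x := ⟨trunc (K + 1) f, fun k => by
    rw [Polynomial.coeff_coe, coeff_trunc]; split_ifs <;> simp [f1]⟩)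
    (y := ⟨C c * r, mul_mem (C_mem_IntPS w c1.le) r2⟩) (by
      ext k
      rw [h.psHom_apply, coeff_rdPS, Polynomial.coeff_coe, coeff_trunc, coeff_one]
      rcases k.eq_zero_or_pos with rfl | e
      · simp [h0, h.one]
      · split_ifs <;> first | omega | exact h.zero | exact (h.eq_zero _ (f1 k)).2 (h1 k e))
    (by rw [h.psHom_apply, h.ps_mul (C_mem_IntPS w c1.le) r2, h.ps_C,
      (h.eq_zero _ c1.le).2 c1, map_zero, zero_mul])
  have t3 : (↑(trunc (K + 1) f) + C c * r) ^ p =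
      ↑(trunc (K + 1) f) ^ p + (C c * r) ^ p + p * (C c * r) * (t : L⟦X⟧) := congrArg Subtype.val t1
  rw [hr, mul_comm, mul_assoc, ← map_mul, inv_mul_cancel₀ c0, map_one, mul_one,
    add_sub_cancel] at t3
  refine ⟨fun k => coeff k (r ^ p), fun k => coeff k (r * t), fun k =>
    ⟨pow_mem r2 p k, mul_mem r2 t.2 k⟩, (eventually_ge_atTop (K + 1)).mono fun k hk => ?_, ?_⟩
  · rw [← (r1 k).trans (if_neg hk.not_gt), ← h.eq_iff (pow_mem r2 p _) (by
      rw [w.map_pow]; exact pow_le_one' (r2 k) _), ← h.eq_iff (mul_mem r2 t.2 k) (r2 k),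
      h.pow (r2 k), ← coeff_rdPS rd, ← coeff_rdPS rd, ← coeff_rdPS rd, h.ps_pow r2, h.ps_mul r2 t.2,
      ← h.psHom_apply t, t2, mul_one]
    exact ⟨coeff_pow_p _ _, rfl⟩
  · have : C (c ^ p) * r ^ p + C (p * c) * (r * t) ∈ NullPS w := by
      convert sub_mem hN (pow_mem (poly_mem_NullPS w (trunc (K + 1) f)) p) using 1
      have e : C c * r = f - trunc (K + 1) f := by
        rw [hr, mul_left_comm, ← map_mul, mul_inv_cancel₀ c0, map_one, mul_one]
      rw [t3, ← e, map_pow, map_mul, map_natCast]; ring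
    simpa only [mem_NullPS, map_add, coeff_C_mul] using this

theorem exists_level (hd : IsDisc w) {f : L⟦X⟧} (h1 : f ∈ IntPS w) (hN : f ∉ NullPS w) :
    ∃ c : L, c ≠ 0 ∧ (∀ᶠ k in atTop, w (coeff k f) ≤ w c) ∧ ∃ᶠ k in atTop, w (coeff k f) = w c := by
  obtain ⟨c, c1, c2⟩ := hd.exists_max (T := {z | ∃ᶠ k in atTop, w z ≤ w (coeff k f)}) (C := 1)
    ⟨0, .of_forall fun _ => by simp⟩ fun z hz => let ⟨k, a⟩ := hz.exists; a.trans (h1 k)
  obtain ⟨ϖ, h0, h2, h3⟩ := hd
  have q0 := w.pos_iff.2 h0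
  have a : ∀ z, w c < w z → ∀ᶠ k in atTop, w (coeff k f) < w z := fun z hz =>
    (not_frequently.1 fun b => (c2 z b).not_gt hz).mono fun _ => not_le.1
  have c0 : c ≠ 0 := fun e => hN (null_iff.2 fun ε e0 => by
    obtain ⟨n, hn⟩ := exists_pow_lt_of_lt_one e0 h2
    refine eventually_atTop.1 ((a (ϖ ^ n) (by simp [e, q0])).mono fun k b => b.trans ?_)
    rwa [w.map_pow])
  obtain ⟨m, hm⟩ := h3 c c0
  have b : ∀ᶠ k in atTop, w (coeff k f) ≤ w c := (a (ϖ ^ (m - 1)) (by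
    rw [hm, map_zpow₀, zpow_lt_zpow_iff_right_of_lt_one₀ q0 h2]; omega)).mono fun k d => by
      by_cases e : coeff k f = 0
      · simp [e]
      obtain ⟨j, hj⟩ := h3 _ e
      rw [hj, map_zpow₀, zpow_lt_zpow_iff_right_of_lt_one₀ q0 h2] at d
      rw [hj, hm]
      exact zpow_le_zpow_right_of_le_one₀ q0 h2.le (by omega)
  exact ⟨c, c0, b, (c1.and_eventually b).mono fun k d => d.2.antisymm d.1⟩

theorem tend_mul : Tendsto (fun k => p * k) atTop atTop :=
  tendsto_id.const_mul_atTop' hp.out.pos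

theorem main (hw : w (p : L) < 1) (hd : IsDisc w) {f : L⟦X⟧} (h0 : coeff 0 f = 1)
    (h1 : ∀ k, 0 < k → w (coeff k f) < 1) (hN : f ^ p ∈ NullPS w) (hN' : f ∉ NullPS w) {π : L}
    (hπ : w (π ^ p + p * π) < w (p * π)) : (∃ᶠ k in atTop, w (coeff k f / π) = 1) ∧
      ∀ᶠ k in atTop, w (coeff k f / π) ≤ 1 ∧ w (coeff (p * k) f / π - (coeff k f / π) ^ p) < 1 := by
  obtain ⟨c, c0, c1, c2⟩ := exists_level hd (f := f) (fun k => k.eq_zero_or_pos.elim
    (fun e => by simp [e, h0]) fun e => (h1 k e).le) hN'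
  have q0 := w.pos_iff.2 c0
  have p0 : 0 < w (p : L) := w.pos_iff.2 (Nat.cast_ne_zero.2 hp.out.ne_zero)
  have c3 : w c < 1 := let ⟨k, a, b⟩ := (c2.and_eventually (eventually_gt_atTop 0)).exists
    a ▸ h1 k b
  have a : w (c ^ p) = w (p * c) := by
    obtain ⟨A, B, a1, a2, a3⟩ := level hw h0 h1 hN c0 c3 c1
    have u : ∀ k, w (coeff k f) = w c → w (coeff k f / c) = 1 := fun k e => by
      rw [map_div₀, e, div_self q0.ne']
    refine le_antisymm (not_lt.1 fun e => ?_) (not_lt.1 fun e => ?_)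
    · obtain ⟨k, b1, b2, b3⟩ := (c2.and_eventually (a2.and ((a3.comp (tend_mul (p := p))).eventually
        (gt_mem_nhds (zero_le.trans_lt e))))).exists
      have b4 : w (A (p * k)) = 1 := by
        have b5 : w ((coeff k f / c) ^ p) = 1 := by rw [w.map_pow, u k b1, one_pow]
        exact (w.map_eq_of_sub_lt (b5 ▸ b2.1)).trans b5
      have b6 : w (c ^ p * A (p * k)) = w (c ^ p) := by rw [w.map_mul, b4, mul_one]
      refine b3.ne ((w.map_add_eq_of_lt_left ?_).trans b6)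
      rw [b6, w.map_mul]
      exact (mul_le_of_le_one_right' (a1 _).2).trans_lt e
    · obtain ⟨k, b1, b2, b3⟩ := (c2.and_eventually (a2.and (a3.eventually
        (gt_mem_nhds (zero_le.trans_lt e))))).exists
      have b6 : w (p * c * B k) = w (p * c) := by
        rw [w.map_mul, (w.map_eq_of_sub_lt (b2.2.trans_eq (u k b1).symm)).trans (u k b1), mul_one]
      refine b3.ne ((w.map_add_eq_of_lt_right ?_).trans b6)
      rw [b6, w.map_mul]
      exact (mul_le_of_le_one_right' (a1 _).1).trans_lt e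
  have π0 : π ≠ 0 := fun e => by simp [e] at hπ
  have π1 := w.pos_iff.2 π0
  have b : w (π ^ p) = w (p * π) := by
    rw [← w.map_neg (p * π)] at hπ ⊢
    exact w.map_eq_of_sub_lt (by rwa [sub_neg_eq_add])
  have d : w c = w π := by
    obtain ⟨n, hn⟩ : ∃ n, p = n + 1 + 1 := ⟨p - 2, by have := hp.out.two_le; omega⟩
    rw [w.map_pow, w.map_mul] at a b
    nth_rw 1 [hn] at a b
    rw [pow_succ] at a b
    exact (pow_left_inj₀ zero_le zero_le n.succ_ne_zero).1
      ((mul_right_cancel₀ q0.ne' a).trans (mul_right_cancel₀ π1.ne' b).symm)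
  rw [d] at c1 c2 c3
  obtain ⟨A, B, a1, a2, a3⟩ := level hw h0 h1 hN π0 c3 c1
  refine ⟨c2.mono fun k e => by rw [map_div₀, e, div_self π1.ne'], ?_⟩
  filter_upwards [c1, a2, (tend_mul (p := p)).eventually a2,
    (a3.comp (tend_mul (p := p))).eventually (gt_mem_nhds (zero_le.trans_lt hπ))] with k b1 b2 b3 b4
  refine ⟨by rw [map_div₀]; exact div_le_one_of_le₀ b1 zero_le, ?_⟩
  have b5 : w (π ^ p * (A (p * k) - B (p * k))) < w (p * π) := by
    rw [show π ^ p * (A (p * k) - B (p * k)) = π ^ p * A (p * k) + p * π * B (p * k) -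
      (π ^ p + p * π) * B (p * k) by ring]
    refine w.map_sub_lt b4 ?_
    rw [w.map_mul]
    exact (mul_le_of_le_one_right' (a1 _).2).trans_lt hπ
  rw [w.map_mul, b, mul_lt_iff_lt_one_right (zero_le.trans_lt hπ)] at b5
  rw [show coeff (p * k) f / π - (coeff k f / π) ^ p = A (p * k) - (coeff k f / π) ^ p -
    (A (p * k) - B (p * k)) - (B (p * k) - coeff (p * k) f / π) by ring]
  exact w.map_sub_lt (w.map_sub_lt b2.1 b5) b3.2

variable {G : Type} [Group G] [Finite G] [MulSemiringAction G L] {δ : Derivation ℤ L L}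
  {π0 ζ b : L}

theorem dich (F : Flow G p w δ π0) (hζ : IsPrimitiveRoot ζ p) (hb : b ≠ 0)
    (h : b ^ p ∈ M0 w δ π0) (h' : b ∉ M0 w δ π0) : (∃ᶠ k in atTop, w (cc δ π0 ζ b k) = 1) ∧
      ∀ᶠ k in atTop, w (cc δ π0 ζ b k) ≤ 1 ∧ w (cc δ π0 ζ b (p * k) - cc δ π0 ζ b k ^ p) < 1 := by
  have := main F.wp F.disc (f := tau δ π0 b * C b⁻¹) (by simp [dE_zero, hb]) (fun k hk => by
    rw [coeff_mul_C, coeff_tau, w.map_mul, map_inv₀, mul_inv_lt_iff₀ (w.pos_iff.2 hb), one_mul]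
    exact gap F hk hb) (by
      rw [mul_pow, ← tau_pow, ← map_pow]
      exact mul_mem ((mem_M0_iff w).1 h) (C_mem_NullPS w _)) (fun a => h' ((mem_M0_iff w).2 (by
        simpa [mul_assoc, ← map_mul, hb] using mul_mem a (C_mem_NullPS w b)))) (w_pi F.wp hζ)
  simpa only [coeff_mul_C, coeff_tau, ← div_eq_mul_inv, div_div, cc] using this

theorem cc_lt (h : b ∈ M0 w δ π0) : ∀ᶠ k in atTop, w (cc δ π0 ζ b k) < 1 := by
  have := Tendsto.div_const h (w (b * (ζ - 1)))
  rw [zero_div] at this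
  simpa only [cc, map_div₀] using this.eventually (gt_mem_nhds one_pos)

end TailH

open TailH in
theorem tail_holds : TailStmt := fun p hp L _ _ G _ _ _ w δ π0 ζ F hζ b hb h => by
  have p1 := hp.out.one_lt
  have pw : ∀ {z : L}, w z < 1 → w (z ^ p) < 1 := fun hz => by
    rw [w.map_pow]; exact pow_lt_one₀ zero_le hz hp.out.ne_zero
  refine ⟨?_, fun e0 T e he => ⟨fun a => (T.le_one _ (Nat.pow_le_pow_right p1.le he)).lt_of_ne fun c => ?_,
    fun a => by_contra fun c => ?_⟩⟩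
  · obtain ⟨K, hK⟩ := eventually_atTop.1 (show ∀ᶠ k in atTop, w (cc δ π0 ζ b k) ≤ 1 ∧
        w (cc δ π0 ζ b (p * k) - cc δ π0 ζ b k ^ p) < 1 by
      by_cases a : b ∈ M0 w δ π0
      · filter_upwards [cc_lt (ζ := ζ) a, (tend_mul (p := p)).eventually (cc_lt (ζ := ζ) a)] with k c d
        exact ⟨c.le, w.map_sub_lt d (pw c)⟩
      · exact (dich F hζ hb h a).2)
    have a : ∀ e, K ≤ e → K ≤ p ^ e := fun e c => c.trans (Nat.lt_pow_self p1).le
    refine ⟨K, fun k c => (hK k ((a K le_rfl).trans c)).1, fun k c d => ?_,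
      fun e c => pow_succ' p e ▸ (hK _ (a e c)).2⟩
    have k0 : k ≠ 0 := by have := pow_pos hp.out.pos K; omega
    by_cases e : dE δ π0 k b = 0
    · simp [cc, e]
    refine lt_of_lt_of_le ?_ (hK _ (a _ (Nat.le_log_of_pow_le p1 c))).1
    rw [cc, cc, map_div₀, map_div₀]
    exact div_lt_div_of_pos_right (GapH.gap' F ((Nat.pow_log_le_self p k0).lt_of_ne (d _).symm)
      (Nat.lt_pow_succ_log_self p1 k) e)
      (w.pos_iff.2 (mul_ne_zero hb (sub_ne_zero.2 (hζ.ne_one p1))))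
  · obtain ⟨j, j1, j2⟩ := (((tendsto_pow_atTop_atTop_of_one_lt p1).eventually
      (cc_lt (ζ := ζ) a)).and (eventually_ge_atTop e)).exists
    refine j1.ne ?_
    clear j1
    induction j, j2 using Nat.le_induction with
    | base => exact c
    | succ j j2 ih =>
      have d : w (cc δ π0 ζ b (p ^ j) ^ p) = 1 := by rw [w.map_pow, ih, one_pow]
      exact (w.map_eq_of_sub_lt (d ▸ T.succ j (he.trans j2))).trans d
  · obtain ⟨k, k1, k2⟩ := ((dich F hζ hb h c).1.and_eventually (eventually_ge_atTop (p ^ e))).exists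
    refine k1.not_lt ?_
    clear k1
    by_cases d : ∃ j, k = p ^ j
    · obtain ⟨j, rfl⟩ := d
      replace k2 := (Nat.pow_le_pow_iff_right p1).1 k2
      induction j, k2 using Nat.le_induction with
      | base => exact a
      | succ j j2 ih => simpa using w.map_add_lt (T.succ j (he.trans j2)) (pw ih)
    · exact T.lt_one k ((Nat.pow_le_pow_right p1.le he).trans k2) fun j e => d ⟨j, e⟩

end P179W
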