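import Vale.Agent.P179W.TransfA
import Vale.Agent.P179W.Gap

/-!
# P179W : the transformation law
-/

set_option linter.all false

open scoped NNReal Classical
open Filter Topology PowerSeries

noncomputable section

namespace P179W

namespace TransfH

variable {ι : Type} [Fintype ι] {L : Type} [Field L] [CharZero L] {D : ι → Derivation ℤ L L}
  {π0 : L} {w : Valuation L ℝ≥0}

/-- the primitive of `tau δ π0 a` -/
def prim (δ : Derivation ℤ L L) (π0 a : L) : L⟦X⟧ :=
  X * PowerSeries.mk fun l => dE δ π0 l a / ((l : L) + 1)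

theorem prim_zero (δ : Derivation ℤ L L) (π0 a : L) : constantCoeff (prim δ π0 a) = 0 := by
  simp [prim]

theorem coeff_prim (δ : Derivation ℤ L L) (π0 a : L) (l : ℕ) :
    coeff (l + 1) (prim δ π0 a) = π0 ^ l / ((l + 1).factorial : L) * (δ : L → L)^[l] a := by
  have h1 : ((l : L) + 1) ≠ 0 := Nat.cast_add_one_ne_zero l
  have h2 : (l.factorial : L) ≠ 0 := Nat.cast_ne_zero.2 (Nat.factorial_ne_zero _)
  rw [prim, coeff_succ_X_mul, coeff_mk, dE, Nat.factorial_succ]
  push_cast
  field_simp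

theorem deriv_prim (δ : Derivation ℤ L L) (π0 a : L) : d⁄dX L (prim δ π0 a) = tau δ π0 a := by
  ext l
  rw [coeff_derivative, prim, coeff_succ_X_mul, coeff_mk, coeff_tau,
    div_mul_cancel₀ _ (Nat.cast_add_one_ne_zero l)]

section

variable {δ : Derivation ℤ L L} {a : L} {ρ : ℝ≥0} (hρ : ρ < 1)
  (h1 : ∀ k : ℕ, w (π0 ^ k / (k + 1).factorial) ≤ ρ ^ k) (h2 : ∀ k, w ((δ : L → L)^[k] a) ≤ 1)
include hρ h1 h2

theorem prim_le (l : ℕ) : w (coeff (l + 1) (prim δ π0 a)) ≤ ρ ^ l := by
  rw [coeff_prim, map_mul]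
  simpa using mul_le_mul' (h1 l) (h2 l)

theorem prim_int : prim δ π0 a ∈ IntPS w := by
  rintro (_ | l)
  · simp [prim_zero]
  · exact (prim_le hρ h1 h2 l).trans (pow_le_one₀ zero_le hρ.le)

theorem prim_null : prim δ π0 a ∈ NullPS w := by
  rw [mem_NullPS, ← tendsto_add_atTop_iff_nat 1]
  exact tendsto_of_tendsto_of_tendsto_of_le_of_le tendsto_const_nhds
    (NNReal.tendsto_pow_atTop_nhds_zero_of_lt_one hρ) (fun _ => zero_le) (prim_le hρ h1 h2)

theorem prim_pow (m k : ℕ) :
    w (coeff k (prim δ π0 a ^ m) - if k = m then a ^ m else 0) < 1 := by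
  obtain ⟨R, _, rd, h, -⟩ := exists_isRed w
  have ha : w a ≤ 1 := h2 0
  have hi := prim_int hρ h1 h2
  have e : rdPS rd (prim δ π0 a) = C (rd a) * X := by
    ext l
    rw [coeff_rdPS, coeff_C_mul, coeff_X]
    rcases l with _ | _ | l
    · simp [prim_zero, h.zero]
    · simp [coeff_prim]
    · rw [if_neg (by omega), mul_zero, h.eq_zero _ (hi _)]
      exact (prim_le hρ h1 h2 _).trans_lt (pow_lt_one₀ zero_le hρ (by omega))
  have ham : w (a ^ m) ≤ 1 := by rw [map_pow]; exact pow_le_one₀ zero_le ha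
  rw [← h.eq_iff (pow_mem hi m k) (by split_ifs <;> simp [ham, -map_pow]), ← coeff_rdPS rd,
    h.ps_pow hi, e, mul_pow, ← map_pow, coeff_C_mul, coeff_X_pow]
  split_ifs
  · rw [mul_one, h.pow ha]
  · rw [mul_zero, h.zero]

end

theorem coeff_FF (h : Cm D π0) (ψ : ι → L⟦X⟧) (N : ι → ℕ) (z : L) (k : ℕ) :
    coeff k (FF h ψ N z) = ∑ j ∈ Fintype.piFinset fun i => Finset.range (N i),
      coeff k (∏ i, ψ i ^ j i) * EE h Finset.univ j z := by
  rw [FF, map_sum]
  exact Finset.sum_congr rfl fun j _ => coeff_mul_C _ _ _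

/-- the finitely many small multi-indices do not contribute -/
theorem small {ψ : ι → L⟦X⟧} (hψ : ∀ i, ψ i ∈ NullPS w) (t : (ι → ℕ) → L) (K : ℕ) {ε : ℝ≥0}
    (hε : 0 < ε) : ∃ k0, ∀ k, k0 ≤ k → ∀ j : ι → ℕ, (∀ i, j i < K) →
      w (coeff k (∏ i, ψ i ^ j i) * t j) < ε := by
  have : ∀ᶠ k in atTop, ∀ j ∈ Fintype.piFinset fun _ : ι => Finset.range K,
      w (coeff k (∏ i, ψ i ^ j i) * t j) < ε := by
    refine (eventually_all_finset _).2 fun j _ => ?_
    have := (mem_NullPS w).1 (mul_mem (prod_mem fun i (_ : i ∈ Finset.univ) =>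
      pow_mem (hψ i) (j i)) (C_mem_NullPS w (t j)))
    simpa only [coeff_mul_C] using this.eventually (gt_mem_nhds hε)
  obtain ⟨k0, hk⟩ := eventually_atTop.1 this
  exact ⟨k0, fun k h j hj => hk k h j (Fintype.mem_piFinset.2 fun i => Finset.mem_range.2 (hj i))⟩

theorem EE_single (h : Cm D π0) {j : ι → ℕ} {i : ι} (hj : ∀ i', i' ≠ i → j i' = 0) (z : L) :
    EE h Finset.univ j z = dE (D i) π0 (j i) z := by
  rw [EE_erase h (Finset.mem_univ i), EE_zero h fun i' hi' => hj i' (Finset.ne_of_mem_erase hi')]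

theorem prod_single (ψ : ι → L⟦X⟧) {j : ι → ℕ} {i : ι} (hj : ∀ i', i' ≠ i → j i' = 0) :
    ∏ i, ψ i ^ j i = ψ i ^ j i :=
  Finset.prod_eq_single i (fun i' _ hi' => by rw [hj i' hi', pow_zero]) (by simp)

end TransfH

open TransfH in
theorem transf_holds : TransfStmt := by
  intro p hp ι _ L _ _ G _ _ _ w D π0 ζ hι F hc hD hπ J hJ
  obtain ⟨i0⟩ := hι
  have h : Cm D π0 := ⟨hc, fun i => (F i).π0_const⟩
  obtain ⟨ρ, hρ, g0, g1⟩ := exists_gain (F i0).wp hπ
  set δ := comb J D with hδ
  have heq : ∀ (g : G) (z : L), δ (g • z) = g • δ z := fun g z => by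
    simp only [hδ, comb_apply, Finset.smul_sum, smul_mul', (F _).equiv, (hJ _).1]
  have hit : ∀ f : L, (∀ g : G, g • f = f) → ∀ k, (∀ g : G, g • (δ : L → L)^[k] f =
      (δ : L → L)^[k] f) ∧ w ((δ : L → L)^[k] f) ≤ w f := fun f hf k => by
    induction k with
    | zero => exact ⟨hf, le_rfl⟩
    | succ k ih =>
      rw [Function.iterate_succ_apply']
      refine ⟨fun g => by rw [← heq, ih.1], ?_⟩
      rw [hδ, comb_apply]
      refine Valuation.map_sum_le _ fun i _ => ?_
      rw [map_mul]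
      simpa using mul_le_mul' (hJ i).2 ((hD i _ ih.1).trans ih.2)
  have h2 : ∀ i k, w ((δ : L → L)^[k] (J i)) ≤ 1 := fun i k =>
    (hit _ (hJ i).1 k).2.trans (hJ i).2
  set ψ : ι → L⟦X⟧ := fun i => prim δ π0 (J i) with hψ
  have T : ∀ k z, dE δ π0 k z = ∑ j ∈ Fintype.piFinset fun _ : ι => Finset.range (k + 1),
      coeff k (∏ i, ψ i ^ j i) * EE h Finset.univ j z := fun k z => by
    rw [← coeff_FF]
    exact taylor h J ψ (fun i => prim_zero _ _ _) (fun i => deriv_prim _ _ _) k _
      (fun _ => Nat.lt_succ_self k) z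
  have hI : ∀ (j : ι → ℕ) k, w (coeff k (∏ i, ψ i ^ j i)) ≤ 1 := fun j =>
    prod_mem fun i (_ : i ∈ Finset.univ) => pow_mem (prim_int hρ g1 (h2 i)) (j i)
  have hN : ∀ i, ψ i ∈ NullPS w := fun i => prim_null hρ g1 (h2 i)
  have hE := EE_le h w fun i => (F i).bound
  have hE1 : ∀ (j : ι → ℕ) i z, w (EE h Finset.univ j z) ≤ w (dE (D i) π0 (j i) z) :=
    fun j i z => by rw [EE_erase h (Finset.mem_univ i)]; exact hE _ _ _
  refine ⟨⟨(F i0).wp, (F i0).disc, (F i0).faith, heq, (F i0).π0_fix,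
    by simp [hδ, comb_apply, h.const], fun k z => ?_, ρ, hρ, fun f hf k => ?_⟩, fun z hz => ?_,
    fun b hb hζ e0 hT => ?_⟩
  · rw [T]
    refine Valuation.map_sum_le _ fun j _ => ?_
    rw [map_mul]
    simpa using mul_le_mul' (hI j k) (hE _ j z)
  · rw [dE, map_mul]
    exact mul_le_mul' (g0 k) (hit f hf k).2
  · refine null_iff.2 fun ε hε => ?_
    choose K hK using fun i => null_iff.1 (hz i) ε hε
    obtain ⟨k0, hk0⟩ := small hN (fun j => EE h Finset.univ j z) (Finset.univ.sup K) hε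
    refine ⟨k0, fun k hk => ?_⟩
    rw [T]
    refine Valuation.map_sum_lt _ hε.ne' fun j _ => ?_
    by_cases hj : ∀ i, j i < Finset.univ.sup K
    · exact hk0 k hk j hj
    · push Not at hj
      obtain ⟨i, hi⟩ := hj
      rw [map_mul]
      refine lt_of_le_of_lt ?_ (hK i (j i) ((Finset.le_sup (Finset.mem_univ i)).trans hi))
      simpa using mul_le_mul' (hI j k) (hE1 j i z)
  · have hb' : b * (ζ - 1) ≠ 0 := mul_ne_zero hb (sub_ne_zero.2 hζ)
    have hw : 0 < w (b * (ζ - 1)) := w.pos_iff.2 hb'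
    obtain ⟨k0, hk0⟩ := small hN (fun j => EE h Finset.univ j b / (b * (ζ - 1))) (p ^ e0) one_pos
    refine ⟨max e0 k0, fun e he => ?_⟩
    have hk : k0 ≤ p ^ e := ((le_max_right _ _).trans he).trans (Nat.lt_pow_self hp.out.one_lt).le
    have hk' : p ^ e0 ≤ p ^ e := Nat.pow_le_pow_right hp.out.pos ((le_max_left _ _).trans he)
    have hp0 : 0 < p ^ e0 := pow_pos hp.out.pos _
    generalize p ^ e = k at hk hk'
    have hsub : Finset.univ.image (fun i : ι => (Pi.single i k : ι → ℕ)) ⊆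
        Fintype.piFinset fun _ : ι => Finset.range (k + 1) := by
      intro j hj
      obtain ⟨i, -, rfl⟩ := Finset.mem_image.1 hj
      refine Fintype.mem_piFinset.2 fun i' => Finset.mem_range.2 ?_
      rw [Pi.single_apply]
      split_ifs <;> omega
    have hinj : Function.Injective fun i : ι => (Pi.single i k : ι → ℕ) := fun i i' e => by
      by_contra hn
      have := congrFun e i
      simp [hn] at this
      omega
    rw [cc, T, Finset.sum_div, ← Finset.sum_sdiff hsub, Finset.sum_image hinj.injOn,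
      add_sub_assoc, ← Finset.sum_sub_distrib]
    refine w.map_add_lt (Valuation.map_sum_lt _ one_ne_zero fun j hj => ?_)
      (Valuation.map_sum_lt _ one_ne_zero fun i _ => ?_)
    · rw [mul_div_assoc]
      by_cases hs : ∀ i, j i < p ^ e0
      · exact hk0 k hk j hs
      push Not at hs
      obtain ⟨i, hi⟩ := hs
      have hle := (hT i).le_one _ hi
      rw [map_mul]
      by_cases hm : ∀ i', i' ≠ i → j i' = 0
      · have hne : k ≠ j i := fun e => (Finset.mem_sdiff.1 hj).2 (Finset.mem_image.2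
          ⟨i, Finset.mem_univ _, funext fun i' => by
            rw [Pi.single_apply]
            split_ifs with h'
            · rw [h', e]
            · exact (hm i' h').symm⟩)
        have := prim_pow hρ g1 (h2 i) (j i) k
        rw [if_neg hne, sub_zero] at this
        rw [EE_single h hm, prod_single ψ hm]
        exact mul_lt_one_of_nonneg_of_lt_one_left zero_le this hle
      · push Not at hm
        obtain ⟨i', hi', hj'⟩ := hm
        refine mul_lt_one_of_nonneg_of_lt_one_right (hI j k) zero_le ?_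
        rw [cc, map_div₀, div_le_one hw] at hle
        rw [map_div₀, div_lt_one hw, EE_erase h (Finset.mem_univ i),
          EE_erase h (Finset.mem_erase.2 ⟨hi', Finset.mem_univ _⟩)]
        refine (hE _ _ _).trans_lt ?_
        by_cases h0 : dE (D i) π0 (j i) b = 0
        · rw [h0, dE_zero', map_zero]; exact hw
        · exact (GapH.gap (F i') (Nat.pos_of_ne_zero hj') h0).trans_le hle
    · have hm : ∀ i', i' ≠ i → (Pi.single i k : ι → ℕ) i' = 0 := fun i' h' =>
        Pi.single_eq_of_ne h' _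
      have := prim_pow hρ g1 (h2 i) k k
      rw [if_pos rfl] at this
      rw [EE_single h hm, prod_single ψ hm, Pi.single_eq_same, mul_div_assoc, ← cc, ← sub_mul,
        map_mul]
      exact mul_lt_one_of_nonneg_of_lt_one_left zero_le this ((hT i).le_one _ hk')

end P179W
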