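import Vale.Agent.P179W.CoreB
import Vale.Agent.P179W.Tail
import Vale.Agent.P179W.Transf
import Vale.Agent.P179W.Chart

/-!
# P179W : tails and the nonvanishing theorem
-/

set_option linter.all false

open scoped NNReal Classical
open Filter Topology

noncomputable section

namespace P179W

namespace CoreH

section Tail

variable {p : ℕ} {L : Type} [Field L] {w : Valuation L ℝ≥0} {δ : Derivation ℤ L L} {π0 ζ b : L}
  {R : Type} [Field R] {rd : L → R} {e0 : ℕ}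

theorem tail_mono (hp : 1 ≤ p) (h : Tail p w δ π0 ζ b e0) {e : ℕ} (he : e0 ≤ e) :
    Tail p w δ π0 ζ b e :=
  ⟨fun k hk => h.le_one k ((Nat.pow_le_pow_right hp he).trans hk),
    fun k hk => h.lt_one k ((Nat.pow_le_pow_right hp he).trans hk),
    fun e' he' => h.succ e' (he.trans he')⟩

theorem tail_int (hp : 1 ≤ p) (h : Tail p w δ π0 ζ b e0) {e : ℕ} (he : e0 ≤ e) :
    w (cc δ π0 ζ b (p ^ e)) ≤ 1 := h.le_one _ (Nat.pow_le_pow_right hp he)

theorem tail_pow (hp : 1 ≤ p) (hr : IsRed w rd) (h : Tail p w δ π0 ζ b e0) {e : ℕ} (he : e0 ≤ e)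
    (m : ℕ) : rd (cc δ π0 ζ b (p ^ (e + m))) = rd (cc δ π0 ζ b (p ^ e)) ^ p ^ m := by
  induction m with
  | zero => simp
  | succ m ih =>
    have h1 := tail_int hp h (show e0 ≤ e + m by omega)
    rw [pow_succ p m, pow_mul, ← ih, ← hr.pow h1, ← add_assoc,
      hr.eq_iff (tail_int hp h (by omega)) (Pl.vpow_le _ h1 _)]
    exact h.succ _ (by omega)

theorem cc_map {L' : Type} [Field L'] (f : L →+* L') (δ' : Derivation ℤ L' L')
    (h : ∀ z, f (δ z) = δ' (f z)) (k : ℕ) :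
    f (cc δ π0 ζ b k) = cc δ' (f π0) (f ζ) (f b) k := by
  simp [cc, dE_map f δ δ' h]

theorem tail_map (f : L →+* L) (δ' : Derivation ℤ L L) (h : ∀ z, f (δ z) = δ' (f z))
    (hw : ∀ z, w (f z) = w z) (h1 : f π0 = π0) (h2 : f ζ = ζ) :
    Tail p w δ' π0 ζ (f b) e0 ↔ Tail p w δ π0 ζ b e0 := by
  have e : ∀ k, cc δ' π0 ζ (f b) k = f (cc δ π0 ζ b k) := fun k => by
    rw [cc_map f δ' h, h1, h2]
  constructor
  · intro H
    exact ⟨fun k hk => by rw [← hw, ← e]; exact H.le_one k hk,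
      fun k hk hk' => by rw [← hw, ← e]; exact H.lt_one k hk hk',
      fun k hk => by rw [← hw, map_sub, map_pow, ← e, ← e]; exact H.succ k hk⟩
  · intro H
    exact ⟨fun k hk => by rw [e, hw]; exact H.le_one k hk,
      fun k hk hk' => by rw [e, hw]; exact H.lt_one k hk hk',
      fun k hk => by rw [e, e, ← map_pow, ← map_sub, hw]; exact H.succ k hk⟩

theorem M0_map (f : L →+* L) (δ' : Derivation ℤ L L) (h : ∀ z, f (δ z) = δ' (f z))
    (hw : ∀ z, w (f z) = w z) (h1 : f π0 = π0) : f b ∈ M0 w δ' π0 ↔ b ∈ M0 w δ π0 := by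
  have e : ∀ k, dE δ' π0 k (f b) = f (dE δ π0 k b) := fun k => by
    rw [dE_map f δ δ' h, h1]
  simp only [M0, Set.mem_setOf_eq, e, hw]

end Tail

variable {p n : ℕ} [hp : Fact p.Prime] [NeZero n] {L : Type} [Field L] {G : Type} [Group G]
  [MulSemiringAction G L] {R : Type} [Field R] (c : Core p n L G R)

/-- Kummer generators with a common tail index -/
structure Good (b : L) (e0 : ℕ) : Prop where
  ne : b ≠ 0
  mem : ∀ i, b ^ p ∈ M0 c.w (c.D i) c.π0
  tail : ∀ i, Tail p c.w (c.D i) c.π0 c.ζ b e0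

/-- the reduced tails -/
def om (b : L) (e : ℕ) (i : ZMod n) : R := c.rd (cc (c.D i) c.π0 c.ζ b (p ^ e))

theorem exists_good_idx {b : L} (hb : b ≠ 0) (h : ∀ i, b ^ p ∈ M0 c.w (c.D i) c.π0) :
    ∃ e0, Good c b e0 := by
  haveI := c.charZero
  haveI := c.fin
  choose e he using fun i =>
    (tail_holds p L G c.w (c.D i) c.π0 c.ζ (flow c i) c.ζ_prim b hb (h i)).1
  exact ⟨Finset.univ.sup e, hb, h, fun i =>
    tail_mono hp.out.one_le (he i) (Finset.le_sup (Finset.mem_univ i))⟩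

theorem transf {J : ZMod n → L} (hJ : ∀ i, (∀ g : G, g • J i = J i) ∧ c.w (J i) ≤ 1) :
    Flow G p c.w (comb J c.D) c.π0 ∧
      (∀ z, (∀ i, z ∈ M0 c.w (c.D i) c.π0) → z ∈ M0 c.w (comb J c.D) c.π0) ∧
      ∀ b e0, Good c b e0 → ∀ e, e0 ≤ e → ∃ m, Tail p c.w (comb J c.D) c.π0 c.ζ b (e + m) ∧
        c.rd (cc (comb J c.D) c.π0 c.ζ b (p ^ (e + m))) =
          (∑ i, c.rd (J i) ^ p ^ e * om c b e i) ^ p ^ m := by
  haveI := c.charZero
  haveI := c.fin
  haveI := c.charP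
  obtain ⟨h1, h2, h3⟩ := transf_holds p (ZMod n) L G c.w c.D c.π0 c.ζ (flow c) c.D_comm c.D_w
    c.spec3 J hJ
  refine ⟨h1, h2, fun b e0 hb e he => ?_⟩
  obtain ⟨e1, he1⟩ := h3 b hb.ne (c.ζ_prim.ne_one hp.out.one_lt) e0 hb.tail
  obtain ⟨e2, he2⟩ := (tail_holds p L G c.w _ c.π0 c.ζ h1 c.ζ_prim b hb.ne (h2 _ hb.mem)).1
  have hT := tail_mono hp.out.one_le he2 (show e2 ≤ e + (e1 + e2) by omega)
  refine ⟨e1 + e2, hT, ?_⟩
  have h4 : ∀ i, c.w (cc (c.D i) c.π0 c.ζ b (p ^ (e + (e1 + e2)))) ≤ 1 := fun i =>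
    tail_int hp.out.one_le (hb.tail i) (by omega)
  have h5 : ∀ i ∈ (Finset.univ : Finset (ZMod n)), c.w (J i ^ p ^ (e + (e1 + e2)) *
      cc (c.D i) c.π0 c.ζ b (p ^ (e + (e1 + e2)))) ≤ 1 := fun i _ =>
    Pl.vmul_le _ (Pl.vpow_le _ (hJ i).2 _) (h4 i)
  rw [(c.red.eq_iff (tail_int hp.out.one_le hT le_rfl) (Valuation.map_sum_le _ h5)).2
    (he1 _ (by omega)), c.red.sum _ h5, sum_pow_char_pow]
  refine Finset.sum_congr rfl fun i _ => ?_
  rw [c.red.mul _ _ (Pl.vpow_le _ (hJ i).2 _) (h4 i), c.red.pow (hJ i).2,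
    tail_pow hp.out.one_le c.red (hb.tail i) he, mul_pow, ← pow_mul, ← pow_add]
  rfl

/-- the directions which annihilate all tails -/
def VV : Set (ZMod n → R) :=
  {v | ∃ J : ZMod n → L, (∀ i, (∀ g : G, g • J i = J i) ∧ c.w (J i) ≤ 1) ∧
    (∀ i, v i = c.rd (J i)) ∧
    ∀ b e0, Good c b e0 → ∀ e, e0 ≤ e → ∑ i, v i ^ p ^ e * om c b e i = 0}

theorem σ_fix {z : L} (hz : ∀ g : G, g • z = z) (g : G) : g • c.σ z = c.σ z := by
  haveI := c.fin
  choose φ hφ using c.σ_G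
  have hinj : Function.Injective φ := fun a b h => by
    have : ∀ z : L, (b⁻¹ * a) • z = z := fun z => by
      rw [mul_smul, inv_smul_eq_iff]
      apply c.σ.injective
      rw [hφ, hφ, h]
    exact (inv_mul_eq_one.1 (c.faith _ this)).symm
  obtain ⟨a, rfl⟩ := Finite.surjective_of_injective hinj g
  rw [← hφ, hz]

theorem VV_σ {v : ZMod n → R} (hv : v ∈ VV c) : (fun j => c.σb (v (j - 1))) ∈ VV c := by
  obtain ⟨J, h1, h2, h3⟩ := hv
  refine ⟨fun j => c.σ (J (j - 1)), fun i => ⟨σ_fix c (h1 _).1, by rw [c.σ_w]; exact (h1 _).2⟩,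
    fun i => by simp only; rw [h2, c.σb_rd _ (h1 _).2], fun b e0 hb e he => ?_⟩
  obtain ⟨b, rfl⟩ := c.σ.surjective b
  have hb' : Good c b e0 :=
    ⟨fun h => hb.ne (by rw [h, map_zero]),
      fun i => (M0_map (c.σ : L →+* L) (c.D (i + 1)) (c.σ_D i) c.σ_w c.σ_π0).1
        (by rw [map_pow]; exact hb.mem _),
      fun i => (tail_map (c.σ : L →+* L) (c.D (i + 1)) (c.σ_D i) c.σ_w c.σ_π0 c.σ_ζ).1
        (hb.tail _)⟩
  have h4 := congrArg c.σb (h3 b e0 hb' e he)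
  rw [map_sum, map_zero] at h4
  rw [← h4]
  refine (Fintype.sum_equiv (Equiv.addRight 1) _ _ fun i => ?_).symm
  have h5 := cc_map (π0 := c.π0) (ζ := c.ζ) (b := b) (c.σ : L →+* L) (c.D (i + 1)) (c.σ_D i) (p ^ e)
  simp only [RingHom.coe_coe, c.σ_π0, c.σ_ζ] at h5
  simp only [Equiv.coe_addRight, add_sub_cancel_right, map_mul, map_pow, om]
  rw [c.σb_rd _ (tail_int hp.out.one_le (hb'.tail i) he), h5]

theorem VV_rank (hR : RankStmt) : ∃ m : ℕ, n ≤ m + Nat.card G ∧ ∃ u : Fin m → ZMod n → R,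
    (∀ k, u k ∈ VV c) ∧ LinearIndependent R u := by
  haveI := c.charZero
  haveI := c.fin
  obtain ⟨m, J, h1, h2, h3, h4⟩ := hR p n L G R c
  refine ⟨m, h1, _, fun k => ⟨J k, h2 k, fun _ => rfl, fun b e0 hb e he => ?_⟩, h3⟩
  obtain ⟨k1, k2, k3⟩ := transf c (h2 k)
  obtain ⟨m, hT, h⟩ := k3 b e0 hb e he
  have := ((tail_holds p L G c.w _ c.π0 c.ζ k1 c.ζ_prim b hb.ne (h4 k _)).2 _ hT _ le_rfl).1
    (h4 k b)
  rw [(c.red.eq_zero _ this.le).2 this] at h
  exact pow_eq_zero_iff (pow_ne_zero _ hp.out.ne_zero) |>.1 h.symm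

theorem good_smul {b : L} {e0 : ℕ} (hb : Good c b e0) (g : Gam.Dec G c.w) :
    Good c (g.1 • b) e0 :=
  ⟨(smul_ne_zero_iff_ne _).2 hb.ne,
    fun i => by
      rw [← smul_pow']
      exact (M0_map (MulSemiringAction.toRingHom G L g.1) (c.D i)
        (fun z => (c.D_equiv i g.1 z).symm) g.2 (K_fix c c.π0_mem _)).2 (hb.mem i),
    fun i => (tail_map (MulSemiringAction.toRingHom G L g.1) (c.D i)
      (fun z => (c.D_equiv i g.1 z).symm) g.2 (K_fix c c.π0_mem _) (K_fix c c.ζ_mem _)).2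
      (hb.tail i)⟩

theorem cc_smul (b : L) (g : G) (i : ZMod n) (k : ℕ) :
    g • cc (c.D i) c.π0 c.ζ b k = cc (c.D i) c.π0 c.ζ (g • b) k := by
  have := cc_map (π0 := c.π0) (ζ := c.ζ) (b := b) (MulSemiringAction.toRingHom G L g) (c.D i)
    (fun z => (c.D_equiv i g z).symm) k
  simpa only [MulSemiringAction.toRingHom_apply, K_fix c c.π0_mem, K_fix c c.ζ_mem] using this

/-- the tails have at most logarithmic poles -/
theorem regular (hCF : ChartFlowStmt) (hReg : RegularStmt) {b : L} {e0 : ℕ} (hb : Good c b e0)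
    {V : ValuationSubring R} (hV : (deg c).IsPl V) (j : ZMod n) :
    (deg c).tt V j ^ p ^ e0 * om c b e0 j ∈ V := by
  haveI := c.charZero
  haveI := c.fin
  obtain ⟨u, hu, hB⟩ := exists_chart c hV.1
  obtain ⟨T, hT, h1, h2, h3⟩ := exists_T c hu hV.1 hB j
  have hJ : ∀ i, (Pi.single j T : ZMod n → L) i ∈ c.B u ∧
      ∀ g : G, g • (Pi.single j T : ZMod n → L) i = (Pi.single j T : ZMod n → L) i := fun i => by
    by_cases h : i = j
    · rw [h, Pi.single_eq_same]; exact ⟨hT, h1⟩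
    · rw [Pi.single_eq_of_ne h]; exact ⟨zero_mem _, fun g => smul_zero g⟩
  obtain ⟨k1, k2, k3⟩ := transf c (J := Pi.single j T) fun i => ⟨(hJ i).2, (hB _ (hJ i).1).1⟩
  have k4 := hCF p n L G R c u hu (Pi.single j T) hJ (fun W hW hu' i hi => by
    by_cases h : i = j
    · subst h; rw [Pi.single_eq_same]; exact h2 W hW hu' hi
    · rw [Pi.single_eq_of_ne h, map_zero]; exact zero_le) k1.bound
  obtain ⟨m, hTl, h⟩ := k3 b e0 hb e0 le_rfl
  have k5 := hReg p L G c.w _ c.π0 c.ζ (c.B u) R c.rd V k1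
    (chart_of gaussEll_holds p n L G R c u hu).1 k4.int c.red (fun b hb => (hB b hb).2)
    (pl_arch c hV) c.ζ_prim b hb.ne _ hTl _ le_rfl
  rw [h, Finset.sum_eq_single j (fun i _ hi => by
    rw [Pi.single_eq_of_ne hi, c.red.zero, zero_pow (pow_ne_zero _ hp.out.ne_zero), zero_mul])
    (fun h => absurd (Finset.mem_univ j) h), Pi.single_eq_same] at k5
  have k6 := mem_of_pow_mem (pow_ne_zero _ hp.out.ne_zero) k5
  rw [← val_le_iff] at k6 ⊢
  rwa [map_mul, map_pow, ← h3, ← map_pow, ← map_mul]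

/-- the tails do not vanish -/
theorem nonvanish (hCF : ChartFlowStmt) (hReg : RegularStmt) (hR : RankStmt) (hNV : NVStmt)
    {b : L} {e0 : ℕ} (hb : Good c b e0) (hb' : ∃ i, b ∉ M0 c.w (c.D i) c.π0)
    {V : ValuationSubring R} (hV : (deg c).IsPl V) :
    ∃ j, V.valuation ((deg c).tt V j ^ p ^ e0 * om c b e0 j) = 1 := by
  haveI := c.charZero
  haveI := c.fin
  obtain ⟨a, ha⟩ := inv_pow (G := G) c.red c.wp
  let ω : ZMod n → c.red.range := fun j =>
    ⟨om c b e0 j, _, tail_int hp.out.one_le (hb.tail j) le_rfl, rfl⟩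
  have hω : ∀ (g : Gam.Dec G c.w) j, (act c.red g (ω j) : R) = om c (g.1 • b) e0 j := fun g j => by
    rw [act_spec c.red g (ω j) (tail_int hp.out.one_le (hb.tail j) le_rfl) rfl, cc_smul]
    rfl
  refine hNV p n R (deg c) (VV c) (Nat.card G) c.card ?_ (fun v hv => VV_σ c hv) (VV_rank c hR)
    c.red.range (Gam.Dec G c.w) (act c.red) a e0 ?_ ω ?_ ?_ ?_ V hV
  · rintro v ⟨J, h1, h2, -⟩ j
    rw [h2]
    exact rd_F c (h1 j).1 (h1 j).2
  · intro z hz
    obtain ⟨f, h1, h2, h3⟩ := ha z hz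
    rw [← h3]
    exact rd_F c h1 h2
  · obtain ⟨i, hi⟩ := hb'
    intro h
    apply hi
    rw [(tail_holds p L G c.w _ c.π0 c.ζ (flow c i) c.ζ_prim b hb.ne (hb.mem i)).2 _ (hb.tail i)
      _ le_rfl, ← c.red.eq_zero _ (tail_int hp.out.one_le (hb.tail i) le_rfl)]
    exact congrArg Subtype.val (congrFun h i)
  · rintro g v ⟨J, -, -, h⟩
    simp only [hω]
    exact h _ _ (good_smul c hb g) _ le_rfl
  · intro g W hW j
    rw [hω]
    exact regular c hCF hReg (good_smul c hb g) hW j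

end CoreH

end P179W
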