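import Mathlib

/-!
# P179W : definitions shared by all modules of the proof of the Alperin weight conjecture

See `notes/P179/proof.md` in the graded repository.
-/

set_option linter.all false

open scoped NNReal Classical
open Filter Topology Polynomial

noncomputable section

namespace P179W

/-! ## Ambient field, automorphisms, places -/

section Amb

variable {U : Type} [Field U]

/-- The automorphisms of `U` fixing `S` pointwise. -/
def Fix (S : Set U) : Subgroup (RingAut U) where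
  carrier := {g | ∀ z ∈ S, g z = z}
  one_mem' := fun _ _ => rfl
  mul_mem' := by
    intro a b ha hb z hz
    show a (b z) = z
    rw [hb z hz, ha z hz]
  inv_mem' := by
    intro a ha z hz
    show a.symm z = z
    rw [RingEquiv.symm_apply_eq, ha z hz]

theorem mem_Fix {S : Set U} {g : RingAut U} : g ∈ Fix S ↔ ∀ z ∈ S, g z = z := Iff.rfl

/-- The fixed field of a set of automorphisms. -/
def fixedOf (H : Set (RingAut U)) : Subfield U where
  carrier := {z | ∀ g ∈ H, g z = z}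
  one_mem' := fun g _ => map_one g
  zero_mem' := fun g _ => map_zero g
  mul_mem' := by
    intro a b ha hb g hg
    rw [map_mul, ha g hg, hb g hg]
  add_mem' := by
    intro a b ha hb g hg
    rw [map_add, ha g hg, hb g hg]
  neg_mem' := by
    intro a ha g hg
    rw [map_neg, ha g hg]
  inv_mem' := by
    intro a ha g hg
    rw [map_inv₀, ha g hg]

theorem mem_fixedOf {H : Set (RingAut U)} {z : U} : z ∈ fixedOf H ↔ ∀ g ∈ H, g z = z := Iff.rfl

/-- `K(T)`. -/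
def adj (K : Set U) (T : Set U) : Subfield U := Subfield.closure (K ∪ T)

/-- `M` is finitely generated over `K` and stable under the automorphisms of `U` over `K`
(if `U` is an algebraic closure of `K`, of characteristic zero: `M/K` is finite Galois). -/
structure FinNormal (K M : Subfield U) : Prop where
  fin : ∃ T : Finset U, M = adj K T
  stab : ∀ g ∈ Fix (K : Set U), ∀ z ∈ M, g z ∈ M

/-- `t` is a uniformiser of the trace of `V` on `K`. -/
def IsUnif (K : Set U) (V : ValuationSubring U) (t : U) : Prop :=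
  t ∈ K ∧ t ≠ 0 ∧ V.valuation t < 1 ∧
    ∀ s ∈ K, V.valuation s < 1 → V.valuation s ≤ V.valuation t

/-- `γ` acts on `M` as the canonical generator of inertia at `V`, relative to the parameter `t`:
`γ z / z ≡ ζ (k / m)` if `z ^ m` and `t ^ k` have the same valuation. -/
def IsCan (ζ : ℚ → U) (M : Set U) (V : ValuationSubring U) (t : U) (γ : RingAut U) : Prop :=
  ∀ z ∈ M, z ≠ 0 → ∀ (m : ℕ) (k : ℤ), 0 < m → V.valuation (z ^ m) = V.valuation (t ^ k) →
    V.valuation (γ z - ζ ((k : ℚ) / m) * z) < V.valuation z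

/-- `exp (2 π i r)`. -/
def zeta (r : ℚ) : ℂ := Complex.exp (2 * Real.pi * Complex.I * r)

/-- The point `(x, y)` is congruent to the point `(a, b)` modulo `V`. -/
def Above (V : ValuationSubring U) (x y a b : U) : Prop :=
  V.valuation (x - a) < 1 ∧ V.valuation (y - b) < 1

/-- `x` is transcendental over the subfield `K`. -/
def Transc (K : Subfield U) (x : U) : Prop :=
  ∀ f : U[X], (∀ k, f.coeff k ∈ K) → f.eval x = 0 → f = 0

/-- `z` is algebraic over the subfield `K`. -/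
def Alg (K : Subfield U) (z : U) : Prop :=
  ∃ f : U[X], f ≠ 0 ∧ (∀ k, f.coeff k ∈ K) ∧ f.eval z = 0

/-- `M` is unramified over `ℂ(x)` above the points of `ℂ` outside `S`. -/
def UnramOutside (i : ℂ →+* U) (x : U) (S : Set ℂ) (M : Subfield U) : Prop :=
  ∀ V : ValuationSubring U, (∀ c, i c ∈ V) → ∀ c, c ∉ S → V.valuation (x - i c) < 1 →
    ∀ g ∈ Fix (adj (Set.range i) {x} : Set U), (∀ z ∈ M, z ∈ V ↔ g z ∈ V) → g ∈ Fix (M : Set U)

end Amb

/-! ## Weierstrass curves -/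

section Ell

variable {K : Type} [Field K]

/-- `2 y + a₁ x + a₃`: the invariant vector field applied to `x`. -/
def psi (E : WeierstrassCurve K) (x y : K) : K := 2 * y + E.a₁ * x + E.a₃

/-- `3 x² + 2 a₂ x + a₄ - a₁ y`: the invariant vector field applied to `y`. -/
def phi (E : WeierstrassCurve K) (x y : K) : K := 3 * x ^ 2 + 2 * E.a₂ * x + E.a₄ - E.a₁ * y

/-- The point `(x, y)` (zero if it is not a nonsingular point of `E`). -/
def pt (E : WeierstrassCurve K) (x y : K) : E.toAffine.Point :=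
  if h : E.toAffine.Nonsingular x y then .some x y h else 0

/-- The coefficients of `E` lie in `S`. -/
def CoeffIn (E : WeierstrassCurve K) (S : Set K) : Prop :=
  E.a₁ ∈ S ∧ E.a₂ ∈ S ∧ E.a₃ ∈ S ∧ E.a₄ ∈ S ∧ E.a₆ ∈ S

/-- The point `P` has its coordinates in `S`. -/
def OnSet {E : WeierstrassCurve K} (S : Set K) : E.toAffine.Point → Prop
  | .zero => True
  | .some x y _ => x ∈ S ∧ y ∈ S

/-- The image of a point under a map of the fields (junk unless the map sends `E` to `E'`). -/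
def ptFun {K' : Type} [Field K'] (f : K → K') {E : WeierstrassCurve K} (E' : WeierstrassCurve K') :
    E.toAffine.Point → E'.toAffine.Point
  | .zero => 0
  | .some x y _ => pt E' (f x) (f y)

/-- A generic tuple of points of `E` over `k`. -/
def Gen {ι : Type} (k : Subfield K) (E : WeierstrassCurve K) (X Y : ι → K) : Prop :=
  (∀ j, E.toAffine.Equation (X j) (Y j)) ∧
    ∀ f : MvPolynomial ι K, (∀ m, f.coeff m ∈ k) → MvPolynomial.eval X f = 0 → f = 0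

/-- The place `V` of the function field `k(x, y)` is centred at the point `P`. -/
def Cent {E : WeierstrassCurve K} (V : ValuationSubring K) (x y : K) : E.toAffine.Point → Prop
  | .zero => x ∉ V
  | .some a b _ => Above V x y a b

end Ell

/-! ## Counting -/

section Count

variable {G : Type} [Group G]

/-- The number of tuples `(x, y, c₁, …, cₙ)` in `L` with all `cᵢ ∈ C`, `[x, y] = c₁ ⋯ cₙ`. -/
def tupCount (L : Subgroup G) (C : Set G) (n : ℕ) : ℕ :=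
  Nat.card {t : G × G × (Fin n → G) // t.1 ∈ L ∧ t.2.1 ∈ L ∧ (∀ i, t.2.2 i ∈ L ∧ t.2.2 i ∈ C) ∧
    t.1 * t.2.1 * t.1⁻¹ * t.2.1⁻¹ = (List.ofFn t.2.2).prod}

variable {U : Type} [Field U]

/-- The field cut out by `φ`. -/
def kerField {H : Subgroup (RingAut U)} (φ : H →* G) : Subfield U :=
  fixedOf {g | ∃ h : g ∈ H, φ ⟨g, h⟩ = 1}

/-- The continuous homomorphisms from the absolute Galois group of `ℂ(x, y)` to `G` which are
unramified outside of the points `(xP j, yP j)` and send the canonical generators of inertia at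
these points into `C`. -/
def PhiSet {ι : Type} (i : ℂ →+* U) (x y : U) (xP yP : ι → U) (C : Set G) :
    Set (Fix (adj (Set.range i) {x, y} : Set U) →* G) :=
  {φ | (∃ T : Finset U, ∀ γ : Fix (adj (Set.range i) {x, y} : Set U),
        γ.1 ∈ Fix (T : Set U) → φ γ = 1) ∧
    ∀ V : ValuationSubring U, (∀ c, i c ∈ V) → (∃ z ∈ adj (Set.range i) {x, y}, z ∉ V) →
      ∃ (t : U) (γ : Fix (adj (Set.range i) {x, y} : Set U)),
        IsUnif (adj (Set.range i) {x, y} : Set U) V t ∧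
        IsCan (fun r => i (zeta r)) (kerField φ) V t γ.1 ∧
        ((∃ j, Above V x y (xP j) (yP j)) → φ γ ∈ C) ∧
        ((¬ ∃ j, Above V x y (xP j) (yP j)) → φ γ = 1)}

end Count

/-! ## The geometric set-up -/

/-- The generic `n`-pointed curve of genus one with a cyclic symmetry, its Gauss valuation, the
invariant derivations, and the valuation centred at a fixed point of the symmetry. -/
structure Setup (p n : ℕ) (U : Type) [Field U] where
  i : ℂ →+* U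
  k0 : Subfield U
  E : WeierstrassCurve U
  x : U
  y : U
  xP : ZMod n → U
  yP : ZMod n → U
  w : Valuation U ℝ≥0
  D : ZMod n → Derivation ℤ U U
  θ : RingAut U
  Op : ValuationSubring U
  algClosed : IsAlgClosed U
  k0_le : ∀ c ∈ k0, c ∈ i.fieldRange
  k0_alg : ∀ z, Alg k0 z → z ∈ k0
  val_k0 : ∀ z, ∃ c ∈ k0, w z = w c
  wp : w (p : U) < 1
  disc : ∀ T : Finset U, (T : Set U) ⊆ k0 → ∃ k1 : Subfield U, k1 ≤ k0 ∧ (T : Set U) ⊆ k1 ∧
    (∀ c ∈ k0, Alg k1 c) ∧ ∃ ϖ ∈ k1, ϖ ≠ 0 ∧ w ϖ < 1 ∧ ∀ c ∈ k1, c ≠ 0 → ∃ m : ℤ, w c = w ϖ ^ m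
  coeff_k0 : CoeffIn E k0
  coeff_int : CoeffIn E {z | w z ≤ 1}
  wΔ : w E.Δ = 1
  eqn : E.toAffine.Equation x y
  eqnP : ∀ j, E.toAffine.Equation (xP j) (yP j)
  P0 : xP 0 ∈ k0 ∧ yP 0 ∈ k0
  P_mem : ∀ j, xP j ∈ i.fieldRange ∧ yP j ∈ i.fieldRange
  Om_alg : ∀ z ∈ i.fieldRange, Alg (adj k0 (Set.range xP ∪ Set.range yP)) z
  transc : Transc i.fieldRange x
  U_alg : ∀ z, Alg (adj (Set.range i) {x, y}) z
  wx : w x ≤ 1
  wP : ∀ j, w (xP j) ≤ 1
  wP_sub : ∀ j l, j ≠ l → w (xP j - xP l) = 1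
  wP_psi : ∀ j, w (psi E (xP j) (yP j)) = 1
  gauss : ∀ f : U[X], (∀ k, f.coeff k ∈ i.fieldRange) → ∀ k, w (f.coeff k) ≤ w (f.eval x)
  gaussAll : ∀ f : MvPolynomial (ZMod n) U, (∀ m, f.coeff m ∈ k0) → ∀ m,
    w (f.coeff m) ≤ w (MvPolynomial.eval (fun j => if j = 0 then x else xP j) f)
  D_k0 : ∀ j, ∀ c ∈ k0, D j c = 0
  D_comm : ∀ j l z, D j (D l z) = D l (D j z)
  D_x : ∀ j, D j x = if j = 0 then psi E x y else 0
  D_y : ∀ j, D j y = if j = 0 then phi E x y else 0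
  D_xP : ∀ j l, D j (xP l) =
    ((if j = 0 then 1 else 0) - (if j = l then 1 else 0)) * psi E (xP l) (yP l)
  D_yP : ∀ j l, D j (yP l) =
    ((if j = 0 then 1 else 0) - (if j = l then 1 else 0)) * phi E (xP l) (yP l)
  D_w : ∀ j, ∀ z ∈ adj k0 (Set.range xP ∪ Set.range yP), w (D j z) ≤ w z
  θ_k0 : θ ∈ Fix (k0 : Set U)
  θ_Kt : ∀ z, z ∈ adj k0 (Set.range xP ∪ Set.range yP) ↔
    θ z ∈ adj k0 (Set.range xP ∪ Set.range yP)
  θ_Ft : ∀ z, z ∈ adj k0 (Set.range xP ∪ Set.range yP ∪ {x, y}) ↔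
    θ z ∈ adj k0 (Set.range xP ∪ Set.range yP ∪ {x, y})
  θ_pow : θ ^ n ∈ Fix (adj k0 (Set.range xP ∪ Set.range yP ∪ {x, y}) : Set U)
  θ_a : pt E (θ x) (θ y) = pt E x y + (pt E (xP 0) (yP 0) - pt E (xP 1) (yP 1))
  θ_P : ∀ j, pt E (θ (xP j)) (θ (yP j)) =
    pt E (xP (j + 1)) (yP (j + 1)) + (pt E (xP 0) (yP 0) - pt E (xP 1) (yP 1))
  θ_w : ∀ z ∈ adj k0 (Set.range xP ∪ Set.range yP ∪ {x, y}), w (θ z) = w z
  θ_D : ∀ j z, θ (D j z) = D (j + 1) (θ z)
  Op_le : ∀ z ∈ i.fieldRange, z ∈ Op → w z ≤ 1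
  Op_k0 : ∀ c ∈ k0, w c ≤ 1 → c ∈ Op
  Op_k0' : ∀ c ∈ k0, w c = 1 → Op.valuation c = 1
  Op_θ : ∀ z ∈ adj k0 (Set.range xP ∪ Set.range yP), z ∈ Op ↔ θ z ∈ Op
  Op_res : ∀ z ∈ i.fieldRange, z ∈ Op → ∃ c ∈ k0, c ∈ Op ∧ Op.valuation (z - c) < 1
  period : ∀ d : ℕ, 0 < d → d < n → ∃ X Y h,
    d • (pt E (xP 0) (yP 0) - pt E (xP 1) (yP 1)) = .some X Y h ∧ X ∈ Op

namespace Setup

variable {p n : ℕ} {U : Type} [Field U] (S : Setup p n U)

/-- the constants of the geometric generic fibre -/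
abbrev Om : Subfield U := S.i.fieldRange

/-- the function field of the base -/
abbrev Kt : Subfield U := adj S.k0 (Set.range S.xP ∪ Set.range S.yP)

/-- the function field of the total space -/
abbrev Ft : Subfield U := adj S.k0 (Set.range S.xP ∪ Set.range S.yP ∪ {S.x, S.y})

/-- the function field of the geometric generic fibre -/
abbrev Fb : Subfield U := adj (Set.range S.i) {S.x, S.y}

/-- the roots of unity -/
abbrev ze : ℚ → U := fun r => S.i (zeta r)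

/-- `V` lies above the `j`-th puncture -/
abbrev Ab (V : ValuationSubring U) (j : ZMod n) : Prop := Above V S.x S.y (S.xP j) (S.yP j)

/-- `V` is a place of the geometric generic fibre -/
def IsPl (V : ValuationSubring U) : Prop := (∀ c, S.i c ∈ V) ∧ ∃ z ∈ S.Fb, z ∉ V

/-- The hypotheses of theorem G': a Galois cover `L / K'(E)` of degree `< n`, unramified outside
of the punctures, wildly ramified somewhere, `K'` unramified for `w`, with a lift `σ` of `θ`. -/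
structure Cover (K' L : Subfield U) (σ : RingAut U) : Prop where
  Kt_le : S.Kt ≤ K'
  le_Om : K' ≤ S.Om
  finL : ∃ T : Finset U, L = adj S.Ft T
  normal : FinNormal (adj K' {S.x, S.y}) L
  index : (Fix (L : Set U)).relIndex (Fix (adj K' {S.x, S.y} : Set U)) < n
  D_w : ∀ j, ∀ z ∈ K', S.w (S.D j z) ≤ S.w z
  uniq : ∀ g ∈ Fix (adj K' {S.x, S.y} : Set U), ∀ z ∈ L, z ∈ S.Om → S.w (g z) = S.w z
  σ_θ : ∀ z ∈ S.Ft, σ z = S.θ z
  σ_K : ∀ z, z ∈ K' ↔ σ z ∈ K'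
  σ_L : ∀ z, z ∈ L ↔ σ z ∈ L
  σ_w : ∀ z, S.w (σ z) = S.w z
  σ_Op : ∀ z ∈ S.Om, z ∈ S.Op ↔ σ z ∈ S.Op
  unram : ∀ V, S.IsPl V → (¬ ∃ j, S.Ab V j) →
    ∃ t, IsUnif S.Fb V t ∧ IsCan S.ze (adj (L : Set U) (S.Om : Set U) : Subfield U) V t 1
  wild : ∃ V j t γ, S.IsPl V ∧ S.Ab V j ∧ IsUnif S.Fb V t ∧ γ ∈ Fix (S.Fb : Set U) ∧
    IsCan S.ze (adj (L : Set U) (S.Om : Set U) : Subfield U) V t γ ∧ ∀ m : ℕ, ¬ p ∣ m → γ ^ m ∉ Fix (L : Set U)

/-- The conclusion of theorem G': the Galois group has a nontrivial normal `p`-subgroup. -/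
def HasNormalP (K' L : Subfield U) : Prop :=
  ∃ R : Subgroup (RingAut U), Fix (L : Set U) < R ∧ R ≤ Fix (adj K' {S.x, S.y} : Set U) ∧
    (∀ g ∈ Fix (adj K' {S.x, S.y} : Set U), ∀ r ∈ R, g * r * g⁻¹ ∈ R) ∧
    ∀ r ∈ R, ∃ k : ℕ, r ^ p ^ k ∈ Fix (L : Set U)

/-- the conclusions of the horizontal analysis, for a subfield `L` -/
structure Horiz (L : Subfield U) : Prop where
  pres : ∀ V, S.IsPl V → ∀ j, ¬ S.Ab V j → ∀ z ∈ L, z ∈ V → S.D j z ∈ V
  log : ∀ V, S.IsPl V → ∀ j l, S.Ab V l → j ≠ l → ∀ z ∈ L, V.valuation (S.D j z) ≤ V.valuation z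
  log' : ∀ V, S.IsPl V → ∀ j, S.Ab V j → ∀ z ∈ L,
    V.valuation ((S.x - S.xP j) * S.D j z) ≤ V.valuation z
  gen : ∀ V, S.IsPl V → (¬ ∃ j, S.Ab V j) → ∀ K₁ : Subfield U, K₁ ≤ S.Om → CoeffIn S.E K₁ →
    (∀ z ∈ S.Om, Alg K₁ z) → ∃ t ∈ adj K₁ {S.x, S.y}, t ≠ 0 ∧
      ∀ z ∈ L, z ≠ 0 → ∃ k : ℤ, V.valuation z = V.valuation (t ^ k)

end Setup

/-! ## Flows of derivations -/

section Flow

variable {L : Type} [Field L]

/-- the divided power `π₀ ^ k δ ^ k / k!` -/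
def dE (δ : Derivation ℤ L L) (π0 : L) (k : ℕ) (z : L) : L :=
  π0 ^ k / (k.factorial : L) * (δ : L → L)^[k] z

/-- the Taylor series `exp (π₀ X δ) z` -/
def tau (δ : Derivation ℤ L L) (π0 : L) (z : L) : PowerSeries L :=
  PowerSeries.mk fun k => dE δ π0 k z

/-- the elements whose Taylor series converges on the closed disc -/
def M0 (w : Valuation L ℝ≥0) (δ : Derivation ℤ L L) (π0 : L) : Set L :=
  {z | Tendsto (fun k => w (dE δ π0 k z)) atTop (𝓝 0)}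

/-- `rd` is the reduction modulo the maximal ideal of `w`, with values in a field `R`. -/
structure IsRed (w : Valuation L ℝ≥0) {R : Type} [Field R] (rd : L → R) : Prop where
  one : rd 1 = 1
  add : ∀ a b, w a ≤ 1 → w b ≤ 1 → rd (a + b) = rd a + rd b
  mul : ∀ a b, w a ≤ 1 → w b ≤ 1 → rd (a * b) = rd a * rd b
  eq_zero : ∀ a, w a ≤ 1 → (rd a = 0 ↔ w a < 1)

/-- `w` is discrete -/
def IsDisc (w : Valuation L ℝ≥0) : Prop :=
  ∃ ϖ : L, ϖ ≠ 0 ∧ w ϖ < 1 ∧ ∀ z, z ≠ 0 → ∃ m : ℤ, w z = w ϖ ^ m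

variable (G : Type) [Group G] [MulSemiringAction G L]

/-- the conjugate valuation `z ↦ w (g • z)` -/
def cw (w : Valuation L ℝ≥0) (g : G) : Valuation L ℝ≥0 :=
  w.comap (MulSemiringAction.toRingHom G L g)

theorem cw_apply (w : Valuation L ℝ≥0) (g : G) (z : L) : cw G w g z = w (g • z) := rfl

/-- the pointwise stabiliser of a set -/
def fixG (S : Set L) : Subgroup G where
  carrier := {g | ∀ z ∈ S, g • z = z}
  one_mem' := fun z _ => one_smul G z
  mul_mem' := by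
    intro a b ha hb z hz
    rw [mul_smul, hb z hz, ha z hz]
  inv_mem' := by
    intro a ha z hz
    rw [inv_smul_eq_iff, ha z hz]

/-- The hypotheses on the flow of a derivation `δ`. -/
structure Flow (p : ℕ) (w : Valuation L ℝ≥0) (δ : Derivation ℤ L L) (π0 : L) : Prop where
  wp : w (p : L) < 1
  disc : IsDisc w
  faith : ∀ g : G, (∀ z : L, g • z = z) → g = 1
  equiv : ∀ (g : G) (z : L), δ (g • z) = g • δ z
  π0_fix : ∀ g : G, g • π0 = π0
  π0_const : δ π0 = 0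
  bound : ∀ k z, w (dE δ π0 k z) ≤ w z
  gain : ∃ ρ : ℝ≥0, ρ < 1 ∧ ∀ f : L, (∀ g : G, g • f = f) → ∀ k, w (dE δ π0 k f) ≤ ρ ^ k * w f

/-- The families `h ↦ ∑ ρⱼ τ (h • zⱼ)`, `ρⱼ` polynomials with coefficients in `S`, `zⱼ ∈ S`. -/
def Fam (δ : Derivation ℤ L L) (π0 : L) (S : Set L) : AddSubgroup (G → PowerSeries L) :=
  AddSubgroup.closure {c | ∃ (ρ : L[X]) (z : L), (∀ k, ρ.coeff k ∈ S) ∧ z ∈ S ∧
    c = fun h => (ρ : PowerSeries L) * tau δ π0 (h • z)}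

/-- `B` is the ring of an affine chart of the normal model. -/
structure Chart (p : ℕ) (w : Valuation L ℝ≥0) (B : Subring L) : Prop where
  noeth : IsNoetherianRing B
  stab : ∀ (g : G), ∀ b ∈ B, g • b ∈ B
  le_one : ∀ b ∈ B, w b ≤ 1
  frac : ∀ z : L, ∃ c ∈ B, c ≠ 0 ∧ c * z ∈ B
  mp : ∀ (z : L) (N : ℕ), (p : L) ^ N * z ∈ B → (∀ g : G, w (g • z) ≤ 1) → z ∈ B
  loc : ∀ z, w z ≤ 1 → ∃ s ∈ B, w s = 1 ∧ s * z ∈ B

/-- The flow of `δ` preserves the chart `B` and is logarithmic along the ramified horizontal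
primes, which are maximal in `B[1/p]`, locally principal and tamely ramified. -/
structure ChartFlow (p : ℕ) (δ : Derivation ℤ L L) (π0 : L) (B : Subring L) : Prop where
  int : ∀ b ∈ B, ∀ k, dE δ π0 k b ∈ B
  ram : ∀ P : Ideal B, P.IsPrime → (p : B) ∉ P → ∀ g : G, g ≠ 1 →
    (∀ b b' : B, (b' : L) = g • (b : L) → b' - b ∈ P) →
    (∀ b ∈ P, ∀ k, ∀ b' : B, (b' : L) = dE δ π0 k b → b' ∈ P) ∧
    (∀ β : B, β ∉ P → ∃ (β' : B) (m : ℕ), β * β' - (p : B) ^ m ∈ P) ∧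
    ∃ f : B, (∀ (h : G) (f' : B), (f' : L) = h • (f : L) → f' ∈ P) ∧
      (∃ β : B, β ∉ P ∧ ∀ b ∈ P, ∃ c : B, β * b = f * c) ∧
      (∃ β : B, β ∉ P ∧ ∀ b ∈ P, ∃ c : B, (β : L) * b = ((f : L) - g • (f : L)) * c)

/-- the normalised coefficients of the Taylor series of a Kummer generator -/
def cc (δ : Derivation ℤ L L) (π0 ζ b : L) (k : ℕ) : L := dE δ π0 k b / (b * (ζ - 1))

/-- From the index `p ^ e0` on, the Taylor series of `b` is lacunary. -/
structure Tail (p : ℕ) (w : Valuation L ℝ≥0) (δ : Derivation ℤ L L) (π0 ζ b : L) (e0 : ℕ) :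
    Prop where
  le_one : ∀ k, p ^ e0 ≤ k → w (cc δ π0 ζ b k) ≤ 1
  lt_one : ∀ k, p ^ e0 ≤ k → (∀ e, k ≠ p ^ e) → w (cc δ π0 ζ b k) < 1
  succ : ∀ e, e0 ≤ e → w (cc δ π0 ζ b (p ^ (e + 1)) - cc δ π0 ζ b (p ^ e) ^ p) < 1

/-- the derivation `∑ J i • D i` -/
def comb {ι : Type} [Fintype ι] (J : ι → L) (D : ι → Derivation ℤ L L) : Derivation ℤ L L :=
  ∑ i, J i • D i

end Flow

/-! ## The discretely valued core -/

/-- The data of theorem G' over a discretely valued field of constants. -/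
structure Core (p n : ℕ) (L : Type) [Field L] (G : Type) [Group G] [MulSemiringAction G L]
    (R : Type) [Field R] where
  w : Valuation L ℝ≥0
  K : Subfield L
  E : WeierstrassCurve L
  x : L
  y : L
  xP : ZMod n → L
  yP : ZMod n → L
  D : ZMod n → Derivation ℤ L L
  π0 : L
  ζ : L
  σ : L ≃+* L
  rd : L → R
  kb : Subfield R
  Eb : WeierstrassCurve R
  σb : R ≃+* R
  Q : Eb.toAffine.Point
  charZero : CharZero L
  fin : Finite G
  card : Nat.card G < n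
  faith : ∀ g : G, (∀ z : L, g • z = z) → g = 1
  fixed : ∀ z : L, (∀ g : G, g • z = z) ↔ z ∈ adj K {x, y}
  wp : w (p : L) < 1
  disc : IsDisc w
  coeff_K : CoeffIn E K
  coeff_int : CoeffIn E {z | w z ≤ 1}
  coeff_D : ∀ j, CoeffIn E {z | D j z = 0}
  wΔ : w E.Δ = 1
  eqn : E.toAffine.Equation x y
  eqnP : ∀ j, E.toAffine.Equation (xP j) (yP j)
  P_mem : ∀ j, xP j ∈ K ∧ yP j ∈ K
  wx : w x ≤ 1
  wP : ∀ j, w (xP j) ≤ 1
  wP_sub : ∀ j l, j ≠ l → w (xP j - xP l) = 1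
  wP_psi : ∀ j, w (psi E (xP j) (yP j)) = 1
  gauss : ∀ f : L[X], (∀ k, f.coeff k ∈ K) → ∀ k, w (f.coeff k) ≤ w (f.eval x)
  infin : ∃ u : ℕ → L, (∀ j, u j ∈ K ∧ w (u j) ≤ 1) ∧ ∀ j l, j ≠ l → w (u j - u l) = 1
  uniq : ∀ z, Alg K z → ∀ g : G, w (g • z) = w z
  D_comm : ∀ j l z, D j (D l z) = D l (D j z)
  D_equiv : ∀ j (g : G) (z : L), D j (g • z) = g • D j z
  D_w : ∀ j (f : L), (∀ g : G, g • f = f) → w (D j f) ≤ w f
  π0_mem : π0 ∈ K
  π0_D : ∀ j, D j π0 = 0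
  ζ_mem : ζ ∈ K
  ζ_D : ∀ j, D j ζ = 0
  ζ_prim : IsPrimitiveRoot ζ p
  spec1 : ∃ C : ℝ≥0, ∀ j k (z : L) (c : ℝ≥0), (∀ g : G, w (g • z) ≤ c) →
    w (dE (D j) π0 k z) ≤ C * c
  spec2 : ∃ j z, ∃ c : ℝ≥0, 0 < c ∧ ∀ e : ℕ, ∃ g : G, c ≤ w (g • dE (D j) π0 (p ^ e) z)
  spec3 : w π0 ^ (p - 1) < w (p : L)
  pres : ∀ V : ValuationSubring L, (∀ c ∈ K, c ∈ V) → ∀ j, ¬ Above V x y (xP j) (yP j) →
    ∀ z ∈ V, D j z ∈ V
  log : ∀ V : ValuationSubring L, (∀ c ∈ K, c ∈ V) → ∀ j l, Above V x y (xP l) (yP l) → j ≠ l →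
    ∀ z, V.valuation (D j z) ≤ V.valuation z
  log' : ∀ V : ValuationSubring L, (∀ c ∈ K, c ∈ V) → ∀ j, Above V x y (xP j) (yP j) →
    ∀ z, V.valuation ((x - xP j) * D j z) ≤ V.valuation z
  inert : ∀ V : ValuationSubring L, (∀ c ∈ K, c ∈ V) → (¬ ∃ j, Above V x y (xP j) (yP j)) →
    ∀ g : G, (∀ z ∈ V, V.valuation (g • z - z) < 1) → g = 1
  σ_w : ∀ z, w (σ z) = w z
  σ_G : ∀ g : G, ∃ g' : G, ∀ z, σ (g • z) = g' • σ z
  σ_D : ∀ j z, σ (D j z) = D (j + 1) (σ z)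
  σ_π0 : σ π0 = π0
  σ_ζ : σ ζ = ζ
  red : IsRed w rd
  charP : CharP R p
  kb_alg : ∀ f : R[X], (∀ k, f.coeff k ∈ kb) → 0 < f.natDegree → ∃ z ∈ kb, f.eval z = 0
  rd_K : ∀ c ∈ K, w c ≤ 1 → rd c ∈ kb
  kb_over : ∀ z ∈ kb, Alg (Subfield.closure (rd '' {c | c ∈ K ∧ w c ≤ 1})) z
  transc : Transc kb (rd x)
  R_alg : ∀ z, Alg (adj kb {rd x, rd y}) z
  Eb_eq : Eb.a₁ = rd E.a₁ ∧ Eb.a₂ = rd E.a₂ ∧ Eb.a₃ = rd E.a₃ ∧ Eb.a₄ = rd E.a₄ ∧ Eb.a₆ = rd E.a₆
  σb_rd : ∀ z, w z ≤ 1 → σb (rd z) = rd (σ z)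
  σb_kb : ∀ z, z ∈ kb ↔ σb z ∈ kb
  σb_E : CoeffIn Eb {z | σb z = z}
  Q_on : OnSet (kb : Set R) Q
  σb_a : pt Eb (σb (rd x)) (σb (rd y)) = pt Eb (rd x) (rd y) + Q
  σb_P : ∀ j, pt Eb (σb (rd (xP j))) (σb (rd (yP j))) =
    pt Eb (rd (xP (j + 1))) (rd (yP (j + 1))) + Q
  period : ∀ b : Eb.toAffine.Point, OnSet (kb : Set R) b → ∀ d : ℕ, 0 < d → d < n →
    ptFun σb Eb b - b ≠ d • Q

namespace Core

variable {p n : ℕ} {L : Type} [Field L] {G : Type} [Group G] [MulSemiringAction G L]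
  {R : Type} [Field R] (c : Core p n L G R)

/-- the ring of integers of the constants -/
def O : Set L := {z | z ∈ c.K ∧ c.w z ≤ 1}

/-- the integral closure of `O[u]` in `L` (`u = x` or `u = x⁻¹`) -/
def B (u : L) : Subring L :=
  (integralClosure (Subring.closure (c.O ∪ {u})) L).toSubring

end Core

/-! ## The elliptic curve in characteristic `p` -/

/-- The data of the degree argument: the generic point of an elliptic curve over an algebraically
closed subfield `kb` of `R`, marked points permuted cyclically by `σ` up to the translation by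
`Q`, whose class has period `≥ n`. -/
structure Deg (p n : ℕ) (R : Type) [Field R] where
  kb : Subfield R
  E : WeierstrassCurve R
  x : R
  y : R
  xP : ZMod n → R
  yP : ZMod n → R
  σ : R ≃+* R
  Q : E.toAffine.Point
  charP : CharP R p
  kb_alg : ∀ f : R[X], (∀ k, f.coeff k ∈ kb) → 0 < f.natDegree → ∃ z ∈ kb, f.eval z = 0
  coeff : CoeffIn E kb
  Δ_ne : E.Δ ≠ 0
  eqn : E.toAffine.Equation x y
  eqnP : ∀ j, E.toAffine.Equation (xP j) (yP j)
  P_mem : ∀ j, xP j ∈ kb ∧ yP j ∈ kb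
  P_inj : Function.Injective xP
  P_psi : ∀ j, psi E (xP j) (yP j) ≠ 0
  transc : Transc kb x
  R_alg : ∀ z, Alg (adj kb {x, y}) z
  σ_kb : ∀ z, z ∈ kb ↔ σ z ∈ kb
  σ_E : CoeffIn E {z | σ z = z}
  Q_on : OnSet (kb : Set R) Q
  σ_a : pt E (σ x) (σ y) = pt E x y + Q
  σ_P : ∀ j, pt E (σ (xP j)) (σ (yP j)) = pt E (xP (j + 1)) (yP (j + 1)) + Q
  period : ∀ b : E.toAffine.Point, OnSet (kb : Set R) b → ∀ d : ℕ, 0 < d → d < n →
    ptFun σ E b - b ≠ d • Q

namespace Deg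

variable {p n : ℕ} {R : Type} [Field R] (c : Deg p n R)

/-- the local generator of the `j`-th summand of the lattice at `V` -/
def tt (V : ValuationSubring R) (j : ZMod n) : R :=
  if Above V c.x c.y (c.xP j) (c.yP j) then c.x - c.xP j else 1

/-- `V` is a place -/
def IsPl (V : ValuationSubring R) : Prop :=
  (∀ z ∈ c.kb, z ∈ V) ∧ ∃ z ∈ adj c.kb {c.x, c.y}, z ∉ V

end Deg

end P179W
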