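import Vale.Agent.P179W.Stmts

/-!
# P179W : the field `K(x, y)` of a Weierstrass curve, Gauss valuations (B4)
-/

open scoped NNReal Classical
open Polynomial

noncomputable section

namespace P179W

namespace Pl

variable {U : Type} [Field U]

theorem mem_adj_base {K : Subfield U} {T : Set U} {c : U} (hc : c ∈ K) : c ∈ adj K T :=
  Subfield.subset_closure (.inl hc)

theorem mem_adj_gen {K T : Set U} {c : U} (hc : c ∈ T) : c ∈ adj K T :=
  Subfield.subset_closure (.inr hc)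

theorem x_mem1 (K : Set U) (x : U) : x ∈ adj K {x} := mem_adj_gen rfl

theorem x_mem2 (K : Set U) (x y : U) : x ∈ adj K {x, y} := mem_adj_gen (.inl rfl)

theorem y_mem2 (K : Set U) (x y : U) : y ∈ adj K {x, y} := mem_adj_gen (.inr rfl)

theorem adj_le {K T : Set U} {M : Subfield U} (h1 : K ⊆ M) (h2 : T ⊆ M) : adj K T ≤ M :=
  Subfield.closure_le.2 (Set.union_subset h1 h2)

theorem adj1_le (K : Subfield U) (x y : U) : adj K {x} ≤ adj K {x, y} :=
  adj_le (fun _ => mem_adj_base) (Set.singleton_subset_iff.2 (x_mem2 _ x y))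

theorem mem_adj1 {K : Subfield U} {x z : U} :
    z ∈ adj K {x} ↔ ∃ f g : K[X], z = aeval x f / aeval x g := by
  rw [← IntermediateField.mem_adjoin_simple_iff, ← IntermediateField.mem_toSubfield,
    IntermediateField.adjoin_toSubfield]
  have : Set.range (algebraMap K U) = K := Subtype.range_coe
  rw [this, adj]

theorem aeval_mem (K : Subfield U) (x : U) (f : K[X]) : aeval x f ∈ adj K {x} :=
  mem_adj1.2 ⟨f, 1, by simp⟩

theorem coeff_map_mem (K : Subfield U) (f : K[X]) (k : ℕ) :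
    (f.map (algebraMap K U)).coeff k ∈ K := by
  rw [coeff_map]
  exact (f.coeff k).2

theorem transc_aeval {K : Subfield U} {x : U} (h : Transc K x) {f : K[X]} (hf : aeval x f = 0) :
    f = 0 :=
  (Polynomial.map_eq_zero (algebraMap K U)).1
    (h _ (coeff_map_mem K f) (by rwa [eval_map_algebraMap]))

variable {E : WeierstrassCurve U} {x y : U}

theorem eqn (h : E.toAffine.Equation x y) :
    y ^ 2 + E.a₁ * x * y + E.a₃ * y = x ^ 3 + E.a₂ * x ^ 2 + E.a₄ * x + E.a₆ :=
  (WeierstrassCurve.Affine.equation_iff _ _).1 h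

theorem lin_mem {K : Subfield U} (hE : CoeffIn E K) (x : U) : E.a₁ * x + E.a₃ ∈ adj K {x} :=
  add_mem (mul_mem (mem_adj_base hE.1) (x_mem1 _ x)) (mem_adj_base hE.2.2.1)

theorem cub_mem {K : Subfield U} (hE : CoeffIn E K) (x : U) :
    x ^ 3 + E.a₂ * x ^ 2 + E.a₄ * x + E.a₆ ∈ adj K {x} :=
  add_mem (add_mem (add_mem (pow_mem (x_mem1 _ x) 3) (mul_mem (mem_adj_base hE.2.1)
    (pow_mem (x_mem1 _ x) 2))) (mul_mem (mem_adj_base hE.2.2.2.1) (x_mem1 _ x)))
    (mem_adj_base hE.2.2.2.2)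

theorem norm_mem {K : Subfield U} (hE : CoeffIn E K) (h : E.toAffine.Equation x y) {a b : U}
    (ha : a ∈ adj K {x}) (hb : b ∈ adj K {x}) :
    (a + b * y) * (a + b * (-y - (E.a₁ * x + E.a₃))) ∈ adj K {x} := by
  have : (a + b * y) * (a + b * (-y - (E.a₁ * x + E.a₃))) = a * a - a * b * (E.a₁ * x + E.a₃) -
      b * b * (x ^ 3 + E.a₂ * x ^ 2 + E.a₄ * x + E.a₆) := by
    linear_combination -b * b * eqn h
  rw [this]
  exact sub_mem (sub_mem (mul_mem ha ha) (mul_mem (mul_mem ha hb) (lin_mem hE x)))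
    (mul_mem (mul_mem hb hb) (cub_mem hE x))

theorem mem_adj2 {K : Subfield U} (hE : CoeffIn E K) (h : E.toAffine.Equation x y) {z : U}
    (hz : z ∈ adj K {x, y}) : ∃ a ∈ adj K {x}, ∃ b ∈ adj K {x}, z = a + b * y := by
  induction hz using Subfield.closure_induction with
  | mem z hz =>
    rcases hz with hz | rfl | rfl
    · exact ⟨z, mem_adj_base hz, 0, zero_mem _, by ring⟩
    · exact ⟨z, x_mem1 _ z, 0, zero_mem _, by ring⟩
    · exact ⟨0, zero_mem _, 1, one_mem _, by ring⟩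
  | one => exact ⟨1, one_mem _, 0, zero_mem _, by ring⟩
  | add z w _ _ hz hw =>
    obtain ⟨a, ha, b, hb, rfl⟩ := hz
    obtain ⟨c, hc, d, hd, rfl⟩ := hw
    exact ⟨a + c, add_mem ha hc, b + d, add_mem hb hd, by ring⟩
  | neg z _ hz =>
    obtain ⟨a, ha, b, hb, rfl⟩ := hz
    exact ⟨-a, neg_mem ha, -b, neg_mem hb, by ring⟩
  | inv z _ hz =>
    obtain ⟨a, ha, b, hb, rfl⟩ := hz
    have hN := norm_mem hE h ha hb
    by_cases h0 : a + b * y = 0
    · exact ⟨0, zero_mem _, 0, zero_mem _, by rw [h0]; ring⟩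
    by_cases h1 : a + b * (-y - (E.a₁ * x + E.a₃)) = 0
    · refine ⟨(a + b * y)⁻¹, inv_mem ?_, 0, zero_mem _, by ring⟩
      rw [show a + b * y = a + a - b * (E.a₁ * x + E.a₃) by linear_combination -h1]
      exact sub_mem (add_mem ha ha) (mul_mem hb (lin_mem hE x))
    · refine ⟨_, div_mem (sub_mem ha (mul_mem hb (lin_mem hE x))) hN, _,
        div_mem (neg_mem hb) hN, ?_⟩
      field_simp
      ring
  | mul z w _ _ hz hw =>
    obtain ⟨a, ha, b, hb, rfl⟩ := hz
    obtain ⟨c, hc, d, hd, rfl⟩ := hw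
    exact ⟨_, add_mem (mul_mem ha hc) (mul_mem (mul_mem hb hd) (cub_mem hE x)), _,
      sub_mem (add_mem (mul_mem ha hd) (mul_mem hb hc)) (mul_mem (mul_mem hb hd) (lin_mem hE x)),
      by linear_combination b * d * eqn h⟩

/-- the Weierstrass polynomial has no root in the field of rational functions -/
theorem aniso {R : Type*} [CommRing R] [IsDomain R] {A B l c : R[X]} (hl : l.natDegree ≤ 1)
    (hc : c.natDegree = 3) (h : A * (A + l * B) = c * B ^ 2) : B = 0 := by
  by_contra hB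
  have c0 : c ≠ 0 := by
    rintro rfl
    simp at hc
  have h0 : A * (A + l * B) ≠ 0 := h ▸ mul_ne_zero c0 (pow_ne_zero 2 hB)
  have h1 := congrArg natDegree h
  rw [natDegree_mul (left_ne_zero_of_mul h0) (right_ne_zero_of_mul h0),
    natDegree_mul c0 (pow_ne_zero 2 hB), natDegree_pow, hc] at h1
  have h2 : (l * B).natDegree ≤ 1 + B.natDegree := natDegree_mul_le.trans (by omega)
  by_cases h3 : A.natDegree ≤ 1 + B.natDegree
  · have := natDegree_add_le_of_degree_le h3 h2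
    omega
  · rw [natDegree_add_eq_left_of_natDegree_lt (by omega)] at h1
    omega

section Val

variable {Γ : Type} [LinearOrderedCommGroupWithZero Γ] (v : Valuation U Γ)

theorem vmul_le {a b : U} (ha : v a ≤ 1) (hb : v b ≤ 1) : v (a * b) ≤ 1 := by
  rw [map_mul]
  exact mul_le_one' ha hb

theorem vmul_lt {a b : U} (ha : v a ≤ 1) (hb : v b < 1) : v (a * b) < 1 := by
  rw [map_mul]
  exact (mul_le_of_le_one_left' ha).trans_lt hb

theorem vmul_lt' {a b : U} (ha : v a < 1) (hb : v b ≤ 1) : v (a * b) < 1 := by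
  rw [mul_comm]
  exact vmul_lt v hb ha

theorem vpow_le {a : U} (ha : v a ≤ 1) (n : ℕ) : v (a ^ n) ≤ 1 := by
  rw [map_pow]
  exact pow_le_one' ha n

variable {v}

theorem y_le (hE : CoeffIn E {z | v z ≤ 1}) (h : E.toAffine.Equation x y) (hx : v x ≤ 1) :
    v y ≤ 1 := by
  by_contra hy
  push Not at hy
  have h1 : v (x ^ 3 + E.a₂ * x ^ 2 + E.a₄ * x + E.a₆) ≤ 1 :=
    v.map_add_le (v.map_add_le (v.map_add_le (vpow_le v hx 3)
      (vmul_le v hE.2.1 (vpow_le v hx 2))) (vmul_le v hE.2.2.2.1 hx)) hE.2.2.2.2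
  rw [← eqn h, show y ^ 2 + E.a₁ * x * y + E.a₃ * y = y * (y + (E.a₁ * x + E.a₃)) by ring, map_mul,
    v.map_add_eq_of_lt_left ((v.map_add_le (vmul_le v hE.1 hx) hE.2.2.1).trans_lt hy)] at h1
  exact (one_lt_mul_of_lt_of_le' hy hy.le).not_ge h1

theorem aeval_le {K : Subfield U} (hx : v x ≤ 1) (f : K[X]) {g : Γ}
    (hf : ∀ k, v (f.coeff k : U) ≤ g) : v (aeval x f) ≤ g := by
  rw [aeval_eq_sum_range]
  refine v.map_sum_le fun i _ => ?_
  rw [Algebra.smul_def, map_mul]
  exact (mul_le_of_le_one_right' (vpow_le v hx i)).trans (hf i)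

/-- the Gauss condition -/
def Gauss (v : Valuation U Γ) (K : Subfield U) (x : U) : Prop :=
  ∀ f : U[X], (∀ k, f.coeff k ∈ K) → ∀ k, v (f.coeff k) ≤ v (f.eval x)

theorem Gauss.le {K : Subfield U} (hG : Gauss v K x) (f : K[X]) (k : ℕ) :
    v (f.coeff k : U) ≤ v (aeval x f) := by
  have := hG _ (coeff_map_mem K f) k
  rwa [eval_map_algebraMap, coeff_map] at this

theorem Gauss.exists_coeff {K : Subfield U} (hG : Gauss v K x) (hx : v x ≤ 1) (f : K[X]) :
    ∃ k, v (aeval x f) = v (f.coeff k : U) := by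
  obtain ⟨k, -, hk⟩ := (Finset.range (f.natDegree + 1)).exists_max_image
    (fun k => v (f.coeff k : U)) ⟨0, by simp⟩
  refine ⟨k, le_antisymm (aeval_le hx f fun j => ?_) (hG.le f k)⟩
  by_cases hj : j < f.natDegree + 1
  · exact hk j (Finset.mem_range.2 hj)
  · rw [coeff_eq_zero_of_natDegree_lt (by omega)]
    simp

theorem Gauss.val1 {K : Subfield U} (hG : Gauss v K x) (hx : v x ≤ 1) {a : U}
    (ha : a ∈ adj K {x}) : ∃ c ∈ K, v a = v c := by
  obtain ⟨f, g, rfl⟩ := mem_adj1.1 ha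
  obtain ⟨i, hi⟩ := hG.exists_coeff hx f
  obtain ⟨j, hj⟩ := hG.exists_coeff hx g
  exact ⟨_, div_mem (f.coeff i).2 (g.coeff j).2, by rw [map_div₀, map_div₀, hi, hj]⟩

theorem Gauss.not_close {K : Subfield U} (hG : Gauss v K x) (hK : CoeffIn E K)
    (hE : CoeffIn E {z | v z ≤ 1}) (h : E.toAffine.Equation x y) (hx : v x ≤ 1) {t : U}
    (ht : t ∈ adj K {x}) : 1 ≤ v (y - t) := by
  by_contra hc
  push Not at hc
  have hy := y_le hE h hx
  have ht1 : v t ≤ 1 := by
    rw [show t = y - (y - t) by ring]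
    exact v.map_sub_le hy hc.le
  obtain ⟨A, B, hB, rfl⟩ : ∃ A B : K[X], v (aeval x B) = 1 ∧ t = aeval x A / aeval x B := by
    obtain ⟨f, g, rfl⟩ := mem_adj1.1 ht
    by_cases hg : aeval x g = 0
    · exact ⟨0, 1, by simp, by simp [hg]⟩
    obtain ⟨j, hj⟩ := hG.exists_coeff hx g
    have h0 : (g.coeff j : U) ≠ 0 := fun e => hg (by rwa [e, map_zero, v.zero_iff] at hj)
    have e (f : K[X]) : aeval x (C (g.coeff j)⁻¹ * f) = (g.coeff j : U)⁻¹ * aeval x f := by
      rw [map_mul, aeval_C]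
      rfl
    refine ⟨C (g.coeff j)⁻¹ * f, C (g.coeff j)⁻¹ * g, ?_, ?_⟩
    · rw [e, map_mul, map_inv₀, hj, inv_mul_cancel₀ (v.ne_zero_iff.2 h0)]
    · rw [e, e]
      field_simp
  have hB0 : aeval x B ≠ 0 := fun e => by simp [e] at hB
  have hA : v (aeval x A) ≤ 1 := by rwa [map_div₀, hB, div_one] at ht1
  have lift (f : K[X]) (hf : v (aeval x f) ≤ 1) : ∃ f' : v.valuationSubring[X],
      f'.map v.valuationSubring.subtype = f.map (algebraMap K U) := by
    rw [← mem_lifts, lifts_iff_coeff_lifts]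
    exact fun n => ⟨⟨f.coeff n, (hG.le f n).trans hf⟩, by rw [coeff_map]; rfl⟩
  obtain ⟨A', hA'⟩ := lift A hA
  obtain ⟨B', hB'⟩ := lift B hB.le
  let l : v.valuationSubring[X] := C ⟨E.a₁, hE.1⟩ * X + C ⟨E.a₃, hE.2.2.1⟩
  let c : v.valuationSubring[X] :=
    X ^ 3 + C ⟨E.a₂, hE.2.1⟩ * X ^ 2 + C ⟨E.a₄, hE.2.2.2.1⟩ * X + C ⟨E.a₆, hE.2.2.2.2⟩
  let N : K[X] := A * (A + (C ⟨E.a₁, hK.1⟩ * X + C ⟨E.a₃, hK.2.2.1⟩) * B) -
    (X ^ 3 + C ⟨E.a₂, hK.2.1⟩ * X ^ 2 + C ⟨E.a₄, hK.2.2.2.1⟩ * X + C ⟨E.a₆, hK.2.2.2.2⟩) * B ^ 2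
  have hN : (A' * (A' + l * B') - c * B' ^ 2).map v.valuationSubring.subtype =
      N.map (algebraMap K U) := by
    simp only [l, c, N, Polynomial.map_sub, Polynomial.map_mul, Polynomial.map_add,
      Polynomial.map_pow, map_C, map_X, hA', hB']
    rfl
  have hN1 : v (aeval x N) < 1 := by
    have e : aeval x N = -((y - aeval x A / aeval x B) *
        (aeval x B * (aeval x B * (y + (E.a₁ * x + E.a₃)) + aeval x A))) := by
      simp only [N, map_sub, map_mul, map_add, map_pow, aeval_C, aeval_X]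
      change _ * (_ + (E.a₁ * _ + E.a₃) * _) - (_ + E.a₂ * _ + E.a₄ * _ + E.a₆) * _ = _
      rw [← eqn h]
      field_simp
      ring
    rw [e, v.map_neg]
    exact vmul_lt' v hc (vmul_le v hB.le (v.map_add_le (vmul_le v hB.le
      (v.map_add_le hy (v.map_add_le (vmul_le v hE.1 hx) hE.2.2.1))) hA))
  let r := IsLocalRing.residue v.valuationSubring
  have hr (a : v.valuationSubring) : r a = 0 ↔ v a < 1 := by
    rw [IsLocalRing.residue_eq_zero_iff, Valuation.mem_maximalIdeal_iff]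
  have h0 : (A' * (A' + l * B') - c * B' ^ 2).map r = 0 := by
    ext k
    have := congrArg (fun f => f.coeff k) hN
    simp only [coeff_map] at this
    rw [coeff_map, coeff_zero, hr]
    exact (congrArg v this).trans_lt ((hG.le N k).trans_lt hN1)
  rw [Polynomial.map_sub, Polynomial.map_mul, Polynomial.map_add, Polynomial.map_mul,
    Polynomial.map_mul, Polynomial.map_pow, sub_eq_zero] at h0
  have h1 := aniso (natDegree_map_le.trans (by simp only [l]; compute_degree)) (by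
    simp only [c, Polynomial.map_mul, Polynomial.map_add, Polynomial.map_pow, map_C, map_X]
    compute_degree!) h0
  obtain ⟨j, hj⟩ := hG.exists_coeff hx B
  have h2 := congrArg (fun f => f.coeff j) h1
  have h3 := congrArg (fun f => f.coeff j) hB'
  simp only [coeff_map, coeff_zero, hr] at h2 h3
  exact (hB.symm.trans (hj.trans (congrArg v h3).symm)).not_gt h2

theorem Gauss.max {K : Subfield U} (hG : Gauss v K x) (hK : CoeffIn E K)
    (hE : CoeffIn E {z | v z ≤ 1}) (h : E.toAffine.Equation x y) (hx : v x ≤ 1) {a b : U}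
    (ha : a ∈ adj K {x}) (hb : b ∈ adj K {x}) : v (a + b * y) = max (v a) (v b) := by
  have hy := y_le hE h hx
  have h1 : v (b * y) ≤ v b := by
    rw [map_mul]
    exact mul_le_of_le_one_right' hy
  refine le_antisymm ((v.map_add _ _).trans (max_le_max le_rfl h1)) ?_
  by_cases b0 : b = 0
  · simp [b0]
  have h2 : v b ≤ v (a + b * y) := by
    have := hG.not_close hK hE h hx (neg_mem (div_mem ha hb))
    rw [show a + b * y = b * (y - -(a / b)) by field_simp; ring, map_mul]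
    exact le_mul_of_one_le_right' this
  refine max_le ?_ h2
  rw [show v a = v (a + b * y - b * y) by ring_nf]
  exact v.map_sub_le le_rfl (h1.trans h2)

end Val

end Pl

open Pl

theorem gaussEll_holds : GaussEllStmt := by
  intro U _ Γ _ v K E x y hK hE _ h hx hG
  refine ⟨fun z hz => mem_adj2 hK h hz, fun a ha b hb => Gauss.max hG hK hE h hx ha hb,
    fun z hz => ?_, fun v' hv hx' hG' z hz => ?_⟩
  · obtain ⟨a, ha, b, hb, rfl⟩ := mem_adj2 hK h hz
    rw [Gauss.max hG hK hE h hx ha hb]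
    rcases max_choice (v a) (v b) with e | e <;> rw [e]
    exacts [Gauss.val1 hG hx ha, Gauss.val1 hG hx hb]
  · have h1 (f : K[X]) : v' (aeval x f) = v (aeval x f) :=
      le_antisymm (aeval_le hx' f fun k => (hv _ (f.coeff k).2).trans_le (Gauss.le hG f k))
        (aeval_le hx f fun k => (hv _ (f.coeff k).2).symm.trans_le (Gauss.le hG' f k))
    have h2 {a : U} (ha : a ∈ adj K {x}) : v' a = v a := by
      obtain ⟨f, g, rfl⟩ := mem_adj1.1 ha
      rw [map_div₀, map_div₀, h1, h1]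
    have hE' : CoeffIn E {z | v' z ≤ 1} :=
      ⟨(hv _ hK.1).trans_le hE.1, (hv _ hK.2.1).trans_le hE.2.1, (hv _ hK.2.2.1).trans_le hE.2.2.1,
        (hv _ hK.2.2.2.1).trans_le hE.2.2.2.1, (hv _ hK.2.2.2.2).trans_le hE.2.2.2.2⟩
    obtain ⟨a, ha, b, hb, rfl⟩ := mem_adj2 hK h hz
    rw [Gauss.max hG hK hE h hx ha hb, Gauss.max hG' hK hE' h hx' ha hb, h2 ha, h2 hb]

end P179W
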