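import Vale.Agent.P179W.AmbBasic
import Vale.Agent.P179W.PlaceA

/-!
# P179W : derivations (A11, Dw)
-/

set_option linter.all false

open scoped NNReal Classical
open Polynomial

noncomputable section

namespace P179W

namespace Dr

theorem der_eval {A M : Type} [CommRing A] [AddCommGroup M] [Module A M] (d : Derivation ℤ A M)
    (f : A[X]) (x : A) : d (f.eval x) =
      ∑ i ∈ Finset.range (f.natDegree + 1), x ^ i • d (f.coeff i) + f.derivative.eval x • d x := by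
  rw [derivative_eval, sum_over_range _ (by simp), eval_eq_sum_range, map_sum, Finset.sum_smul,
    ← Finset.sum_add_distrib]
  refine Finset.sum_congr rfl fun i _ => ?_
  rw [d.leibniz, d.leibniz_pow, add_comm, ← Nat.cast_smul_eq_nsmul A, smul_smul, smul_smul]

variable {U : Type} [Field U]

theorem sep [CharZero U] {K : Subfield U} {z : U} (h : Alg K z) : ∃ f ∈ polyIn K, f.eval z = 0 ∧
    f.derivative.eval z ≠ 0 := by
  have i := (alg_iff.1 h).isIntegral
  refine ⟨_, ⟨minpoly K z, rfl⟩, (eval_map_sub _ z).trans (minpoly.aeval K z), ?_⟩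
  rw [coe_mapRingHom, derivative_map, eval_map_sub]
  exact (minpoly.irreducible i).separable.aeval_derivative_ne_zero (minpoly.aeval K z)

theorem der_mem [CharZero U] (δ : Derivation ℤ U U) {K M : Subfield U} (h : K ≤ M)
    (hδ : ∀ z ∈ K, δ z ∈ M) {z : U} (hz : z ∈ M) (ha : Alg K z) : δ z ∈ M := by
  obtain ⟨f, hf, e, e'⟩ := sep ha
  have k := der_eval δ f z
  rw [e, map_zero, smul_eq_mul (f.derivative.eval z), eq_comm, add_eq_zero_iff_neg_eq,
    ← inv_mul_eq_iff_eq_mul₀ e'] at k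
  obtain ⟨g, rfl⟩ := hf
  refine k ▸ mul_mem (inv_mem (eval_mem ⟨derivative g, (derivative_map _ _).symm⟩ h hz))
    (neg_mem (sum_mem fun i _ => mul_mem (pow_mem hz i) (hδ _ (mem_polyIn.1 ⟨g, rfl⟩ i))))

theorem der_ext [CharZero U] {K : Subfield U} (hK : ∀ z, Alg K z) {δ δ' : Derivation ℤ U U}
    (h : ∀ z ∈ K, δ z = δ' z) : δ = δ' := by
  refine Derivation.ext fun z => ?_
  obtain ⟨f, hf, e, e'⟩ := sep (hK z)
  have k := der_eval (δ - δ') f z
  rw [e, map_zero, Finset.sum_eq_zero fun i _ => by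
    rw [Derivation.sub_apply, h _ (mem_polyIn.1 hf i), sub_self, smul_zero], zero_add] at k
  exact sub_eq_zero.1 ((mul_eq_zero.1 k.symm).resolve_left e')

theorem lift_ring {K B : Type} [Field K] [Algebra K U] [Algebra.IsSeparable K U] [CommRing B]
    (φ : K →+* B) (π : B →+* U) (hπ : Function.Surjective π) (hn : IsNilpotent (RingHom.ker π))
    (h : ∀ c, π (φ c) = algebraMap K U c) :
    ∃ s : U →+* B, (∀ z, π (s z) = z) ∧ ∀ c, s (algebraMap K U c) = φ c := by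
  let _ := φ.toAlgebra
  have := Algebra.FormallyEtale.of_isSeparable K U
  exact ⟨Algebra.FormallySmooth.liftOfSurjective (AlgHom.id K U) ⟨π, h⟩ hπ hn,
    Algebra.FormallySmooth.liftOfSurjective_apply (AlgHom.id K U) ⟨π, h⟩ hπ hn,
    AlgHom.commutes _⟩

/-- the conjugate of a derivation -/
def conj (δ : Derivation ℤ U U) (g : U ≃+* U) : Derivation ℤ U U :=
  Derivation.mk' (g.symm.toAddMonoidHom.comp
    (δ.toLinearMap.toAddMonoidHom.comp g.toAddMonoidHom)).toIntLinearMap fun a b => by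
      change g.symm (δ (g (a * b))) = a * g.symm (δ (g b)) + b * g.symm (δ (g a))
      simp [map_mul, δ.leibniz]

theorem conj_comm [CharZero U] {K : Subfield U} (hK : ∀ z, Alg K z) {δ δ' : Derivation ℤ U U}
    {g : U ≃+* U} (h : ∀ z ∈ K, g (δ z) = δ' (g z)) (z : U) : g (δ z) = δ' (g z) := by
  rw [der_ext hK (δ := δ) (δ' := conj δ' g) fun z hz => g.eq_symm_apply.2 (h z hz)]
  exact g.apply_symm_apply _

theorem adj_mem (δ : Derivation ℤ U U) {K T : Set U} {M : Subfield U} (h : adj K T ≤ M)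
    (hK : ∀ z ∈ K, δ z ∈ M) (hT : ∀ z ∈ T, δ z ∈ M) : ∀ z ∈ adj K T, δ z ∈ M := fun z hz => by
  induction hz using Subfield.closure_induction with
  | mem x hx => exact hx.elim (hK x) (hT x)
  | one => rw [δ.map_one_eq_zero]; exact zero_mem M
  | add x y _ _ hx hy => rw [map_add]; exact add_mem hx hy
  | neg x _ hx => rw [map_neg]; exact neg_mem hx
  | inv x k hx => rw [δ.leibniz_inv]; exact mul_mem (neg_mem (pow_mem (inv_mem (h k)) 2)) hx
  | mul x y k k' hx hy => rw [δ.leibniz]; exact add_mem (mul_mem (h k) hy) (mul_mem (h k') hx)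

variable {Γ : Type} [LinearOrderedCommGroupWithZero Γ] (v : Valuation U Γ) (δ : Derivation ℤ U U)

theorem v_nat (n : ℕ) : v (n : U) ≤ 1 := natCast_mem v.integer n

theorem le_mul {a b : U} (ha : v (δ a) ≤ v a) (hb : v (δ b) ≤ v b) : v (δ (a * b)) ≤ v (a * b) := by
  rw [δ.leibniz, smul_eq_mul, smul_eq_mul]
  refine v.map_add_le ?_ ?_ <;> rw [map_mul, map_mul]
  exacts [mul_le_mul_right hb _, (mul_le_mul_right ha _).trans_eq (mul_comm _ _)]

theorem le_inv {a : U} (ha : v (δ a) ≤ v a) : v (δ a⁻¹) ≤ v a⁻¹ := by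
  rcases eq_or_ne a 0 with rfl | h
  · simp
  rw [δ.leibniz_inv, smul_eq_mul, neg_mul, Valuation.map_neg, pow_two, mul_assoc, map_mul, map_mul]
  refine mul_le_of_le_one_right' ?_
  rwa [map_inv₀, inv_mul_le_iff₀ ((Valuation.pos_iff v).2 h), mul_one]

theorem le_adj1 {K : Subfield U} {x : U} (hG : Pl.Gauss v K x) (hx : v x ≤ 1) (hx' : v (δ x) ≤ 1)
    (hK : ∀ c ∈ K, v (δ c) ≤ v c) : ∀ a ∈ adj K {x}, v (δ a) ≤ v a := by
  have key : ∀ f : K[X], v (δ (aeval x f)) ≤ v (aeval x f) := fun f => by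
    rw [← eval_map_algebraMap, der_eval, derivative_map, eval_map_algebraMap]
    refine v.map_add_le (v.map_sum_le fun i _ => ?_) ?_ <;> rw [smul_eq_mul, map_mul]
    · exact (mul_le_of_le_one_left' (Pl.vpow_le v hx i)).trans
        ((hK _ (Pl.coeff_map_mem K f i)).trans (hG _ (Pl.coeff_map_mem K f) i))
    · refine (mul_le_of_le_one_right' hx').trans (Pl.aeval_le hx _ fun k => ?_)
      rw [coeff_derivative, eval_map_algebraMap]
      push_cast
      rw [map_mul, ← Nat.cast_succ]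
      exact (mul_le_of_le_one_right' (v_nat v _)).trans (hG.le f _)
  intro a ha
  obtain ⟨f, g, rfl⟩ := Pl.mem_adj1.1 ha
  rw [div_eq_mul_inv]
  exact le_mul v δ (key f) (le_inv v δ (key g))

theorem psi_mem {R : Subring U} {E : WeierstrassCurve U} (hE : CoeffIn E R) {x y : U} (hx : x ∈ R)
    (hy : y ∈ R) : psi E x y ∈ R ∧ phi E x y ∈ R :=
  ⟨add_mem (add_mem (mul_mem (ofNat_mem R 2) hy) (mul_mem hE.1 hx)) hE.2.2.1,
    sub_mem (add_mem (add_mem (mul_mem (ofNat_mem R 3) (pow_mem hx 2))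
      (mul_mem (mul_mem (ofNat_mem R 2) hE.2.1) hx)) hE.2.2.2.1) (mul_mem hE.1 hy)⟩

theorem cin {E : WeierstrassCurve U} {S S' : Set U} (h : CoeffIn E S) (k : S ⊆ S') : CoeffIn E S' :=
  ⟨k h.1, k h.2.1, k h.2.2.1, k h.2.2.2.1, k h.2.2.2.2⟩

end Dr

theorem derExt_holds : DerExtStmt := by
  refine fun U _ _ K hK => ⟨fun _ _ => Dr.der_ext hK, fun d h1 h2 => ?_,
    fun δ _ _ h hδ _ => Dr.der_mem δ h hδ⟩
  have := isAlgebraic_of_alg hK
  have d0 : d 0 = 0 := by simpa using h1 0 0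
  have d1 : d 1 = 0 := by simpa using h2 1 1
  obtain ⟨s, k1, k2⟩ := Dr.lift_ring (K := K) (B := TrivSqZeroExt U U)
    { toFun := fun a => TrivSqZeroExt.inl (a : U) + TrivSqZeroExt.inr (d a)
      map_one' := by simp [d1]
      map_zero' := by simp [d0]
      map_add' := fun a b => TrivSqZeroExt.ext (by simp) (by simp [h1])
      map_mul' := fun a b => TrivSqZeroExt.ext (by simp) (by simp [h2, mul_comm]) }
    (TrivSqZeroExt.fstHom U U U).toRingHom TrivSqZeroExt.fst_surjective ⟨2, by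
      rw [pow_two, Ideal.zero_eq_bot, eq_bot_iff, Ideal.mul_le]
      intro a ha b hb
      have ha : a.fst = 0 := ha
      have hb : b.fst = 0 := hb
      exact TrivSqZeroExt.ext (by simp [ha]) (by simp [ha, hb])⟩ fun _ => by simp; rfl
  have k1 : ∀ z, (s z).fst = z := k1
  refine ⟨Derivation.mk' ((TrivSqZeroExt.sndHom U U).toAddMonoidHom.comp
    s.toAddMonoidHom).toIntLinearMap fun a b => ?_, fun z => by
      simpa using! congrArg TrivSqZeroExt.snd (k2 z)⟩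
  change (s (a * b)).snd = a * (s b).snd + b * (s a).snd
  simp [k1, mul_comm]

namespace Setup

variable {p n : ℕ} {U : Type} [Field U] (S : Setup p n U)

include S in
theorem charZero : CharZero U := (RingHom.charZero_iff S.i.injective).1 inferInstance

theorem Kt_le_Om : S.Kt ≤ S.Om := adj_le.2 ⟨S.k0_le, Set.union_subset
  (Set.range_subset_iff.2 fun j => (S.P_mem j).1) (Set.range_subset_iff.2 fun j => (S.P_mem j).2)⟩

theorem Kt_le_Ft : S.Kt ≤ S.Ft := adj_mono le_rfl Set.subset_union_left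

theorem xy_Ft : {S.x, S.y} ⊆ (S.Ft : Set U) :=
  Set.subset_union_right.trans (right_subset_adj _ _)

theorem alg_Ft (z : U) : Alg S.Ft z := by
  have h : S.Fb ≤ adj S.Ft (Set.range S.i) :=
    adj_le.2 ⟨right_subset_adj _ _, S.xy_Ft.trans (left_subset_adj _ _)⟩
  refine (S.U_alg z).trans fun c hc => alg_adj (fun t ht => ?_) c (h hc)
  exact (S.Om_alg t (RingHom.mem_fieldRange.2 ht)).mono S.Kt_le_Ft

theorem D_Kt (j : ZMod n) : ∀ z ∈ S.Kt, S.D j z ∈ S.Kt := by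
  refine Dr.adj_mem _ le_rfl (fun c hc => S.D_k0 j c hc ▸ zero_mem _) ?_
  have h := fun l => Dr.psi_mem (R := S.Kt.toSubring) (Dr.cin S.coeff_k0 (left_subset_adj _ _))
    (right_subset_adj _ _ (.inl ⟨l, rfl⟩)) (right_subset_adj _ _ (.inr ⟨l, rfl⟩))
  have k : ∀ l, ((if j = 0 then 1 else 0) - (if j = l then 1 else 0) : U) ∈ S.Kt := fun l =>
    sub_mem (ite_mem.2 ⟨fun _ => one_mem _, fun _ => zero_mem _⟩)
      (ite_mem.2 ⟨fun _ => one_mem _, fun _ => zero_mem _⟩)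
  rintro _ (⟨l, rfl⟩ | ⟨l, rfl⟩)
  exacts [S.D_xP j l ▸ mul_mem (k l) (h l).1, S.D_yP j l ▸ mul_mem (k l) (h l).2]

theorem D_xy (j : ZMod n) {R : Subring U} (hE : CoeffIn S.E R) (hx : S.x ∈ R) (hy : S.y ∈ R) :
    ∀ z ∈ ({S.x, S.y} : Set U), S.D j z ∈ R := by
  have h := Dr.psi_mem hE hx hy
  rintro _ (rfl | rfl)
  exacts [S.D_x j ▸ ite_mem.2 ⟨fun _ => h.1, fun _ => zero_mem _⟩,
    S.D_y j ▸ ite_mem.2 ⟨fun _ => h.2, fun _ => zero_mem _⟩]

theorem D_xy' (j : ZMod n) {R : Subfield U} (hE : CoeffIn S.E R) (hx : S.x ∈ R) (hy : S.y ∈ R) :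
    ∀ z ∈ ({S.x, S.y} : Set U), S.D j z ∈ R := S.D_xy j (R := R.toSubring) hE hx hy

theorem D_Ft (j : ZMod n) : ∀ z ∈ S.Ft, S.D j z ∈ S.Ft :=
  Dr.adj_mem _ le_rfl (fun c hc => S.D_k0 j c hc ▸ zero_mem _) fun z hz => hz.elim
    (fun k => S.Kt_le_Ft (S.D_Kt j z (right_subset_adj _ _ k)))
    (S.D_xy' j (Dr.cin S.coeff_k0 (left_subset_adj _ _))
      (S.xy_Ft (.inl rfl)) (S.xy_Ft (.inr rfl)) z)

end Setup

theorem dw_holds : DwStmt := by
  intro p _ n _ U _ S K' L σ h j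
  have := S.charZero
  have h1 : ∀ {M : Subfield U}, S.Kt ≤ M → M ≤ S.Om → ∀ z ∈ M, S.D j z ∈ M := fun a b z hz =>
    Dr.der_mem _ a (fun c hc => a (S.D_Kt j c hc)) hz (S.Om_alg z (b hz))
  have hL : S.Ft ≤ L := h.finL.elim fun T e => e ▸ le_adj _ _
  have cE : CoeffIn S.E K' := Dr.cin S.coeff_k0 ((left_subset_adj _ _).trans h.Kt_le)
  refine ⟨h1 h.Kt_le h.le_Om, h1 S.Kt_le_Om le_rfl, fun z hz => Dr.der_mem _ hL
    (fun c hc => hL (S.D_Ft j c hc)) hz (S.alg_Ft z), fun g hg z => ?_, fun z => ?_,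
    fun f hf => ⟨?_, ?_⟩⟩
  · refine (Dr.conj_comm (g := g) S.alg_Ft (fun c hc => ?_) z).symm
    rw [hg c hc, hg _ (S.D_Ft j c hc)]
  · refine Dr.conj_comm (g := σ) S.alg_Ft (fun c hc => ?_) z
    rw [h.σ_θ _ (S.D_Ft j c hc), h.σ_θ c hc, S.θ_D]
  · exact Dr.adj_mem _ le_rfl (fun c hc => le_adj _ _ (h1 h.Kt_le h.le_Om c hc)) (S.D_xy' j
      (Dr.cin cE (left_subset_adj _ _)) (Pl.x_mem2 _ _ _) (Pl.y_mem2 _ _ _)) f hf
  have hG : Pl.Gauss S.w K' S.x := fun f hf => S.gauss f fun k => h.le_Om (hf k)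
  obtain ⟨a1, a2, -⟩ := gaussEll_holds U _ S.w K' S.E S.x S.y cE S.coeff_int S.wΔ S.eqn S.wx hG
  have wy := Pl.y_le S.coeff_int S.eqn S.wx
  have k := S.D_xy j (R := S.w.integer) S.coeff_int S.wx wy
  have k' := Dr.le_adj1 S.w (S.D j) hG S.wx (k _ (.inl rfl)) (h.D_w j)
  obtain ⟨a, ha, b, hb, rfl⟩ := a1 f hf
  rw [a2 a ha b hb, map_add, Derivation.leibniz, smul_eq_mul, smul_eq_mul]
  refine S.w.map_add_le ((k' a ha).trans (le_max_left _ _))
    ((S.w.map_add_le ?_ ?_).trans (le_max_right _ _)) <;> rw [map_mul]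
  exacts [mul_le_of_le_one_right' (k _ (.inr rfl)), (mul_le_of_le_one_left' wy).trans (k' b hb)]

end P179W
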