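import Vale.Agent.P179W.Der
import Vale.Agent.P179W.AmbVal

/-!
# P179W : derivations and the inertia field (A14)
-/

set_option linter.all false

open scoped NNReal Classical
open Polynomial

noncomputable section

namespace P179W

namespace DI

variable {N : Type} [Field N] (v : Valuation N ℝ≥0) (G : Type) [Group G] [MulSemiringAction G N]

/-- the decomposition group -/
def Dc : Subgroup G where
  carrier := {g | ∀ z, v (g • z) = v z}
  one_mem' := fun z => by rw [one_smul]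
  mul_mem' := fun ha hb z => by rw [mul_smul, ha, hb]
  inv_mem' := fun {a} ha z => by rw [← ha, smul_inv_smul]

/-- the inertia group -/
def In : Subgroup G where
  carrier := {g | ∀ z, z ≠ 0 → v (g • z - z) < v z}
  one_mem' := fun z hz => by simpa [pos_iff_ne_zero] using hz
  mul_mem' := fun {a b} ha hb z hz => by
    have := ha (b • z) ((smul_ne_zero_iff_ne b).2 hz)
    rw [v.map_eq_of_sub_lt (hb z hz)] at this
    simpa only [sub_add_sub_cancel, mul_smul] using v.map_add_lt this (hb z hz)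
  inv_mem' := fun {a} ha z hz => by
    have := ha (a⁻¹ • z) ((smul_ne_zero_iff_ne _).2 hz)
    rwa [← v.map_eq_of_sub_lt this, smul_inv_smul, Valuation.map_sub_swap] at this

/-- all the conjugates are integral -/
def CC (z : N) : Prop := ∀ g : G, v (g • z) ≤ 1

variable {v G}

theorem In_le {g : G} (h : g ∈ In v G) : g ∈ Dc v G := fun z => by
  rcases eq_or_ne z 0 with rfl | k
  exacts [by rw [smul_zero], v.map_eq_of_sub_lt (h z k)]

theorem CC.mul {a b : N} (ha : CC v G a) (hb : CC v G b) : CC v G (a * b) := fun g => by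
  rw [smul_mul', map_mul]
  exact mul_le_one' (ha g) (hb g)

theorem CC.add {a b : N} (ha : CC v G a) (hb : CC v G b) : CC v G (a + b) := fun g => by
  rw [smul_add]
  exact v.map_add_le (ha g) (hb g)

theorem CC.sub {a b : N} (ha : CC v G a) (hb : CC v G b) (g h : G) : v (g • a - h • b) ≤ 1 :=
  v.map_sub_le (ha g) (hb h)

theorem CC.le {a : N} (ha : CC v G a) : v a ≤ 1 := one_smul G a ▸ ha 1

theorem prod_lt {ι : Type} {s : Finset ι} {f : ι → N} (h : ∀ i ∈ s, v (f i) ≤ 1) {i : ι} (hi : i ∈ s)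
    (k : v (f i) < 1) : v (∏ i ∈ s, f i) < 1 := by
  rw [← Finset.mul_prod_erase s f hi, map_mul, map_prod]
  exact mul_lt_one_of_lt_of_le k
    (Finset.prod_le_one' fun j hj => h j (Finset.mem_of_mem_erase hj))

theorem norm_fix [Finite G] (H : Subgroup G) [Fintype H] (a : N) {g : G} (hg : g ∈ H) :
    g • ∏ d : H, (d : G) • a = ∏ d : H, (d : G) • a := by
  rw [Finset.smul_prod']
  exact Fintype.prod_equiv (Equiv.mulLeft ⟨g, hg⟩) _ _ fun d => (mul_smul _ _ _).symm

theorem CC.norm (H : Subgroup G) [Fintype H] {a : N} (ha : CC v G a) :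
    CC v G (∏ d : H, (d : G) • a) := fun g => by
  rw [Finset.smul_prod', map_prod]
  exact Finset.prod_le_one' fun d _ => mul_smul g d a ▸ ha _

theorem pgroup {p : ℕ} [Fact p.Prime] [Finite G] (hp : v p < 1)
    (hG : ∀ g : G, (∀ z : N, g • z = z) → g = 1) : IsPGroup p (In v G) := fun g => by
  obtain ⟨k, m, hm, e⟩ := Nat.exists_eq_pow_mul_and_not_dvd (Nat.card_pos (α := In v G)).ne' p
    (Fact.out : p.Prime).ne_one
  have vm : v m = 1 := le_antisymm (Dr.v_nat v m) (not_lt.1 fun h => by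
    obtain ⟨a, b, k⟩ := Nat.isCoprime_iff_coprime.2 (((Fact.out : p.Prime).coprime_iff_not_dvd).2 hm)
    have k' : (a : N) * p + b * m = 1 := by exact_mod_cast congrArg (Int.cast : ℤ → N) k
    have i : ∀ (c : ℤ) (x : N), v x < 1 → v (c * x) < 1 := fun c x hx => by
      rw [mul_comm, map_mul]
      exact mul_lt_one_of_lt_of_le hx (intCast_mem v.integer c)
    exact (v.map_add_lt (i a _ hp) (i b _ h)).ne (by rw [k', map_one]))
  refine ⟨k, Subtype.ext (hG _ fun z => (tame_holds N _ v ⊤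
    (MulSemiringAction.toRingEquiv G N (g ^ p ^ k : In v G)) fun _ _ => trivial).1 m vm
      (fun z _ => ?_) (fun z _ => (g ^ p ^ k).2 z) z trivial)⟩
  change (((g ^ p ^ k : In v G) : G) • ·)^[m] z = z
  rw [smul_iterate, ← Subgroup.coe_pow, ← pow_mul, ← e, pow_card_eq_one']
  exact one_smul G z

variable {u : ℕ → N} (h1 : ∀ j, v (u j) ≤ 1) (h2 : ∀ j l, j ≠ l → v (u j - u l) = 1)
include h1 h2

theorem avoid {ι : Type} [Finite ι] (α β : ι → N) (ha : ∀ s, v (α s) ≤ 1) (hb : ∀ s, v (β s) ≤ 1)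
    (h : ∀ s, v (α s) = 1 ∨ v (β s) = 1) : ∃ j, ∀ s, v (α s + u j * β s) = 1 := by
  have le : ∀ j s, v (u j * β s) ≤ 1 := fun j s => by
    rw [map_mul]
    exact mul_le_one' (h1 j) (hb s)
  have f : (⋃ s, {j | v (α s + u j * β s) < 1}).Finite := Set.finite_iUnion fun s =>
    Set.Subsingleton.finite fun j hj l hl => of_not_not fun ne => by
      have k := v.map_sub_lt hj hl
      rw [add_sub_add_left_eq_sub, ← sub_mul, map_mul, h2 j l ne, one_mul] at k
      have k' : v (u j * β s) < 1 := by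
        rw [mul_comm, map_mul]
        exact mul_lt_one_of_lt_of_le k (h1 j)
      exact (h s).elim (by simpa using (v.map_sub_lt hj k').ne) k.ne
  obtain ⟨j, hj⟩ := f.exists_notMem
  exact ⟨j, fun s => le_antisymm (v.map_add_le (ha s) (le j s))
    (not_lt.1 fun k => hj (Set.mem_iUnion.2 ⟨s, k⟩))⟩

variable [Finite G] (h3 : ∀ j (g : G), g • u j = u j)
  (hk : ∀ z : N, z ≠ 0 → ∃ c : N, c ≠ 0 ∧ (∀ g : G, g • c = c) ∧ v z = v c)
include h3 hk

theorem eps1 {g : G} (hg : g ∉ Dc v G) : ∃ a, CC v G a ∧ v a = 1 ∧ v (g • a) < 1 := by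
  obtain ⟨a, a1, a2⟩ : ∃ a, v a = 1 ∧ v (g • a) < 1 := by
    obtain ⟨z, hz⟩ := not_forall.1 hg
    obtain ⟨c, c0, c1, c2⟩ := hk z fun k => hz (by rw [k, smul_zero])
    have v0 := (Valuation.ne_zero_iff v).2 c0
    have e : v (z / c) = 1 := by rw [map_div₀, c2, div_self v0]
    have e' : v (g • (z / c)) ≠ 1 := by
      rwa [smul_div₀', c1, map_div₀, Ne, div_eq_one_iff_eq v0, ← c2]
    rcases lt_or_gt_of_ne e' with l | l
    · exact ⟨_, e, l⟩
    · exact ⟨(z / c)⁻¹, by rw [map_inv₀, e, inv_one], by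
        rw [smul_inv'', map_inv₀]; exact inv_lt_one_of_one_lt₀ l⟩
  obtain ⟨j, hj⟩ := avoid h1 h2 (ι := {h : G // v (h • a) ≤ 1}) (fun h => h.1 • a) (fun _ => 1)
    (fun h => h.2) (fun _ => v.map_one.le) fun _ => .inr v.map_one
  have e : ∀ h : G, v (h • (a / (a + u j))) = v (h • a) / v (h • a + u j * 1) := fun h => by
    rw [smul_div₀', smul_add, h3, map_div₀, mul_one]
  have e' : ∀ h : G, v (h • a) ≤ 1 → v (h • (a / (a + u j))) = v (h • a) := fun h k => by
    rw [e, hj ⟨h, k⟩, div_one]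
  refine ⟨a / (a + u j), fun h => ?_, by simpa only [one_smul, a1] using e' 1 (by simp [a1]),
    (e' g a2.le).trans_lt a2⟩
  rcases le_or_gt (v (h • a)) 1 with k | k
  · exact (e' h k).trans_le k
  · rw [e, mul_one, v.map_add_eq_of_lt_left ((h1 j).trans_lt k)]
    exact div_self_le_one _

theorem eps : ∃ e, CC v G e ∧ v e = 1 ∧ (∀ g ∈ Dc v G, g • e = e) ∧
    ∀ z, v z ≤ 1 → ∃ n : ℕ, 0 < n ∧ ∀ g ∉ Dc v G, v (g • (z * e ^ n)) < 1 := by
  choose a a1 a2 a3 using fun g : {g // g ∉ Dc v G} => eps1 h1 h2 h3 hk g.2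
  have := Fintype.ofFinite G
  have b1 : CC v G (∏ g, a g) := fun h => by
    rw [Finset.smul_prod', map_prod]
    exact Finset.prod_le_one' fun g _ => a1 g h
  have b2 : ∀ g ∉ Dc v G, v (g • ∏ d : Dc v G, (d : G) • ∏ g, a g) < 1 := fun g hg => by
    rw [Finset.smul_prod']
    refine prod_lt (fun d _ => mul_smul g d (∏ g, a g) ▸ b1 _) (Finset.mem_univ 1) ?_
    rw [Subgroup.coe_one, one_smul, Finset.smul_prod']
    exact prod_lt (fun d _ => a1 d g) (Finset.mem_univ _) (a3 ⟨g, hg⟩)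
  refine ⟨_, b1.norm (Dc v G), ?_, fun g => norm_fix _ _, fun z hz => ?_⟩
  · rw [map_prod]
    exact Finset.prod_eq_one fun d _ => by
      rw [d.2, map_prod]
      exact Finset.prod_eq_one fun g _ => a2 g
  have : ∀ᶠ n : ℕ in Filter.atTop, ∀ g : {g // g ∉ Dc v G},
      v (g.1 • z) * v (g.1 • ∏ d : Dc v G, (d : G) • ∏ g, a g) ^ n < 1 :=
    Filter.eventually_all.2 fun g => by
      have := (NNReal.tendsto_pow_atTop_nhds_zero_of_lt_one (b2 g.1 g.2)).const_mul (v (g.1 • z))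
      rw [mul_zero] at this
      exact this.eventually (gt_mem_nhds one_pos)
  obtain ⟨n, n0, hn⟩ := ((Filter.eventually_gt_atTop 0).and this).exists
  exact ⟨n, n0, fun g hg => by rw [smul_mul', smul_pow', map_mul, map_pow]; exact hn ⟨g, hg⟩⟩

theorem into : ∃ e, v e = 1 ∧ (∀ g ∈ Dc v G, g • e = e) ∧ (∀ n : ℕ, CC v G (e ^ n)) ∧
    ∀ z, v z ≤ 1 → ∃ n : ℕ, CC v G (z * e ^ n) ∧ ∀ g ∉ Dc v G, v (g • (z * e ^ n)) < 1 := by
  obtain ⟨e, e1, e2, e3, e4⟩ := eps h1 h2 h3 hk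
  refine ⟨e, e2, e3, fun n g => by
    rw [smul_pow', map_pow]; exact pow_le_one' (e1 g) n, fun z hz => ?_⟩
  obtain ⟨n, -, hn⟩ := e4 z hz
  refine ⟨n, fun g => ?_, hn⟩
  by_cases k : g ∈ Dc v G
  exacts [by rwa [k, map_mul, map_pow, e2, one_pow, mul_one], (hn g k).le]

variable {p : ℕ} [Fact p.Prime] (hp : v p < 1) (hG : ∀ g : G, (∀ z : N, g • z = z) → g = 1)
include hp hG

theorem sep {g : G} (hg : g ∉ In v G) :
    ∃ c, CC v G c ∧ (∀ i ∈ In v G, i • c = c) ∧ v (g • c - c) = 1 := by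
  obtain ⟨e, e1, e2, e3, e4⟩ := into h1 h2 h3 hk
  by_cases hD : g ∈ Dc v G; swap
  · obtain ⟨n, k, k'⟩ := e4 1 v.map_one.le
    have i : v (1 * e ^ n) = 1 := by simp [e1]
    exact ⟨_, k, fun i hi => by rw [one_mul, smul_pow', e2 i (In_le hi)], by
      rw [v.map_sub_eq_of_lt_right (i ▸ k' g hD), i]⟩
  obtain ⟨c, c1, c2⟩ : ∃ c, CC v G c ∧ v (g • c - c) = 1 := by
    obtain ⟨z, z0, hz⟩ : ∃ z, z ≠ 0 ∧ v z ≤ v (g • z - z) := by
      by_contra! k
      exact hg k
    obtain ⟨c, c0, c1, c2⟩ := hk z z0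
    have v0 := (Valuation.ne_zero_iff v).2 c0
    obtain ⟨n, k, -⟩ := e4 (z / c) (by rw [map_div₀, c2, div_self v0])
    refine ⟨_, k, ?_⟩
    rw [smul_mul', smul_pow', e2 g hD, ← sub_mul, smul_div₀', c1, ← sub_div, map_mul, map_pow, e1,
      one_pow, mul_one, map_div₀, div_eq_one_iff_eq v0, ← c2]
    exact le_antisymm (v.map_sub_le (hD z).le le_rfl) hz
  have := Fintype.ofFinite (In v G)
  obtain ⟨k, hq⟩ := (pgroup hp hG).exists_card_eq
  have c0 : c ≠ 0 := fun k => by simp [k] at c2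
  have pr : ∀ s : Finset (In v G), v (∏ d ∈ s, (d : G) • c - c ^ s.card) < 1 := fun s => by
    induction s using Finset.induction_on with
    | empty => simp
    | insert d s hd ih =>
      rw [Finset.prod_insert hd, Finset.card_insert_of_notMem hd, show (d : G) • c *
        ∏ d ∈ s, (d : G) • c - c ^ (s.card + 1) = (∏ d ∈ s, (d : G) • c - c ^ s.card) * (d : G) • c +
          ((d : G) • c - c) * c ^ s.card by ring]
      refine v.map_add_lt ?_ ?_ <;> rw [map_mul]
      · exact mul_lt_one_of_lt_of_le ih (c1 _)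
      · exact mul_lt_one_of_lt_of_le ((d.2 c c0).trans_le c1.le) (Pl.vpow_le v c1.le _)
  have q := pr Finset.univ
  rw [Finset.card_univ, ← Nat.card_eq_fintype_card, hq] at q
  refine ⟨_, c1.norm (In v G), fun i => norm_fix _ _, ?_⟩
  obtain ⟨r, hr⟩ := exists_add_pow_prime_pow_eq (Fact.out : p.Prime)
    (⟨g • c - c, c2.le⟩ : v.integer) ⟨c, c1.le⟩ k
  have hr' := congrArg Subtype.val hr
  push_cast at hr'
  have q' := hD _ ▸ q
  rw [smul_sub, smul_pow'] at q'
  have l : v (p * (g • c - c) * c * r) < 1 := by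
    rw [mul_assoc, mul_assoc, map_mul, map_mul, map_mul]
    exact mul_lt_one_of_lt_of_le hp (mul_le_one' c2.le (mul_le_one' c1.le r.2))
  have i : v ((g • c - c) ^ p ^ k) = 1 := by rw [map_pow, c2, one_pow]
  rw [← i]
  refine v.map_eq_of_sub_lt (i ▸ ?_)
  convert v.map_add_lt (v.map_sub_lt q' q) l using 2
  rw [sub_add_cancel] at hr'
  linear_combination hr'

theorem good (z : N) (hz : CC v G z) (hz' : ∀ i ∈ In v G, i • z = z) :
    ∃ c j, ∀ b, b = c ∨ b = z + u j * c →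
      CC v G b ∧ ∀ g : G, g • b ≠ b → v (g • b - b) = 1 := by
  have cu : ∀ j, CC v G (u j) := fun j g => (h3 j g).symm ▸ h1 j
  have e : ∀ a b j (g : G), g • (a + u j * b) - (a + u j * b) = g • a - a + u j * (g • b - b) :=
    fun a b j g => by rw [smul_add, smul_mul', h3]; ring
  have sb : ∀ {a}, CC v G a → ∀ g : G, v (g • a - a) ≤ 1 := fun h g => v.map_sub_le (h g) h.le
  have key : ∀ s : Finset {g // g ∉ In v G}, ∃ c, CC v G c ∧ (∀ i ∈ In v G, i • c = c) ∧
      ∀ g ∈ s, v (g.1 • c - c) = 1 := fun s => by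
    induction s using Finset.induction_on with
    | empty => exact ⟨z, hz, hz', by simp⟩
    | insert d s hd ih =>
      obtain ⟨a, a1, a2, a3⟩ := ih
      obtain ⟨b, b1, b2, b3⟩ := sep h1 h2 h3 hk hp hG d.2
      obtain ⟨j, hj⟩ := avoid h1 h2 (ι := (insert d s :)) (fun g => g.1.1 • a - a)
        (fun g => g.1.1 • b - b) (fun _ => sb a1 _) (fun _ => sb b1 _) fun g =>
          (Finset.mem_insert.1 g.2).symm.imp (a3 _) fun k => by rw [k]; exact b3
      exact ⟨_, a1.add ((cu j).mul b1), fun i hi => by rw [smul_add, smul_mul', h3, a2 i hi,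
        b2 i hi], fun g hg => e a b j g ▸ hj ⟨g, hg⟩⟩
  have := Fintype.ofFinite G
  obtain ⟨c, c1, c2, c3⟩ := key Finset.univ
  obtain ⟨j, hj⟩ := avoid h1 h2 (ι := {g // g ∉ In v G}) (fun g => g.1 • z - z)
    (fun g => g.1 • c - c) (fun _ => sb hz _) (fun _ => sb c1 _) fun g => .inr (c3 g (by simp))
  refine ⟨c, j, ?_⟩
  rintro _ (rfl | rfl)
  · exact ⟨c1, fun g hg => c3 ⟨g, fun k => hg (c2 g k)⟩ (by simp)⟩
  · exact ⟨hz.add ((cu j).mul c1), fun g hg => e z c j g ▸ hj ⟨g, fun k => hg (by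
      rw [smul_add, smul_mul', h3, hz' g k, c2 g k])⟩⟩

variable {U : Type} [Field U] [Algebra N U] {w : Valuation U ℝ≥0} {d : Derivation ℤ N U}
  (hw : ∀ z, w (algebraMap N U z) = v z) (hd : ∀ z, (∀ g : G, g • z = z) → w (d z) ≤ v z)
include hw hd

omit h1 h2 h3 hk hp hG in
theorem der_good {c : N} (h : CC v G c) (k : ∀ g : G, g • c ≠ c → v (g • c - c) = 1) :
    w (d c) ≤ 1 := by
  have := Fintype.ofFinite G
  let s : Finset N := Finset.univ.image fun g : G => g • c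
  have hc : c ∈ s := Finset.mem_image.2 ⟨1, by simp, one_smul _ _⟩
  let f : N[X] := ∏ y ∈ s, (X - C y)
  have f1 : ∀ i, v (f.coeff i) ≤ 1 := fun i => by
    have : f ∈ (mapRingHom v.integer.subtype).range := prod_mem fun y hy => by
      obtain ⟨g, -, rfl⟩ := Finset.mem_image.1 hy
      exact ⟨X - C ⟨_, h g⟩, by simp⟩
    obtain ⟨g, hg⟩ := this
    rw [← hg, coe_mapRingHom, coeff_map]
    exact (g.coeff i).2
  have f2 : ∀ (g : G) i, g • f.coeff i = f.coeff i := fun g i => by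
    rw [← coeff_smul, Finset.smul_prod']
    congr 1
    refine Finset.prod_bijective (g • ·) (MulAction.bijective g) (fun y => ?_) fun y _ => by
      simp [smul_sub]
    simp only [s, Finset.mem_image, Finset.mem_univ, true_and]
    exact ⟨fun ⟨a, e⟩ => ⟨g * a, by rw [mul_smul, e]⟩,
      fun ⟨a, e⟩ => ⟨g⁻¹ * a, by rw [mul_smul, e, inv_smul_smul]⟩⟩
  have f3 : v (f.derivative.eval c) = 1 := by
    rw [show f = _ from (Finset.mul_prod_erase s _ hc).symm, derivative_mul, eval_add, eval_mul,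
      eval_mul, derivative_X_sub_C, eval_one, one_mul, eval_sub, eval_X, eval_C, sub_self, zero_mul,
      add_zero, eval_prod, map_prod]
    refine Finset.prod_eq_one fun y hy => ?_
    obtain ⟨ne, hy⟩ := Finset.mem_erase.1 hy
    obtain ⟨g, -, rfl⟩ := Finset.mem_image.1 hy
    rw [eval_sub, eval_X, eval_C, Valuation.map_sub_swap, k g ne]
  have e := Dr.der_eval d f c
  rw [show f.eval c = 0 by rw [eval_prod]; exact Finset.prod_eq_zero hc (by simp), map_zero,
    eq_comm, add_eq_zero_iff_neg_eq] at e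
  have e' := congrArg w e
  rw [Algebra.smul_def (f.derivative.eval c), map_mul, hw, f3, one_mul, Valuation.map_neg] at e'
  refine e' ▸ w.map_sum_le fun i _ => ?_
  rw [Algebra.smul_def, map_mul, hw]
  exact mul_le_one' (Pl.vpow_le v h.le i) ((hd _ fun g => f2 g i).trans (f1 i))

theorem core {z : N} (hz : v z ≤ 1) (hz' : ∀ i ∈ In v G, i • z = z) : w (d z) ≤ 1 := by
  have sm : ∀ a (b : U), w (a • b) = v a * w b := fun a b => by rw [Algebra.smul_def, map_mul, hw]
  have key : ∀ z, CC v G z → (∀ i ∈ In v G, i • z = z) → w (d z) ≤ 1 := fun z a b => by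
    obtain ⟨c, j, h⟩ := good h1 h2 h3 hk hp hG z a b
    have k := der_good hw hd (h _ (.inl rfl)).1 (h _ (.inl rfl)).2
    have k' := der_good hw hd (h _ (.inr rfl)).1 (h _ (.inr rfl)).2
    rw [← add_sub_cancel_right z (u j * c), map_sub, d.leibniz]
    refine w.map_sub_le k' (w.map_add_le ?_ ?_) <;> rw [sm]
    exacts [mul_le_one' (h1 j) k, mul_le_one' (h _ (.inl rfl)).1.le ((hd _ (h3 j)).trans (h1 j))]
  obtain ⟨e, e1, e2, e3, e4⟩ := into h1 h2 h3 hk
  obtain ⟨n, k, -⟩ := e4 z hz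
  have f : ∀ i ∈ In v G, i • e ^ n = e ^ n := fun i hi => by rw [smul_pow', e2 i (In_le hi)]
  have a := key _ k fun i hi => by rw [smul_mul', hz' i hi, f i hi]
  have b : w (z • d (e ^ n)) ≤ 1 := sm _ _ ▸ mul_le_one' hz (key _ (e3 n) f)
  have := w.map_sub_le a b
  rwa [d.leibniz, add_sub_cancel_left, sm, map_pow, e1, one_pow, one_mul] at this

end DI

theorem inertiaDer_holds : InertiaDerStmt := by
  intro p _ U _ _ _ K N k0 w δ h0 hKN H hH hi hN hK hp hk hδ ⟨u, u1, u2⟩ hd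
  let _ : MulSemiringAction H N :=
    { smul := fun g z => ⟨g.1 z, hN g g.2 z z.2⟩
      one_smul := fun _ => rfl
      mul_smul := fun _ _ _ => rfl
      smul_zero := fun g => Subtype.ext (map_zero g.1)
      smul_add := fun g a b => Subtype.ext (map_add g.1 a.1 b.1)
      smul_one := fun g => Subtype.ext (map_one g.1)
      smul_mul := fun g a b => Subtype.ext (map_mul g.1 a.1 b.1) }
  let ρ := MulSemiringAction.toRingAut H N
  have hρ : ∀ g : H, ρ g = 1 ↔ g.1 ∈ Fix (N : Set U) := fun g =>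
    ⟨fun k z hz => congrArg Subtype.val (RingEquiv.congr_fun k ⟨z, hz⟩),
      fun k => RingEquiv.ext fun z => Subtype.ext (k z z.2)⟩
  have : Finite ρ.range := Nat.finite_of_card_ne_zero (by
    rwa [← Subgroup.index_ker, show ρ.ker = (Fix (N : Set U)).subgroupOf H from Subgroup.ext hρ])
  let v := w.comap N.subtype
  have hG : ∀ g : ρ.range, (∀ z : N, g • z = z) → g = 1 := fun g k => Subtype.ext (RingEquiv.ext k)
  have hI : ∀ g : H, ρ.rangeRestrict g ∈ DI.In v ρ.range ↔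
      ∀ z ∈ N, z ≠ 0 → w (g.1 z - z) < w z := fun g =>
    ⟨fun k z hz z0 => k ⟨z, hz⟩ fun e => z0 (congrArg Subtype.val e),
      fun k z z0 => k z z.2 fun e => z0 (Subtype.ext e)⟩
  have hp' : v p < 1 := by simpa [v] using hp
  have fx : ∀ (c : N), c.1 ∈ K → ∀ g : ρ.range, g • c = c := by
    rintro c hc ⟨_, g, rfl⟩
    exact Subtype.ext (hH g.2 c hc)
  refine ⟨fun g hg k => ?_, fun z hz k => ?_⟩
  · obtain ⟨j, e⟩ := DI.pgroup hp' hG ⟨_, (hI ⟨g, hg⟩).2 k⟩
    exact ⟨j, (hρ (⟨g, hg⟩ ^ p ^ j)).1 ((map_pow ρ _ _).trans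
      (congrArg (fun x => x.1.1) e))⟩
  rcases eq_or_ne z 0 with rfl | z0
  · simp
  have nz : ∀ z, z ≠ 0 → ∃ c ∈ k0, c ≠ 0 ∧ w z = w c := fun z z0 =>
    let ⟨c, c1, c2⟩ := hk z
    ⟨c, c1, fun e => (Valuation.ne_zero_iff w).2 z0 (by rw [c2, e, map_zero]), c2⟩
  obtain ⟨c, c1, c0, c2⟩ := nz z z0
  have v0 := (Valuation.pos_iff w).2 c0
  have := DI.core (v := v) (G := ρ.range) (u := fun j => ⟨u j, hKN (u1 j).1⟩) (fun j => (u1 j).2) u2
    (fun j => fx _ (u1 j).1) (fun z z0 => by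
      obtain ⟨c, c1, c0, c2⟩ := nz z fun e => z0 (Subtype.ext e)
      exact ⟨⟨c, hKN (h0 c1)⟩, fun e => c0 (congrArg Subtype.val e), fx _ (h0 c1), c2⟩) hp' hG
    (w := w) (d := δ.compAlgebraMap N) (fun _ => rfl)
    (fun z k => (hd z (hK z z.2 fun g hg =>
      congrArg Subtype.val (k (ρ.rangeRestrict ⟨g, hg⟩)))).2)
    (z := ⟨c⁻¹ * z, mul_mem (inv_mem (hKN (h0 c1))) hz⟩)
    (by change w (c⁻¹ * z) ≤ 1; rw [map_mul, map_inv₀, c2, inv_mul_cancel₀ v0.ne']) (by
      rintro ⟨_, g, rfl⟩ hg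
      refine Subtype.ext ?_
      change g.1 (c⁻¹ * z) = c⁻¹ * z
      rw [map_mul, map_inv₀, hH g.2 c (h0 c1), k g g.2 ((hI g).1 hg)])
  change w (δ (c⁻¹ * z)) ≤ 1 at this
  rwa [δ.leibniz, δ.leibniz_inv, hδ c c1, smul_zero, smul_zero, add_zero, smul_eq_mul, map_mul,
    map_inv₀, inv_mul_le_iff₀ v0, mul_one, ← c2] at this

end P179W
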