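import Vale.Agent.P179W.AmbGal
import Vale.Agent.P179W.AmbVal
import Vale.Agent.P179W.AmbVal2

/-!
# P179W : descent to a discretely valued field of constants (theorem G' from the core)
-/

set_option linter.all false

open scoped NNReal Classical
open Filter Topology Polynomial

noncomputable section

namespace P179W

namespace DescentH

section gen

variable {U : Type} [Field U]

theorem exists_fin {K T : Set U} {z : U} (hz : z ∈ adj K T) :
    ∃ T0 : Finset U, (T0 : Set U) ⊆ K ∧ z ∈ adj (T0 : Set U) T := by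
  have two : ∀ {a b : U}, (∃ T0 : Finset U, (T0 : Set U) ⊆ K ∧ a ∈ adj (T0 : Set U) T) →
      (∃ T0 : Finset U, (T0 : Set U) ⊆ K ∧ b ∈ adj (T0 : Set U) T) →
      ∃ T0 : Finset U, (T0 : Set U) ⊆ K ∧ a ∈ adj (T0 : Set U) T ∧ b ∈ adj (T0 : Set U) T := by
    rintro a b ⟨A, hA, ha⟩ ⟨B, hB, hb⟩
    refine ⟨A ∪ B, by simpa using ⟨hA, hB⟩, adj_mono (by simp) le_rfl ha,
      adj_mono (by simp) le_rfl hb⟩
  induction hz using Subfield.closure_induction with
  | mem x hx =>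
    rcases hx with hx | hx
    · exact ⟨{x}, by simpa using hx, left_subset_adj _ _ (by simp)⟩
    · exact ⟨∅, by simp, right_subset_adj _ _ hx⟩
  | one => exact ⟨∅, by simp, one_mem _⟩
  | add x y _ _ hx hy => exact (two hx hy).imp fun _ h => ⟨h.1, add_mem h.2.1 h.2.2⟩
  | neg x _ hx => exact hx.imp fun _ h => ⟨h.1, neg_mem h.2⟩
  | inv x _ hx => exact hx.imp fun _ h => ⟨h.1, inv_mem h.2⟩
  | mul x y _ _ hx hy => exact (two hx hy).imp fun _ h => ⟨h.1, mul_mem h.2.1 h.2.2⟩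

theorem exists_fin' {K T : Set U} (A : Finset U) (hA : ∀ z ∈ A, z ∈ adj K T) :
    ∃ T0 : Finset U, (T0 : Set U) ⊆ K ∧ ∀ z ∈ A, z ∈ adj (T0 : Set U) T := by
  choose! F hF using fun z (hz : z ∈ A) => exists_fin (hA z hz)
  refine ⟨A.biUnion F, fun c hc => ?_, fun z hz => adj_mono ?_ le_rfl (hF z hz).2⟩
  · obtain ⟨z, hz, hc⟩ := Finset.mem_biUnion.1 hc
    exact (hF z hz).1 hc
  · exact fun c hc => Finset.mem_biUnion.2 ⟨z, hz, hc⟩

theorem der_adj (δ : Derivation ℤ U U) {K T : Set U} {M : Subfield U} (hle : adj K T ≤ M)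
    (hK : ∀ z ∈ K, δ z ∈ M) (hT : ∀ z ∈ T, δ z ∈ M) : ∀ z ∈ adj K T, δ z ∈ M := by
  intro z hz
  induction hz using Subfield.closure_induction with
  | mem x hx => exact hx.elim (hK x) (hT x)
  | one => simpa using M.zero_mem
  | add x y _ _ hx hy => simpa using add_mem hx hy
  | neg x _ hx => simpa using hx
  | inv x h hx =>
    rw [δ.leibniz_inv, smul_eq_mul]
    exact mul_mem (neg_mem (pow_mem (inv_mem (hle h)) 2)) hx
  | mul x y h h' hx hy =>
    rw [δ.leibniz, smul_eq_mul, smul_eq_mul]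
    exact add_mem (mul_mem (hle h) hy) (mul_mem (hle h') hx)

theorem disc_sub (w : Valuation U ℝ≥0) (M : Subfield U) {t q : U} (t0 : t ≠ 0) (t1 : w t < 1)
    (h : ∀ z ∈ M, z ≠ 0 → ∃ k : ℤ, w z = w (t ^ k)) (hq : q ∈ M) (q0 : q ≠ 0) (q1 : w q < 1) :
    ∃ ϖ ∈ M, ϖ ≠ 0 ∧ w ϖ < 1 ∧ ∀ z ∈ M, z ≠ 0 → ∃ m : ℤ, w z = w ϖ ^ m := by
  have wt : w t ≠ 0 := (Valuation.ne_zero_iff w).2 t0
  let A : AddSubgroup ℤ :=
    { carrier := {k | ∃ z ∈ M, z ≠ 0 ∧ w z = w t ^ k}
      zero_mem' := ⟨1, one_mem _, one_ne_zero, by simp⟩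
      add_mem' := by
        rintro a b ⟨z, hz, z0, e⟩ ⟨z', hz', z0', e'⟩
        exact ⟨z * z', mul_mem hz hz', mul_ne_zero z0 z0', by rw [map_mul, e, e', zpow_add₀ wt]⟩
      neg_mem' := by
        rintro a ⟨z, hz, z0, e⟩
        exact ⟨z⁻¹, inv_mem hz, inv_ne_zero z0, by rw [map_inv₀, e, zpow_neg]⟩ }
  obtain ⟨a, ha⟩ := Int.subgroup_cyclic A
  have key : ∀ z ∈ M, z ≠ 0 → ∃ m : ℤ, w z = (w t ^ |a|) ^ m := by
    intro z hz z0
    obtain ⟨k, hk⟩ := h z hz z0
    rw [map_zpow₀] at hk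
    have : k ∈ A := ⟨z, hz, z0, hk⟩
    rw [ha, AddSubgroup.mem_closure_singleton] at this
    obtain ⟨m, rfl⟩ := this
    rcases abs_choice a with e | e
    · exact ⟨m, by rw [hk, e, ← zpow_mul, smul_eq_mul, mul_comm]⟩
    · exact ⟨-m, by rw [hk, e, ← zpow_mul, smul_eq_mul, neg_mul_neg, mul_comm]⟩
  have haA : a ∈ A := by rw [ha]; exact AddSubgroup.subset_closure rfl
  have haA' : |a| ∈ A := by
    rcases abs_choice a with e | e <;> rw [e]
    exacts [haA, neg_mem haA]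
  obtain ⟨ϖ, hϖ, ϖ0, e⟩ := haA'
  have a0 : a ≠ 0 := by
    rintro rfl
    obtain ⟨m, hm⟩ := key q hq q0
    simp at hm
    exact q1.ne hm
  refine ⟨ϖ, hϖ, ϖ0, ?_, fun z hz z0 => e ▸ key z hz z0⟩
  rw [e]
  exact zpow_lt_one₀ (pos_iff_ne_zero.2 wt) t1 (abs_pos.2 a0)

theorem mem_of_alg (V : ValuationSubring U) {K : Subfield U} (hK : ∀ c ∈ K, c ∈ V) {z : U}
    (hz : Alg K z) : z ∈ V := by
  by_cases z0 : z = 0
  · exact z0 ▸ V.zero_mem
  obtain ⟨m, hm, c, hc, -, e⟩ := arch_holds U _ V.valuation K z hz z0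
  rw [← V.valuation_le_one_iff]
  have := (V.valuation_le_one_iff c).2 (hK c hc)
  rw [← e, map_pow] at this
  exact (pow_le_one_iff_of_nonneg zero_le hm.ne').1 this

theorem range_closed (i : ℂ →+* U) {z : U} (hz : Alg i.fieldRange z) : z ∈ i.fieldRange := by
  haveI : IsAlgClosed i.fieldRange := IsAlgClosed.of_ringEquiv _ _ i.rangeRestrictFieldEquiv
  have h := (alg_iff.1 hz).isIntegral
  obtain ⟨c, hc⟩ := minpoly.mem_range_of_degree_eq_one _ z
    (IsAlgClosed.degree_eq_one_of_irreducible _ (minpoly.irreducible h))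
  exact hc ▸ c.2

theorem aut_alg {K : Subfield U} {g : RingAut U} (hg : g ∈ Fix (K : Set U)) {z : U}
    (hz : Alg K z) : Alg K (g z) := by
  obtain ⟨f, f0, hf, e⟩ := hz
  refine ⟨f, f0, hf, ?_⟩
  have : f.map (g : U →+* U) = f := by
    ext k
    rw [coeff_map]
    exact hg _ (hf k)
  rw [← this]
  exact (eval_map_aut (g : U →+* U) f z).trans (by rw [e, map_zero])

theorem alg_fixed (F : Subfield U) (σ : RingAut U) {n : ℕ} (hn : n ≠ 0)
    (h1 : ∀ z ∈ F, σ z ∈ F) (h2 : ∀ z ∈ F, (σ ^ n) z = z) :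
    ∀ z ∈ F, Alg (F ⊓ fixedOf {σ}) z := by
  intro z hz
  have hi : ∀ i : ℕ, (σ ^ i) z ∈ F := by
    intro i
    induction i with
    | zero => exact hz
    | succ i ih => rw [pow_succ']; exact h1 _ ih
  obtain ⟨m, rfl⟩ := Nat.exists_eq_succ_of_ne_zero hn
  let P : U[X] := ∏ i ∈ Finset.range (m + 1), (X - C ((σ ^ i) z))
  have hP : P.map (σ : U →+* U) = P := by
    simp only [P, Polynomial.map_prod, Polynomial.map_sub, map_X, map_C]
    rw [Finset.prod_range_succ, Finset.prod_range_succ']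
    congr 1
    · refine Finset.prod_congr rfl fun i _ => ?_
      rw [pow_succ']
      rfl
    · have : (σ : U →+* U) ((σ ^ m) z) = (σ ^ (m + 1)) z := by rw [pow_succ']; rfl
      rw [this, h2 z hz]
      rfl
  refine ⟨P, (monic_prod_of_monic _ _ fun i _ => monic_X_sub_C _).ne_zero, fun k => ⟨?_, ?_⟩, ?_⟩
  · exact mem_polyIn.1 (Subring.prod_mem _ fun i _ => sub_mem X_mem_polyIn (C_mem_polyIn (hi i))) k
  · rintro g rfl
    have := congrArg (fun f => coeff f k) hP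
    simpa [coeff_map] using this
  · simp only [P, eval_prod]
    exact Finset.prod_eq_zero (Finset.mem_range.2 (Nat.succ_pos m)) (by simp)

/-- restriction of an automorphism -/
def resEq (M : Subfield U) (g : RingAut U) (h : ∀ z, z ∈ M ↔ g z ∈ M) : M ≃+* M where
  toFun z := ⟨g z, (h z).1 z.2⟩
  invFun z := ⟨g.symm z, (h _).2 (by simpa using z.2)⟩
  left_inv z := Subtype.ext (g.symm_apply_apply _)
  right_inv z := Subtype.ext (g.apply_symm_apply _)
  map_mul' a b := Subtype.ext (map_mul g _ _)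
  map_add' a b := Subtype.ext (map_add g _ _)

theorem stab_iff {M : Subfield U} {H : Subgroup (RingAut U)} (h : ∀ g ∈ H, ∀ z ∈ M, g z ∈ M)
    {g : RingAut U} (hg : g ∈ H) (z : U) : z ∈ M ↔ g z ∈ M :=
  ⟨h g hg z, fun hz => by
    have := h g⁻¹ (inv_mem hg) _ hz
    rwa [show g⁻¹ (g z) = z from g.symm_apply_apply z] at this⟩

/-- restriction of a group of automorphisms -/
def resHom (M : Subfield U) (H : Subgroup (RingAut U)) (h : ∀ g ∈ H, ∀ z ∈ M, g z ∈ M) :
    H →* RingAut M where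
  toFun g := resEq M g.1 (stab_iff h g.2)
  map_one' := RingEquiv.ext fun _ => rfl
  map_mul' _ _ := RingEquiv.ext fun _ => rfl

variable {L : Type} [Field L]

theorem exists_resD (f : L →+* U) (δ : Derivation ℤ U U) (h : ∀ z, ∃ z', f z' = δ (f z)) :
    ∃ δ' : Derivation ℤ L L, ∀ z, f (δ' z) = δ (f z) := by
  choose d hd using h
  let a : L →+ L := AddMonoidHom.mk' d fun x y => f.injective (by simp [hd])
  refine ⟨Derivation.mk' a.toIntLinearMap fun x y => f.injective ?_, hd⟩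
  show f (d (x * y)) = f (x * d y + y * d x)
  simp [hd]

theorem map_dE (f : L →+* U) {δ : Derivation ℤ U U} {δ' : Derivation ℤ L L}
    (h : ∀ z, f (δ' z) = δ (f z)) (π0 : L) (k : ℕ) (z : L) :
    f (dE δ' π0 k z) = dE δ (f π0) k (f z) := by
  have : ∀ k z, f ((δ' : L → L)^[k] z) = (δ : U → U)^[k] (f z) := by
    intro k
    induction k with
    | zero => exact fun _ => rfl
    | succ k ih => intro z; rw [Function.iterate_succ_apply, Function.iterate_succ_apply, ih, h]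
  simp [dE, this]

theorem equiv_comap (f : L →+* U) {V : ValuationSubring L} {V' : ValuationSubring U}
    (h : ∀ z, z ∈ V ↔ f z ∈ V') : V.valuation.IsEquiv (V'.valuation.comap f) :=
  Valuation.isEquiv_of_val_le_one fun {z} => by
    rw [Valuation.comap_apply, V.valuation_le_one_iff, V'.valuation_le_one_iff, h]

theorem alg_map (f : L →+* U) {K : Subfield L} {K' : Subfield U} (hK : ∀ c ∈ K, f c ∈ K') {z : L}
    (hz : Alg K z) : Alg K' (f z) := by
  obtain ⟨P, P0, hP, e⟩ := hz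
  refine ⟨P.map f, (Polynomial.map_ne_zero_iff f.injective).2 P0, fun k => ?_, ?_⟩
  · rw [coeff_map]
    exact hK _ (hP k)
  · rw [eval_map, eval₂_at_apply, e, map_zero]

theorem mem_adj_sub {M K : Subfield U} (hK : K ≤ M) (x y z : M) :
    z ∈ adj (K.comap M.subtype : Set M) {x, y} ↔ (z : U) ∈ adj (K : Set U) {(x : U), (y : U)} := by
  constructor
  · intro hz
    refine (adj_le (L := (adj (K : Set U) {(x : U), (y : U)}).comap M.subtype)).2 ⟨?_, ?_⟩ hz
    · exact fun c hc => left_subset_adj _ _ hc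
    · rintro c (rfl | rfl)
      · exact right_subset_adj _ _ (Or.inl rfl)
      · exact right_subset_adj _ _ (Or.inr rfl)
  · intro hz
    have := (adj_le (L := (adj (K.comap M.subtype : Set M) {x, y}).map M.subtype)).2 ⟨?_, ?_⟩ hz
    · obtain ⟨z', hz', e⟩ := this
      rwa [← (Subtype.ext e : z' = z)]
    · exact fun c hc => ⟨⟨c, hK hc⟩, left_subset_adj _ _ hc, rfl⟩
    · rintro c (rfl | rfl)
      · exact ⟨x, right_subset_adj _ _ (Or.inl rfl), rfl⟩
      · exact ⟨y, right_subset_adj _ _ (Or.inr rfl), rfl⟩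

end gen

section small

variable {p n : ℕ} {U : Type} [Field U] (S : Setup p n U)

include S in
theorem charZero : CharZero U := charZero_of_injective_ringHom S.i.injective

theorem k0_le_Kt : S.k0 ≤ S.Kt := le_adj _ _

theorem Kt_le_Ft : S.Kt ≤ S.Ft := adj_mono le_rfl Set.subset_union_left

theorem x_Ft : S.x ∈ S.Ft := right_subset_adj _ _ (Or.inr (Or.inl rfl))

theorem y_Ft : S.y ∈ S.Ft := right_subset_adj _ _ (Or.inr (Or.inr rfl))

theorem xP_Kt (j) : S.xP j ∈ S.Kt := right_subset_adj _ _ (Or.inl ⟨j, rfl⟩)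

theorem yP_Kt (j) : S.yP j ∈ S.Kt := right_subset_adj _ _ (Or.inr ⟨j, rfl⟩)

theorem Ft_le {K' : Subfield U} (h : S.Kt ≤ K') : S.Ft ≤ adj K' {S.x, S.y} := by
  refine adj_le.2 ⟨fun c hc => le_adj _ _ (h (k0_le_Kt S hc)), ?_⟩
  rintro c ((⟨j, rfl⟩ | ⟨j, rfl⟩) | hc)
  exacts [le_adj _ _ (h (xP_Kt S j)), le_adj _ _ (h (yP_Kt S j)), right_subset_adj _ _ hc]

theorem alg_of_K1 {K1 F : Subfield U} (h : ∀ z ∈ S.Om, Alg K1 z) (hle : K1 ≤ F) (hx : S.x ∈ F)
    (hy : S.y ∈ F) (z : U) : Alg F z := by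
  refine (S.U_alg z).trans fun c hc => ?_
  have : c ∈ adj (S.Om : Set U) {S.x, S.y} := hc
  refine alg_adj (K := F) (T := (S.Om : Set U) ∪ {S.x, S.y}) ?_ c ?_
  · rintro t (ht | rfl | rfl)
    exacts [(h t ht).mono hle, alg_of_mem hx, alg_of_mem hy]
  · exact (adj_le.2 ⟨Set.subset_union_left.trans (right_subset_adj _ _),
      Set.subset_union_right.trans (right_subset_adj _ _)⟩ :
        adj (S.Om : Set U) {S.x, S.y} ≤ _) this

/-- a small model of `L` -/
structure Small (K' L : Subfield U) (σ : RingAut U) (A : Finset U) (K1 L1 : Subfield U) :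
    Prop where
  le : L1 ≤ L
  A_sub : (A : Set U) ⊆ L1
  x_mem : S.x ∈ L1
  y_mem : S.y ∈ L1
  stab : ∀ g ∈ Fix (adj K' {S.x, S.y} : Set U), ∀ z ∈ L1, g z ∈ L1
  σ_stab : ∀ z, z ∈ L1 ↔ σ z ∈ L1
  D_stab : ∀ j, ∀ z ∈ L1, S.D j z ∈ L1
  disc : ∃ ϖ ∈ L1, ϖ ≠ 0 ∧ S.w ϖ < 1 ∧ ∀ z ∈ L1, z ≠ 0 → ∃ m : ℤ, S.w z = S.w ϖ ^ m
  K1_le : K1 ≤ L1
  K1_Kt : K1 ≤ S.Kt
  alg : ∀ z ∈ S.Om, Alg K1 z
  coeff : CoeffIn S.E K1
  P_mem : ∀ j, S.xP j ∈ K1 ∧ S.yP j ∈ K1

theorem psi_mem {F : Subfield U} {E : WeierstrassCurve U} (hE : CoeffIn E F) {x y : U} (hx : x ∈ F)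
    (hy : y ∈ F) : psi E x y ∈ F ∧ phi E x y ∈ F := by
  obtain ⟨h1, h2, h3, h4, h6⟩ := hE
  refine ⟨add_mem (add_mem (mul_mem (ofNat_mem F 2) hy) (mul_mem h1 hx)) h3,
    sub_mem (add_mem (add_mem (mul_mem (ofNat_mem F 3) (pow_mem hx 2))
      (mul_mem (mul_mem (ofNat_mem F 2) h2) hx)) h4) (mul_mem h1 hy)⟩

theorem exists_small [Fact p.Prime] [NeZero n] (hDer : DerExtStmt) (hGT : GaussTowerStmt)
    {K' L : Subfield U} {σ : RingAut U} (c : S.Cover K' L σ) (A : Finset U) (hA : (A : Set U) ⊆ L) :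
    ∃ K1 L1, Small S K' L σ A K1 L1 := by
  haveI := charZero S
  haveI := S.algClosed
  have hFL : adj K' {S.x, S.y} ≤ L := by
    obtain ⟨T, hT⟩ := c.normal.fin
    rw [hT]
    exact le_adj _ _
  have hFt := Ft_le S c.Kt_le
  let Cs : Set U := Set.range S.xP ∪ Set.range S.yP ∪ {S.x, S.y}
  have hCs : Cs.Finite :=
    ((Set.finite_range _).union (Set.finite_range _)).union (Set.toFinite _)
  have hCF : Cs ⊆ S.Ft := right_subset_adj _ _
  obtain ⟨T0, hT0, hT0'⟩ := exists_fin' (K := S.k0) (T := Cs) (hCs.toFinset.image S.θ) (by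
    intro z hz
    obtain ⟨z', hz', rfl⟩ := Finset.mem_image.1 hz
    exact (S.θ_Ft z').1 (hCF (hCs.mem_toFinset.1 hz')))
  obtain ⟨k1, hk1, hT1, halg, ϖ, hϖ, ϖ0, ϖ1, hd⟩ := S.disc
    (T0 ∪ {S.E.a₁, S.E.a₂, S.E.a₃, S.E.a₄, S.E.a₆, S.xP 0, S.yP 0}) (by
      obtain ⟨h1, h2, h3, h4, h6⟩ := S.coeff_k0
      intro z hz
      simp only [Finset.coe_union, Finset.coe_insert, Finset.coe_singleton, Set.mem_union,
        Set.mem_insert_iff, Set.mem_singleton_iff] at hz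
      rcases hz with hz | rfl | rfl | rfl | rfl | rfl | rfl | rfl
      exacts [hT0 hz, h1, h2, h3, h4, h6, S.P0.1, S.P0.2])
  have hE1 : CoeffIn S.E k1 :=
    ⟨hT1 (by simp), hT1 (by simp), hT1 (by simp), hT1 (by simp), hT1 (by simp)⟩
  let K1 : Subfield U := adj k1 (Set.range S.xP ∪ Set.range S.yP)
  let F1 : Subfield U := adj k1 Cs
  have hK1F1 : K1 ≤ F1 := adj_mono le_rfl Set.subset_union_left
  have hF1 : F1 ≤ S.Ft := adj_mono hk1 le_rfl
  have hCF1 : Cs ⊆ F1 := right_subset_adj _ _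
  have hxF1 : S.x ∈ F1 := hCF1 (Or.inr (Or.inl rfl))
  have hyF1 : S.y ∈ F1 := hCF1 (Or.inr (Or.inr rfl))
  have hOm : ∀ z ∈ S.Om, Alg K1 z := fun z hz => (S.Om_alg z hz).trans fun t ht => by
    refine alg_adj (K := K1) (T := (S.k0 : Set U) ∪ (Set.range S.xP ∪ Set.range S.yP)) ?_ t ?_
    · rintro s (hs | hs)
      exacts [(halg s hs).mono (le_adj _ _), alg_of_mem (right_subset_adj _ _ hs)]
    · exact (adj_le.2 ⟨Set.subset_union_left.trans (right_subset_adj _ _),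
        Set.subset_union_right.trans (right_subset_adj _ _)⟩ : S.Kt ≤ _) ht
  have hσk : ∀ z ∈ S.k0, σ z = z := fun z hz =>
    (c.σ_θ z (Kt_le_Ft S (k0_le_Kt S hz))).trans (S.θ_k0 z hz)
  have hσF1 : ∀ z ∈ F1, σ z ∈ F1 := by
    refine map_adj (σ : U →+* U) (fun z hz => ?_) fun z hz => ?_
    · show σ z ∈ F1
      rw [hσk z (hk1 hz)]
      exact le_adj _ _ hz
    · show σ z ∈ F1
      rw [c.σ_θ z (hCF hz)]
      exact adj_mono (fun t ht => hT1 (by simp [ht])) le_rfl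
        (hT0' _ (Finset.mem_image_of_mem _ (hCs.mem_toFinset.2 hz)))
  have hσn : ∀ z ∈ F1, (σ ^ n) z = z := by
    have : ∀ i : ℕ, ∀ z ∈ S.Ft, (σ ^ i) z = (S.θ ^ i) z := by
      intro i
      induction i with
      | zero => exact fun _ _ => rfl
      | succ i ih =>
        intro z hz
        rw [pow_succ, pow_succ]
        show (σ ^ i) (σ z) = (S.θ ^ i) (S.θ z)
        rw [c.σ_θ z hz, ih _ ((S.θ_Ft z).1 hz)]
    exact fun z hz => (this n z (hF1 hz)).trans (S.θ_pow z (hF1 hz))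
  let F2 : Subfield U := F1 ⊓ fixedOf {σ}
  have hUF1 : ∀ z, Alg F1 z := alg_of_K1 S hOm hK1F1 hxF1 hyF1
  have hUF2 : ∀ z, Alg F2 z := fun z =>
    (hUF1 z).trans (alg_fixed F1 σ (NeZero.ne n) hσF1 hσn)
  obtain ⟨T', hT', hN⟩ := (openGal_holds U F2 hUF2 (A ∪ hCs.toFinset)).2.1
  let M : Subfield U := adj F2 T'
  have hF1M : F1 ≤ M := by
    refine adj_le.2 ⟨fun z hz => le_adj _ _ ⟨le_adj _ _ hz, ?_⟩, fun z hz => ?_⟩
    · rintro g rfl
      exact hσk z (hk1 hz)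
    · exact right_subset_adj _ _ (hT' (by simp [hz]))
  have hF1L : F1 ≤ L ⊓ M := le_inf (hF1.trans (hFt.trans hFL)) hF1M
  have hσF2 : σ ∈ Fix (F2 : Set U) := fun z hz => hz.2 σ rfl
  have hCF1' : CoeffIn S.E F1 := AmbGal.cmono hE1 (le_adj _ _)
  refine ⟨K1, L ⊓ M, inf_le_left, fun z hz => ⟨hA hz, right_subset_adj _ _ (hT' (by simp [hz]))⟩,
    hF1L hxF1, hF1L hyF1, fun g hg z hz => ⟨c.normal.stab g hg z hz.1,
      hN.stab g (Fix_anti (inf_le_left.trans (hF1.trans hFt) : F2 ≤ _) hg) z hz.2⟩,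
    fun z => and_congr (c.σ_L z) (stab_iff hN.stab hσF2 z), fun j z hz => ?_, ?_,
    hK1F1.trans hF1L, adj_mono hk1 le_rfl, hOm, AmbGal.cmono hE1 (le_adj _ _),
    fun j => ⟨right_subset_adj _ _ (Or.inl ⟨j, rfl⟩), right_subset_adj _ _ (Or.inr ⟨j, rfl⟩)⟩⟩
  · refine (hDer U F1 hUF1).2.2 (S.D j) F1 (L ⊓ M) hF1L (fun t ht => hF1L ?_) z hz (hUF1 z)
    refine der_adj (S.D j) le_rfl (fun t ht => ?_) (fun t ht => ?_) t ht
    · rw [S.D_k0 j t (hk1 ht)]
      exact zero_mem _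
    · have hi : ∀ (a : Prop) [Decidable a], (if a then (1 : U) else 0) ∈ F1 := fun a _ => by
        split_ifs
        exacts [one_mem _, zero_mem _]
      rcases ht with (⟨l, rfl⟩ | ⟨l, rfl⟩) | rfl | rfl
      · rw [S.D_xP]
        exact mul_mem (sub_mem (hi _) (hi _)) (psi_mem hCF1' (hCF1 (Or.inl (Or.inl ⟨l, rfl⟩)))
          (hCF1 (Or.inl (Or.inr ⟨l, rfl⟩)))).1
      · rw [S.D_yP]
        exact mul_mem (sub_mem (hi _) (hi _)) (psi_mem hCF1' (hCF1 (Or.inl (Or.inl ⟨l, rfl⟩)))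
          (hCF1 (Or.inl (Or.inr ⟨l, rfl⟩)))).2
      · rw [S.D_x]
        split_ifs
        exacts [(psi_mem hCF1' hxF1 hyF1).1, zero_mem _]
      · rw [S.D_y]
        split_ifs
        exacts [(psi_mem hCF1' hxF1 hyF1).2, zero_mem _]
  · let XX : ZMod n → U := fun j => if j = 0 then S.x else S.xP j
    let YY : ZMod n → U := fun j => if j = 0 then S.y else S.yP j
    let F1' : Subfield U := adj k1 (Set.range XX ∪ Set.range YY)
    have hF1' : F1 ≤ F1' := by
      refine adj_le.2 ⟨le_adj _ _, ?_⟩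
      rintro t ((⟨l, rfl⟩ | ⟨l, rfl⟩) | rfl | rfl)
      · by_cases hl : l = 0
        · exact le_adj _ _ (hT1 (by simp [hl]))
        · exact right_subset_adj _ _ (Or.inl ⟨l, by simp [XX, hl]⟩)
      · by_cases hl : l = 0
        · exact le_adj _ _ (hT1 (by simp [hl]))
        · exact right_subset_adj _ _ (Or.inr ⟨l, by simp [YY, hl]⟩)
      · exact right_subset_adj _ _ (Or.inl ⟨0, by simp [XX]⟩)
      · exact right_subset_adj _ _ (Or.inr ⟨0, by simp [YY]⟩)
    have hv := (hGT U k1 S.E (ZMod n) XX YY S.w hE1 S.coeff_int S.wΔ (fun j => by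
      simp only [XX, YY]
      split_ifs
      exacts [S.eqn, S.eqnP j]) (fun j => by
      simp only [XX]
      split_ifs
      exacts [S.wx, S.wP j]) (fun f hf m => S.gaussAll f (fun m => hk1 (hf m)) m)).1
    obtain ⟨t, -, t0, t1, ht⟩ := discExt_holds U ℝ≥0 S.w F1' T'
      (fun z _ => (hUF1 z).mono hF1') ⟨ϖ, le_adj _ _ hϖ, ϖ0, ϖ1, fun z hz z0 => by
        obtain ⟨a, ha, e⟩ := hv z hz
        have a0 : a ≠ 0 := by
          rintro rfl
          rw [map_zero] at e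
          exact z0 ((Valuation.zero_iff _).1 e)
        obtain ⟨m, hm⟩ := hd a ha a0
        exact ⟨m, by rw [e, hm, map_zpow₀]⟩⟩
    exact disc_sub S.w (L ⊓ M) t0 t1
      (fun z hz => ht z (adj_mono (inf_le_left.trans hF1' : F2 ≤ F1') le_rfl hz.2))
      (hF1L (le_adj _ _ hϖ)) ϖ0 ϖ1

end small

section core

variable {p n : ℕ} {U : Type} [Field U] (S : Setup p n U)

theorem Ft_le_Fb : S.Ft ≤ S.Fb := by
  refine adj_le.2 ⟨fun c hc => left_subset_adj _ _ (S.k0_le c hc), ?_⟩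
  rintro c ((⟨j, rfl⟩ | ⟨j, rfl⟩) | hc)
  exacts [left_subset_adj _ _ (S.P_mem j).1, left_subset_adj _ _ (S.P_mem j).2,
    right_subset_adj _ _ hc]

theorem x_ne (j) : S.x - S.xP j ≠ 0 := fun h =>
  transc_iff_not_alg.1 S.transc (alg_of_mem (sub_eq_zero.1 h ▸ (S.P_mem j).1))

theorem isPl_or {K1 : Subfield U} (h : ∀ z ∈ S.Om, Alg K1 z) (V : ValuationSubring U)
    (hV : ∀ c ∈ K1, c ∈ V) : S.IsPl V ∨ ∀ z, z ∈ V := by
  by_cases h1 : ∃ z ∈ S.Fb, z ∉ V
  · exact Or.inl ⟨fun c => mem_of_alg V hV (h _ ⟨c, rfl⟩), h1⟩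
  · push Not at h1
    exact Or.inr fun z => mem_of_alg V h1 (S.U_alg z)

theorem val_top {V : ValuationSubring U} (h : ∀ z, z ∈ V) {z : U} (hz : V.valuation z < 1) :
    z = 0 := by
  by_contra z0
  have := (V.valuation_le_one_iff _).2 (h z⁻¹)
  rw [map_inv₀, inv_le_one₀ (zero_lt_iff.2 ((Valuation.ne_zero_iff _).2 z0))] at this
  exact hz.not_ge this

theorem σ_F {K' L : Subfield U} {σ : RingAut U} (c : S.Cover K' L σ) :
    ∀ z ∈ adj K' {S.x, S.y}, σ.symm z ∈ adj K' {S.x, S.y} := by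
  have h : ∀ z ∈ S.Ft, σ.symm z ∈ adj K' {S.x, S.y} := by
    intro z hz
    have h1 : S.θ.symm z ∈ S.Ft := (S.θ_Ft _).2 (by rwa [RingEquiv.apply_symm_apply])
    have h2 : σ.symm z = S.θ.symm z := by
      rw [RingEquiv.symm_apply_eq, c.σ_θ _ h1, RingEquiv.apply_symm_apply]
    rw [h2]
    exact Ft_le S c.Kt_le h1
  refine map_adj (σ.symm : U →+* U) (fun z hz => le_adj _ _ ((c.σ_K _).2 ?_)) ?_
  · simpa using hz
  · rintro z (rfl | rfl)
    exacts [h _ (x_Ft S), h _ (y_Ft S)]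

theorem zeta_ex [Fact p.Prime] : ∃ ζ ∈ S.k0, IsPrimitiveRoot ζ p := by
  have hp : p ≠ 0 := (Fact.out : p.Prime).ne_zero
  have h := (Complex.isPrimitiveRoot_exp p hp).map_of_injective S.i.injective
  refine ⟨_, S.k0_alg _ ⟨X ^ p - 1, ?_, ?_, ?_⟩, h⟩
  · exact (monic_X_pow_sub_C 1 hp).ne_zero
  · exact mem_polyIn.1 (sub_mem (pow_mem X_mem_polyIn _) (one_mem _))
  · simp only [eval_sub, eval_pow, eval_X, eval_one]
    rw [h.pow_eq_one, sub_self]

theorem infin [NeZero n] (hn : 1 < n) : ∃ j : ZMod n, ∀ a b : ℕ, a ≠ b →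
    S.w (S.xP j ^ a - S.xP j ^ b) = 1 := by
  haveI : Fact (1 < n) := ⟨hn⟩
  refine ⟨1, fun a b hab => le_antisymm ?_ ?_⟩
  · refine (Valuation.map_sub _ _ _).trans (max_le ?_ ?_) <;> rw [map_pow] <;>
      exact pow_le_one₀ zero_le (S.wP 1)
  · have := S.gaussAll (MvPolynomial.X 1 ^ a - MvPolynomial.X 1 ^ b) (fun m => by
      rw [MvPolynomial.coeff_sub, MvPolynomial.coeff_X_pow, MvPolynomial.coeff_X_pow]
      refine sub_mem ?_ ?_ <;> split_ifs <;> first | exact one_mem _ | exact zero_mem _)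
      (Finsupp.single 1 a)
    rw [MvPolynomial.coeff_sub, MvPolynomial.coeff_X_pow, MvPolynomial.coeff_X_pow, if_pos rfl,
      if_neg (fun h => hab (Finsupp.single_injective _ h).symm)] at this
    simpa using this

end core

end DescentH

open DescentH in
theorem thmG_of (hH : HorizStmt) (hDw : DwStmt) (hSp : SpecStmt) (hRes : ResidueStmt)
    (hC : CoreStmt) (hDer : DerExtStmt) (hGT : GaussTowerStmt) : ThmGStmt := by
  intro p _ n _ U _ S K' L σ c
  haveI := charZero S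
  haveI := S.algClosed
  have hHo := hH p n U S K' L σ c
  have hD := hDw p n U S K' L σ c
  obtain ⟨π0, hπ0, ⟨C, hC1⟩, ⟨j0, z0, hz0, c0, hc0, hC2⟩, hC3⟩ := hSp p n U S K' L σ c
  obtain ⟨R, _, rd, kb, Eb, σb, Q, r1, r2, r3, r4, r5, r6, r7, r8, r9, r10, r11, r12, r13, r14,
    r15⟩ := hRes p n U S K' L σ c
  obtain ⟨ζ, hζ0, hζ⟩ := zeta_ex S
  obtain ⟨T, hT⟩ := c.normal.fin
  set F' : Subfield U := adj K' {S.x, S.y} with hF'
  have hFL : F' ≤ L := by rw [hT]; exact le_adj _ _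
  have hFt : S.Ft ≤ F' := Ft_le S c.Kt_le
  have hKt : S.Kt ≤ F' := (Kt_le_Ft S).trans hFt
  have hk0 : S.k0 ≤ F' := (k0_le_Kt S).trans hKt
  have hTL : (T : Set U) ⊆ L := by rw [hT]; exact right_subset_adj _ _
  obtain ⟨K1, L1, s⟩ := exists_small S hDer hGT c (T ∪ {π0, ζ, z0}) (by
    intro z hz
    simp only [Finset.coe_union, Finset.coe_insert, Finset.coe_singleton, Set.mem_union,
      Set.mem_insert_iff, Set.mem_singleton_iff] at hz
    rcases hz with hz | rfl | rfl | rfl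
    exacts [hTL hz, hFL (hk0 hπ0), hFL (hk0 hζ0), hz0])
  have hπ1 : π0 ∈ L1 := s.A_sub (by simp)
  have hζ1 : ζ ∈ L1 := s.A_sub (by simp)
  have hz1 : z0 ∈ L1 := s.A_sub (by simp)
  have hKtO : S.Kt ≤ S.Om := c.Kt_le.trans c.le_Om
  have hk0O : S.k0 ≤ S.Om := (k0_le_Kt S).trans hKtO
  let K2 : Subfield U := S.Om ⊓ F' ⊓ L1
  have hK12 : K1 ≤ K2 := le_inf (le_inf (s.K1_Kt.trans hKtO) (s.K1_Kt.trans hKt)) s.K1_le
  have hK2O : K2 ≤ S.Om := inf_le_left.trans inf_le_left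
  have hK2F : K2 ≤ F' := inf_le_left.trans inf_le_right
  have hK2L : K2 ≤ L1 := inf_le_right
  have halg2 : ∀ z ∈ S.Om, Alg K2 z := fun z hz => (s.alg z hz).mono hK12
  have hxF : S.x ∈ F' := hFt (x_Ft S)
  have hyF : S.y ∈ F' := hFt (y_Ft S)
  have hUF : ∀ z, Alg F' z := alg_of_K1 S halg2 hK2F hxF hyF
  let H : Subgroup (RingAut U) := Fix (F' : Set U)
  let res : H →* RingAut L1 := resHom L1 H s.stab
  have hker : res.ker = (Fix (L : Set U)).subgroupOf H := by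
    ext g
    rw [MonoidHom.mem_ker, Subgroup.mem_subgroupOf]
    constructor
    · intro hg
      rw [hT, mem_Fix_adj]
      exact ⟨g.2, fun z hz =>
        congrArg (fun e : RingAut L1 => (e ⟨z, s.A_sub (by simp [hz])⟩ : U)) hg⟩
    · exact fun hg => RingEquiv.ext fun z => Subtype.ext (hg z (s.le z.2))
  have hcard : Nat.card res.range = (Fix (L : Set U)).relIndex H := by
    rw [← Subgroup.index_ker, hker]
    rfl
  have hfin : Finite res.range := by
    apply Nat.finite_of_card_ne_zero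
    rw [hcard, hT]
    exact (openGal_holds U F' hUF T).1
  have hn : 1 < n := by
    have h1 : 0 < Nat.card res.range := Nat.card_pos
    have h2 : (Fix (L : Set U)).relIndex H < n := c.index
    omega
  have hG : ∀ g : res.range, ∃ g' ∈ H, ∀ z : L1, ((g • z : L1) : U) = g' z := by
    rintro ⟨_, g, rfl⟩
    exact ⟨g.1, g.2, fun _ => rfl⟩
  have hG' : ∀ g' ∈ H, ∃ g : res.range, ∀ z : L1, ((g • z : L1) : U) = g' z :=
    fun g' hg' => ⟨⟨_, ⟨g', hg'⟩, rfl⟩, fun _ => rfl⟩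
  have hfix : ∀ z : L1, (∀ g : res.range, g • z = z) ↔ (z : U) ∈ F' := by
    intro z
    constructor
    · intro h
      rw [← fixedFix_holds U F' hUF]
      intro g' hg'
      obtain ⟨g, hg⟩ := hG' g' hg'
      rw [← hg, h]
    · intro h g
      obtain ⟨g', hg', e⟩ := hG g
      exact Subtype.ext ((e z).trans (hg' _ h))
  choose D1 hD1 using fun j => exists_resD L1.subtype (S.D j)
    fun z => ⟨⟨_, s.D_stab j z z.2⟩, rfl⟩
  have hD1' : ∀ j (z : L1), (D1 j z : U) = S.D j z := hD1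
  obtain ⟨e1, e2, e3, e4, e6⟩ := s.coeff
  let E1 : WeierstrassCurve L1 :=
    ⟨⟨_, s.K1_le e1⟩, ⟨_, s.K1_le e2⟩, ⟨_, s.K1_le e3⟩, ⟨_, s.K1_le e4⟩, ⟨_, s.K1_le e6⟩⟩
  have hE1 : E1.map L1.subtype = S.E := rfl
  let x1 : L1 := ⟨_, s.x_mem⟩
  let y1 : L1 := ⟨_, s.y_mem⟩
  let xP1 : ZMod n → L1 := fun j => ⟨_, s.K1_le (s.P_mem j).1⟩
  let yP1 : ZMod n → L1 := fun j => ⟨_, s.K1_le (s.P_mem j).2⟩
  have hext : ∀ V : ValuationSubring L1, (∀ a ∈ K2.comap L1.subtype, a ∈ V) →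
      ∃ V' : ValuationSubring U, (∀ z : L1, z ∈ V ↔ (z : U) ∈ V') ∧ (S.IsPl V' ∨ ∀ z, z ∈ V') ∧
        (∀ a b : L1, V.valuation a ≤ V.valuation b ↔ V'.valuation a ≤ V'.valuation b) ∧
        (∀ a : L1, V.valuation a < 1 ↔ V'.valuation a < 1) ∧
        (∀ j, Above V x1 y1 (xP1 j) (yP1 j) ↔ S.Ab V' j) ∧ ∀ j, S.Ab V' j → S.IsPl V' := by
    intro V hV
    obtain ⟨V', hV'⟩ := valExt_holds.1 L1 U L1.subtype V
    have he := equiv_comap L1.subtype hV'
    have hor := isPl_or S halg2 V' fun a ha => (hV' ⟨a, hK2L ha⟩).1 (hV _ ha)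
    refine ⟨V', hV', hor, fun a b => he a b, fun a => he.lt_one_iff_lt_one,
      fun j => and_congr he.lt_one_iff_lt_one he.lt_one_iff_lt_one, fun j hj => ?_⟩
    exact hor.resolve_right fun h => x_ne S j (val_top h hj.1)
  have hσk : ∀ z ∈ S.k0, σ z = z := fun z hz =>
    (c.σ_θ z (Kt_le_Ft S (k0_le_Kt S hz))).trans (S.θ_k0 z hz)
  have hfaith : ∀ g : res.range, (∀ z : L1, g • z = z) → g = 1 := fun g h =>
    Subtype.ext (RingEquiv.ext h)
  let core : Core p n L1 res.range R :=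
    { w := S.w.comap L1.subtype
      K := K2.comap L1.subtype
      E := E1
      x := x1
      y := y1
      xP := xP1
      yP := yP1
      D := D1
      π0 := ⟨π0, hπ1⟩
      ζ := ⟨ζ, hζ1⟩
      σ := resEq L1 σ s.σ_stab
      rd := fun z => rd z
      kb := kb
      Eb := Eb
      σb := σb
      Q := Q
      charZero := inferInstance
      fin := hfin
      card := hcard ▸ c.index
      faith := hfaith
      fixed := fun z => by
        rw [hfix, mem_adj_sub hK2L]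
        refine ⟨fun hz => ?_, fun hz => adj_le.2 ⟨hK2F, right_subset_adj _ _⟩ hz⟩
        have hU : ∀ t, Alg (F' ⊓ L1) t := alg_of_K1 S halg2 (le_inf hK2F hK2L)
          ⟨hxF, s.x_mem⟩ ⟨hyF, s.y_mem⟩
        have := normalForm_holds U S.Om S.E S.x S.y (Fix ((F' ⊓ L1 : Subfield U) : Set U))
          (AmbGal.cmono S.coeff_k0 hk0O) (fun h => by simpa [h] using S.wΔ) S.eqn S.transc
          (fun g hg => ?_) z (adj_mono c.le_Om le_rfl hz) (fun g hg => hg _ ⟨hz, z.2⟩)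
        · rwa [fixedFix_holds U _ hU, ← inf_assoc] at this
        · have hg2 : g ∈ Fix (K2 : Set U) := Fix_anti (le_inf hK2F hK2L : K2 ≤ F' ⊓ L1) hg
          exact ⟨fun t ht => range_closed S.i ((aut_alg hg2 (halg2 t ht)).mono hK2O),
            hg _ ⟨hxF, s.x_mem⟩, hg _ ⟨hyF, s.y_mem⟩,
            AmbGal.cmono s.coeff fun a ha => hg2 a (hK12 ha)⟩
      wp := by simpa using S.wp
      disc := by
        obtain ⟨ϖ, hϖ, ϖ0, ϖ1, h⟩ := s.disc
        exact ⟨⟨ϖ, hϖ⟩, fun e => ϖ0 (congrArg Subtype.val e), ϖ1,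
          fun z hz => h z z.2 fun e => hz (Subtype.ext e)⟩
      coeff_K := ⟨hK12 e1, hK12 e2, hK12 e3, hK12 e4, hK12 e6⟩
      coeff_int := S.coeff_int
      coeff_D := fun j => by
        obtain ⟨h1, h2, h3, h4, h6⟩ := S.coeff_k0
        exact ⟨Subtype.ext ((hD1' j _).trans (S.D_k0 j _ h1)),
          Subtype.ext ((hD1' j _).trans (S.D_k0 j _ h2)),
          Subtype.ext ((hD1' j _).trans (S.D_k0 j _ h3)),
          Subtype.ext ((hD1' j _).trans (S.D_k0 j _ h4)),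
          Subtype.ext ((hD1' j _).trans (S.D_k0 j _ h6))⟩
      wΔ := by
        rw [Valuation.comap_apply, ← WeierstrassCurve.map_Δ, hE1]
        exact S.wΔ
      eqn := (WeierstrassCurve.Affine.map_equation _ L1.subtype.injective _ _).1 S.eqn
      eqnP := fun j =>
        (WeierstrassCurve.Affine.map_equation _ L1.subtype.injective _ _).1 (S.eqnP j)
      P_mem := fun j => ⟨hK12 (s.P_mem j).1, hK12 (s.P_mem j).2⟩
      wx := S.wx
      wP := S.wP
      wP_sub := S.wP_sub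
      wP_psi := S.wP_psi
      gauss := fun f hf k => by
        have := S.gauss (f.map L1.subtype) (fun k => by rw [coeff_map]; exact hK2O (hf k)) k
        rwa [coeff_map, eval_map, show S.x = L1.subtype x1 from rfl, eval₂_at_apply] at this
      infin := by
        obtain ⟨j, hj⟩ := infin S hn
        refine ⟨fun a => xP1 j ^ a, fun a => ⟨pow_mem (hK12 (s.P_mem j).1) a, ?_⟩, hj⟩
        rw [map_pow]
        exact pow_le_one₀ zero_le (S.wP j)
      uniq := fun z hz g => by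
        obtain ⟨g', hg', e⟩ := hG g
        show S.w ((g • z : L1) : U) = S.w z
        rw [e]
        exact c.uniq g' hg' z (s.le z.2)
          (range_closed S.i (alg_map L1.subtype (fun a ha => hK2O ha) hz))
      D_comm := fun j l z => Subtype.ext (by rw [hD1', hD1', hD1', hD1', S.D_comm])
      D_equiv := fun j g z => by
        obtain ⟨g', hg', e⟩ := hG g
        exact Subtype.ext (by rw [hD1', e, e, hD1', (hD j).2.2.2.1 g' (Fix_anti hFt hg')])
      D_w := fun j f hf => by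
        show S.w (D1 j f : U) ≤ S.w f
        rw [hD1']
        exact ((hD j).2.2.2.2.2 f ((hfix f).1 hf)).2
      π0_mem := ⟨⟨hk0O hπ0, hk0 hπ0⟩, hπ1⟩
      π0_D := fun j => Subtype.ext ((hD1' j _).trans (S.D_k0 j _ hπ0))
      ζ_mem := ⟨⟨hk0O hζ0, hk0 hζ0⟩, hζ1⟩
      ζ_D := fun j => Subtype.ext ((hD1' j _).trans (S.D_k0 j _ hζ0))
      ζ_prim := IsPrimitiveRoot.of_map_of_injective (f := L1.subtype) hζ L1.subtype.injective
      spec1 := ⟨C, fun j k z a ha => by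
        rw [Valuation.comap_apply, map_dE L1.subtype (hD1 j)]
        refine hC1 j k z (s.le z.2) a fun g' hg' => ?_
        obtain ⟨g, e⟩ := hG' g' hg'
        rw [← e]
        exact ha g⟩
      spec2 := ⟨j0, ⟨z0, hz1⟩, c0, hc0, fun e => by
        obtain ⟨g', hg', h⟩ := hC2 e
        obtain ⟨g, hg⟩ := hG' g' hg'
        refine ⟨g, ?_⟩
        show c0 ≤ S.w ((g • _ : L1) : U)
        rw [hg]
        exact h.trans_eq (congrArg (fun t => S.w (g' t))
          (map_dE L1.subtype (hD1 j0) ⟨π0, hπ1⟩ (p ^ e) ⟨z0, hz1⟩).symm)⟩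
      spec3 := by simpa using hC3
      pres := fun V hV j hj z hz => by
        obtain ⟨V', h1, h2, -, -, h5, -⟩ := hext V hV
        rw [h1, hD1']
        rcases h2 with h2 | h2
        · exact hHo.pres V' h2 j (mt (h5 j).2 hj) z (s.le z.2) ((h1 z).1 hz)
        · exact h2 _
      log := fun V hV j l hl hjl z => by
        obtain ⟨V', -, -, h3, -, h5, h6⟩ := hext V hV
        rw [h3, hD1']
        exact hHo.log V' (h6 l ((h5 l).1 hl)) j l ((h5 l).1 hl) hjl z (s.le z.2)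
      log' := fun V hV j hj z => by
        obtain ⟨V', -, -, h3, -, h5, h6⟩ := hext V hV
        rw [h3]
        have := hHo.log' V' (h6 j ((h5 j).1 hj)) j ((h5 j).1 hj) z (s.le z.2)
        rwa [← hD1'] at this
      inert := fun V hV hj g hg => by
        obtain ⟨V', h1, h2, h3, h4, h5, -⟩ := hext V hV
        apply hfaith
        rcases h2 with h2 | h2
        · obtain ⟨t, ht, t0, ht'⟩ := hHo.gen V' h2 (fun ⟨j, h⟩ => hj ⟨j, (h5 j).2 h⟩) K2 hK2O
            (AmbGal.cmono s.coeff hK12) halg2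
          have htL : t ∈ L1 := adj_le.2 ⟨hK2L, by rintro _ (rfl | rfl); exacts [s.x_mem, s.y_mem]⟩ ht
          have htF : t ∈ F' := adj_le.2 ⟨hK2F, right_subset_adj _ _⟩ ht
          have hT := tame_holds L1 _ V.valuation ⊤ g.1 fun _ _ => trivial
          have hm : ((orderOf g : ℕ) : L1) ≠ 0 := Nat.cast_ne_zero.2 (orderOf_pos g).ne'
          refine fun z => hT.1 (orderOf g) ?_ (fun z _ => ?_) (hT.2 ⟨t, htL⟩ trivial
            (fun z _ z0 => ?_) (fun z _ hz => hg z ((V.valuation_le_one_iff z).1 hz)) ?_) z trivial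
          · refine le_antisymm ((V.valuation_le_one_iff _).2 (hV _ (natCast_mem _ _))) ?_
            have := (V.valuation_le_one_iff _).2 (hV _ (inv_mem (natCast_mem _ (orderOf g))))
            rwa [map_inv₀, inv_le_one₀ (zero_lt_iff.2 ((Valuation.ne_zero_iff _).2 hm))] at this
          · have : (g ^ orderOf g) • z = z := by rw [pow_orderOf_eq_one, one_smul]
            rw [← smul_iterate_apply] at this
            exact this
          · obtain ⟨k, hk⟩ := ht' z (s.le z.2) fun e => z0 (Subtype.ext e)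
            rw [← show (((⟨t, htL⟩ : L1) ^ k : L1) : U) = t ^ k from map_zpow₀ L1.subtype _ k] at hk
            exact ⟨k, le_antisymm ((h3 _ _).2 hk.le) ((h3 _ _).2 hk.ge)⟩
          · have : g.1 ⟨t, htL⟩ = ⟨t, htL⟩ := (hfix ⟨t, htL⟩).2 htF g
            rw [this, sub_self, map_zero]
            exact zero_lt_iff.2 ((Valuation.ne_zero_iff _).2 fun e => t0 (congrArg Subtype.val e))
        · exact fun z => sub_eq_zero.1
            (val_top (fun z => (h1 z).2 (h2 _)) (hg z ((h1 z).2 (h2 _))))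
      σ_w := fun z => c.σ_w z
      σ_G := fun g => by
        obtain ⟨g', hg', e⟩ := hG g
        obtain ⟨g2, e2⟩ := hG' (σ * g' * σ⁻¹) (fun z hz => by
          show σ (g' (σ.symm z)) = z
          rw [hg' _ (σ_F S c z hz), RingEquiv.apply_symm_apply])
        refine ⟨g2, fun z => Subtype.ext ?_⟩
        rw [e2]
        show σ ((g • z : L1) : U) = σ (g' (σ.symm (σ z)))
        rw [e, RingEquiv.symm_apply_apply]
      σ_D := fun j z => Subtype.ext (by
        rw [hD1']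
        show σ (D1 j z : U) = S.D (j + 1) (σ z)
        rw [hD1', (hD j).2.2.2.2.1])
      σ_π0 := Subtype.ext (hσk _ hπ0)
      σ_ζ := Subtype.ext (hσk _ hζ0)
      red := ⟨r1.one, fun a b => r1.add a b, fun a b => r1.mul a b, fun a => r1.eq_zero a⟩
      charP := r2
      kb_alg := r3
      rd_K := fun a ha => r4 a (hK2O ha)
      kb_over := fun z hz => (r5 K2 halg2 z hz).mono (Subfield.closure_mono (by
        rintro _ ⟨a, ⟨ha, ha'⟩, rfl⟩
        exact ⟨⟨a, hK2L ha⟩, ⟨ha, ha'⟩, rfl⟩))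
      transc := r6
      R_alg := r7
      Eb_eq := r8
      σb_rd := fun z => r9 z
      σb_kb := r10
      σb_E := r11
      Q_on := r12
      σb_a := r13
      σb_P := r14
      period := r15 }
  obtain ⟨Γ, hΓn, hΓp, hΓ0⟩ := hC p n L1 res.range R core
  have hmem : ∀ g : H, g.1 ∈ Fix (L : Set U) ↔ res.rangeRestrict g = 1 := fun g => by
    rw [← Subgroup.mem_subgroupOf, ← hker, ← MonoidHom.ker_rangeRestrict, MonoidHom.mem_ker]
  refine ⟨(Γ.comap res.rangeRestrict).map H.subtype, lt_of_le_of_ne (fun g hg => ?_) fun h => ?_,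
    Subgroup.map_subtype_le _, ?_, ?_⟩
  · refine ⟨⟨g, Fix_anti hFL hg⟩, ?_, rfl⟩
    show res.rangeRestrict _ ∈ Γ
    rw [(hmem _).1 hg]
    exact one_mem _
  · refine hΓ0 (eq_bot_iff.2 fun γ hγ => ?_)
    obtain ⟨g, rfl⟩ := res.rangeRestrict_surjective γ
    exact (hmem g).1 (h ▸ ⟨g, hγ, rfl⟩)
  · rintro g hg _ ⟨r, hr, rfl⟩
    exact ⟨_, (hΓn.comap res.rangeRestrict).conj_mem r hr ⟨g, hg⟩, rfl⟩
  · rintro _ ⟨r, hr, rfl⟩
    obtain ⟨k, hk⟩ := hΓp ⟨_, hr⟩
    refine ⟨k, (hmem (r ^ p ^ k)).2 ?_⟩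
    rw [map_pow]
    exact congrArg Subtype.val hk

end P179W
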