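import Vale.Agent.P179W.Stmts

/-!
# P179W : maps of points (B1), the line through two points, the invariant differential (B9)
-/

set_option linter.all false

open scoped NNReal Classical
open WeierstrassCurve WeierstrassCurve.Affine

noncomputable section

namespace P179W

section
variable {K : Type} [Field K] {E : WeierstrassCurve K}

theorem pt_of {x y : K} (h : E.toAffine.Nonsingular x y) : pt E x y = .some x y h := dif_pos h

theorem pt_of_not {x y : K} (h : ¬ E.toAffine.Nonsingular x y) : pt E x y = 0 := dif_neg h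

theorem nonsing_iff (x y : K) : E.toAffine.Nonsingular x y ↔
    E.toAffine.Equation x y ∧ (phi E x y ≠ 0 ∨ psi E x y ≠ 0) := by
  rw [nonsingular_iff']
  refine and_congr Iff.rfl (or_congr ?_ Iff.rfl)
  unfold phi
  constructor <;> intro h h' <;> apply h <;> linear_combination -h'

theorem nonsing_of_Δ (hΔ : E.Δ ≠ 0) {x y : K} (h : E.toAffine.Equation x y) :
    E.toAffine.Nonsingular x y := (equation_iff_nonsingular_of_Δ_ne_zero hΔ).1 h

/-- the relations satisfied by the slope, in both cases of the addition law -/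
theorem slope_rel {x₁ x₂ y₁ y₂ : K} (h₁ : E.toAffine.Equation x₁ y₁) (h₂ : E.toAffine.Equation x₂ y₂)
    (hxy : ¬ (x₁ = x₂ ∧ y₁ = E.toAffine.negY x₂ y₂)) :
    y₁ - y₂ = E.toAffine.slope x₁ x₂ y₁ y₂ * (x₁ - x₂) ∧
    E.toAffine.slope x₁ x₂ y₁ y₂ * (y₁ + y₂ + E.a₁ * x₂ + E.a₃) =
      x₁ ^ 2 + x₁ * x₂ + x₂ ^ 2 + E.a₂ * (x₁ + x₂) + E.a₄ - E.a₁ * y₁ := by
  by_cases hx : x₁ = x₂
  · subst hx
    have hy : y₁ ≠ E.toAffine.negY x₁ y₂ := fun h => hxy ⟨rfl, h⟩
    have hyy : y₁ = y₂ := Y_eq_of_Y_ne h₁ h₂ rfl hy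
    subst hyy
    rw [slope_of_Y_ne rfl hy]
    have h2 : y₁ - E.toAffine.negY x₁ y₁ ≠ 0 := sub_ne_zero.2 hy
    refine ⟨by ring, ?_⟩
    rw [div_mul_eq_mul_div, div_eq_iff h2, negY]
    ring
  · rw [slope_of_X_ne hx]
    have h2 : x₁ - x₂ ≠ 0 := sub_ne_zero.2 hx
    refine ⟨by field_simp, ?_⟩
    rw [equation_iff] at h₁ h₂
    rw [div_mul_eq_mul_div, div_eq_iff h2]
    linear_combination h₁ - h₂

/-- the elementary symmetric functions of the three intersection points of a line -/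
theorem line_rel {x₁ x₂ y₁ y₂ : K} (h₁ : E.toAffine.Equation x₁ y₁) (h₂ : E.toAffine.Equation x₂ y₂)
    (hxy : ¬ (x₁ = x₂ ∧ y₁ = E.toAffine.negY x₂ y₂)) :
    ∃ l n x₃ : K, l = E.toAffine.slope x₁ x₂ y₁ y₂ ∧ x₃ = E.toAffine.addX x₁ x₂ l ∧
      y₁ = l * x₁ + n ∧ y₂ = l * x₂ + n ∧ E.toAffine.negAddY x₁ x₂ y₁ l = l * x₃ + n ∧
      x₁ + x₂ + x₃ = l ^ 2 + E.a₁ * l - E.a₂ ∧
      x₁ * x₂ + x₁ * x₃ + x₂ * x₃ = E.a₄ - 2 * l * n - E.a₁ * n - E.a₃ * l ∧
      x₁ * x₂ * x₃ = n ^ 2 + E.a₃ * n - E.a₆ := by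
  obtain ⟨hl, hk⟩ := slope_rel h₁ h₂ hxy
  set l := E.toAffine.slope x₁ x₂ y₁ y₂
  rw [equation_iff] at h₁
  refine ⟨l, y₁ - l * x₁, _, rfl, rfl, by ring, by linear_combination -hl, ?_, ?_, ?_, ?_⟩
  · rw [negAddY]; ring
  · rw [addX]; ring
  · rw [addX]; linear_combination hk + l * hl
  · rw [addX]; linear_combination x₁ * hk + x₁ * l * hl - h₁

end

theorem ptMap_holds : PtMapStmt := by
  intro K K' _ _ f E E' hE
  subst hE
  have hs : ∀ {x y : K} (h : E.toAffine.Nonsingular x y),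
      ptFun f (E.map f) (.some x y h : E.toAffine.Point) =
        .some (f x) (f y) ((map_nonsingular E.toAffine f.injective x y).2 h) :=
    fun h => pt_of _
  have h0 : ptFun f (E.map f) (0 : E.toAffine.Point) = 0 := rfl
  refine ⟨?_, ?_, ?_⟩
  · rintro (_ | ⟨x₁, y₁, h₁⟩) (_ | ⟨x₂, y₂, h₂⟩)
    · rfl
    · exact (zero_add _).symm
    · exact (add_zero _).symm
    rw [hs, hs]
    by_cases hxy : x₁ = x₂ ∧ y₁ = E.toAffine.negY x₂ y₂
    · rw [Point.add_of_Y_eq hxy.1 hxy.2, h0,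
        Point.add_of_Y_eq (by rw [hxy.1]) (by rw [hxy.2]; exact (map_negY f _ _).symm)]
    · have hxy' : ¬ (f x₁ = f x₂ ∧ f y₁ = (E.map f).toAffine.negY (f x₂) (f y₂)) := by
        rintro ⟨e1, e2⟩
        refine hxy ⟨f.injective e1, f.injective ?_⟩
        rw [e2]; exact map_negY f _ _
      rw [Point.add_some hxy, Point.add_some hxy', hs]
      congr 1
      · rw [← map_addX, ← map_slope]
      · rw [← map_addY, ← map_slope]
  · intro x y
    by_cases h : E.toAffine.Nonsingular x y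
    · rw [pt_of h]; rfl
    · rw [pt_of_not h, pt_of_not (fun h' => h ((map_nonsingular E.toAffine f.injective x y).1 h'))]
      rfl
  · rintro (_ | ⟨x₁, y₁, h₁⟩) (_ | ⟨x₂, y₂, h₂⟩) h
    · rfl
    · rw [hs] at h; exact absurd h.symm (Point.some_ne_zero _)
    · rw [hs] at h; exact absurd h (Point.some_ne_zero _)
    · rw [hs, hs] at h
      injection h with e1 e2
      obtain rfl := f.injective e1
      obtain rfl := f.injective e2
      rfl

/-! ## The invariant differential -/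

section Lam
variable {U : Type} [Field U] {E : WeierstrassCurve U} {δ : Derivation ℤ U U}

/-- `δ` moves the point `(x, y)` with speed `c` -/
def Speed (E : WeierstrassCurve U) (δ : Derivation ℤ U U) (x y c : U) : Prop :=
  δ x = c * psi E x y ∧ δ y = c * phi E x y

theorem Speed.unique {x y c c' : U} (h : E.toAffine.Nonsingular x y) (h₁ : Speed E δ x y c)
    (h₂ : Speed E δ x y c') : c = c' := by
  rcases ((nonsing_iff x y).1 h).2 with h0 | h0
  · exact mul_right_cancel₀ h0 (h₁.2.symm.trans h₂.2)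
  · exact mul_right_cancel₀ h0 (h₁.1.symm.trans h₂.1)

theorem der_two (δ : Derivation ℤ U U) : δ 2 = 0 := by
  have : (2 : U) = 1 + 1 := by norm_num
  rw [this, map_add, δ.map_one_eq_zero, add_zero]

theorem Speed.exists (hc : CoeffIn E {z | δ z = 0}) {x y : U} (h : E.toAffine.Nonsingular x y) :
    ∃ c, Speed E δ x y c := by
  obtain ⟨c1, c2, c3, c4, c6⟩ := hc
  simp only [Set.mem_setOf_eq] at c1 c2 c3 c4 c6
  obtain ⟨e, h0⟩ := (nonsing_iff x y).1 h
  rw [equation_iff] at e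
  have e' := congrArg δ e
  simp only [map_add, Derivation.leibniz, Derivation.leibniz_pow, c1, c2, c3, c4, c6, smul_eq_mul,
    nsmul_eq_mul] at e'
  have key : psi E x y * δ y = phi E x y * δ x := by
    unfold psi phi
    push_cast at e'
    linear_combination e'
  by_cases h1 : psi E x y = 0
  · have h2 := h0.resolve_right (not_not.2 h1)
    refine ⟨δ y / phi E x y, ?_, by field_simp⟩
    rw [h1, zero_mul] at key
    rw [h1, mul_zero]
    exact (mul_eq_zero.1 key.symm).resolve_left h2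
  · refine ⟨δ x / psi E x y, by field_simp, ?_⟩
    field_simp
    linear_combination key

theorem Speed.neg (hc : CoeffIn E {z | δ z = 0}) {x y c : U} (h : Speed E δ x y c) :
    Speed E δ x (E.toAffine.negY x y) (-c) := by
  obtain ⟨c1, c2, c3, c4, c6⟩ := hc
  simp only [Set.mem_setOf_eq] at c1 c2 c3 c4 c6
  obtain ⟨h1, h2⟩ := h
  constructor
  · rw [h1, negY]; unfold psi; ring
  · rw [negY]
    simp only [map_sub, map_neg, Derivation.leibniz, c1, c3, smul_eq_mul, h1, h2]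
    unfold psi phi; ring

section Coll
variable (hc : CoeffIn E {z | δ z = 0}) {x₁ x₂ x₃ l n c₁ c₂ c₃ : U}
include hc

theorem Speed.line (h₁ : Speed E δ x₁ (l * x₁ + n) c₁)
    (s1 : x₁ + x₂ + x₃ = l ^ 2 + E.a₁ * l - E.a₂)
    (s2 : x₁ * x₂ + x₁ * x₃ + x₂ * x₃ = E.a₄ - 2 * l * n - E.a₁ * n - E.a₃ * l) :
    c₁ * ((x₁ - x₂) * (x₁ - x₃)) = δ l * x₁ + δ n := by
  obtain ⟨a, b⟩ := h₁
  simp only [map_add, Derivation.leibniz, smul_eq_mul] at b
  unfold psi at a
  unfold phi at b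
  rw [a] at b
  linear_combination -b - 2 * c₁ * x₁ * s1 + c₁ * s2

theorem Speed.tangent (n₁ : E.toAffine.Nonsingular x₁ (l * x₁ + n))
    (h₁ : Speed E δ x₁ (l * x₁ + n) c₁) (h₃ : Speed E δ x₃ (l * x₃ + n) c₃)
    (n₃ : E.toAffine.Nonsingular x₃ (l * x₃ + n))
    (s1 : x₁ + x₁ + x₃ = l ^ 2 + E.a₁ * l - E.a₂)
    (s2 : x₁ * x₁ + x₁ * x₃ + x₁ * x₃ = E.a₄ - 2 * l * n - E.a₁ * n - E.a₃ * l) :
    c₁ + c₁ + c₃ = 0 := by
  have l1 := h₁.line hc s1 s2
  have l3 := h₃.line hc (x₂ := x₁) (x₃ := x₁) (by linear_combination s1) (by linear_combination s2)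
  have hψ : psi E x₁ (l * x₁ + n) ≠ 0 := by
    intro h0
    rcases ((nonsing_iff _ _).1 n₁).2 with h | h
    · apply h
      unfold psi at h0
      unfold phi
      linear_combination l * h0 + 2 * x₁ * s1 - s2
    · exact h h0
  obtain ⟨c1, c2, c3, c4, c6⟩ := hc
  simp only [Set.mem_setOf_eq] at c1 c2 c3 c4 c6
  have d1 := congrArg δ s1
  have d2 := congrArg δ s2
  simp only [map_add, map_sub, Derivation.leibniz, Derivation.leibniz_pow, c1, c2, c3, c4, der_two,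
    smul_eq_mul, nsmul_eq_mul] at d1 d2
  push_cast at d1 d2
  have hA : δ l = 2 * c₁ * (x₁ - x₃) := by
    apply mul_left_cancel₀ hψ
    have a := h₁.1
    unfold psi at a ⊢
    linear_combination (-2 * x₁) * d1 + d2 + (2 * l + E.a₁) * l1 + 2 * (x₁ - x₃) * a
  by_cases hx : x₃ = x₁
  · subst hx
    have e : c₃ = c₁ := h₃.unique n₃ h₁
    rw [e]
    apply mul_right_cancel₀ hψ
    have a := h₁.1
    rw [sub_self, mul_zero] at hA
    rw [hA] at d1
    linear_combination d1 - 3 * a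
  · have hx' : (x₃ - x₁) * (x₃ - x₁) ≠ 0 := mul_ne_zero (sub_ne_zero.2 hx) (sub_ne_zero.2 hx)
    apply mul_right_cancel₀ hx'
    linear_combination l3 - l1 + (x₃ - x₁) * hA

theorem Speed.collinear (n₁ : E.toAffine.Nonsingular x₁ (l * x₁ + n))
    (n₂ : E.toAffine.Nonsingular x₂ (l * x₂ + n)) (n₃ : E.toAffine.Nonsingular x₃ (l * x₃ + n))
    (h₁ : Speed E δ x₁ (l * x₁ + n) c₁) (h₂ : Speed E δ x₂ (l * x₂ + n) c₂)
    (h₃ : Speed E δ x₃ (l * x₃ + n) c₃)
    (s1 : x₁ + x₂ + x₃ = l ^ 2 + E.a₁ * l - E.a₂)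
    (s2 : x₁ * x₂ + x₁ * x₃ + x₂ * x₃ = E.a₄ - 2 * l * n - E.a₁ * n - E.a₃ * l) :
    c₁ + c₂ + c₃ = 0 := by
  by_cases h12 : x₂ = x₁
  · subst h12
    obtain rfl := h₁.unique n₁ h₂
    exact Speed.tangent hc n₁ h₁ h₃ n₃ s1 s2
  by_cases h13 : x₃ = x₁
  · subst h13
    obtain rfl := h₁.unique n₁ h₃
    have := Speed.tangent hc n₁ h₁ h₂ n₂ (by linear_combination s1) (by linear_combination s2)
    linear_combination this
  by_cases h23 : x₃ = x₂
  · subst h23
    obtain rfl := h₂.unique n₂ h₃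
    have := Speed.tangent hc n₂ h₂ h₁ n₁ (by linear_combination s1) (by linear_combination s2)
    linear_combination this
  have l1 := h₁.line hc s1 s2
  have l2 := h₂.line hc (x₂ := x₁) (x₃ := x₃) (by linear_combination s1) (by linear_combination s2)
  have l3 := h₃.line hc (x₂ := x₁) (x₃ := x₂) (by linear_combination s1) (by linear_combination s2)
  have hV : (x₂ - x₁) * (x₃ - x₁) * (x₃ - x₂) ≠ 0 :=
    mul_ne_zero (mul_ne_zero (sub_ne_zero.2 h12) (sub_ne_zero.2 h13)) (sub_ne_zero.2 h23)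
  apply mul_right_cancel₀ hV
  linear_combination (x₃ - x₂) * l1 - (x₃ - x₁) * l2 + (x₂ - x₁) * l3

end Coll

/-- the speed of a point -/
def lamFun (hc : CoeffIn E {z | δ z = 0}) : E.toAffine.Point → U
  | .zero => 0
  | .some _ _ h => (Speed.exists hc h).choose

theorem lamFun_spec (hc : CoeffIn E {z | δ z = 0}) {x y : U} (h : E.toAffine.Nonsingular x y) :
    Speed E δ x y (lamFun hc (.some x y h)) := (Speed.exists hc h).choose_spec

theorem lamFun_add (hc : CoeffIn E {z | δ z = 0}) (P Q : E.toAffine.Point) :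
    lamFun hc (P + Q) = lamFun hc P + lamFun hc Q := by
  rcases P with _ | ⟨x₁, y₁, h₁⟩
  · exact ((zero_add _).trans (congrArg (lamFun hc) (zero_add Q).symm)).symm
  rcases Q with _ | ⟨x₂, y₂, h₂⟩
  · exact (add_zero _).symm
  have a₁ := lamFun_spec hc h₁
  have a₂ := lamFun_spec hc h₂
  by_cases hxy : x₁ = x₂ ∧ y₁ = E.toAffine.negY x₂ y₂
  · rw [Point.add_of_Y_eq hxy.1 hxy.2]
    obtain ⟨rfl, rfl⟩ := hxy
    rw [a₁.unique h₁ (a₂.neg hc), neg_add_cancel]
    rfl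
  · rw [Point.add_some hxy]
    have h₃ := nonsingular_negAdd h₁ h₂ hxy
    have a₃ := (lamFun_spec hc h₃).neg hc
    rw [(lamFun_spec hc (nonsingular_add h₁ h₂ hxy)).unique (nonsingular_add h₁ h₂ hxy) a₃]
    have a₃' := lamFun_spec hc h₃
    generalize lamFun hc (.some _ _ h₃) = c₃ at a₃' ⊢
    generalize lamFun hc (.some _ _ h₁) = c₁ at a₁ ⊢
    generalize lamFun hc (.some _ _ h₂) = c₂ at a₂ ⊢
    obtain ⟨l, n, x₃, hl, hx₃, e₁, e₂, e₃, s1, s2, -⟩ := line_rel h₁.1 h₂.1 hxy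
    rw [← hl, ← hx₃, e₃] at h₃ a₃'
    rw [e₁] at h₁ a₁
    rw [e₂] at h₂ a₂
    have := Speed.collinear hc h₁ h₂ h₃ a₁ a₂ a₃' s1 s2
    linear_combination -this

end Lam

theorem lambda_holds : LambdaStmt := by
  intro U _ E δ hΔ hc
  refine ⟨⟨⟨lamFun hc, rfl⟩, lamFun_add hc⟩, fun x y h => ?_⟩
  rw [pt_of (nonsing_of_Δ hΔ h)]
  exact lamFun_spec hc (nonsing_of_Δ hΔ h)

end P179W
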