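import Vale.Agent.P179W.DivA
import Vale.Agent.P179W.PlaceB
import Vale.Agent.P179W.PtMap
import Vale.Agent.P179W.AmbVal
import Vale.Agent.P179W.AmbBasic

/-!
# P179W : divisors on an elliptic curve: product formula and Abel's theorem (B6a)
-/

set_option linter.all false

open scoped Classical nonZeroDivisors Polynomial.Bivariate
open Polynomial WeierstrassCurve WeierstrassCurve.Affine WeierstrassCurve.Affine.CoordinateRing

noncomputable section

namespace P179W

namespace DivH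

open Pl

variable {R : Type} [Field R] {k : Subfield R} {x y : R}

section loc

variable {E : WeierstrassCurve R} {V : ValuationSubring R}

/-- the standard uniformiser at a point -/
def unif (x y : R) : E.toAffine.Point → R
  | .zero => x / y
  | .some a b _ => if psi E a b = 0 then y - b else x - a

theorem vle (hV : ∀ c ∈ k, c ∈ V) : ∀ c ∈ k, V.valuation c ≤ 1 :=
  fun c hc => (V.valuation_le_one_iff c).2 (hV c hc)

theorem mem_of_lt (hV : ∀ c ∈ k, c ∈ V) {a : R} (ha : a ∈ k) (h : V.valuation (x - a) < 1) :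
    x ∈ V := by
  simpa using add_mem ((V.valuation_le_one_iff _).1 h.le) (hV a ha)

theorem eq_of_lt (hV : ∀ c ∈ k, c ∈ V) {a b : R} (ha : a ∈ k) (hb : b ∈ k)
    (h : V.valuation (x - a) < 1) (h' : V.valuation (x - b) < 1) : a = b := by
  by_contra e
  have := V.valuation.map_sub_lt h' h
  rw [sub_sub_sub_cancel_left, vk (vle hV) (sub_mem ha hb) (sub_ne_zero.2 e)] at this
  exact this.false

theorem cent_uniq (hV : ∀ c ∈ k, c ∈ V) {P Q : E.toAffine.Point} (hP : OnSet (k : Set R) P)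
    (hQ : OnSet (k : Set R) Q) (h : Cent V x y P) (h' : Cent V x y Q) : P = Q := by
  rcases P with _ | ⟨a, b, h1⟩ <;> rcases Q with _ | ⟨c, d, h2⟩
  · rfl
  · exact absurd (mem_of_lt hV hQ.1 h'.1) h
  · exact absurd (mem_of_lt hV hP.1 h.1) h'
  · obtain rfl := eq_of_lt hV hP.1 hQ.1 h.1 h'.1
    obtain rfl := eq_of_lt hV hP.2 hQ.2 h.2 h'.2
    rfl

theorem cent_ne (htr : Transc k x) {P : E.toAffine.Point} (hP : OnSet (k : Set R) P)
    (h : Cent V x y P) : ∃ z ∈ adj k {x, y}, z ∉ V := by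
  rcases P with _ | ⟨a, b, h1⟩
  · exact ⟨x, x_mem2 _ x y, h⟩
  · refine ⟨(x - a)⁻¹, inv_mem (sub_mem (x_mem2 _ x y) (mem_adj_base hP.1)), fun e => ?_⟩
    rw [← V.valuation_le_one_iff, map_inv₀,
      inv_le_one₀ (V.valuation.pos_iff.2 (transc_sub_ne htr hP.1))] at e
    exact e.not_gt h.1

/-- the hypotheses -/
structure Hyp (k : Subfield R) (E : WeierstrassCurve R) (x y : R) : Prop where
  alg : ∀ f : R[X], (∀ j, f.coeff j ∈ k) → 0 < f.natDegree → ∃ z ∈ k, f.eval z = 0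
  coeff : CoeffIn E k
  disc : E.Δ ≠ 0
  eqn : E.toAffine.Equation x y
  tr : Transc k x

theorem loc (H : Hyp k E x y) (hV : ∀ c ∈ k, c ∈ V) {P : E.toAffine.Point}
    (hP : OnSet (k : Set R) P) (h : Cent V x y P) :
    unif x y P ∈ adj k {x, y} ∧ unif x y P ≠ 0 ∧ V.valuation (unif x y P) < 1 ∧
      (∀ z ∈ adj k {x, y}, V.valuation z < 1 → V.valuation z ≤ V.valuation (unif x y P)) ∧
      (P = 0 → V.valuation x = V.valuation (x / y) ^ (-2 : ℤ) ∧
        V.valuation y = V.valuation (x / y) ^ (-3 : ℤ)) := by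
  obtain ⟨t, t1, t0, t2, t3, -, t4⟩ :=
    place_holds R k E x y H.alg H.coeff H.disc H.eqn H.tr V hV (cent_ne H.tr hP h)
  have key : unif x y P = t ∧ (P = 0 → V.valuation x = V.valuation (x / y) ^ (-2 : ℤ) ∧
      V.valuation y = V.valuation (x / y) ^ (-3 : ℤ)) := by
    rcases P with _ | ⟨a, b, h1⟩ <;> rcases t4 with ⟨h2, rfl, h3, h4⟩ | ⟨c, hc, d, hd, -, h2, h3⟩
    · exact ⟨rfl, fun _ => ⟨by rw [h3, map_zpow₀], by rw [h4, map_zpow₀]⟩⟩
    · exact absurd (mem_of_lt hV hc h2.1) h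
    · exact absurd (mem_of_lt hV hP.1 h.1) h2
    · obtain rfl := eq_of_lt hV hP.1 hc h.1 h2.1
      obtain rfl := eq_of_lt hV hP.2 hd h.2 h2.2
      refine ⟨?_, fun e => absurd e (Point.some_ne_zero _)⟩
      rcases h3 with ⟨h3, rfl⟩ | ⟨h3, rfl, -⟩
      exacts [if_neg h3, if_pos h3]
  rw [key.1]
  refine ⟨t1, t0, t2, fun z hz h1 => ?_, key.2⟩
  by_cases z0 : z = 0
  · simp [z0]
  obtain ⟨m, hm⟩ := t3 z hz z0
  have e0 := V.valuation.pos_iff.2 t0
  rw [hm, map_zpow₀] at h1 ⊢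
  rw [zpow_lt_one_iff_right_of_lt_one₀ e0 t2] at h1
  simpa using zpow_le_zpow_right_of_le_one₀ e0 t2.le (show (1 : ℤ) ≤ m by omega)

end loc

section inf

variable {Γ : Type} [LinearOrderedCommGroupWithZero Γ] {v : Valuation R Γ}

theorem val_poly [IsAlgClosed k] (hk : ∀ c ∈ k, v c ≤ 1) (hx : 1 < v x) (f : k[X]) :
    f ≠ 0 → v (aeval x f) = v x ^ f.natDegree := by
  induction IsAlgClosed.splits f using Submonoid.closure_induction with
  | mem g hg =>
    rcases hg with ⟨a, rfl⟩ | ⟨a, rfl⟩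
    · exact fun h0 => by
        rw [aeval_C, natDegree_C, pow_zero]
        exact vk hk a.2 fun e => h0 (by rw [show a = 0 from Subtype.ext e, map_zero])
    · intro _
      rw [map_add, aeval_X, aeval_C, natDegree_X_add_C, pow_one]
      exact v.map_add_eq_of_lt_left ((hk _ a.2).trans_lt hx)
  | one => simp
  | mul f g _ _ hf hg =>
    exact fun h0 => by
      rw [map_mul, map_mul, hf (left_ne_zero_of_mul h0), hg (right_ne_zero_of_mul h0),
        natDegree_mul (left_ne_zero_of_mul h0) (right_ne_zero_of_mul h0), pow_add]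

theorem val_inf [IsAlgClosed k] (hk : ∀ c ∈ k, v c ≤ 1) {τ : Γ} (t0 : 0 < τ) (t1 : τ < 1)
    (hx : v x = τ ^ (-2 : ℤ)) (hy : v y = τ ^ (-3 : ℤ)) (p q : k[X]) :
    v (aeval x p + aeval x q * y) = max (v (aeval x p)) (v (aeval x q) * τ ^ (-3 : ℤ)) ∧
      (p ≠ 0 ∨ q ≠ 0 → 1 ≤ v (aeval x p + aeval x q * y)) := by
  have h0 {m : ℤ} (hm : m < 0) : 1 < τ ^ m := one_lt_zpow_of_neg₀ t0 t1 hm
  have h1 (f : k[X]) (f0 : f ≠ 0) : v (aeval x f) = τ ^ (-2 * f.natDegree : ℤ) := by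
    rw [val_poly hk (hx ▸ h0 (by norm_num)) f f0, hx, zpow_mul, zpow_natCast]
  have h2 (f : k[X]) (f0 : f ≠ 0) : 1 ≤ v (aeval x f) := by
    rw [h1 f f0]
    exact one_le_zpow_of_nonpos₀ t0 t1.le (by omega)
  have h3 : v (aeval x p + aeval x q * y) =
      max (v (aeval x p)) (v (aeval x q) * τ ^ (-3 : ℤ)) := by
    by_cases p0 : p = 0
    · simp [p0, hy]
    by_cases q0 : q = 0
    · simp [q0]
    rw [← hy, ← map_mul]
    refine v.map_add_of_distinct_val fun e => ?_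
    rw [map_mul, h1 p p0, h1 q q0, hy, ← zpow_add₀ t0.ne'] at e
    have := zpow_right_injective₀ t0 t1.ne e
    omega
  refine ⟨h3, fun h => h3 ▸ ?_⟩
  rcases h with h | h
  · exact le_max_of_le_left (h2 p h)
  · exact le_max_of_le_right (one_le_mul (h2 q h) (h0 (by norm_num)).le)

/-- `γ` is the maximum of `v` on `I` -/
def MaxV {A : Type} [CommRing A] (v : Valuation R Γ) (φ : A →+* R) (I : Ideal A) (γ : Γ) : Prop :=
  (∀ f ∈ I, v (φ f) ≤ γ) ∧ ∃ f ∈ I, v (φ f) = γ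

theorem MaxV.mul {A : Type} [CommRing A] {φ : A →+* R} {I J : Ideal A} {γ δ : Γ}
    (h : MaxV v φ I γ) (h' : MaxV v φ J δ) : MaxV v φ (I * J) (γ * δ) := by
  obtain ⟨h1, f, hf, rfl⟩ := h
  obtain ⟨h2, g, hg, rfl⟩ := h'
  refine ⟨fun z hz => Submodule.mul_induction_on hz (fun a ha b hb => ?_) fun a b ha hb => ?_,
    f * g, Ideal.mul_mem_mul hf hg, by rw [map_mul, map_mul]⟩
  · rw [map_mul, map_mul]
    exact mul_le_mul' (h1 a ha) (h2 b hb)
  · rw [map_add]
    exact v.map_add_le ha hb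

theorem MaxV.span {A : Type} [CommRing A] {φ : A →+* R} (hφ : ∀ a, v (φ a) ≤ 1) {f : A} {γ : Γ}
    (h : MaxV v φ (.span {f}) γ) : v (φ f) = γ := by
  obtain ⟨h1, g, hg, rfl⟩ := h
  obtain ⟨c, rfl⟩ := Ideal.mem_span_singleton'.1 hg
  refine le_antisymm (h1 f (Ideal.mem_span_singleton_self f)) ?_
  rw [map_mul, map_mul]
  exact mul_le_of_le_one_left' (hφ c)

end inf

variable {W : WeierstrassCurve k}

theorem ev_basis' (h : (W.map k.subtype).toAffine.Equation x y) (p q : k[X]) :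
    ev h (p • (1 : W.toAffine.CoordinateRing) + q • mk W.toAffine Y) =
      aeval x p + aeval x q * y := ev_basis h p q

theorem ev_sig (h : (W.map k.subtype).toAffine.Equation x y) (p q : k[X]) :
    ev h (sig W (p • (1 : W.toAffine.CoordinateRing) + q • mk W.toAffine Y)) =
      aeval x p + aeval x q * (W.map k.subtype).toAffine.negY x y := by
  have e : (ev h).comp (algebraMap k W.toAffine.CoordinateRing) = k.subtype :=
    RingHom.ext (ev_alg h)
  have eX : ev h (mk W.toAffine (C X)) = x := by rw [ev_C, eval₂_X]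
  rw [sig, ev_basis, map_add, map_mul, hom_eval₂, hom_eval₂, e, eX]
  simp only [negY, map_sub, map_neg, map_mul, map_a₁, map_a₃, ev_alg, eX, ev_Y]
  rfl

theorem ev_mem (h : (W.map k.subtype).toAffine.Equation x y) (f : W.toAffine.CoordinateRing) :
    ev h f ∈ adj k {x, y} := by
  obtain ⟨p, q, rfl⟩ := exists_smul_basis_eq f
  rw [ev_basis']
  exact add_mem (adj1_le k x y (aeval_mem k x p))
    (mul_mem (adj1_le k x y (aeval_mem k x q)) (y_mem2 _ x y))

theorem ev_le (H : Hyp k (W.map k.subtype) x y) {V : ValuationSubring R} (hV : ∀ c ∈ k, c ∈ V)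
    {P : (W.map k.subtype).toAffine.Point} (P0 : P ≠ 0) (hP : OnSet (k : Set R) P)
    (h : Cent V x y P) (f : W.toAffine.CoordinateRing) : V.valuation (ev H.eqn f) ≤ 1 := by
  obtain ⟨p, q, rfl⟩ := exists_smul_basis_eq f
  rcases P with _ | ⟨a, b, h1⟩
  · exact absurd rfl P0
  have hx := (V.valuation_le_one_iff _).2 (mem_of_lt hV hP.1 h.1)
  have hy := (V.valuation_le_one_iff _).2 (mem_of_lt hV hP.2 h.2)
  rw [ev_basis']
  exact V.valuation.map_add_le (aeval_le hx p fun j => vle hV _ (p.coeff j).2)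
    (vmul_le _ (aeval_le hx q fun j => vle hV _ (q.coeff j).2) hy)

theorem ev_inj (H : Hyp k (W.map k.subtype) x y) {f : W.toAffine.CoordinateRing}
    (hf : ev H.eqn f = 0) : f = 0 := by
  have : RingHom.ker (ev H.eqn) = ⊥ := by
    refine Ideal.eq_bot_of_comap_eq_bot (R := k[X]) (eq_bot_iff.2 fun p hp => ?_)
    exact transc_aeval H.tr ((ev_C H.eqn p).symm.trans hp)
  exact (this ▸ (RingHom.mem_ker.2 hf) : f ∈ (⊥ : Ideal _))

/-- `d` is the divisor of the ideal `I` -/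
structure Good (H : Hyp k (W.map k.subtype) x y) (I : Ideal W.toAffine.CoordinateRing)
    (d : (W.map k.subtype).toAffine.Point →₀ ℤ) : Prop where
  on : ∀ P, d P ≠ 0 → OnSet (k : Set R) P
  deg : Finsupp.linearCombination ℤ (fun _ => (1 : ℤ)) d = 0
  cls : ∃ Q, Cls I Q ∧ Finsupp.linearCombination ℤ id d = ptFun k.subtype (W.map k.subtype) Q
  aff : ∀ V : ValuationSubring R, (∀ c ∈ k, c ∈ V) → ∀ P ≠ 0, OnSet (k : Set R) P →
    Cent V x y P → MaxV V.valuation (ev H.eqn) I (V.valuation (unif x y P) ^ d P)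
  inf : ∃ g, I * I.map (sig W) = .span {g} ∧ ∀ V : ValuationSubring R, (∀ c ∈ k, c ∈ V) →
    x ∉ V → V.valuation (ev H.eqn g) = V.valuation (x / y) ^ (2 * d 0)

theorem Good.top (H : Hyp k (W.map k.subtype) x y) : Good H ⊤ 0 where
  on := fun _ h => absurd rfl h
  deg := map_zero _
  cls := ⟨0, Cls.top, map_zero _⟩
  aff := fun V hV P P0 hP h => ⟨fun f _ => by simpa using ev_le H hV P0 hP h f, 1, trivial, by simp⟩
  inf := ⟨1, by simp [Ideal.map_top], fun _ _ _ => by simp⟩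

theorem Good.step {H : Hyp k (W.map k.subtype) x y} {a b : k} (hn : W.toAffine.Nonsingular a b)
    {I : Ideal W.toAffine.CoordinateRing} {d : (W.map k.subtype).toAffine.Point →₀ ℤ}
    (hI : Good H I d) : ∃ d', Good H (XYIdeal W.toAffine a (C b) * I) d' := by
  have hn' : (W.map k.subtype).toAffine.Nonsingular a b :=
    (map_nonsingular W.toAffine k.subtype.injective a b).2 hn
  obtain ⟨P, hP⟩ : ∃ P : (W.map k.subtype).toAffine.Point, P = .some a b hn' := ⟨_, rfl⟩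
  have P0 : P ≠ 0 := hP ▸ Point.some_ne_zero _
  have P1 : OnSet (k : Set R) P := hP ▸ ⟨a.2, b.2⟩
  have mX : XClass W.toAffine a ∈ XYIdeal W.toAffine a (C b) := Ideal.subset_span (.inl rfl)
  have mY : YClass W.toAffine (C b) ∈ XYIdeal W.toAffine a (C b) := Ideal.subset_span (.inr rfl)
  refine ⟨Finsupp.single P 1 - Finsupp.single 0 1 + d, fun Q hQ => ?_, ?_, ?_,
    fun V hV Q Q0 hQ h => ?_, ?_⟩
  · by_cases e : Q = P
    · exact e ▸ P1
    by_cases e' : Q = 0
    · exact e' ▸ trivial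
    refine hI.on Q ?_
    simpa [Finsupp.single_apply, Ne.symm e, Ne.symm e'] using hQ
  · rw [map_add, hI.deg]
    simp
  · obtain ⟨Q, h1, h2⟩ := hI.cls
    refine ⟨_, h1.mul hn, ?_⟩
    rw [map_add, h2, (ptMap_holds _ _ k.subtype W _ rfl).1]
    congr 1
    rw [map_sub, Finsupp.linearCombination_single, Finsupp.linearCombination_single, one_smul,
      one_smul, id, id, sub_zero, hP]
    exact (pt_of hn').symm
  · obtain ⟨-, t0, -, t3, -⟩ := loc H hV hQ h
    have hle := ev_le H hV Q0 hQ h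
    rw [Finsupp.add_apply, zpow_add₀ (V.valuation.ne_zero_iff.2 t0)]
    refine MaxV.mul ?_ (hI.aff V hV Q Q0 hQ h)
    by_cases e : Q = P
    · subst e
      rw [Finsupp.sub_apply, Finsupp.single_eq_same, Finsupp.single_eq_of_ne Q0, sub_zero, zpow_one]
      subst hP
      refine ⟨fun f hf => t3 _ (ev_mem _ f) ?_, ?_⟩
      · obtain ⟨α, β, rfl⟩ := Ideal.mem_span_pair.1 hf
        rw [map_add, map_mul, map_mul, ev_XClass, ev_YClass]
        exact V.valuation.map_add_lt (vmul_lt _ (hle α) h.1) (vmul_lt _ (hle β) h.2)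
      · by_cases hψ : psi (W.map k.subtype) a b = 0
        · exact ⟨_, mY, by rw [ev_YClass, unif, if_pos hψ]; rfl⟩
        · exact ⟨_, mX, by rw [ev_XClass, unif, if_neg hψ]; rfl⟩
    · rw [Finsupp.sub_apply, Finsupp.single_eq_of_ne e, Finsupp.single_eq_of_ne Q0, sub_zero,
        zpow_zero]
      refine ⟨fun f _ => hle f, ?_⟩
      by_contra hc
      push Not at hc
      refine e (cent_uniq hV hQ P1 h (hP ▸ ⟨?_, ?_⟩))
      · exact ev_XClass H.eqn a ▸ (hle _).lt_of_ne (hc _ mX)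
      · exact ev_YClass H.eqn b ▸ (hle _).lt_of_ne (hc _ mY)
  · obtain ⟨g, h1, h2⟩ := hI.inf
    refine ⟨XClass W.toAffine a * g, ?_, fun V hV h => ?_⟩
    · rw [Ideal.map_mul, mul_mul_mul_comm, h1, sig_XY, mul_comm (XYIdeal _ _ _), XYIdeal_neg_mul hn,
        XIdeal, Ideal.span_singleton_mul_span_singleton]
    · obtain ⟨-, t0, -, -, t4⟩ := loc (P := 0) H hV trivial h
      replace t0 : V.valuation (x / y) ≠ 0 := V.valuation.ne_zero_iff.2 t0
      rw [map_mul, map_mul, h2 V hV h, ev_XClass, V.valuation.map_sub_eq_of_lt_left (y := k.subtype a)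
        ((vle hV _ a.2).trans_lt (not_le.1 fun e => h ((V.valuation_le_one_iff x).1 e))),
        (t4 rfl).1, ← zpow_add₀ t0, Finsupp.add_apply,
        Finsupp.sub_apply, Finsupp.single_eq_same, Finsupp.single_eq_of_ne P0.symm]
      congr 1
      ring

/-- `d` is the divisor of the function `z` -/
structure Dv (k : Subfield R) {E : WeierstrassCurve R} (x y z : R) (d : E.toAffine.Point →₀ ℤ) :
    Prop where
  on : ∀ P, d P ≠ 0 → OnSet (k : Set R) P
  deg : Finsupp.linearCombination ℤ (fun _ => (1 : ℤ)) d = 0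
  sum : Finsupp.linearCombination ℤ id d = 0
  val : ∀ V : ValuationSubring R, (∀ c ∈ k, c ∈ V) → ∀ P, OnSet (k : Set R) P →
    Cent V x y P → V.valuation z = V.valuation (unif x y P) ^ d P

theorem dv_ev (H : Hyp k (W.map k.subtype) x y) {f : W.toAffine.CoordinateRing} (f0 : f ≠ 0) :
    ∃ d : (W.map k.subtype).toAffine.Point →₀ ℤ, Dv k x y (ev H.eqn f) d := by
  have := algClosed_of H.alg
  obtain ⟨d, hd⟩ := ideal_ind (W := W) (fun e => H.disc (by rw [map_Δ, e, map_zero]))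
    (fun I => ∃ d, Good H I d) ⟨0, .top H⟩ (fun a b hn I ⟨d, hd⟩ => hd.step hn) (.span {f})
    (Ideal.span_singleton_eq_bot.not.2 f0)
  refine ⟨d, hd.on, hd.deg, ?_, fun V hV P hP h => ?_⟩
  · obtain ⟨Q, h1, h2⟩ := hd.cls
    rw [h2, h1.abel f0]
    rfl
  by_cases P0 : P = 0
  swap
  · exact (hd.aff V hV P P0 hP h).span (ev_le H hV P0 hP h)
  subst P0
  obtain ⟨g, h1, h2⟩ := hd.inf
  obtain ⟨-, t0, t1, -, t4⟩ := loc H hV hP h
  obtain ⟨hx, hy⟩ := t4 rfl
  have t0' : 0 < V.valuation (x / y) := V.valuation.pos_iff.2 t0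
  have hy' : V.valuation ((W.map k.subtype).toAffine.negY x y) =
      V.valuation (x / y) ^ (-3 : ℤ) := by
    have h3 : V.valuation x < V.valuation y := by
      rw [hx, hy]
      exact zpow_lt_zpow_right_of_lt_one₀ t0' t1 (by norm_num)
    have h4 : 1 < V.valuation x := not_le.1 fun e => h ((V.valuation_le_one_iff x).1 e)
    rw [negY, sub_sub, V.valuation.map_sub_eq_of_lt_left, V.valuation.map_neg, hy]
    rw [V.valuation.map_neg]
    refine V.valuation.map_add_lt ?_ ((vle hV _ H.coeff.2.2.1).trans_lt (h4.trans h3))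
    rw [map_mul]
    exact (mul_le_of_le_one_left' (vle hV _ H.coeff.1)).trans_lt h3
  have h5 (u : W.toAffine.CoordinateRing) (u0 : u ≠ 0) : 1 ≤ V.valuation (ev H.eqn u) := by
    obtain ⟨p, q, rfl⟩ := exists_smul_basis_eq u
    rw [ev_basis']
    refine (val_inf (vle hV) t0' t1 hx hy p q).2 (by_contra fun e => u0 ?_)
    push Not at e
    simp [e.1, e.2]
  have h6 : V.valuation (ev H.eqn (sig W f)) = V.valuation (ev H.eqn f) := by
    obtain ⟨p, q, rfl⟩ := exists_smul_basis_eq f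
    rw [ev_basis', ev_sig, (val_inf (vle hV) t0' t1 hx hy p q).1,
      (val_inf (vle hV) t0' t1 hx hy' p q).1]
  rw [Ideal.map_span, Set.image_singleton, Ideal.span_singleton_mul_span_singleton,
    Ideal.span_singleton_eq_span_singleton] at h1
  obtain ⟨u, rfl⟩ := h1
  have h7 : V.valuation (ev H.eqn u) = 1 := by
    refine le_antisymm ?_ (h5 _ u.ne_zero)
    have := congrArg (fun z => V.valuation (ev H.eqn z)) u.mul_inv
    simp only [map_mul, map_one] at this
    exact this ▸ le_mul_of_one_le_right' (h5 _ u⁻¹.ne_zero)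
  have h8 := h2 V hV h
  rw [map_mul, map_mul, map_mul, map_mul, h6, h7, mul_one, ← sq, mul_comm, zpow_mul, zpow_ofNat]
    at h8
  exact (pow_left_inj₀ zero_le' zero_le' two_ne_zero).1 h8

theorem dv_ex (H : Hyp k (W.map k.subtype) x y) {z : R} (hz : z ∈ adj k {x, y}) (z0 : z ≠ 0) :
    ∃ d : (W.map k.subtype).toAffine.Point →₀ ℤ, Dv k x y z d := by
  obtain ⟨a, ha, b, hb, rfl⟩ := Subfield.mem_closure_iff.1 hz
  have hle : Subring.closure ((k : Set R) ∪ {x, y}) ≤ (ev H.eqn).range := by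
    rw [Subring.closure_le]
    rintro c (hc | rfl | rfl)
    exacts [⟨_, ev_alg H.eqn ⟨c, hc⟩⟩, ⟨_, by rw [ev_C, eval₂_X]⟩, ⟨_, ev_Y _⟩]
  obtain ⟨f, rfl⟩ := hle ha
  obtain ⟨g, rfl⟩ := hle hb
  obtain ⟨d, hd⟩ := dv_ev H (f := f) (by rintro rfl; simp at z0)
  obtain ⟨e, he⟩ := dv_ev H (f := g) (by rintro rfl; simp at z0)
  refine ⟨d - e, fun P hP => ?_, by rw [map_sub, hd.deg, he.deg, sub_zero],
    by rw [map_sub, hd.sum, he.sum, sub_zero], fun V hV P hP h => ?_⟩
  · by_contra hc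
    exact hP (by rw [Finsupp.sub_apply, not_not.1 (mt (hd.on P) hc), not_not.1 (mt (he.on P) hc),
      sub_zero])
  · rw [map_div₀, hd.val V hV P hP h, he.val V hV P hP h, Finsupp.sub_apply,
      zpow_sub₀ (V.valuation.ne_zero_iff.2 (loc H hV hP h).2.1)]

theorem cent_ex (H : Hyp k (W.map k.subtype) x y) {P : (W.map k.subtype).toAffine.Point}
    (hP : OnSet (k : Set R) P) : ∃ V : ValuationSubring R, (∀ c ∈ k, c ∈ V) ∧ Cent V x y P := by
  rcases P with _ | ⟨a, b, h1⟩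
  · obtain ⟨V, hV⟩ := valExt_holds.2 k[X] R (aeval x⁻¹ : k[X] →ₐ[k] R) (.span {X})
      ((Ideal.span_singleton_prime X_ne_zero).2 prime_X) fun p hp => by
        rw [transcendental_iff.1 (mt IsAlgebraic.inv_iff.1 (transc_iff.1 H.tr)) p hp]
        exact zero_mem _
    refine ⟨V, fun c hc => by simpa using! (hV (C ⟨c, hc⟩)).1, fun hx => ?_⟩
    have h2 : V.valuation x⁻¹ < 1 := by
      simpa using (hV X).2.2 (Ideal.mem_span_singleton_self _)
    have x0 : x ≠ 0 := by simpa using transc_sub_ne H.tr (zero_mem k)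
    rw [map_inv₀, inv_lt_one₀ (V.valuation.pos_iff.2 x0)] at h2
    exact h2.not_ge ((V.valuation_le_one_iff x).2 hx)
  · have h2 : W.toAffine.Equation ⟨a, hP.1⟩ ⟨b, hP.2⟩ :=
      (map_equation W.toAffine k.subtype.injective _ _).1 h1.1
    obtain ⟨V, hV⟩ := valExt_holds.2 _ R (ev H.eqn) _ (XY_max h2).isPrime fun p hp => by
      rw [ev_inj H hp]
      exact zero_mem _
    refine ⟨V, fun c hc => ?_, ?_, ?_⟩
    · simpa only [ev_alg] using! (hV (algebraMap k _ ⟨c, hc⟩)).1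
    · exact ev_XClass H.eqn ⟨a, hP.1⟩ ▸ (hV _).2.2 (Ideal.subset_span (.inl rfl))
    · exact ev_YClass H.eqn ⟨b, hP.2⟩ ▸ (hV _).2.2 (Ideal.subset_span (.inr rfl))

end DivH

open DivH in
theorem div_holds : DivStmt := by
  intro R _ k E x y h1 h2 h3 h4 h5
  obtain ⟨W, rfl⟩ : ∃ W : WeierstrassCurve k, W.map k.subtype = E :=
    ⟨⟨⟨_, h2.1⟩, ⟨_, h2.2.1⟩, ⟨_, h2.2.2.1⟩, ⟨_, h2.2.2.2.1⟩, ⟨_, h2.2.2.2.2⟩⟩, rfl⟩
  have H : Hyp k (W.map k.subtype) x y := ⟨h1, h2, h3, h4, h5⟩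
  choose! d hd using fun z hz z0 => dv_ex H (z := z) hz z0
  refine ⟨fun P z => d z P, fun V hV h => ?_, fun P hP => ?_, fun V P hV hP h => ?_,
    fun z hz z0 => ⟨(d z).support, fun P hP => (hd z hz z0).on P (Finsupp.mem_support_iff.1 hP),
      fun P _ hP => Finsupp.notMem_support_iff.1 hP, ?_, (hd z hz z0).sum⟩,
    fun a ha b hb h hψ => ?_⟩
  · obtain ⟨t, -, -, -, -, -, ⟨h6, -⟩ | ⟨a, ha, b, hb, h6, h7, -⟩⟩ :=
      place_holds R k _ x y h1 h2 h3 h4 h5 V hV h
    exacts [⟨0, trivial, h6⟩, ⟨.some a b (nonsing_of_Δ h3 h6), ⟨ha, hb⟩, h7⟩]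
  · obtain ⟨V, hV, h⟩ := cent_ex H hP
    exact ⟨V, hV, cent_ne h5 hP h, h⟩
  · obtain ⟨t1, t0, t2, -⟩ := loc H hV hP h
    exact ⟨_, t1, t0, t2, fun z hz z0 => by rw [(hd z hz z0).val V hV P hP h, map_zpow₀]⟩
  · simpa [Finsupp.linearCombination_apply, Finsupp.sum] using (hd z hz z0).deg
  · rw [pt_of (nonsing_of_Δ h3 h)]
    have hP : OnSet (k : Set R) (.some a b (nonsing_of_Δ h3 h)) := ⟨ha, hb⟩
    obtain ⟨V, hV, h6⟩ := cent_ex H hP
    have h7 := Pl.transc_sub_ne h5 ha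
    have h8 := (hd _ (sub_mem (Pl.x_mem2 _ x y) (Pl.mem_adj_base ha)) h7).val V hV _ hP h6
    rw [unif, if_neg hψ] at h8
    exact zpow_right_injective₀ (V.valuation.pos_iff.2 h7) h6.1.ne (h8.symm.trans (zpow_one _).symm)

end P179W
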