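import Vale.Agent.P179W.Stmts

/-!
# P179W : ideals in the coordinate ring of an elliptic curve (for B6a)
-/

set_option linter.all false

open scoped Classical nonZeroDivisors Polynomial.Bivariate
open Polynomial WeierstrassCurve WeierstrassCurve.Affine WeierstrassCurve.Affine.CoordinateRing

noncomputable section

namespace P179W

namespace DivH

variable {F : Type} [Field F] {W : WeierstrassCurve F}

section ev

variable {S : Type} [CommRing S] {i : F →+* S} {x y : S}

/-- evaluation at a point -/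
def ev (h : (W.map i).toAffine.Equation x y) : W.toAffine.CoordinateRing →+* S :=
  AdjoinRoot.lift (eval₂RingHom i x) y (by
    rw [eval₂_eval₂RingHom_apply, ← map_polynomial]
    exact h)

theorem ev_C (h : (W.map i).toAffine.Equation x y) (p : F[X]) :
    ev h (mk W.toAffine (C p)) = p.eval₂ i x := by
  rw [ev, AdjoinRoot.lift_mk, eval₂_C]
  rfl

theorem ev_Y (h : (W.map i).toAffine.Equation x y) : ev h (mk W.toAffine Y) = y := by
  rw [ev, AdjoinRoot.lift_mk, eval₂_X]

theorem ev_basis (h : (W.map i).toAffine.Equation x y) (p q : F[X]) :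
    ev h (p • (1 : W.toAffine.CoordinateRing) + q • mk W.toAffine Y) =
      p.eval₂ i x + q.eval₂ i x * y := by
  rw [smul, smul, map_add, map_mul, map_mul, ev_C, ev_C, ev_Y, map_one, mul_one]

theorem ev_XClass (h : (W.map i).toAffine.Equation x y) (a : F) :
    ev h (XClass W.toAffine a) = x - i a := by
  rw [XClass, ev_C, eval₂_sub, eval₂_X, eval₂_C]

theorem ev_YClass (h : (W.map i).toAffine.Equation x y) (b : F) :
    ev h (YClass W.toAffine (C b)) = y - i b := by
  rw [YClass, map_sub, map_sub, ev_Y, ev_C, eval₂_C]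

theorem ev_alg (h : (W.map i).toAffine.Equation x y) (c : F) :
    ev h (algebraMap F W.toAffine.CoordinateRing c) = i c := by
  have : algebraMap F W.toAffine.CoordinateRing c = mk W.toAffine (C (C c)) := rfl
  rw [this, ev_C, eval₂_C]

end ev

theorem eqA : (W.map (algebraMap F W.toAffine.CoordinateRing)).toAffine.Equation
    (mk W.toAffine (C X)) (mk W.toAffine Y) := by
  have e (c : F) : algebraMap F W.toAffine.CoordinateRing c = mk W.toAffine (C (C c)) := rfl
  rw [equation_iff']
  simp only [map_a₁, map_a₂, map_a₃, map_a₄, map_a₆, e, ← map_pow, ← map_mul, ← map_add, ← map_sub]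
  refine AdjoinRoot.mk_eq_zero.2 ⟨1, ?_⟩
  simp only [polynomial, C_add, C_mul, C_pow]
  ring

/-- the involution -/
def sig (W : WeierstrassCurve F) : W.toAffine.CoordinateRing →+* W.toAffine.CoordinateRing :=
  ev ((equation_neg _ _).2 eqA)

theorem XClass_eq (a : F) :
    XClass W.toAffine a = mk W.toAffine (C X) - algebraMap F W.toAffine.CoordinateRing a := by
  rw [XClass, C_sub, map_sub]
  rfl

theorem YClass_eq (b : F) :
    YClass W.toAffine (C b) = mk W.toAffine Y - algebraMap F W.toAffine.CoordinateRing b := by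
  rw [YClass, map_sub]
  rfl

theorem sig_XY (a b : F) :
    (XYIdeal W.toAffine a (C b)).map (sig W) = XYIdeal W.toAffine a (C (W.toAffine.negY a b)) := by
  rw [XYIdeal, Ideal.map_span, Set.image_pair, sig, ev_XClass, ev_YClass, ← XClass_eq, XYIdeal,
    ← Ideal.span_pair_add_left_mul (XClass W.toAffine a) (YClass _ _)
      (algebraMap F W.toAffine.CoordinateRing W.a₁), Ideal.span_insert, Ideal.span_insert,
    ← Ideal.span_singleton_neg (_ + _)]
  congr 3
  rw [YClass_eq]
  simp only [negY, XClass_eq, map_sub, map_neg, map_mul, map_a₁, map_a₃]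
  ring

theorem XY_max {a b : F} (h : W.toAffine.Equation a b) : (XYIdeal W.toAffine a (C b)).IsMaximal :=
  Ideal.Quotient.maximal_of_isField _
    ((quotientXYIdealEquiv (W' := W.toAffine) (y := C b) h).toMulEquiv.isField (Field.toIsField F))

instance : Module.Finite F[X] W.toAffine.CoordinateRing :=
  .of_basis (CoordinateRing.basis W.toAffine)

instance : Algebra.FiniteType F W.toAffine.CoordinateRing := .trans (S := F[X]) inferInstance inferInstance

instance : IsNoetherianRing W.toAffine.CoordinateRing := Algebra.FiniteType.isNoetherianRing F _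

theorem max_eq [IsAlgClosed F] (m : Ideal W.toAffine.CoordinateRing) [hm : m.IsMaximal] :
    ∃ a b, W.toAffine.Equation a b ∧ m = XYIdeal W.toAffine a (C b) := by
  letI := Ideal.Quotient.field m
  have : Module.Finite F (W.toAffine.CoordinateRing ⧸ m) :=
    finite_of_finite_type_of_isJacobsonRing _ _
  have hb := IsAlgClosed.algebraMap_bijective_of_isIntegral (k := F)
    (K := W.toAffine.CoordinateRing ⧸ m)
  obtain ⟨a, ha⟩ := hb.2 (Ideal.Quotient.mk m (mk W.toAffine (C X)))
  obtain ⟨b, hb'⟩ := hb.2 (Ideal.Quotient.mk m (mk W.toAffine Y))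
  have h : W.toAffine.Equation a b := by
    rw [← map_equation _ hb.1, ha, hb']
    exact eqA.map (Ideal.Quotient.mk m)
  refine ⟨a, b, h, ((XY_max h).eq_of_le hm.ne_top ?_).symm⟩
  rw [XYIdeal, Ideal.span_le, Set.insert_subset_iff, Set.singleton_subset_iff, XClass_eq, YClass_eq]
  exact ⟨Ideal.Quotient.eq.1 ha.symm, Ideal.Quotient.eq.1 hb'.symm⟩

/-- every nonzero ideal is a product of ideals of points -/
theorem ideal_ind [IsAlgClosed F] (hΔ : W.Δ ≠ 0) (p : Ideal W.toAffine.CoordinateRing → Prop)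
    (h1 : p ⊤) (h2 : ∀ a b, W.toAffine.Nonsingular a b → ∀ I, p I →
      p (XYIdeal W.toAffine a (C b) * I)) (I : Ideal W.toAffine.CoordinateRing) : I ≠ ⊥ → p I := by
  induction I using IsNoetherian.induction with
  | hgt I ih =>
  intro h0
  by_cases ht : I = ⊤
  · exact ht ▸ h1
  obtain ⟨m, hm, hle⟩ := Ideal.exists_le_maximal I ht
  obtain ⟨a, b, hab, rfl⟩ := max_eq m
  have hn := (equation_iff_nonsingular_of_Δ_ne_zero hΔ).1 hab
  have e := XYIdeal_neg_mul hn
  have h3 : XYIdeal W.toAffine a (C (W.toAffine.negY a b)) * I ≤ .span {XClass W.toAffine a} :=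
    (Ideal.mul_mono_right hle).trans e.le
  obtain ⟨J, hJ⟩ : ∃ J, XYIdeal W.toAffine a (C (W.toAffine.negY a b)) * I =
      .span {XClass W.toAffine a} * J := by
    refine ⟨(XYIdeal W.toAffine a (C (W.toAffine.negY a b)) * I).colon {XClass W.toAffine a},
      le_antisymm (fun z hz => ?_) ?_⟩
    · obtain ⟨c, rfl⟩ := Ideal.mem_span_singleton'.1 (h3 hz)
      rw [mul_comm c]
      exact Ideal.mul_mem_mul (Ideal.mem_span_singleton_self _)
        (Submodule.mem_colon_singleton.2 hz)
    · rw [Ideal.span_singleton_mul_le_iff]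
      intro z hz
      rw [mul_comm (XClass _ _)]
      exact Submodule.mem_colon_singleton.1 hz
  have h4 : I = XYIdeal W.toAffine a (C b) * J := by
    apply (Ideal.span_singleton_mul_right_inj (XClass_ne_zero (W' := W.toAffine) a)).1
    rw [mul_left_comm, ← hJ, ← mul_assoc, mul_comm (XYIdeal _ _ _), e, XIdeal]
  have h5 : I ≤ J := h4 ▸ Ideal.mul_le_right
  have h6 : I ≠ J := by
    rintro rfl
    obtain ⟨r, h7, h8⟩ := Submodule.exists_sub_one_mem_and_smul_eq_zero_of_fg_of_le_smul
      (XYIdeal W.toAffine a (C b)) I (IsNoetherian.noetherian I) h4.le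
    obtain ⟨z, hz, z0⟩ := Submodule.exists_mem_ne_zero_of_ne_bot h0
    obtain rfl : r = 0 := (mul_eq_zero.1 (h8 z hz)).resolve_right z0
    rw [zero_sub, neg_mem_iff] at h7
    exact hm.ne_top ((Ideal.eq_top_iff_one _).2 h7)
  exact h4 ▸ h2 a b hn J (ih J (lt_of_le_of_ne h5 h6) fun e => h0 (le_bot_iff.1 (e ▸ h5)))

/-- the class of the ideal `I` is the point `Q` -/
def Cls (I : Ideal W.toAffine.CoordinateRing) (Q : W.toAffine.Point) : Prop :=
  ∃ J : (FractionalIdeal W.toAffine.CoordinateRing⁰ W.toAffine.FunctionField)ˣ,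
    (J : FractionalIdeal W.toAffine.CoordinateRing⁰ W.toAffine.FunctionField) = I ∧
      Point.toClass Q = Additive.ofMul (ClassGroup.mk W.toAffine.FunctionField J)

theorem Cls.top : Cls (W := W) ⊤ 0 := ⟨1, by simp, by simp⟩

theorem Cls.mul {a b : F} (h : W.toAffine.Nonsingular a b) {I : Ideal W.toAffine.CoordinateRing}
    {Q : W.toAffine.Point} (hI : Cls I Q) :
    Cls (XYIdeal W.toAffine a (C b) * I) (.some a b h + Q) := by
  obtain ⟨J, h1, h2⟩ := hI
  refine ⟨XYIdeal' (W := W.toAffine) h * J, ?_, ?_⟩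
  · rw [Units.val_mul, h1, XYIdeal'_eq, FractionalIdeal.coeIdeal_mul]
  · rw [map_add, h2, map_mul, ofMul_mul]
    rfl

theorem Cls.abel {f : W.toAffine.CoordinateRing} (hf : f ≠ 0) {Q : W.toAffine.Point}
    (h : Cls (.span {f}) Q) : Q = 0 := by
  obtain ⟨J, h1, h2⟩ := h
  rw [← Point.toClass_eq_zero, h2, (ClassGroup.mk_eq_one_of_coe_ideal h1).2 ⟨f, hf, rfl⟩]
  rfl

end DivH

end P179W
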