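import Vale.Agent.P179W.GalVal

/-!
# P179W : the Galois action on the covers
-/

set_option linter.all false

open scoped NNReal Classical
open Polynomial

noncomputable section

namespace P179W

namespace Gal

variable {U : Type} [Field U]

section Rel

variable {K : Set U} {G : Type} [Group G] (φ : Fix K →* G)

/-- `a` acts on `φ` as the conjugation by `g` -/
def Rel (a : RingAut U) (g : G) : Prop :=
  ∀ γ γ' : Fix K, γ'.1 = a * γ.1 * a⁻¹ → φ γ' = g * φ γ * g⁻¹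

variable {φ}

theorem Rel.mul {a b : RingAut U} {g h : G} (h1 : Rel φ a g) (h2 : Rel φ b h) (hb : b ∈ Stab K) :
    Rel φ (a * b) (g * h) := fun γ γ' e => by
  rw [h1 ⟨_, Stab.conj hb γ.2⟩ γ' (by rw [e]; simp [mul_assoc]), h2 γ _ rfl]
  simp [mul_assoc]

theorem Rel.inv {a : RingAut U} {g : G} (h : Rel φ a g) : Rel φ a⁻¹ g⁻¹ := fun γ γ' e => by
  rw [h γ' γ (by rw [e]; simp [mul_assoc])]
  simp [mul_assoc]

theorem Rel.of_mem (γ0 : Fix K) : Rel φ γ0 (φ γ0) := fun γ γ' e => by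
  rw [← map_inv, ← map_mul, ← map_mul]
  exact congrArg φ (Subtype.ext e)

variable (φ)

/-- the automorphisms fixing the class of `φ` -/
def Inn : Subgroup (RingAut U) where
  carrier := {a | a ∈ Stab K ∧ ∃ g, Rel φ a g}
  one_mem' := ⟨one_mem _, _, Rel.of_mem 1⟩
  mul_mem' := fun ⟨a, _, h⟩ ⟨b, _, k⟩ => ⟨mul_mem a b, _, h.mul k b⟩
  inv_mem' := fun ⟨a, _, h⟩ => ⟨inv_mem a, _, h.inv⟩

/-- the automorphisms fixing `φ` -/
def Cen : Subgroup (RingAut U) where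
  carrier := {a | a ∈ Stab K ∧ Rel φ a 1}
  one_mem' := ⟨one_mem _, map_one φ ▸ Rel.of_mem 1⟩
  mul_mem' := fun ⟨a, h⟩ ⟨b, k⟩ => ⟨mul_mem a b, one_mul (1 : G) ▸ h.mul k b⟩
  inv_mem' := fun ⟨a, h⟩ => ⟨inv_mem a, inv_one (G := G) ▸ h.inv⟩

theorem Nz_Cen : Nz (Inn φ) (Cen φ) := fun a ⟨ha, g, h⟩ c hc =>
  ⟨mul_mem (mul_mem ha hc.1) (inv_mem ha), by
    simpa using (h.mul hc.2 hc.1).mul h.inv (inv_mem ha)⟩

theorem Fix_le_Cen {T0 T : Finset U} (h0 : ∀ γ : Fix K, γ.1 ∈ Fix (T0 : Set U) → φ γ = 1)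
    (hT : T0 ⊆ T) (hs : Fix K ≤ Stab (T : Set U)) {a : RingAut U} (ha : a ∈ Stab K)
    (h : a ∈ Fix (T : Set U)) : a ∈ Cen φ := by
  refine ⟨ha, fun γ γ' e => ?_⟩
  rw [one_mul, inv_one, mul_one, ← mul_inv_eq_one, ← map_inv, ← map_mul]
  refine h0 _ fun z hz => ?_
  show γ'.1 (γ.1⁻¹ z) = z
  rw [e, mul_app, mul_app, inv_mem h _ ((hs (inv_mem γ.2) z).1 (hT hz)), app_inv, h z (hT hz)]

end Rel

variable {p M : ℕ} [hp : Fact p.Prime] (S : Setup p (p ^ M) U)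

theorem exists_P (hD : InertiaDerStmt) (hn : 1 < p ^ M) (T : Finset U)
    (hT : cA S ≤ Stab (T : Set U)) : ∃ (P : Subgroup (RingAut U)) (σ : RingAut U),
    Fix (adj (S.Ft : Set U) (T : Set U) : Set U) ⊔ Fix (S.Fb : Set U) ≤ P ∧ P ≤ cA S ∧
    (∀ a ∈ P, ∃ k, a ^ p ^ k ∈ Fix (adj (S.Ft : Set U) (T : Set U) : Set U) ⊔ Fix (S.Fb : Set U)) ∧
    σ ∈ P ∧ (∀ z ∈ S.Ft, σ z = S.θ z) ∧ (∀ z, S.w (σ z) = S.w z) ∧
    (∀ z ∈ S.Om, z ∈ S.Op ↔ σ z ∈ S.Op) ∧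
    (∀ j, ∀ z ∈ S.Om, (∀ g ∈ P ⊓ Fix (S.Ft : Set U), g z = z) → S.w (S.D j z) ≤ S.w z) ∧
    ∀ g ∈ P, ∀ z ∈ S.Om, (∀ g ∈ Fix (adj (S.Ft : Set U) (T : Set U) : Set U), g z = z) → S.w (g z) = S.w z := by
  haveI := S.algClosed
  haveI := charZero S
  haveI : NeZero (p ^ M) := ⟨by omega⟩
  have hF := cA_fin S (NeZero.ne _)
  set 𝒩 := Fix (adj (S.Ft : Set U) (T : Set U) : Set U) ⊔ Fix (S.Fb : Set U) with h𝒩
  have n1 : 𝒩 ≤ Fix (S.Ft : Set U) := sup_le (Fix_anti (left_subset_adj _ _)) (Fix_anti (Ft_Fb S))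
  have n2 : Nz (cA S) 𝒩 := (Nz_Fix (le_Stab fun g hg => map_adj (g : U →+* U)
    (fun z hz => left_subset_adj _ _ ((cA_Ft S hg z).1 hz))
    fun z hz => right_subset_adj _ _ ((hT hg z).1 hz))).sup (Nz_Fix (cA_Fb S))
  have n3 : 𝒩.relIndex (Fix (S.Ft : Set U)) ≠ 0 := fun h =>
    (openGal_holds U S.Ft (alg_Ft S) T).1 (Subgroup.relIndex_eq_zero_of_le_left le_sup_left h)
  set N := S.Om ⊓ fixedOf (𝒩 : Set (RingAut U)) with hN
  have N1 : Fix (adj N {S.x, S.y} : Set U) = 𝒩 := open_sub S le_sup_left n1 le_sup_right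
  have N2 : S.Kt ≤ N := fun z hz => ⟨Kt_Om S hz, fun g hg => n1 hg z (Kt_Ft S hz)⟩
  have N3 : cA S ≤ Stab (N : Set U) := fun g hg => Stab_inf (cA_Om S hg) (Stab_fixedOf n2 hg)
  have N4 : 𝒩 ≤ Fix (N : Set U) := fun g hg z hz => hz.2 g hg
  have N5 : ∀ g ∈ cA S ⊓ PresV N S.Op, g ∈ Pres N S.w := fun g hg =>
    pres_of_Op S ((k0_Kt S).trans N2) inf_le_left ⟨⟨cA_k0 S hg.1, cA_Om S hg.1⟩, hg.2⟩
  obtain ⟨P, p1, p2, p3, p4, p5⟩ := sylow_pre (p := p) (D := cA S ⊓ PresV N S.Op) (N := 𝒩)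
    (le_inf (n1.trans (Fix_cA S)) (N4.trans (Fix_le_PresV _ _))) (n2.mono inf_le_left) fun h =>
      Subgroup.relIndex_ne_zero_trans n3 hF.2
        (Subgroup.relIndex_eq_zero_of_le_right inf_le_left h)
  have pA : P ≤ cA S := p2.trans inf_le_left
  obtain ⟨γ, g1, g2⟩ := exists_presV S le_rfl (Kt_Om S) (θ_cA S) ⟨S.θ_Kt, S.Op_θ⟩
  rw [← Ft_eq] at g1
  have g3 := mul_mem (θ_cA S) (Fix_cA S g1)
  obtain ⟨a, a1, a2⟩ := p5 _ (Nz_Fix (inf_le_left.trans (cA_Ft S))) n1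
    (fun d hd => ⟨M, hF.1 d hd.1⟩) _ ⟨g3, N3 g3, fun z hz => g2.2 z hz.1⟩
  obtain ⟨h, h1, h2⟩ := exists_presV S N2 inf_le_left (pA a1) (p2 a1).2
  rw [N1] at h1
  have h3 := pA (mul_mem a1 (p1 h1))
  obtain ⟨γ', k1, k2⟩ := exists_pres S h3 (pres_Fb S h3
    (pres_of_Op S S.k0_le le_rfl ⟨⟨cA_k0 S h3, cA_Om S h3⟩, h2⟩))
  refine ⟨P, a * h * γ', p1, pA, p3, mul_mem (mul_mem a1 (p1 h1)) (p1 (Subgroup.mem_sup_right k1)),
    fun z hz => ?_, k2, fun z hz => ?_, fun j z hz hz' => ?_, fun g hg z hz hz' =>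
      (N5 g (p2 hg)).2 z ⟨hz, fun g hg => ?_⟩⟩
  · have := a2 z hz
    rw [mul_app, mul_app, g1 z hz] at this
    rw [mul_app, mul_app, k1 z (Ft_Fb S hz), n1 h1 z hz, ← app_inv a (S.θ z), this]
  · rw [mul_app, k1 z (Om_Fb S hz)]
    exact h2.2 z hz
  · obtain ⟨i1, i2⟩ := hD p U S.Kt N S.k0 S.w (S.D j) (k0_Kt S) N2 (Fix (S.Ft : Set U))
      (Fix_anti (Kt_Ft S)) (fun h => n3 (Subgroup.relIndex_eq_zero_of_le_left N4 h))
      (fun g hg z => (N3 (Fix_cA S hg) z).1)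
      (fun z hz h => inf_le_Kt S hz.1 ((fixedFix_holds U S.Ft (alg_Ft S)).le h)) S.wp S.val_k0
      (S.D_k0 j) (exists_units S hn) fun z hz => ⟨D_Kt S j hz, S.D_w j z hz⟩
    let I : Subgroup (RingAut U) :=
      { carrier := {g | g ∈ Fix (S.Ft : Set U) ∧ ∀ z ∈ N, z ≠ 0 → S.w (g z - z) < S.w z}
        one_mem' := ⟨one_mem _, fun z _ z0 => by simpa using (Valuation.pos_iff _).2 z0⟩
        mul_mem' := fun {a b} ha hb => ⟨mul_mem ha.1 hb.1, fun z hz z0 => by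
          have e := hb.2 z hz z0
          have := ha.2 _ ((N3 (Fix_cA S hb.1) z).1 hz) (by simpa using z0)
          rw [S.w.map_eq_of_sub_lt e] at this
          simpa using S.w.map_add_lt this e⟩
        inv_mem' := fun {a} ha => ⟨inv_mem ha.1, fun z hz z0 => by
          have := ha.2 _ ((N3 (Fix_cA S (inv_mem ha.1)) z).1 hz) (by simpa using z0)
          rw [app_inv] at this
          rwa [S.w.map_sub_swap, S.w.map_eq_of_sub_lt this]⟩ }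
    have hI : I ≤ P := by
      refine p4 I (fun g hg => ⟨Fix_cA S hg.1, N3 (Fix_cA S hg.1), fun z hz => ?_⟩)
        (fun d hd g hg => ⟨Stab.conj (cA_Ft S hd.1) hg.1, fun z hz z0 => ?_⟩) fun g hg => ?_
      · by_cases z0 : z = 0
        · simp [z0]
        have e := hg.2 z hz z0
        have m := (cA_Om S (Fix_cA S hg.1) z).1 hz.1
        refine ⟨fun h => ?_, fun h => ?_⟩
        · simpa using add_mem (mem_Op S (sub_mem m hz.1) (e.trans_le (S.Op_le z hz.1 h))) h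
        · simpa using sub_mem h (mem_Op S (sub_mem m hz.1)
            (e.trans_le ((S.w.map_eq_of_sub_lt e).symm.trans_le (S.Op_le _ m h))))
      · have m := (N3 (inv_mem hd.1) z).1 hz
        have := hg.2 _ m (by simpa using z0)
        rwa [← (N5 d hd).2 _ m, ← (N5 d hd).2 _ (sub_mem ((N3 (Fix_cA S hg.1) _).1 m) m), map_sub,
          app_inv] at this
      · obtain ⟨k, hk⟩ := i1 g hg.1 hg.2
        refine ⟨k, N1 ▸ mem_Fix_adj.2 ⟨hk, ?_⟩⟩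
        rintro _ (rfl | rfl)
        exacts [pow_mem hg.1 _ _ (x_Ft S), pow_mem hg.1 _ _ (y_Ft S)]
    exact i2 z ⟨hz, fun g hg => hz' g ⟨p1 hg, n1 hg⟩⟩ fun g hg h => hz' g ⟨hI ⟨hg, h⟩, hg⟩
  · exact (sup_le (fun g hg _ h => h ▸ hz' g hg) (Fix_anti (Set.singleton_subset_iff.2
      (Om_Fb S hz))) : 𝒩 ≤ Fix {z}) hg z rfl

theorem exists_place (hDiv : DivStmt) : ∃ V, S.IsPl V ∧ S.Ab V 0 := by
  haveI := S.algClosed
  obtain ⟨_, -, h, -⟩ := hDiv U S.Om S.E S.x S.y (fun f hf h0 => by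
    obtain ⟨z, hz⟩ := IsAlgClosed.exists_root f (natDegree_pos_iff_degree_pos.1 h0).ne'
    exact ⟨z, Om_closed S z ⟨f, ne_zero_of_natDegree_gt h0, hf, hz⟩, hz⟩)
    (coeff_Om S) (Δ_ne S) S.eqn S.transc
  obtain ⟨V, h1, h2, h3⟩ := h (.some _ _ (nonsing_of_Δ (Δ_ne S) (S.eqnP 0))) (S.P_mem 0)
  exact ⟨V, ⟨fun c => h1 _ ⟨c, rfl⟩, h2⟩, h3⟩

end Gal

open Gal in
theorem gal_of (hG : ThmGStmt) (hD : InertiaDerStmt) (hDiv : DivStmt) : GalStmt := by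
  intro p hp M U _ S G _ _ C hC hCp hM hfin
  haveI := S.algClosed
  haveI := charZero S
  have hn : 1 < p ^ M := lt_of_le_of_lt (Nat.factorial_pos _) hM
  haveI : NeZero (p ^ M) := ⟨by omega⟩
  choose! Tf hTf using fun φ (h : φ ∈ PhiSet S.i S.x S.y S.xP S.yP C) => h.1
  obtain ⟨T, T1, T2⟩ := exists_stable S (NeZero.ne _) (hfin.toFinset.biUnion Tf)
  obtain ⟨P, σ, p1, pA, p3, s1, s2, s3, s4, p4, p5⟩ := exists_P S hD hn T T2
  have gA : Fix (S.Fb : Set U) ≤ Fix (S.Ft : Set U) := Fix_anti (Ft_Fb S)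
  have nA : Fix (adj (S.Ft : Set U) (T : Set U) : Set U) ≤ Fix (S.Ft : Set U) := Fix_anti (left_subset_adj _ _)
  have nC : ∀ φ ∈ PhiSet S.i S.x S.y S.xP S.yP C, Fix (adj (S.Ft : Set U) (T : Set U) : Set U) ≤ Cen φ :=
    fun φ hφ a ha => Fix_le_Cen φ (hTf φ hφ) ((Finset.subset_biUnion_of_mem Tf
      (hfin.mem_toFinset.2 hφ)).trans T1) ((gA.trans (Fix_cA S)).trans T2)
      (cA_Fb S (Fix_cA S (nA ha))) (Fix_anti (right_subset_adj _ _) ha)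
  refine ⟨P, hfin, fun φ h => phi_conjG hC h, Nz_Fix (pA.trans (cA_Fb S)),
    fun a ha φ h => ⟨_, phi_cA S (pA ha) h, fun γ γ' e => congrArg φ (Subtype.ext e.symm)⟩,
    fun a ha => (p3 a ha).imp fun k hk φ h => ?_, fun φ hφ hfix => ?_⟩
  · exact ((sup_le (fun a ha => ⟨(nC φ h ha).1, _, (nC φ h ha).2⟩)
      (fun a ha => ⟨Fix_le_Stab _ ha, _, Rel.of_mem ⟨a, ha⟩⟩) : _ ≤ Inn φ) hk).2
  set P0 := P ⊓ Fix (S.Ft : Set U) with hP0
  have pI : P ≤ Inn φ := fun a ha => ⟨cA_Fb S (pA ha), hfix a ha⟩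
  have z0 : Nz P P0 := (Nz.self P).inf (Nz_Fix (pA.trans (cA_Ft S)))
  have zC : Nz P (Cen φ ⊓ P0) := ((Nz_Cen φ).mono pI).inf z0
  have nP : Fix (adj (S.Ft : Set U) (T : Set U) : Set U) ≤ P0 := le_inf (le_sup_left.trans p1) nA
  have gP : Fix (S.Fb : Set U) ≤ P0 := le_inf (le_sup_right.trans p1) gA
  obtain ⟨R, r1, r2, r3, r4, r5, r6⟩ := op_pre (p := p) (D := P0) (N := Cen φ ⊓ P0) inf_le_right
    (zC.mono inf_le_left) fun h => (openGal_holds U S.Ft (alg_Ft S) T).1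
      (Subgroup.relIndex_eq_zero_of_le_left (le_inf (nC φ hφ) nP)
        (Subgroup.relIndex_eq_zero_of_le_right inf_le_right h))
  have nR : Fix (adj (S.Ft : Set U) (T : Set U) : Set U) ≤ R := (le_inf (nC φ hφ) nP).trans r1
  obtain ⟨V, v1, v2⟩ := exists_place S hDiv
  obtain ⟨t, γ, t1, t2, t3, -⟩ := hφ.2 V v1.1 v1.2
  by_cases hw : ∃ m : ℕ, ¬ p ∣ m ∧ γ.1 ^ m ∈ R
  · obtain ⟨m, m1, m2⟩ := hw
    refine exists_normalP (R := (R.subgroupOf _).map φ) (Subgroup.map_le_range _ _) ?_ ?_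
      (r := φ (γ ^ m)) ⟨_, m2, rfl⟩ ?_
    · rintro _ ⟨d, rfl⟩ _ ⟨r, hr, rfl⟩
      exact ⟨d * r * d⁻¹, r3 _ (gP d.2) _ hr, by simp⟩
    · rintro _ ⟨r, hr, rfl⟩
      obtain ⟨k, hk⟩ := r4 _ hr
      refine ⟨k, ?_⟩
      rintro _ ⟨s, -, rfl⟩
      have := hk.1.2 s (r ^ p ^ k * s * (r ^ p ^ k)⁻¹) rfl
      rw [map_mul, map_mul, map_inv, map_pow, one_mul, inv_one, mul_one] at this
      exact mul_inv_eq_iff_eq_mul.1 this
    · refine (hp.out.dvd_mul.1 ((hCp _ (t3 ⟨0, v2⟩)).trans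
        (orderOf_dvd_of_pow_eq_one ?_))).resolve_left m1
      rw [pow_mul, ← map_pow, pow_orderOf_eq_one]
  exfalso
  set K' := S.Om ⊓ fixedOf (P0 : Set (RingAut U)) with hK'
  have eK : Fix (adj K' {S.x, S.y} : Set U) = P0 := open_sub S nP inf_le_right gP
  obtain ⟨eL, T', eT⟩ := (openGal_holds U S.Ft (alg_Ft S) T).2.2 R nR (r2.trans inf_le_right)
  set L := fixedOf (R : Set (RingAut U)) with hL
  have kK : S.Kt ≤ K' := fun z hz => ⟨Kt_Om S hz, fun g hg => hg.2 z (Kt_Ft S hz)⟩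
  have hker : adj (L : Set U) (S.Om : Set U) ≤ kerField φ := adj_le.2
    ⟨fun z hz g ⟨hg, e⟩ => hz g (r1 ⟨⟨Fix_le_Stab _ hg, e ▸ Rel.of_mem ⟨g, hg⟩⟩, gP hg⟩),
      fun z hz g ⟨hg, _⟩ => hg z (Om_Fb S hz)⟩
  obtain ⟨R', q1, q2, q3, q4⟩ := hG p (p ^ M) U S K' L σ
    { Kt_le := kK
      le_Om := inf_le_left
      finL := ⟨T', eT⟩
      normal := ⟨⟨T', le_antisymm (eT ▸ adj_mono (Ft_eq S ▸ adj_mono kK le_rfl) le_rfl)
          (adj_le.2 ⟨fun z hz g hg => (eK ▸ r2 hg : g ∈ Fix _) z hz,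
            eT ▸ right_subset_adj _ _⟩)⟩,
        fun g hg z => (Stab_fixedOf r3 (eK ▸ hg) z).1⟩
      index := by
        choose! f hf using hfix
        rw [eL, eK]
        refine lt_of_le_of_lt ((relIndex_le_card (D := P0) f fun a ha b hb e => r1
          ⟨⟨(pI (mul_mem (inv_mem ha.1) hb.1)).1, ?_⟩, P0.mul_mem (P0.inv_mem ha) hb⟩).trans
          (Nat.self_le_factorial _)) hM
        simpa [e] using (Rel.inv (hf a ha.1)).mul (hf b hb.1) (pI hb.1).1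
      D_w := fun j z hz => p4 j z hz.1 hz.2
      uniq := fun g hg z hz h => p5 g (eK ▸ hg : g ∈ P0).1 z h fun g hg => hz g (nR hg)
      σ_θ := s2
      σ_K := Stab_inf (cA_Om S (pA s1)) (Stab_fixedOf z0 s1)
      σ_L := Stab_fixedOf (r6 P z0 zC) s1
      σ_w := s3
      σ_Op := s4
      unram := fun V v1 v2 => by
        obtain ⟨t, γ, t1, t2, -, t4⟩ := hφ.2 V v1.1 v1.2
        refine ⟨t, t1, fun z hz z0 m k hm hv => ?_⟩
        have := t2 z (hker hz) z0 m k hm hv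
        rwa [hker hz γ.1 ⟨γ.2, t4 v2⟩] at this
      wild := ⟨V, 0, t, γ, v1, v2, t1, γ.2, fun z hz => t2 z (hker hz),
        fun m hm h => hw ⟨m, hm, eL ▸ h⟩⟩ }
  rw [eL] at q1 q4
  rw [eK] at q2 q3
  refine q1.not_ge (r5 R' q2 q3 fun r hr => ?_)
  obtain ⟨k, hk⟩ := q4 r hr
  obtain ⟨l, hl⟩ := r4 _ hk
  exact ⟨k + l, by rwa [pow_add, pow_mul]⟩

end P179W
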