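import Vale.Agent.P179W.PS
import Vale.Agent.P179W.AmbBasic
import Vale.Agent.P179W.PlaceA

/-!
# P179W : Gauss valuations on the function field of `E ^ ι` (B11)
-/

set_option linter.all false

open scoped NNReal Classical
open Polynomial

noncomputable section

namespace P179W

namespace GaussH

variable {U : Type} [Field U] {w : Valuation U ℝ≥0} {R : Type} [Field R] {rd : U → R}

/-- the residue field of a subfield -/
def kap (h : IsRed w rd) (K : Subfield U) : Subfield R where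
  carrier := {r | ∃ a ∈ K, w a ≤ 1 ∧ rd a = r}
  one_mem' := ⟨1, K.one_mem, by simp, h.one⟩
  zero_mem' := ⟨0, K.zero_mem, by simp, h.zero⟩
  add_mem' := by
    rintro _ _ ⟨a, ha0, ha, rfl⟩ ⟨b, hb0, hb, rfl⟩
    exact ⟨a + b, K.add_mem ha0 hb0, w.map_add_le ha hb, h.add a b ha hb⟩
  mul_mem' := by
    rintro _ _ ⟨a, ha0, ha, rfl⟩ ⟨b, hb0, hb, rfl⟩
    exact ⟨a * b, K.mul_mem ha0 hb0, by rw [map_mul]; exact mul_le_one' ha hb, h.mul a b ha hb⟩
  neg_mem' := by
    rintro _ ⟨a, ha0, ha, rfl⟩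
    exact ⟨-a, K.neg_mem ha0, by rwa [Valuation.map_neg], h.neg ha⟩
  inv_mem' := by
    rintro _ ⟨a, ha0, ha, rfl⟩
    by_cases h0 : rd a = 0
    · exact ⟨0, K.zero_mem, by simp, by rw [h0, h.zero, inv_zero]⟩
    · have h1 := (h.ne_zero_iff ha).1 h0
      exact ⟨a⁻¹, K.inv_mem ha0, by rw [map_inv₀, h1, inv_one], h.inv h1⟩

theorem exists_red (h : IsRed w rd) (f : U[X]) (hf : ∀ k, w (f.coeff k) ≤ 1) :
    ∃ g : R[X], (∀ k, g.coeff k = rd (f.coeff k)) ∧
      ∀ x, w x ≤ 1 → w (f.eval x) ≤ 1 ∧ g.eval (rd x) = rd (f.eval x) := by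
  obtain ⟨f₀, rfl⟩ : f ∈ lifts w.valuationSubring.subtype :=
    (lifts_iff_coeff_lifts f).2 fun k => ⟨⟨_, hf k⟩, rfl⟩
  refine ⟨f₀.map h.hom, fun k => by rw [coe_mapRingHom, coeff_map, coeff_map]; rfl,
    fun x hx => ?_⟩
  have h1 : eval x (map w.valuationSubring.subtype f₀) = (f₀.eval ⟨x, hx⟩ : w.valuationSubring) :=
    eval_map_apply (p := f₀) w.valuationSubring.subtype ⟨x, hx⟩
  change w (eval x (map w.valuationSubring.subtype f₀)) ≤ 1 ∧
    _ = rd (eval x (map w.valuationSubring.subtype f₀))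
  rw [h1]
  exact ⟨(Valuation.mem_valuationSubring_iff w _).1 (f₀.eval (⟨x, hx⟩ : w.valuationSubring)).2,
    eval_map_apply (p := f₀) h.hom ⟨x, hx⟩⟩

theorem exists_norm (w : Valuation U ℝ≥0) {f : U[X]} (hf : f ≠ 0) :
    ∃ m, f.coeff m ≠ 0 ∧ (∀ k, w (f.coeff k) ≤ w (f.coeff m)) ∧
      (∀ k, w ((C (f.coeff m)⁻¹ * f).coeff k) ≤ 1) ∧ (C (f.coeff m)⁻¹ * f).coeff m = 1 := by
  obtain ⟨m, h1, h2⟩ := Finset.exists_max_image _ (fun k => w (f.coeff k)) (support_nonempty.2 hf)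
  have h3 := mem_support_iff.1 h1
  have h4 : ∀ k, w (f.coeff k) ≤ w (f.coeff m) := fun k => by
    by_cases hk : k ∈ f.support
    · exact h2 k hk
    · rw [notMem_support_iff.1 hk, map_zero]
      exact zero_le
  refine ⟨m, h3, h4, fun k => ?_, by rw [coeff_C_mul, inv_mul_cancel₀ h3]⟩
  rw [coeff_C_mul, map_mul, map_inv₀]
  exact inv_mul_le_one_of_le₀ (h4 k) zero_le

theorem alg_red (h : IsRed w rd) {K : Subfield U} {c : U} (hc : Alg K c) (hw : w c ≤ 1) :
    Alg (kap h K) (rd c) := by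
  obtain ⟨f, h0, h1, h2⟩ := hc
  obtain ⟨m, -, -, h3, h4⟩ := exists_norm w h0
  obtain ⟨g, h5, h6⟩ := exists_red h _ h3
  refine ⟨g, fun h7 => ?_, fun k => ⟨_, ?_, h3 k, (h5 k).symm⟩, ?_⟩
  · have := h5 m
    rw [h7, h4, h.one, coeff_zero] at this
    exact zero_ne_one this
  · rw [coeff_C_mul]
    exact K.mul_mem (K.inv_mem (h1 m)) (h1 k)
  · rw [(h6 c hw).2, eval_mul, h2, mul_zero, h.zero]

theorem gauss_of_transc (h : IsRed w rd) {K : Subfield U} {x : U} (hx : w x ≤ 1)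
    (ht : Transc (kap h K) (rd x)) : Pl.Gauss w K x := by
  intro f hf k
  by_cases h0 : f = 0
  · simp [h0]
  obtain ⟨m, h1, h2, h3, h4⟩ := exists_norm w h0
  obtain ⟨g, h5, h6⟩ := exists_red h _ h3
  have h7 : g.eval (rd x) ≠ 0 := fun h7 => by
    have h8 := ht g (fun k => ⟨_, by
      rw [coeff_C_mul]
      exact K.mul_mem (K.inv_mem (hf m)) (hf k), h3 k, (h5 k).symm⟩) h7
    have := h5 m
    rw [h8, h4, h.one, coeff_zero] at this
    exact zero_ne_one this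
  rw [(h6 x hx).2, h.ne_zero_iff (h6 x hx).1, eval_mul, eval_C, map_mul, map_inv₀,
    inv_mul_eq_one₀ (w.ne_zero_iff.2 h1)] at h7
  exact (h2 k).trans h7.le

theorem ql {K : Subfield U} {x : U} (hG : Pl.Gauss w K x) (hx : w x ≤ 1) (Q : Subring U)
    (hdiv : ∀ u ∈ Q, ∀ v ∈ Q, w v = 1 → u / v ∈ Q) (hK : ∀ c ∈ K, w c ≤ 1 → c ∈ Q) (hxQ : x ∈ Q) :
    ∀ z ∈ adj K {x}, w z ≤ 1 → z ∈ Q := by
  intro z hz hw
  obtain ⟨R, _, rd, h, -⟩ := exists_isRed w
  obtain ⟨A, hA, B, hB, h1, h2⟩ := mem_adj_one.1 hz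
  obtain ⟨m, h3, -, h4, h5⟩ := exists_norm w (f := B) (by rintro rfl; simp at h1)
  have hc := C_mem_polyIn (K.inv_mem (mem_polyIn.1 hB m))
  have hA' := mem_polyIn.1 ((polyIn K).mul_mem hc hA)
  have hB' := mem_polyIn.1 ((polyIn K).mul_mem hc hB)
  have h6 : z * (C (B.coeff m)⁻¹ * B).eval x = (C (B.coeff m)⁻¹ * A).eval x := by
    rw [eval_mul, eval_mul, ← h2]
    ring
  generalize C (B.coeff m)⁻¹ * B = B' at *
  generalize C (B.coeff m)⁻¹ * A = A' at *
  have h7 : w (B'.eval x) = 1 := by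
    obtain ⟨g, -, h7⟩ := exists_red h _ h4
    refine le_antisymm (h7 x hx).1 ?_
    have := hG B' hB' m
    rwa [h5, map_one] at this
  have h8 : w (A'.eval x) ≤ 1 := by rw [← h6, map_mul, h7, mul_one]; exact hw
  have hev : ∀ f : U[X], (∀ k, f.coeff k ∈ Q) → f.eval x ∈ Q := fun f hf => by
    rw [eval_eq_sum_range]
    exact Q.sum_mem fun k _ => Q.mul_mem (hf k) (Q.pow_mem hxQ k)
  have h9 : B'.eval x ≠ 0 := by
    intro h9
    rw [h9, map_zero] at h7
    exact zero_ne_one h7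
  rw [eq_div_of_mul_eq h9 h6]
  exact hdiv _ (hev _ fun k => hK _ (hA' k) ((hG A' hA' k).trans h8)) _
    (hev _ fun k => hK _ (hB' k) (h4 k)) h7

variable {ι : Type} {k : Subfield U} {X : ι → U}

theorem algInd (h : IsRed w rd) (hX : ∀ j, w (X j) ≤ 1)
    (hG : ∀ f : MvPolynomial ι U, (∀ m, f.coeff m ∈ k) → ∀ m,
      w (f.coeff m) ≤ w (MvPolynomial.eval X f)) :
    AlgebraicIndependent (kap h k) fun j => rd (X j) := by
  refine algebraicIndependent_iff.2 fun p hp => ?_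
  choose a ha1 ha2 ha3 using fun m => (p.coeff m).2
  let f : MvPolynomial ι U := ∑ m ∈ p.support, MvPolynomial.monomial m (a m)
  have hf : ∀ m, f.coeff m = if m ∈ p.support then a m else 0 := fun m => by
    simp only [f, MvPolynomial.coeff_sum, MvPolynomial.coeff_monomial, Finset.sum_ite_eq']
  have hpw : ∀ (m : ι →₀ ℕ) j, w (X j ^ m j) ≤ 1 := fun m j => Pl.vpow_le w (hX j) _
  have hpr : ∀ m : ι →₀ ℕ, w (∏ j ∈ m.support, X j ^ m j) ≤ 1 := fun m => by
    rw [map_prod]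
    exact Finset.prod_le_one' fun j _ => hpw m j
  have h1 : MvPolynomial.eval X f = ∑ m ∈ p.support, a m * ∏ j ∈ m.support, X j ^ m j := by
    simp only [f, map_sum, MvPolynomial.eval_monomial]
    rfl
  have h2 : ∀ m ∈ p.support, w (a m * ∏ j ∈ m.support, X j ^ m j) ≤ 1 := fun m _ =>
    Pl.vmul_le w (ha2 m) (hpr m)
  have h3 : rd (MvPolynomial.eval X f) = 0 := by
    rw [h1, h.sum _ h2, ← hp, MvPolynomial.aeval_def, MvPolynomial.eval₂_eq]
    refine Finset.sum_congr rfl fun m _ => ?_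
    rw [h.mul _ _ (ha2 m) (hpr m), ha3, h.prod _ fun j _ => hpw m j]
    congr 1
    exact Finset.prod_congr rfl fun j _ => h.pow (hX j) _
  rw [h.eq_zero _ (by rw [h1]; exact Valuation.map_sum_le _ h2)] at h3
  by_contra h0
  obtain ⟨m, hm⟩ := MvPolynomial.support_nonempty.2 h0
  have h4 := (hG f (fun m => by
    rw [hf]
    split_ifs
    exacts [ha1 m, k.zero_mem]) m).trans_lt h3
  rw [hf, if_pos hm, ← h.eq_zero _ (ha2 m), ha3] at h4
  exact MvPolynomial.mem_support_iff.1 hm (Subtype.ext h4)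

theorem transc_of_ind {κ : Subfield R} {x : ι → R} (hx : AlgebraicIndependent κ x) {s : Set ι}
    {j : ι} (hj : j ∉ s) : Transc (adj κ (x '' s)) (x j) := by
  rw [transc_iff, adj_eq_adjoin]
  exact IntermediateField.transcendental_adjoin_iff.2 (hx.transcendental_adjoin hj)

theorem kap_le (h : IsRed w rd) (hX : ∀ j, w (X j) ≤ 1)
    (hi : AlgebraicIndependent (kap h k) fun j => rd (X j)) (s : Finset ι) :
    kap h (adj k (X '' s)) ≤ adj (kap h k) ((fun j => rd (X j)) '' s) := by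
  induction s using Finset.induction_on with
  | empty =>
    rintro _ ⟨a, ha, h1, rfl⟩
    exact le_adj _ _ ⟨a, (adj_le.2 ⟨subset_rfl, by simp⟩ : adj k (X '' (∅ : Finset ι)) ≤ k) ha,
      h1, rfl⟩
  | insert j s hj ih =>
    rintro _ ⟨a, ha, h1, rfl⟩
    let L := adj (kap h k) ((fun j => rd (X j)) '' (insert j s : Finset ι))
    let Q : Subring U := (L.toSubring.comap h.hom).map w.valuationSubring.subtype
    have hQ : ∀ z, z ∈ Q ↔ w z ≤ 1 ∧ rd z ∈ L := fun z =>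
      ⟨by rintro ⟨z, hz, rfl⟩; exact ⟨z.2, hz⟩, fun hz => ⟨⟨z, hz.1⟩, hz.2, rfl⟩⟩
    rw [Finset.coe_insert, Set.image_insert_eq, ← Set.union_singleton, ← adj_adj] at ha
    refine ((hQ a).1 (ql (gauss_of_transc h (hX j) ((transc_of_ind hi (by simpa using hj)).mono ih))
      (hX j) Q (fun u hu v hv h2 => ?_) (fun c hc h2 => ?_) ?_ a ha h1)).2
    · rw [hQ] at hu hv ⊢
      refine ⟨by rw [map_div₀, h2, div_one]; exact hu.1, ?_⟩
      rw [h.div hu.1 h2]
      exact L.div_mem hu.2 hv.2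
    · exact (hQ c).2 ⟨h2, adj_mono subset_rfl (Set.image_mono (by simp)) (ih ⟨c, hc, h2, rfl⟩)⟩
    · exact (hQ _).2 ⟨hX j, right_subset_adj _ _ ⟨j, by simp, rfl⟩⟩

theorem gauss_alg [Fintype ι] (hX : ∀ j, w (X j) ≤ 1)
    (hG : ∀ f : MvPolynomial ι U, (∀ m, f.coeff m ∈ k) → ∀ m,
      w (f.coeff m) ≤ w (MvPolynomial.eval X f)) (j : ι) (Om : Subfield U)
    (hOm : ∀ z ∈ Om, Alg (adj k (X '' {l | l ≠ j})) z) : Pl.Gauss w Om (X j) := by
  obtain ⟨R, _, rd, h, -⟩ := exists_isRed w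
  have hi := algInd h hX hG
  have h1 := kap_le h hX hi (Finset.univ.erase j)
  have h2 : ((Finset.univ.erase j : Finset ι) : Set ι) = {l | l ≠ j} := by
    ext l
    simp
  rw [h2] at h1
  refine gauss_of_transc h (hX j) (transc_iff_not_alg.2 fun h3 => ?_)
  refine transc_iff_not_alg.1 (transc_of_ind hi (s := {l | l ≠ j}) (j := j) (by simp))
    (h3.trans ?_)
  rintro _ ⟨a, ha, h4, rfl⟩
  exact (alg_red h (hOm a ha) h4).mono h1

theorem alg_y {E : WeierstrassCurve U} {K : Subfield U} (hE : CoeffIn E K) {x y : U} (hx : x ∈ K)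
    (h : E.toAffine.Equation x y) : Alg K y := by
  have h1 : adj K {x} ≤ K := adj_le.2 ⟨subset_rfl, by simpa using hx⟩
  refine ⟨Polynomial.X ^ 2 + (C (E.a₁ * x + E.a₃) * Polynomial.X -
    C (x ^ 3 + E.a₂ * x ^ 2 + E.a₄ * x + E.a₆)), Monic.ne_zero (monic_X_pow_add (by
      compute_degree!)), mem_polyIn.1 ?_, ?_⟩
  · exact Subring.add_mem _ (Subring.pow_mem _ X_mem_polyIn 2) (Subring.sub_mem _
      (Subring.mul_mem _ (C_mem_polyIn (h1 (Pl.lin_mem hE x))) X_mem_polyIn)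
      (C_mem_polyIn (h1 (Pl.cub_mem hE x))))
  · simp only [eval_add, eval_sub, eval_mul, eval_pow, eval_C, eval_X]
    linear_combination Pl.eqn h

end GaussH

open GaussH in
theorem gaussTower_holds : GaussTowerStmt := by
  intro U _ k E ι _ X Y w hk hE hΔ heq hX hG
  let K : Finset ι → Subfield U := fun s => adj k (X '' s ∪ Y '' s)
  have hkK : ∀ s, CoeffIn E (K s) := fun s =>
    ⟨le_adj k _ hk.1, le_adj k _ hk.2.1, le_adj k _ hk.2.2.1, le_adj k _ hk.2.2.2.1,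
      le_adj k _ hk.2.2.2.2⟩
  have hK0 : K ∅ ≤ k := adj_le.2 ⟨subset_rfl, by simp⟩
  have hK1 : K Finset.univ = adj k (Set.range X ∪ Set.range Y) := by simp [K]
  have hKi : ∀ s j, K (insert j s) = adj (K s) {X j, Y j} := fun s j => by
    simp only [K, adj_adj, Finset.coe_insert, Set.image_insert_eq]
    congr 1
    ext z
    simp only [Set.mem_union, Set.mem_insert_iff, Set.mem_singleton_iff]
    tauto
  have halg : ∀ s j, j ∉ s → ∀ z ∈ K s, Alg (adj k (X '' {l | l ≠ j})) z := by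
    intro s j hj z hz
    have h1 : ∀ l ∈ s, X l ∈ adj k (X '' {l | l ≠ j}) := fun l hl =>
      right_subset_adj _ _ ⟨l, fun h => hj (h ▸ hl), rfl⟩
    have h2 : K s ≤ adj (adj k (X '' {l | l ≠ j}) : Set U) (X '' s ∪ Y '' s) :=
      adj_mono (left_subset_adj _ _) subset_rfl
    have h3 : ∀ t ∈ X '' s ∪ Y '' s, Alg (adj k (X '' {l | l ≠ j})) t := by
      rintro _ (⟨l, hl, rfl⟩ | ⟨l, hl, rfl⟩)
      · exact alg_of_mem (h1 l hl)
      · exact alg_y ⟨le_adj k _ hk.1, le_adj k _ hk.2.1, le_adj k _ hk.2.2.1,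
          le_adj k _ hk.2.2.2.1, le_adj k _ hk.2.2.2.2⟩ (h1 l hl) (heq l)
    generalize adj k (X '' {l | l ≠ j}) = L at h2 h3
    exact alg_adj h3 z (h2 hz)
  have hE4 := fun (s : Finset ι) j (hj : j ∉ s) => gaussEll_holds U ℝ≥0 w (K s) E (X j) (Y j)
    (hkK s) hE hΔ (heq j) (hX j) (gauss_alg hX hG j _ (halg s j hj))
  rw [← hK1]
  refine ⟨?_, ?_, fun j Om hOm => gauss_alg hX hG j Om hOm, fun w' h1 h2 h3 => ?_⟩
  · induction (Finset.univ : Finset ι) using Finset.induction_on with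
    | empty => exact fun z hz => ⟨z, hK0 hz, rfl⟩
    | insert j s hj ih =>
      intro z hz
      rw [hKi] at hz
      obtain ⟨c, hc, h1⟩ := (hE4 s j hj).2.2.1 z hz
      rw [h1]
      exact ih c hc
  · set B := Subring.closure ({c | c ∈ k ∧ w c ≤ 1} ∪ (Set.range X ∪ Set.range Y)) with hB
    let Q : Subring U :=
      { carrier := {z | ∃ a ∈ B, ∃ b ∈ B, w b = 1 ∧ z * b = a}
        one_mem' := ⟨1, B.one_mem, 1, B.one_mem, map_one w, mul_one 1⟩
        zero_mem' := ⟨0, B.zero_mem, 1, B.one_mem, map_one w, mul_one 0⟩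
        mul_mem' := by
          rintro u v ⟨a, ha, b, hb, h1, rfl⟩ ⟨a', ha', b', hb', h2, rfl⟩
          exact ⟨_, B.mul_mem ha ha', _, B.mul_mem hb hb', by rw [map_mul, h1, h2, mul_one], by ring⟩
        add_mem' := by
          rintro u v ⟨a, ha, b, hb, h1, rfl⟩ ⟨a', ha', b', hb', h2, rfl⟩
          exact ⟨_, B.add_mem (B.mul_mem ha hb') (B.mul_mem ha' hb), _, B.mul_mem hb hb',
            by rw [map_mul, h1, h2, mul_one], by ring⟩
        neg_mem' := by
          rintro u ⟨a, ha, b, hb, h1, rfl⟩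
          exact ⟨_, B.neg_mem ha, b, hb, h1, by ring⟩ }
    have hBQ : ∀ a ∈ B, a ∈ Q := fun a ha => ⟨a, ha, 1, B.one_mem, map_one w, mul_one a⟩
    have hdiv : ∀ u ∈ Q, ∀ v ∈ Q, w v = 1 → u / v ∈ Q := by
      rintro u ⟨a, ha, b, hb, h1, rfl⟩ v ⟨a', ha', b', hb', h2, rfl⟩ h3
      have h4 : v ≠ 0 := by
        rintro rfl
        simp at h3
      refine ⟨_, B.mul_mem ha hb', _, B.mul_mem hb ha',
        by rw [map_mul, map_mul, h1, h2, h3, mul_one, mul_one], by field_simp⟩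
    change ∀ z ∈ K Finset.univ, w z ≤ 1 → z ∈ Q
    induction (Finset.univ : Finset ι) using Finset.induction_on with
    | empty => exact fun z hz h1 => hBQ z (Subring.subset_closure (Or.inl ⟨hK0 hz, h1⟩))
    | insert j s hj ih =>
      intro z hz h1
      rw [hKi] at hz
      obtain ⟨a, ha, b, hb, rfl⟩ := (hE4 s j hj).1 z hz
      rw [(hE4 s j hj).2.1 a ha b hb, max_le_iff] at h1
      have h2 := ql (gauss_alg hX hG j _ (halg s j hj)) (hX j) Q hdiv ih
        (hBQ _ (Subring.subset_closure (Or.inr (Or.inl ⟨j, rfl⟩))))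
      exact Q.add_mem (h2 a ha h1.1) (Q.mul_mem (h2 b hb h1.2)
        (hBQ _ (Subring.subset_closure (Or.inr (Or.inr ⟨j, rfl⟩)))))
  · induction (Finset.univ : Finset ι) using Finset.induction_on with
    | empty => exact fun z hz => h1 z (hK0 hz)
    | insert j s hj ih =>
      intro z hz
      rw [hKi] at hz
      exact (hE4 s j hj).2.2.2 w' ih (h2 j) (gauss_alg h2 h3 j _ (halg s j hj)) z hz

end P179W
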