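import Vale.Agent.P179W.HorizA
import Vale.Agent.P179W.AmbVal2
import Vale.Agent.P179W.AmbGal

/-!
# P179W : the horizontal analysis of a cover
-/

open scoped NNReal Classical
open Polynomial

noncomputable section

namespace P179W

namespace HorizH

open Pl

section Ell

variable {R : Type} [Field R] {k : Subfield R} {Γ : Type} [LinearOrderedCommGroupWithZero Γ]
  {v : Valuation R Γ} {E : WeierstrassCurve R} {x y : R}

theorem der_pres [IsAlgClosed k] (hk : ∀ c ∈ k, v c ≤ 1) (hE : CoeffIn E k) (hΔ : E.Δ ≠ 0)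
    (h : E.toAffine.Equation x y) (htr : Transc k x) (hV : ∃ z ∈ adj k {x, y}, 1 < v z)
    {δ : Derivation ℤ R R} (h0 : ∀ c ∈ k, v (δ c) ≤ 1) {ε : R} (hε : v ε ≤ 1)
    (hx : δ x = ε * psi E x y) (hy : δ y = ε * phi E x y) :
    ∀ z ∈ adj k {x, y}, v z ≤ 1 → v (δ z) ≤ 1 := by
  intro z hz h1
  obtain ⟨t, -, h2, h3, -, h5, h6⟩ := place_core hk hE hΔ h htr hV
  have c1 : E.a₁ ∈ v.integer := hk _ hE.1
  have c2 : E.a₂ ∈ v.integer := hk _ hE.2.1
  have c3 : E.a₃ ∈ v.integer := hk _ hE.2.2.1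
  have c4 : E.a₄ ∈ v.integer := hk _ hE.2.2.2.1
  have c6 : E.a₆ ∈ v.integer := hk _ hE.2.2.2.2
  refine (h5 _ (derLe_cl hk h0) (fun h1 => ?_) (fun h1 => ?_) z hz h1).2
  · have x0 : x ≠ 0 := v.pos_iff.1 (zero_lt_one.trans h1)
    have s1 : x⁻¹ ∈ v.integer := by
      rw [Valuation.mem_integer_iff, map_inv₀, inv_le_one₀ (zero_lt_one.trans h1)]
      exact h1.le
    have s2 : y / x ^ 2 ∈ v.integer := by
      rcases h6 with ⟨-, -, e1, e2⟩ | ⟨a, ha, b, hb, -, e2, -⟩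
      · have t0 := v.pos_iff.2 h2
        rw [Valuation.mem_integer_iff, map_div₀, map_pow, e1, e2, ← zpow_natCast, ← zpow_mul,
          ← zpow_sub₀ t0.ne', zpow_le_one_iff_right_of_lt_one₀ t0 h3]
        norm_num
      · refine absurd h1 (not_lt.2 ?_)
        rw [show x = x - a + a by ring]
        exact v.map_add_le e2.le (hk a ha)
    refine ⟨⟨s1, ?_⟩, s2, ?_⟩
    · rw [Derivation.leibniz_inv, hx, smul_eq_mul, show -x⁻¹ ^ 2 * (ε * psi E x y) =
        ε * -(2 * (y / x ^ 2) + (E.a₁ + E.a₃ * x⁻¹) * x⁻¹) by unfold psi; field_simp; ring]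
      exact vmul_le v hε (neg_mem (add_mem (mul_mem (ofNat_mem v.integer 2) s2)
        (mul_mem (add_mem c1 (mul_mem c3 s1)) s1)))
    · have e : δ (y / x ^ 2) = ε * (-1 - (2 * E.a₂ + (3 * E.a₄ + 4 * E.a₆ * x⁻¹) * x⁻¹) * x⁻¹ +
          (E.a₁ + 2 * E.a₃ * x⁻¹) * (y / x ^ 2)) := by
        rw [Derivation.leibniz_div, Derivation.leibniz_pow, hx, hy]
        simp only [smul_eq_mul, nsmul_eq_mul, psi, phi]
        field_simp
        linear_combination -4 * x * ε * eqn h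
      rw [e]
      exact vmul_le v hε (add_mem (sub_mem (neg_mem (one_mem v.integer)) (mul_mem (add_mem
        (mul_mem (ofNat_mem _ 2) c2) (mul_mem (add_mem (mul_mem (ofNat_mem _ 3) c4)
        (mul_mem (mul_mem (ofNat_mem _ 4) c6) s1)) s1)) s1))
        (mul_mem (add_mem c1 (mul_mem (mul_mem (ofNat_mem _ 2) c3) s1)) s2))
  · have s1 : x ∈ v.integer := h1
    have s2 : y ∈ v.integer := y_le ⟨c1, c2, c3, c4, c6⟩ h h1
    exact ⟨⟨s1, hx ▸ vmul_le v hε (add_mem (add_mem (mul_mem (ofNat_mem v.integer 2) s2)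
      (mul_mem c1 s1)) c3)⟩, s2, hy ▸ vmul_le v hε (sub_mem (add_mem (add_mem
        (mul_mem (ofNat_mem v.integer 3) (pow_mem s1 2))
        (mul_mem (mul_mem (ofNat_mem _ 2) c2) s1)) c4) (mul_mem c1 s2))⟩

theorem y_sub_le (hk : ∀ c ∈ k, v c ≤ 1) (hE : CoeffIn E k) (h : E.toAffine.Equation x y) {a b : R}
    (ha : a ∈ k) (hb : b ∈ k) (hab : E.toAffine.Equation a b) (hψ : psi E a b ≠ 0)
    (hx : v (x - a) < 1) (hy : v (y - b) < 1) : v (y - b) ≤ v (x - a) := by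
  have ψk : psi E a b ∈ k :=
    add_mem (add_mem (mul_mem (ofNat_mem k 2) hb) (mul_mem hE.1 ha)) hE.2.2.1
  have a1 : a ∈ v.integer := hk a ha
  have s1 : x ∈ v.integer := by simpa using add_mem (show x - a ∈ v.integer from hx.le) a1
  have s2 : y ∈ v.integer := by
    simpa using add_mem (show y - b ∈ v.integer from hy.le) (show b ∈ v.integer from hk b hb)
  have e : (y - b) * (psi E a b + (y - b)) =
      (x - a) * (x ^ 2 + x * a + a ^ 2 + E.a₂ * (x + a) + E.a₄ - E.a₁ * y) := by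
    unfold psi
    linear_combination eqn h - eqn hab
  have e1 := congrArg v e
  rw [map_mul, v.map_add_eq_of_lt_left (by rwa [vk hk ψk hψ]), vk hk ψk hψ, mul_one, map_mul] at e1
  rw [e1]
  exact mul_le_of_le_one_right' (sub_mem (add_mem (add_mem (add_mem (add_mem (pow_mem s1 2)
    (mul_mem s1 a1)) (pow_mem a1 2)) (mul_mem (show _ ∈ v.integer from hk _ hE.2.1)
    (add_mem s1 a1))) (show _ ∈ v.integer from hk _ hE.2.2.2.1))
    (mul_mem (show _ ∈ v.integer from hk _ hE.1) s2))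

/-- a generator of the value group defined over a small field of constants -/
theorem gen_small [CharZero R] [IsAlgClosed k] (hk : ∀ c ∈ k, v c ≤ 1) {K₁ : Subfield R}
    (hK : K₁ ≤ k) (hE : CoeffIn E K₁) (ha : ∀ z ∈ k, Alg K₁ z) (hΔ : E.Δ ≠ 0)
    (h : E.toAffine.Equation x y) (htr : Transc k x) (hV : ∃ z ∈ adj k {x, y}, 1 < v z) :
    ∃ t ∈ adj K₁ {x, y}, t ≠ 0 ∧ v t < 1 ∧ ∀ z ∈ adj k {x, y}, z ≠ 0 → ∃ m : ℤ, v z = v t ^ m := by
  obtain ⟨t, -, h2, h3, h4, -, h6⟩ := place_core hk (AmbGal.cmono hE hK) hΔ h htr hV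
  suffices ∃ s ∈ adj K₁ {x, y}, v s = v t by
    obtain ⟨s, hs, e⟩ := this
    exact ⟨s, hs, v.ne_zero_iff.1 (e ▸ v.ne_zero_iff.2 h2), e ▸ h3, e ▸ h4⟩
  have p := v.pos_iff.2 h2
  rcases h6 with ⟨-, rfl, -⟩ | ⟨a, ha1, b, hb, -, -, -, ⟨-, rfl⟩ | ⟨e1, rfl, e2⟩⟩
  · exact ⟨_, div_mem (x_mem2 _ x y) (y_mem2 _ x y), rfl⟩
  · obtain ⟨f, hf, f0, f1⟩ := exists_sep (ha a ha1)
    obtain ⟨-, κ, h5, e⟩ := binom v.integer (fun j => hk _ (hK (hf j))) (hk a ha1) h3.le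
    have h7 : v (f.derivative.eval a) = 1 := vk hk (eval_mem (K := K₁) (mem_polyIn.2 fun j => by
      rw [coeff_derivative]
      exact mul_mem (hf _) (add_mem (natCast_mem K₁ j) (one_mem K₁))) hK ha1) f1
    refine ⟨f.eval x, eval_mem (mem_polyIn.2 hf) (le_adj _ _) (x_mem2 _ x y), ?_⟩
    rw [add_sub_cancel, f0] at e
    rw [show f.eval x = (x - a) * (f.derivative.eval a + κ * (x - a)) by rw [e]; ring, map_mul,
      v.map_add_eq_of_lt_left (h7 ▸ vmul_lt v h5 h3), h7, mul_one]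
  · refine ⟨psi E x y, add_mem (add_mem (mul_mem (ofNat_mem _ 2) (y_mem2 _ x y))
      (mul_mem (mem_adj_base hE.1) (x_mem2 _ x y))) (mem_adj_base hE.2.2.1), ?_⟩
    have e3 : v (2 * (y - b)) = v (y - b) := by
      rw [map_mul, vk hk (ofNat_mem k 2) two_ne_zero, one_mul]
    rw [show psi E x y = 2 * (y - b) + E.a₁ * (x - a) by unfold psi at e1 ⊢; linear_combination e1,
      v.map_add_eq_of_lt_left, e3]
    rw [e3, map_mul, e2, sq]
    exact (mul_le_of_le_one_left' (hk _ (hK hE.1))).trans_lt (mul_lt_of_lt_one_right p h3)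

end Ell

variable {p n : ℕ} {U : Type} [Field U] (S : Setup p n U)

include S in
theorem char0 : CharZero U := charZero_of_injective_ringHom S.i.injective

theorem algClosed : IsAlgClosed S.Om :=
  IsAlgClosed.of_ringEquiv ℂ _ (RingEquiv.ofBijective S.i.rangeRestrictField
    S.i.rangeRestrictField_bijective)

theorem coeff_Om : CoeffIn S.E S.Om := AmbGal.cmono S.coeff_k0 S.k0_le

theorem Δ_ne : S.E.Δ ≠ 0 := fun e => by simpa [e] using S.wΔ

theorem psi_ne (j : ZMod n) : psi S.E (S.xP j) (S.yP j) ≠ 0 := fun e => by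
  simpa [e] using S.wP_psi j

theorem Ft_le : S.Ft ≤ S.Fb :=
  Pl.adj_le (fun _ h => mem_adj_base (K := S.Om) (S.k0_le _ h)) (Set.union_subset (Set.union_subset
    (by rintro _ ⟨j, rfl⟩; exact mem_adj_base (K := S.Om) (S.P_mem j).1)
    (by rintro _ ⟨j, rfl⟩; exact mem_adj_base (K := S.Om) (S.P_mem j).2)) (right_subset_adj _ _))

variable {S} {V : ValuationSubring U}

theorem Om_le (hV : S.IsPl V) : ∀ c ∈ S.Om, V.valuation c ≤ 1 := by
  rintro _ ⟨c, rfl⟩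
  exact (V.valuation_le_one_iff _).2 (hV.1 c)

theorem big (hV : S.IsPl V) : ∃ z ∈ adj S.Om {S.x, S.y}, 1 < V.valuation z :=
  hV.2.imp fun z h => ⟨h.1, not_le.1 fun e => h.2 ((V.valuation_le_one_iff z).1 e)⟩

theorem res (hV : S.IsPl V) {z : U} (hz : V.valuation z ≤ 1) :
    ∃ c ∈ S.Om, V.valuation (z - c) < 1 := by
  have := algClosed S
  obtain ⟨t, -, -, -, -, h, -⟩ := place_holds U S.Om S.E S.x S.y (fun f h1 h2 => by
    obtain ⟨g, rfl⟩ := mem_polyIn.2 h1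
    rw [coe_mapRingHom, natDegree_map] at h2
    obtain ⟨c, hc⟩ := IsAlgClosed.exists_root g (natDegree_pos_iff_degree_pos.1 h2).ne'
    exact ⟨c, c.2, (eval_map_apply S.Om.subtype c).trans (congrArg Subtype.val hc.eq_zero)⟩)
    (coeff_Om S) (Δ_ne S) S.eqn S.transc V (fun c hc => (V.valuation_le_one_iff _).1 (Om_le hV c hc))
    hV.2
  exact residue (Om_le hV) (fun u hu h1 => h u hu ((V.valuation_le_one_iff _).1 h1)) (S.U_alg z) hz

theorem pres_Fb (hV : S.IsPl V) {j : ZMod n} (hD : ∀ z ∈ S.Om, S.D j z ∈ S.Om) :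
    ∀ z ∈ S.Fb, V.valuation z ≤ 1 → V.valuation (S.D j z) ≤ 1 := by
  have := algClosed S
  refine der_pres (Om_le hV) (coeff_Om S) (Δ_ne S) S.eqn S.transc (big hV)
    (fun c hc => Om_le hV _ (hD c hc)) (ε := if j = 0 then 1 else 0) ?_ ?_ ?_
  · split_ifs <;> simp
  · rw [S.D_x, ite_mul, one_mul, zero_mul]
  · rw [S.D_y, ite_mul, one_mul, zero_mul]

theorem log_of (hV : S.IsPl V) (T : Finset U) {δ : Derivation ℤ U U}
    (h0 : ∀ c ∈ S.Om, V.valuation (δ c) ≤ 1) {t : U} (ht : t ∈ S.Fb) (t0 : t ≠ 0)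
    (t1 : V.valuation t < 1) (hδ : V.valuation (δ t) ≤ V.valuation t) {z : U}
    (hz : z ∈ adj S.Ft T) : V.valuation (δ z) ≤ V.valuation z := by
  have := algClosed S
  have := char0 S
  obtain ⟨s, h1, h2, h3, h4, -⟩ := place_core (Om_le hV) (coeff_Om S) (Δ_ne S) S.eqn S.transc (big hV)
  obtain ⟨ϖ, k1, k2, k3, k4⟩ := discExt_holds U _ V.valuation S.Fb T (fun z _ => S.U_alg z)
    ⟨s, h1, h2, h3, by simp only [map_zpow₀]; exact h4⟩
  have ay (K : Subfield U) (hK : S.Om ≤ K) (hx : Alg K S.x) (z : U) : Alg K z := by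
    refine (S.U_alg z).trans fun c hc => ?_
    rw [show adj (Set.range S.i) {S.x, S.y} = adj (adj K {S.x} : Set U) {S.y} ⊓ S.Fb from
      (inf_eq_right.2 ?_).symm] at hc
    · exact (alg_adj (fun _ e => e ▸ AmbGal.alg_y (AmbGal.cmono (coeff_Om S) (hK.trans (le_adj _ _)))
        S.eqn (x_mem1 _ _)) c hc.1).trans (alg_adj fun _ e => e ▸ hx)
    · rw [← AmbGal.adj_pair]
      exact adj_mono hK le_rfl
  exact log_ext (Om_le hV) ((le_adj S.Om _).trans (le_adj S.Fb T)) k1 k2 k3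
    (by simpa only [map_zpow₀] using k4) (fun z _ => res hV) (fun z _ => ay _ (le_adj _ _)
      (exchange S.transc (transc_of_lt (Om_le hV) k2 k3)
        (ay _ (le_adj _ _) (alg_of_mem (x_mem1 _ _)) ϖ)) z) h0 (le_adj S.Fb T ht) t0 t1 hδ
    (adj_mono (Ft_le S) le_rfl hz)

theorem unram_val (hV : S.IsPl V) {M : Subfield U} {t : U} (h1 : IsUnif S.Fb V t)
    (h2 : IsCan S.ze M V t 1) {z : U} (hz : z ∈ M) (z0 : z ≠ 0) {s : U} (hs : s ∈ S.Fb) (s0 : s ≠ 0)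
    (s1 : V.valuation s < 1)
    (h3 : ∀ z ∈ S.Fb, z ≠ 0 → ∃ m : ℤ, V.valuation z = V.valuation s ^ m) :
    ∃ m : ℤ, V.valuation z = V.valuation s ^ m := by
  have e : V.valuation s = V.valuation t :=
    le_antisymm (h1.2.2.2 s hs s1) (small s0 s1 (h3 t h1.1) h1.2.2.1)
  obtain ⟨m, m0, c, hc, c0, e1⟩ := arch_holds U _ V.valuation S.Fb z (S.U_alg z) z0
  obtain ⟨k, e2⟩ := h3 c hc c0
  have h4 := h2 z hz z0 m k m0 (by rw [e1, e2, e, map_zpow₀])
  rw [show (1 : RingAut U) z - S.ze (k / m) * z = S.i (1 - zeta (k / m)) * z by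
    rw [map_sub, map_one, sub_mul, one_mul]; rfl, map_mul] at h4
  have h5 : zeta (k / m) = 1 := by
    by_contra hc
    rw [vk (Om_le hV) ⟨_, rfl⟩ ((map_ne_zero S.i).2 (sub_ne_zero.2 (Ne.symm hc))), one_mul] at h4
    exact h4.false
  obtain ⟨q, hq⟩ := Complex.exp_eq_one_iff.1 h5
  have h6 : k = q * m := by
    have m1 : (m : ℂ) ≠ 0 := Nat.cast_ne_zero.2 m0.ne'
    rw [mul_comm (q : ℂ), mul_right_inj' Complex.two_pi_I_ne_zero] at hq
    push_cast at hq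
    exact_mod_cast (div_eq_iff m1).1 hq
  refine ⟨q, (pow_left_inj₀ zero_le zero_le m0.ne').1 ?_⟩
  rw [← map_pow, e1, e2, h6, zpow_mul, zpow_natCast]

end HorizH

open HorizH Pl

theorem horiz_of (hDw : DwStmt) : HorizStmt := by
  intro p _ n _ U _ S K' L σ hC
  have := algClosed S
  have := char0 S
  have hD (j : ZMod n) := (hDw p n U S K' L σ hC j).2.1
  obtain ⟨T, hT⟩ := hC.finL
  have tm (j : ZMod n) : S.x - S.xP j ∈ S.Fb :=
    sub_mem (x_mem2 _ _ _) (mem_adj_base (K := S.Om) (S.P_mem j).1)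
  have t0 (j : ZMod n) := transc_sub_ne S.transc (S.P_mem j).1
  have hlog : ∀ V, S.IsPl V → ∀ j l, S.Ab V l → j ≠ l → ∀ z ∈ L,
      V.valuation (S.D j z) ≤ V.valuation z := fun V hV j l hl ne z hz => by
    refine log_of hV T (fun c hc => Om_le hV _ (hD j c hc)) (tm l) (t0 l) hl.1 ?_ (hT ▸ hz)
    rw [map_sub, S.D_x, S.D_xP, if_neg ne]
    split_ifs
    · rw [show psi S.E S.x S.y - (1 - 0) * psi S.E (S.xP l) (S.yP l) =
        2 * (S.y - S.yP l) + S.E.a₁ * (S.x - S.xP l) by unfold psi; ring]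
      refine V.valuation.map_add_le ?_ ?_ <;> rw [map_mul]
      · exact (mul_le_of_le_one_left' (Om_le hV _ (ofNat_mem _ 2))).trans (y_sub_le (Om_le hV)
          (coeff_Om S) S.eqn (S.P_mem l).1 (S.P_mem l).2 (S.eqnP l) (psi_ne S l) hl.1 hl.2)
      · exact mul_le_of_le_one_left' (Om_le hV _ (coeff_Om S).1)
    · simp
  have hM : S.Fb ≤ adj (L : Set U) S.Om := Pl.adj_le (right_subset_adj _ _) fun z hz =>
    le_adj L _ (hT ▸ le_adj S.Ft _ (right_subset_adj _ _ (.inr hz)))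
  refine ⟨fun V hV j hj z hz h => (V.valuation_le_one_iff _).1 ?_, hlog, fun V hV j hj z hz => ?_,
    fun V hV hj K₁ h1 h2 h3 => ?_⟩
  · rw [← V.valuation_le_one_iff] at h
    by_cases hl : ∃ l, S.Ab V l
    · obtain ⟨l, hl⟩ := hl
      exact (hlog V hV j l hl (fun e => hj (e ▸ hl)) z hz).trans h
    obtain ⟨t, h1, h2⟩ := hC.unram V hV hl
    obtain ⟨s, k1, k2, k3, k4, -⟩ :=
      place_core (Om_le hV) (coeff_Om S) (Δ_ne S) S.eqn S.transc (big hV)
    exact bound_ext hM k1 k2 k3 (fun z hz z0 => unram_val hV h1 h2 hz z0 k1 k2 k3 k4)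
      (fun z _ h => (res hV h).imp fun c hc => ⟨mem_adj_base (K := S.Om) hc.1, hc.2⟩)
      (pres_Fb hV (hD j)) (le_adj L _ hz) (S.U_alg z) h
  · refine log_of hV T (δ := (S.x - S.xP j) • S.D j)
      (fun c hc => vmul_le _ hj.1.le (Om_le hV _ (hD j c hc))) (tm j) (t0 j) hj.1 ?_ (hT ▸ hz)
    rw [Derivation.smul_apply, smul_eq_mul, map_mul]
    exact mul_le_of_le_one_right' (pres_Fb hV (hD j) _ (tm j) hj.1.le)
  · obtain ⟨t, k1, k2⟩ := hC.unram V hV hj
    obtain ⟨s, l1, l2, l3, l4⟩ := gen_small (Om_le hV) h1 h2 h3 (Δ_ne S) S.eqn S.transc (big hV)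
    refine ⟨s, l1, l2, fun z hz z0 => ?_⟩
    simp only [map_zpow₀]
    have l5 : adj K₁ {S.x, S.y} ≤ adj S.Om {S.x, S.y} := adj_mono h1 le_rfl
    exact unram_val hV k1 k2 (le_adj L _ hz) z0 (l5 l1) l2 l3 l4

end P179W
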