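import Vale.Agent.P179W.ResidueA
import Vale.Agent.P179W.AmbGal

/-!
# P179W : invertible changes of generic tuples (B8)
-/

set_option linter.all false

open scoped NNReal Classical
open WeierstrassCurve WeierstrassCurve.Affine

noncomputable section

namespace P179W

namespace IndH

variable {U : Type} [Field U] {k : Subfield U} {ι : Type}

theorem ind_iff {X : ι → U} :
    (∀ f : MvPolynomial ι U, (∀ m, f.coeff m ∈ k) → MvPolynomial.eval X f = 0 → f = 0) ↔
      AlgebraicIndependent k X := by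
  have e (p : MvPolynomial ι k) :
      MvPolynomial.eval X (MvPolynomial.map k.subtype p) = MvPolynomial.aeval X p := by
    rw [MvPolynomial.eval_map, MvPolynomial.aeval_def]; rfl
  rw [algebraicIndependent_iff]
  constructor
  · intro h p hp
    apply MvPolynomial.map_injective k.subtype k.subtype.injective
    rw [map_zero]
    exact h _ (fun m => by rw [MvPolynomial.coeff_map]; exact (p.coeff m).2) ((e p).trans hp)
  · intro h f hf h0
    obtain ⟨p, rfl⟩ : ∃ p : MvPolynomial ι k, MvPolynomial.map k.subtype p = f := by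
      apply MvPolynomial.mem_range_map_iff_coeffs_subset.2
      intro c hc
      obtain ⟨m, -, rfl⟩ := MvPolynomial.mem_coeffs_iff.1 hc
      exact ⟨⟨_, hf m⟩, rfl⟩
    rw [h p ((e p).symm.trans h0), map_zero]

theorem alg_adjoin {T : Set U} {z : U} (h : Alg (adj k T) z) : IsAlgebraic (Algebra.adjoin k T) z := by
  rw [adj_eq_adjoin] at h
  exact IntermediateField.isAlgebraic_adjoin_iff.1 (alg_iff.1 h)

/-- a family spanning an independent family of the same size is independent -/
theorem indep_of_alg [Finite ι] {X X' : ι → U} (h : AlgebraicIndependent k X)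
    (ha : ∀ j, Alg (adj k (Set.range X')) (X j)) : AlgebraicIndependent k X' := by
  have := Fintype.ofFinite ι
  have h1 : (AlgebraicIndependent.matroid k U).Indep (Set.range X) :=
    AlgebraicIndependent.matroid_indep_iff.2 h.to_subtype_range
  have h2 : Set.range X ⊆ (AlgebraicIndependent.matroid k U).closure (Set.range X') := by
    rintro _ ⟨j, rfl⟩
    rw [AlgebraicIndependent.matroid_closure_eq]
    exact alg_adjoin (ha j)
  have h3 := h.injective.encard_range.trans (h1.encard_le_eRk_of_subset h2)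
  rw [Matroid.eRk_closure_eq, ← Set.encard_univ] at h3
  have h4 := (AlgebraicIndependent.matroid k U).eRk_le_encard (Set.range X')
  have h5 : (Set.range X').encard ≤ (Set.univ : Set ι).encard := by
    rw [← Set.image_univ]; exact Set.encard_image_le _ _
  have h6 : Function.Injective X' := by
    rw [← Set.injOn_univ]
    refine Set.finite_univ.injOn_of_encard_image_eq ?_
    rw [Set.image_univ]
    exact le_antisymm h5 (h3.trans h4)
  exact .of_subtype_range h6 (AlgebraicIndependent.matroid_indep_iff.1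
    ((Matroid.indep_iff_eRk_eq_encard_of_finite (Set.finite_range X')).2
      (le_antisymm h4 (h5.trans h3))))

end IndH

open IndH Res

theorem indep_holds : IndepStmt := by
  intro U _ k E hE hΔ
  refine ⟨⟨onSub hE, fun P => Iff.rfl⟩, fun ι _ X Y hG Z hZ hX => ?_⟩
  have ex : ∀ j, ∃ x y, (x = 0 ∧ y = 0 ∧ Z j = 0) ∨ (E.toAffine.Nonsingular x y ∧ Z j = pt E x y) := by
    intro j
    rcases pt_cases (Z j) with h | ⟨x, y, h⟩
    exacts [⟨0, 0, .inl ⟨rfl, rfl, h⟩⟩, ⟨x, y, .inr h⟩]
  choose X' Y' hXY using ex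
  have mX : ∀ j, X' j ∈ adj k (Set.range X' ∪ Set.range Y') := fun j =>
    right_subset_adj _ _ (.inl ⟨j, rfl⟩)
  have mY : ∀ j, Y' j ∈ adj k (Set.range X' ∪ Set.range Y') := fun j =>
    right_subset_adj _ _ (.inr ⟨j, rfl⟩)
  have hE' : CoeffIn E (adj k (Set.range X' ∪ Set.range Y') : Subfield U) :=
    AmbGal.cmono hE (left_subset_adj _ _)
  have h1 : AddSubgroup.closure (Set.range Z ∪ {P | OnSet (k : Set U) P}) ≤ onSub hE' := by
    rw [AddSubgroup.closure_le]
    rintro P (⟨j, rfl⟩ | hP)
    · rcases hXY j with h | h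
      · rw [h.2.2]; exact zero_mem _
      · rw [h.2]; exact onSet_pt (mX j) (mY j)
    · rcases P with _ | ⟨x, y, h⟩
      · trivial
      · exact ⟨left_subset_adj _ _ hP.1, left_subset_adj _ _ hP.2⟩
  have h2 := fun j => (onSet_pt_iff (nonsing_of_Δ hΔ (hG.1 j))).1 (h1 (hX j))
  have h3 : ∀ z ∈ adj k (Set.range X' ∪ Set.range Y'), Alg (adj k (Set.range X')) z := by
    intro z hz
    rw [← adj_adj] at hz
    refine alg_adj ?_ z hz
    rintro _ ⟨j, rfl⟩
    rcases hXY j with h | h
    · rw [h.2.1]; exact alg_of_mem (zero_mem _)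
    · exact AmbGal.alg_y (AmbGal.cmono hE (left_subset_adj _ _)) h.1.1
        (right_subset_adj _ _ ⟨j, rfl⟩)
  have h4 := indep_of_alg (ind_iff.1 hG.2) fun j => h3 _ (h2 j).1
  have h5 : ∀ j, E.toAffine.Nonsingular (X' j) (Y' j) ∧ Z j = pt E (X' j) (Y' j) := fun j =>
    (hXY j).resolve_left fun h => h4.transcendental j (h.1 ▸ isAlgebraic_zero)
  refine ⟨X', Y', fun j => (h5 j).2, ⟨fun j => (h5 j).1.1, ind_iff.2 h4⟩, le_antisymm ?_ ?_⟩
  · have h6 := fun j => (onSet_pt_iff (h5 j).1).1 ((h5 j).2 ▸ hZ j)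
    refine adj_le.2 ⟨left_subset_adj _ _, ?_⟩
    rintro _ (⟨j, rfl⟩ | ⟨j, rfl⟩)
    exacts [(h6 j).1, (h6 j).2]
  · refine adj_le.2 ⟨left_subset_adj _ _, ?_⟩
    rintro _ (⟨j, rfl⟩ | ⟨j, rfl⟩)
    exacts [(h2 j).1, (h2 j).2]

end P179W
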