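import Vale.Agent.P179W.NVData

/-!
# P179W / NV : the nonvanishing theorem
-/

set_option linter.all false

open scoped NNReal Classical
open Matrix WithZero WeierstrassCurve

noncomputable section

namespace P179W

open NV

/-- an invariant basis of the span of an orbit -/
theorem NV.exists_inv {l : Type} [Field l] {κ : Type} [Fintype κ] {D : Type} [Group D] [Finite D]
    (act : D →* RingAut l) (ω : κ → l) (hω : ω ≠ 0) :
    ∃ (ι : Type) (_ : Fintype ι) (_ : DecidableEq ι) (g : ι → D) (i₀ : ι) (B : Matrix ι ι l) (u : Matrix ι κ l)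
      (I : ι → κ), g i₀ = 1 ∧ B.det ≠ 0 ∧ u.submatrix id I = 1 ∧ (∀ h i j, act h (u i j) = u i j) ∧
      (Matrix.of fun i j => act (g i) (ω j)) = B * u := by
  let o : D → κ → l := fun g j => act g (ω j)
  have ho : o 1 = ω := by funext j; simp [o]
  have h1 : LinearIndepOn l o {1} := by
    rw [linearIndepOn_singleton_iff, ho]; exact hω
  obtain ⟨b, -, h2, h3, h4⟩ := exists_linearIndepOn_extension h1 (Set.subset_univ _)
  letI : Fintype b := Fintype.ofFinite b
  let Ω : Matrix b κ l := Matrix.of fun i => o i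
  obtain ⟨I, hI⟩ := exists_det Ω h4
  have hu : IsUnit (Ω.submatrix id I).det := Ne.isUnit hI
  have h5 : ((Ω.submatrix id I)⁻¹ * Ω).submatrix id I = 1 := by
    rw [NV.mul_sub, nonsing_inv_mul _ hu]
  have h6 : Ω = Ω.submatrix id I * ((Ω.submatrix id I)⁻¹ * Ω) := by
    rw [← Matrix.mul_assoc, mul_nonsing_inv _ hu, Matrix.one_mul]
  refine ⟨b, inferInstance, inferInstance, Subtype.val, ⟨1, h2 rfl⟩, Ω.submatrix id I,
    (Ω.submatrix id I)⁻¹ * Ω, I, rfl, hI, h5, fun h i j => ?_, h6⟩
  have h7 : ∀ i : b, ∃ c : b → l, ∑ k, c k • o k = o (h * i) := by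
    intro i
    have := h3 ⟨h * i, Set.mem_univ _, rfl⟩
    rw [Set.image_eq_range] at this
    exact (Submodule.mem_span_range_iff_exists_fun l).1 this
  choose C hC using h7
  let f : l →+* l := (act h : l ≃+* l)
  have h8 : Ω.map f = Matrix.of C * Ω := by
    ext i j
    have := congrFun (hC i) j
    simp only [Finset.sum_apply, Pi.smul_apply, smul_eq_mul] at this
    rw [Matrix.mul_apply]
    refine Eq.trans ?_ this.symm
    simp [o, Ω, f]
  set u := (Ω.submatrix id I)⁻¹ * Ω
  have h9 : u.map f = ((Ω.submatrix id I)⁻¹.map f * Matrix.of C * Ω.submatrix id I) * u := by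
    rw [Matrix.mul_assoc, ← h6, Matrix.mul_assoc, ← h8, ← Matrix.map_mul]
  have h10 : (u.map f).submatrix id I = 1 := by
    rw [submatrix_map, h5, Matrix.map_one _ (map_zero f) (map_one f)]
  rw [h9, NV.mul_sub, h5, Matrix.mul_one] at h10
  rw [h10, Matrix.one_mul] at h9
  exact congrFun (congrFun h9 i) j

theorem nv_of (hdiv : DivStmt) (hder : DerEllStmt) (hmap : PtMapStmt) (hred : PtRedStmt)
    (hind : IndepStmt) : NVStmt := by
  intro p _ n _ R _ c 𝒱 d hd h𝒱 hσ hr l D _ _ act a e hinv ω hω horth hint V₀ hV₀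
  haveI := c.charP
  obtain ⟨A, _, α, Rel, r1, r2, r3, r4⟩ := exists_abs hdiv hder hmap hred hind c
  by_contra hbad
  let 𝒲 : Set (ZMod n → FF c) := {v | (fun j => (v j : R)) ∈ 𝒱}
  have hS := α.deg_nonpos 𝒲 d hd (fun v hv => by
    have := hσ _ hv
    simpa only [𝒲, Set.mem_setOf_eq, r1] using this) (by
    obtain ⟨m, hm, u, hu, hui⟩ := hr
    refine ⟨m, hm, fun k j => ⟨u k j, h𝒱 _ (hu k) j⟩, hu, ?_⟩
    obtain ⟨I, hI⟩ := exists_det (Matrix.of u) hui
    refine indep_of_det (Matrix.of fun k j => (⟨u k j, h𝒱 _ (hu k) j⟩ : FF c)) I fun h => hI ?_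
    have := congrArg (FF c).subtype h
    rw [RingHom.map_det, map_zero] at this
    exact this) (e + a)
  obtain ⟨ι, _, _, g, i₀, B, u, I, h1, h2, h3, h4, h5⟩ := exists_inv act ω hω
  letI := Fintype.ofFinite D
  let φ : l →+* R := (iterateFrobenius R p a).comp l.subtype
  have hφ : ∀ z, φ z = (z : R) ^ p ^ a := fun z => rfl
  let U : Matrix ι (ZMod n) (FF c) := Matrix.of fun i j => ⟨φ (u i j), hinv _ fun h => h4 h i j⟩
  have hU : U.map (FF c).subtype = u.map φ := rfl
  have hUi : LinearIndependent (FF c) U := by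
    refine indep_of_det U I fun h => ?_
    have := congrArg (FF c).subtype h
    rw [RingHom.map_det, map_zero, RingHom.mapMatrix_apply, ← submatrix_map, hU, submatrix_map, h3,
      Matrix.map_one _ (map_zero φ) (map_one φ), det_one] at this
    exact one_ne_zero this
  have hu : u = B⁻¹ * Matrix.of fun i j => act (g i) (ω j) := by
    rw [h5, ← Matrix.mul_assoc, nonsing_inv_mul _ (Ne.isUnit h2), Matrix.one_mul]
  have hUN : ∀ i, U i ∈ Abs.NN 𝒲 (p ^ (e + a)) := by
    intro i v hv
    apply (FF c).subtype.injective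
    rw [map_zero, map_sum]
    have h6 : ∑ j, (v j : R) ^ p ^ e * (u i j : R) = 0 := by
      rw [hu]
      simp only [Matrix.mul_apply, of_apply, AddSubmonoidClass.coe_finset_sum, MulMemClass.coe_mul,
        Finset.mul_sum]
      rw [Finset.sum_comm]
      refine Finset.sum_eq_zero fun k _ => ?_
      have := horth (g k) _ hv
      simp only [mul_left_comm _ ((B⁻¹ i k : l) : R), ← Finset.mul_sum, this, mul_zero]
    have h7 := congrArg (iterateFrobenius R p a) h6
    rw [map_zero, map_sum] at h7
    rw [← h7]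
    refine Finset.sum_congr rfl fun j _ => ?_
    rw [iterateFrobenius_def, mul_pow, ← pow_mul, ← pow_add]; rfl
  have hN : (((∏ h, act h B.det : l) : R)) ^ p ^ a ∈ FF c := by
    refine hinv _ fun h => ?_
    rw [map_prod]
    exact Fintype.prod_equiv (Equiv.mulLeft h) _ _ fun k => by simp
  let N : FF c := ⟨_, hN⟩
  have hN0 : N ≠ 0 := by
    intro h
    have h6 : (((∏ h, act h B.det : l) : R)) ^ p ^ a = 0 := congrArg Subtype.val h
    have h7 := pow_eq_zero_iff (pow_ne_zero a (Fact.out : p.Prime).ne_zero) |>.1 h6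
    rw [ZeroMemClass.coe_eq_zero, Finset.prod_eq_zero_iff] at h7
    obtain ⟨k, -, hk⟩ := h7
    exact h2 ((act k).map_eq_zero_iff.1 hk)
  have key : ∀ V P, c.IsPl V → Rel V P →
      log (α.v P N) ≤ Fintype.card D * α.m (p ^ (e + a)) U P ∧
      (V = V₀ → log (α.v P N) < Fintype.card D * α.m (p ^ (e + a)) U P) := by
    intro V P hV hP
    obtain ⟨r5, r6⟩ := r4 V P hP
    have hM := α.Mx_ne hUi (p ^ (e + a)) P
    obtain ⟨J, hJ⟩ := exists_Mx _ _ hM
    set z := ((U * α.T (p ^ (e + a)) P).submatrix id J).det with hz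
    let W : Matrix ι ι R := Matrix.of fun i k => c.tt V (J k) ^ p ^ e * (u i (J k) : R)
    have e1 : (z : R) = W.det ^ p ^ a := by
      rw [← iterateFrobenius_def, RingHom.map_det, hz]
      refine ((FF c).subtype.map_det _).trans ?_
      congr 1
      ext i k
      simp only [RingHom.mapMatrix_apply, map_apply, submatrix_apply, id, Abs.mul_T, W, of_apply,
        iterateFrobenius_def, mul_pow, ← pow_mul, ← pow_add, r5, map_mul, map_pow]
      rw [mul_comm, add_comm a e]; rfl
    have e2 : ∀ h, (act h B.det : R) * W.det =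
        (Matrix.of fun i k => c.tt V (J k) ^ p ^ e * (act (h * g i) (ω (J k)) : R)).det := by
      intro h
      let f : l →+* R := l.subtype.comp (act h : l ≃+* l)
      rw [show (act h B.det : R) = f B.det from rfl, RingHom.map_det, ← det_mul]
      congr 1
      ext i k
      have := congrArg f (congrFun (congrFun h5 i) (J k))
      rw [Matrix.mul_apply, map_sum] at this
      simp only [Matrix.mul_apply, of_apply, W, map_mul, RingAut.mul_apply] at this ⊢
      refine Eq.trans ?_ (congrArg (c.tt V (J k) ^ p ^ e * ·) this).symm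
      rw [Finset.mul_sum]
      refine Finset.sum_congr rfl fun x _ => ?_
      rw [mul_left_comm]
      congr 2
      exact congrArg Subtype.val (h4 h x (J k)).symm
    have i1 : ∀ h, V.valuation ((act h B.det : R) * W.det) ≤ 1 := by
      intro h
      rw [e2]
      refine (det_le_prod V.valuation _ (fun _ => 1) fun i k => ?_).trans_eq Finset.prod_const_one
      exact (V.valuation_le_one_iff _).2 (hint (h * g i) V hV (J k))
    have e3 : ((N * z ^ Fintype.card D : FF c) : R) =
        (∏ h, ((act h B.det : R) * W.det)) ^ p ^ a := by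
      rw [Finset.prod_mul_distrib, Finset.prod_const, Finset.card_univ, mul_pow, ← pow_mul,
        mul_comm (Fintype.card D), pow_mul, ← e1]
      simp [N]
    have hz0 : α.v P z ≠ 0 := hJ ▸ hM
    have hN1 : α.v P N ≠ 0 := (_root_.map_ne_zero _).2 hN0
    have e4 : log (α.v P (N * z ^ Fintype.card D)) =
        log (α.v P N) - Fintype.card D * α.m (p ^ (e + a)) U P := by
      rw [map_mul, map_pow, log_mul hN1 (pow_ne_zero _ hz0), log_pow, Abs.m, ← hJ]
      simp
    have h0 : α.v P (N * z ^ Fintype.card D) ≠ 0 := by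
      rw [map_mul, map_pow]; exact mul_ne_zero hN1 (pow_ne_zero _ hz0)
    constructor
    · rw [← sub_nonpos, ← e4, log_le_iff_le_exp h0, exp_zero, ← map_one (α.v P), r6, e3,
        OneMemClass.coe_one, map_one, map_pow, map_prod]
      exact pow_le_one' (Finset.prod_le_one' fun h _ => i1 h) _
    · rintro rfl
      rw [← sub_neg, ← e4, log_lt_iff_lt_exp h0, exp_zero, ← map_one (α.v P), ← not_le, r6, e3,
        OneMemClass.coe_one, map_one, map_pow, map_prod, not_le]
      refine pow_lt_one₀ zero_le ?_ (pow_ne_zero a (Fact.out : p.Prime).ne_zero)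
      have i2 : V.valuation ((act 1 B.det : R) * W.det) < 1 := by
        rw [e2]
        have i3 : ∀ j, V.valuation (c.tt V j ^ p ^ e * (ω j : R)) < 1 := fun j =>
          lt_of_le_of_ne ((V.valuation_le_one_iff _).2 (by simpa using hint 1 V hV j))
            fun h => hbad ⟨j, h⟩
        obtain ⟨j₀, -, hj₀⟩ := Finset.exists_max_image Finset.univ
          (fun j => V.valuation (c.tt V j ^ p ^ e * (ω j : R))) Finset.univ_nonempty
        refine (det_le_prod V.valuation _ (fun i => if i = i₀ then
          V.valuation (c.tt V j₀ ^ p ^ e * (ω j₀ : R)) else 1) fun i k => ?_).trans_lt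
          (by rw [Finset.prod_ite_eq', if_pos (Finset.mem_univ _)]; exact i3 j₀)
        split_ifs with hi
        · rw [hi, of_apply, h1, mul_one, map_one act]
          exact hj₀ _ (Finset.mem_univ (J k))
        · exact (V.valuation_le_one_iff _).2 (hint (1 * g i) V hV (J k))
      rw [← Finset.mul_prod_erase _ _ (Finset.mem_univ 1)]
      exact (mul_le_of_le_one_right' (Finset.prod_le_one' fun h _ => i1 h)).trans_lt i2
  have f1 := α.fin_log hN0
  have f2 : Function.HasFiniteSupport fun P => Fintype.card D * α.m (p ^ (e + a)) U P :=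
    (α.fin_m hUi (p ^ (e + a))).subset fun P hP h => hP (by simp [h])
  have i5 : 0 < ∑ᶠ P, (Fintype.card D * α.m (p ^ (e + a)) U P - log (α.v P N)) := by
    refine finsum_pos (fun P => ?_) ?_ (f2.fun_sub f1)
    · obtain ⟨V, hV, hP⟩ := r2 P
      exact sub_nonneg.2 (key V P hV hP).1
    · obtain ⟨P, hP⟩ := r3 V₀ hV₀
      exact ⟨P, sub_pos.2 ((key V₀ P hV₀ hP).2 rfl)⟩
  rw [finsum_sub_distrib f2 f1, α.prod _ hN0, ← mul_finsum, sub_zero] at i5
  exact absurd (mul_nonpos_of_nonneg_of_nonpos (by positivity) (hS ι U hUi hUN)) (not_le.2 i5)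

end P179W
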