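import Vale.Agent.P179W.PlaceB

/-!
# P179W : the invariant derivation of the function field of an elliptic curve (B6b)
-/

open scoped NNReal Classical IntermediateField
open Polynomial TrivSqZeroExt

noncomputable section

namespace P179W

namespace Pl

variable {F : Type} [Field F] {k : Subfield F} {E : WeierstrassCurve F} {x y : F}

theorem indep (hE : CoeffIn E k) (h : E.toAffine.Equation x y) (htr : Transc k x) {A B : k[X]}
    (e : aeval x A + aeval x B * y = 0) : A = 0 ∧ B = 0 := by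
  have hB : B = 0 := by
    refine aniso (A := -A) (l := C ⟨E.a₁, hE.1⟩ * X + C ⟨E.a₃, hE.2.2.1⟩)
      (c := X ^ 3 + C ⟨E.a₂, hE.2.1⟩ * X ^ 2 + C ⟨E.a₄, hE.2.2.2.1⟩ * X + C ⟨E.a₆, hE.2.2.2.2⟩)
      (by compute_degree) (by compute_degree!) (sub_eq_zero.1 (transc_aeval htr ?_))
    simp only [map_sub, map_mul, map_add, map_pow, map_neg, aeval_C, aeval_X]
    change _ * (_ + (E.a₁ * _ + E.a₃) * _) - (_ + E.a₂ * _ + E.a₄ * _ + E.a₆) * _ = _
    rw [← eqn h, show aeval x A = -(aeval x B * y) by linear_combination e]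
    ring
  rw [hB, map_zero, zero_mul, add_zero] at e
  exact ⟨transc_aeval htr e, hB⟩

theorem psi_ne (hE : CoeffIn E k) (hΔ : E.Δ ≠ 0) (h : E.toAffine.Equation x y)
    (htr : Transc k x) : psi E x y ≠ 0 := fun e => by
  obtain ⟨h1, h2⟩ := indep hE h htr (A := C ⟨E.a₁, hE.1⟩ * X + C ⟨E.a₃, hE.2.2.1⟩) (B := 2) (by
    simp only [map_mul, map_add, aeval_C, aeval_X, map_ofNat]
    change E.a₁ * _ + E.a₃ + _ = _
    unfold psi at e
    linear_combination e)
  have e1 : E.a₁ = 0 := by simpa using congrArg (fun f => (f.coeff 1 : F)) h1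
  have e3 : E.a₃ = 0 := by simpa using congrArg (fun f => (f.coeff 0 : F)) h1
  have e2 : (2 : F) = 0 := by simpa [map_ofNat] using congrArg (aeval x) h2
  refine hΔ ?_
  simp only [WeierstrassCurve.Δ, WeierstrassCurve.b₂, WeierstrassCurve.b₄, WeierstrassCurve.b₆,
    WeierstrassCurve.b₈, e1, e3]
  linear_combination (-8 * E.a₂ ^ 2 * (4 * E.a₂ * E.a₆ - E.a₄ ^ 2) - 32 * E.a₄ ^ 3 -
    216 * E.a₆ ^ 2 + 144 * E.a₂ * E.a₄ * E.a₆) * e2

theorem exists_der (hE : CoeffIn E k) (h : E.toAffine.Equation x y) (htr : Transc k x)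
    (htop : ∀ z, z ∈ adj k {x, y}) : ∃ δ : Derivation ℤ F F, (∀ c ∈ k, δ c = 0) ∧
      δ x = psi E x y ∧ δ y = phi E x y := by
  obtain ⟨ev, v1, v2⟩ : ∃ ev : k[X][X] →+* F, (∀ f, ev (C f) = aeval x f) ∧ ev X = y :=
    ⟨eval₂RingHom (aeval x : k[X] →ₐ[k] F) y, fun f => by simp, by simp⟩
  obtain ⟨ee, w0, w1, w2⟩ : ∃ ee : k[X][X] →+* TrivSqZeroExt F F, (∀ c, ee (C (C c)) = inl (c : F)) ∧
      ee (C X) = inl x + inr (psi E x y) ∧ ee X = inl y + inr (phi E x y) :=
    ⟨eval₂RingHom (eval₂RingHom ((inlHom F F).comp k.subtype) (inl x + inr (psi E x y)))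
      (inl y + inr (phi E x y)), fun c => by simp, by simp, by simp⟩
  have v0 (c : k) : ev (C (C c)) = c := by rw [v1, aeval_C]; rfl
  have v3 : ev (C X) = x := by rw [v1, aeval_X]
  have h1 (P : k[X][X]) : (ee P).fst = ev P := by
    have : (fstHom F F F : TrivSqZeroExt F F →+* F).comp ee = ev := by
      refine Polynomial.ringHom_ext' (Polynomial.ringHom_ext' (RingHom.ext fun c => ?_) ?_) ?_
      · simp [w0, v0]
      · simp [w1, v3]
      · simp [w2, v2]
    exact DFunLike.congr_fun this P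
  let l : k[X] := C ⟨E.a₁, hE.1⟩ * X + C ⟨E.a₃, hE.2.2.1⟩
  let c : k[X] := X ^ 3 + C ⟨E.a₂, hE.2.1⟩ * X ^ 2 + C ⟨E.a₄, hE.2.2.2.1⟩ * X + C ⟨E.a₆, hE.2.2.2.2⟩
  let W : k[X][X] := X ^ 2 + C l * X - C c
  have hW : W.Monic := by
    simp only [W]
    monicity!
  have dW : W.degree = 2 := by
    simp only [W]
    compute_degree!
  have h2 : ee W = 0 := by
    simp only [W, l, c, map_add, map_sub, map_mul, map_pow, w0, w1, w2]
    refine TrivSqZeroExt.ext ?_ ?_
    · simp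
      linear_combination eqn h
    · simp [psi, phi]
      ring
  have h3 : RingHom.ker ev.rangeRestrict ≤ RingHom.ker ee := by
    intro P hP
    have hP' : ev P = 0 := congrArg Subtype.val (RingHom.mem_ker.1 hP)
    have d1 : (P %ₘ W).degree ≤ 1 := by
      have := degree_modByMonic_lt P hW
      rw [dW] at this
      exact Order.le_of_lt_succ this
    have e := modByMonic_add_div P W
    rw [eq_X_add_C_of_degree_le_one d1] at e
    rw [← e, map_add, map_mul ev W, ← h1 W, h2, fst_zero, zero_mul, add_zero] at hP'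
    obtain ⟨k1, k2⟩ := indep hE h htr (A := (P %ₘ W).coeff 0) (B := (P %ₘ W).coeff 1) (by
      rw [← hP', map_add, map_mul, v1, v1, v2, add_comm])
    rw [RingHom.mem_ker, ← e, k1, k2]
    simp [h2]
  let g : ev.range →+* TrivSqZeroExt F F :=
    ev.rangeRestrict.liftOfSurjective ev.rangeRestrict_surjective ⟨ee, h3⟩
  have hg (P : k[X][X]) : g (ev.rangeRestrict P) = ee P :=
    RingHom.liftOfSurjective_comp_apply _ _ _ P
  have hg1 (a : ev.range) : (g a).fst = a := by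
    obtain ⟨P, rfl⟩ := ev.rangeRestrict_surjective a
    rw [hg, h1]
    rfl
  have : IsFractionRing ev.range F := IsFractionRing.of_field _ _ fun z => by
    have : adj k {x, y} ≤ Subfield.closure (ev.range : Set F) := by
      refine adj_le (fun c hc => Subfield.subset_closure ⟨C (C ⟨c, hc⟩), v0 _⟩) ?_
      rintro _ (rfl | rfl)
      · exact Subfield.subset_closure ⟨C X, v3⟩
      · exact Subfield.subset_closure ⟨X, v2⟩
    obtain ⟨a, ha, b, hb, e⟩ := Subfield.mem_closure_iff.1 (this (htop z))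
    rw [Subring.closure_eq] at ha hb
    exact ⟨⟨a, ha⟩, ⟨b, hb⟩, e.symm⟩
  let G : F →+* TrivSqZeroExt F F := IsLocalization.lift (M := nonZeroDivisors ev.range) (g := g)
    fun a => isUnit_iff_isUnit_fst.2 (by
      rw [hg1]
      exact IsUnit.mk0 _ fun e => nonZeroDivisors.coe_ne_zero a (Subtype.ext e))
  have hG (P : k[X][X]) : G (ev P) = ee P :=
    (IsLocalization.lift_eq _ (ev.rangeRestrict P)).trans (hg P)
  have hG1 (z : F) : (G z).fst = z := by
    have : (fstHom F F F : TrivSqZeroExt F F →+* F).comp G = RingHom.id F :=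
      IsLocalization.ringHom_ext (nonZeroDivisors ev.range) (RingHom.ext fun a => by
        obtain ⟨P, rfl⟩ := ev.rangeRestrict_surjective a
        exact (congrArg fst (hG P)).trans (h1 P))
    exact DFunLike.congr_fun this z
  refine ⟨Derivation.mk' (AddMonoidHom.mk' (fun z => (G z).snd)
    fun a b => by rw [map_add, snd_add]).toIntLinearMap fun a b => ?_, fun c hc => ?_, ?_, ?_⟩
  · change (G (a * b)).snd = a * (G b).snd + b * (G a).snd
    rw [map_mul, snd_mul, hG1, hG1]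
    simp [mul_comm]
  · change (G c).snd = 0
    rw [show c = ev (C (C ⟨c, hc⟩)) from (v0 ⟨c, hc⟩).symm, hG, w0, snd_inl]
  · change (G x).snd = _
    conv_lhs => rw [← v3, hG, w1]
    simp
  · change (G y).snd = _
    conv_lhs => rw [← v2, hG, w2]
    simp

/-- the elements of `V` whose derivative lies in `V` -/
def derRing (δ : Derivation ℤ F F) (V : ValuationSubring F) : Subring F where
  carrier := {z | z ∈ V ∧ δ z ∈ V}
  zero_mem' := ⟨zero_mem _, by simp⟩
  one_mem' := ⟨one_mem _, by simp⟩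
  add_mem' ha hb := ⟨add_mem ha.1 hb.1, by rw [map_add]; exact add_mem ha.2 hb.2⟩
  neg_mem' ha := ⟨neg_mem ha.1, by rw [map_neg]; exact neg_mem ha.2⟩
  mul_mem' ha hb := ⟨mul_mem ha.1 hb.1, by
    rw [Derivation.leibniz]; exact add_mem (mul_mem ha.1 hb.2) (mul_mem hb.1 ha.2)⟩

theorem der_pres [IsAlgClosed k] (hE : CoeffIn E k) (hΔ : E.Δ ≠ 0) (h : E.toAffine.Equation x y)
    (htr : Transc k x) (htop : ∀ z, z ∈ adj k {x, y}) {δ : Derivation ℤ F F}
    (h0 : ∀ c ∈ k, δ c = 0) (hx : δ x = psi E x y) (hy : δ y = phi E x y) (V : ValuationSubring F)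
    (hV : ∀ c ∈ k, c ∈ V) (z : F) (hz : z ∈ V) : δ z ∈ V := by
  by_contra hc
  have le {z : F} : V.valuation z ≤ 1 ↔ z ∈ V := V.valuation_le_one_iff z
  have hk : ∀ c ∈ k, V.valuation c ≤ 1 := fun c hc => le.2 (hV c hc)
  obtain ⟨t, -, h2, h3, -, h5, h6⟩ := place_core hk hE hΔ h htr
    ⟨δ z, htop _, not_le.1 fun e => hc (le.1 e)⟩
  have c1 := hV _ hE.1
  have c2 := hV _ hE.2.1
  have c3 := hV _ hE.2.2.1
  have c4 := hV _ hE.2.2.2.1
  have c6 := hV _ hE.2.2.2.2
  refine hc (h5 (derRing δ V) ⟨fun c hc => ⟨hV c hc, by rw [h0 c hc]; exact zero_mem _⟩,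
    fun u hu h1 => ?_⟩ (fun h1 => ?_) (fun h1 => ?_) z (htop z) (le.2 hz)).2
  · have : u⁻¹ ∈ V := le.1 (by rw [map_inv₀, h1, inv_one])
    exact ⟨this, by rw [Derivation.leibniz_inv]; exact mul_mem (neg_mem (pow_mem this 2)) hu.2⟩
  · have x0 : x ≠ 0 := V.valuation.pos_iff.1 (zero_lt_one.trans h1)
    have s1 : x⁻¹ ∈ V := le.1 (by
      rw [map_inv₀, inv_le_one₀ (zero_lt_one.trans h1)]
      exact h1.le)
    have s2 : y / x ^ 2 ∈ V := by
      rcases h6 with ⟨-, -, e1, e2⟩ | ⟨a, ha, b, hb, -, e2, -⟩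
      · have t0 := V.valuation.pos_iff.2 h2
        rw [← le, map_div₀, map_pow, e1, e2, ← zpow_natCast, ← zpow_mul, ← zpow_sub₀ t0.ne',
          zpow_le_one_iff_right_of_lt_one₀ t0 h3]
        norm_num
      · refine absurd h1 (not_lt.2 ?_)
        rw [show x = x - a + a by ring]
        exact V.valuation.map_add_le e2.le (hk a ha)
    refine ⟨⟨s1, ?_⟩, s2, ?_⟩
    · rw [Derivation.leibniz_inv, hx, smul_eq_mul, show -x⁻¹ ^ 2 * psi E x y =
        -(2 * (y / x ^ 2) + (E.a₁ + E.a₃ * x⁻¹) * x⁻¹) by unfold psi; field_simp; ring]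
      exact neg_mem (add_mem (mul_mem (ofNat_mem V 2) s2) (mul_mem (add_mem c1 (mul_mem c3 s1)) s1))
    · have e : δ (y / x ^ 2) = -1 - (2 * E.a₂ + (3 * E.a₄ + 4 * E.a₆ * x⁻¹) * x⁻¹) * x⁻¹ +
          (E.a₁ + 2 * E.a₃ * x⁻¹) * (y / x ^ 2) := by
        rw [Derivation.leibniz_div, Derivation.leibniz_pow, hx, hy]
        simp only [smul_eq_mul, nsmul_eq_mul, psi, phi]
        field_simp
        linear_combination -4 * x * eqn h
      rw [e]
      exact add_mem (sub_mem (neg_mem (one_mem _)) (mul_mem (add_mem (mul_mem (ofNat_mem V 2) c2)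
        (mul_mem (add_mem (mul_mem (ofNat_mem V 3) c4) (mul_mem (mul_mem (ofNat_mem V 4) c6) s1)) s1))
        s1)) (mul_mem (add_mem c1 (mul_mem (mul_mem (ofNat_mem V 2) c3) s1)) s2)
  · have s1 := le.1 h1
    have s2 := le.1 (y_le ⟨le.2 c1, le.2 c2, le.2 c3, le.2 c4, le.2 c6⟩ h h1)
    exact ⟨⟨s1, hx ▸ add_mem (add_mem (mul_mem (ofNat_mem V 2) s2) (mul_mem c1 s1)) c3⟩, s2,
      hy ▸ sub_mem (add_mem (add_mem (mul_mem (ofNat_mem V 3) (pow_mem s1 2))
        (mul_mem (mul_mem (ofNat_mem V 2) c2) s1)) c4) (mul_mem c1 s2)⟩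

theorem pow_rep (hE : CoeffIn E k) (h : E.toAffine.Equation x y) (n : ℕ) :
    ∃ A ∈ adj k {x}, ∃ B ∈ adj k {x}, y ^ n = A + B * y ∧
      (-y - (E.a₁ * x + E.a₃)) ^ n = A + B * (-y - (E.a₁ * x + E.a₃)) := by
  induction n with
  | zero => exact ⟨1, one_mem _, 0, zero_mem _, by simp, by simp⟩
  | succ n ih =>
    obtain ⟨A, hA, B, hB, e1, e2⟩ := ih
    exact ⟨_, mul_mem hB (cub_mem hE x), _, sub_mem hA (mul_mem hB (lin_mem hE x)),
      by rw [pow_succ, e1]; linear_combination B * eqn h,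
      by rw [pow_succ, e2]; linear_combination B * eqn h⟩

theorem der_ker (p : ℕ) [Fact p.Prime] [CharP F p] [IsAlgClosed k] (hE : CoeffIn E k)
    (h : E.toAffine.Equation x y) (hψ : psi E x y ≠ 0) (htop : ∀ z, z ∈ adj k {x, y})
    {δ : Derivation ℤ F F} (hx : δ x ≠ 0) (z : F) (hz : δ z = 0) : ∃ u, u ^ p = z := by
  have hp : p.Prime := Fact.out
  let L := (frobenius F p).fieldRange
  have d0 (u : F) : δ (u ^ p) = 0 := by simp [Derivation.leibniz_pow]
  have h1 : L⟮x⟯ = ⊤ := by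
    have k1 : (k : Set F) ⊆ L⟮x⟯.toSubfield := fun c hc => by
      obtain ⟨d, hd⟩ := IsAlgClosed.exists_pow_nat_eq (⟨c, hc⟩ : k) hp.pos
      exact L⟮x⟯.algebraMap_mem ⟨c, d, congrArg Subtype.val hd⟩
    have k2 : x ∈ L⟮x⟯.toSubfield := IntermediateField.mem_adjoin_simple_self L x
    have k3 := adj_le k1 (Set.singleton_subset_iff.2 k2)
    have k4 : y ∈ L⟮x⟯.toSubfield := by
      obtain ⟨A, hA, B, hB, e1, e2⟩ := pow_rep hE h p
      have B0 : B ≠ 0 := by
        rintro rfl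
        refine pow_ne_zero p hψ ?_
        rw [show psi E x y = y - (-y - (E.a₁ * x + E.a₃)) by unfold psi; ring, sub_pow_char, e1, e2]
        ring
      rw [show y = (y ^ p - A) / B by rw [e1]; field_simp; ring]
      exact div_mem (sub_mem (L⟮x⟯.algebraMap_mem ⟨y ^ p, y, rfl⟩) (k3 hA)) (k3 hB)
    exact eq_top_iff.2 fun z _ => adj_le k1
      (Set.insert_subset k2 (Set.singleton_subset_iff.2 k4)) (htop z)
  have h2 : minpoly L x = X ^ p - C (⟨x ^ p, x, rfl⟩ : L) := by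
    refine (minpoly.eq_of_irreducible_of_monic (X_pow_sub_C_irreducible_of_prime hp ?_) (by
      rw [map_sub, map_pow, aeval_X, aeval_C]
      exact sub_self _) (monic_X_pow_sub_C _ hp.ne_zero)).symm
    rintro ⟨_, u, rfl⟩ e
    have : (u ^ p) ^ p = x ^ p := congrArg Subtype.val e
    exact hx (frobenius_inj F p this ▸ d0 u)
  have h3 : IsIntegral L x := minpoly.ne_zero_iff.1 (h2 ▸ X_pow_sub_C_ne_zero hp.pos _)
  have h4 : Module.finrank L F = p := by
    rw [← IntermediateField.finrank_top', ← h1, IntermediateField.adjoin.finrank h3, h2,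
      natDegree_X_pow_sub_C]
  have := IntermediateField.isSimpleOrder_of_finrank_prime L F (h4.symm ▸ hp)
  let K : IntermediateField L F :=
    { carrier := {z | δ z = 0}
      mul_mem' := fun {a b} (ha : δ a = 0) (hb : δ b = 0) => by simp [ha, hb]
      add_mem' := fun {a b} (ha : δ a = 0) (hb : δ b = 0) => by simp [ha, hb]
      algebraMap_mem' := fun ⟨_, u, e⟩ => e ▸ d0 u
      inv_mem' := fun a (ha : δ a = 0) => by simp [Derivation.leibniz_inv, ha] }
  rcases eq_bot_or_eq_top K with e | e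
  · obtain ⟨⟨_, u, rfl⟩, h5⟩ := IntermediateField.mem_bot.1 (e ▸ (show z ∈ K from hz))
    exact ⟨u, h5⟩
  · exact absurd (show x ∈ K from e ▸ IntermediateField.mem_top) hx

end Pl

open Pl

theorem derEll_holds : DerEllStmt := by
  intro p _ R _ _ k E x y hac hE hΔ h htr
  let F := adj (k : Set R) {x, y}
  let k' : Subfield F := k.comap F.subtype
  let x' : F := ⟨x, x_mem2 _ x y⟩
  let y' : F := ⟨y, y_mem2 _ x y⟩
  let E' : WeierstrassCurve F := ⟨⟨_, mem_adj_base hE.1⟩, ⟨_, mem_adj_base hE.2.1⟩,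
    ⟨_, mem_adj_base hE.2.2.1⟩, ⟨_, mem_adj_base hE.2.2.2.1⟩, ⟨_, mem_adj_base hE.2.2.2.2⟩⟩
  have hE' : CoeffIn E' k' := hE
  have hΔ' : E'.Δ ≠ 0 := fun e => hΔ (by
    rw [show E = E'.map F.subtype from rfl, WeierstrassCurve.map_Δ, e, map_zero])
  have h' : E'.toAffine.Equation x' y' :=
    (WeierstrassCurve.Affine.equation_iff _ _).2 (Subtype.ext (eqn h))
  have ev (f : F[X]) (z : F) : (f.map F.subtype).eval z.1 = (f.eval z).1 :=
    eval_map_apply F.subtype z
  have htr' : Transc k' x' := fun f h1 h2 => (Polynomial.map_eq_zero F.subtype).1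
    (htr _ (fun j => by rw [coeff_map]; exact h1 j) (by rw [ev f x', h2]; rfl))
  have : IsAlgClosed k' := algClosed_of fun f h1 h2 => by
    obtain ⟨z, hz, e⟩ := hac (f.map F.subtype) (fun j => by rw [coeff_map]; exact h1 j)
      (by rwa [natDegree_map])
    exact ⟨⟨z, mem_adj_base hz⟩, hz, Subtype.ext ((ev f ⟨z, _⟩).symm.trans e)⟩
  have htop (z : F) : z ∈ adj k' {x', y'} := by
    have : F ≤ (adj k' {x', y'}).map F.subtype := by
      refine adj_le (fun c hc => ⟨⟨c, mem_adj_base hc⟩, mem_adj_base hc, rfl⟩) ?_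
      rintro _ (rfl | rfl)
      exacts [⟨x', x_mem2 _ _ _, rfl⟩, ⟨y', y_mem2 _ _ _, rfl⟩]
    obtain ⟨w, hw, e⟩ := this z.2
    exact Subtype.ext e ▸ hw
  obtain ⟨δ, d0, dx, dy⟩ := exists_der hE' h' htr' htop
  have hψ := psi_ne hE' hΔ' h' htr'
  exact ⟨δ, fun V hV z hz => der_pres hE' hΔ' h' htr' htop d0 dx dy (V.comap F.subtype)
    (fun c hc => hV c hc) z hz, der_ker p hE' h' hψ htop (dx ▸ hψ)⟩

end P179W
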