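import Vale.Agent.P179W.PS

/-!
# P179W : toolbox on power series, part 2: sup norm, roots, lacunary series, families
-/

set_option linter.all false

open scoped NNReal Classical
open Filter Topology

noncomputable section

namespace P179W

section Norm

variable {L : Type} [Field L] (w : Valuation L ℝ≥0)

/-- the sup norm of the coefficients -/
def gN (f : PowerSeries L) : ℝ≥0 := ⨆ k, w (PowerSeries.coeff k f)

variable {w}

theorem le_gN {f : PowerSeries L} (hf : f ∈ BddPS w) (k : ℕ) :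
    w (PowerSeries.coeff k f) ≤ gN w f := by
  obtain ⟨C, hC⟩ := hf
  exact le_ciSup (f := fun k => w (PowerSeries.coeff k f)) ⟨C, by rintro _ ⟨k, rfl⟩; exact hC k⟩ k

theorem gN_le {f : PowerSeries L} {C : ℝ≥0} (h : ∀ k, w (PowerSeries.coeff k f) ≤ C) :
    gN w f ≤ C := ciSup_le h

theorem gN_le_iff {f : PowerSeries L} (hf : f ∈ BddPS w) {C : ℝ≥0} :
    gN w f ≤ C ↔ ∀ k, w (PowerSeries.coeff k f) ≤ C :=
  ⟨fun h k => (le_gN hf k).trans h, gN_le⟩

theorem mem_IntPS_iff_gN {f : PowerSeries L} (hf : f ∈ BddPS w) : f ∈ IntPS w ↔ gN w f ≤ 1 :=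
  (gN_le_iff hf).symm

theorem gN_zero : gN w 0 = 0 := by simp [gN]

theorem gN_eq_zero {f : PowerSeries L} (hf : f ∈ BddPS w) : gN w f = 0 ↔ f = 0 := by
  refine ⟨fun h => ?_, fun h => by rw [h, gN_zero]⟩
  ext k
  have := le_gN hf k
  rw [h] at this
  simpa using this

theorem C_mem_BddPS (c : L) : PowerSeries.C c ∈ BddPS w := NullPS_le_BddPS w (C_mem_NullPS w c)

theorem gN_C (c : L) : gN w (PowerSeries.C c) = w c := by
  refine le_antisymm (gN_le fun k => ?_) ?_
  · rw [PowerSeries.coeff_C]; split_ifs <;> simp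
  · simpa using le_gN (C_mem_BddPS (w := w) c) 0

theorem gN_one : gN w 1 = 1 := by simpa using gN_C (w := w) 1

theorem gN_neg (f : PowerSeries L) : gN w (-f) = gN w f := by simp [gN]

theorem gN_add_le {f g : PowerSeries L} (hf : f ∈ BddPS w) (hg : g ∈ BddPS w) :
    gN w (f + g) ≤ max (gN w f) (gN w g) := gN_le fun k => by
  rw [map_add]
  exact w.map_add_le ((le_gN hf k).trans (le_max_left _ _)) ((le_gN hg k).trans (le_max_right _ _))

theorem gN_mul_le {f g : PowerSeries L} (hf : f ∈ BddPS w) (hg : g ∈ BddPS w) :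
    gN w (f * g) ≤ gN w f * gN w g := gN_le (val_coeff_mul_le w (le_gN hf) (le_gN hg))

theorem gN_C_mul (c : L) {f : PowerSeries L} (hf : f ∈ BddPS w) :
    gN w (PowerSeries.C c * f) = w c * gN w f := by
  refine le_antisymm (by simpa [gN_C] using gN_mul_le (C_mem_BddPS c) hf) ?_
  by_cases hc : c = 0
  · simp [hc]
  have h0 : 0 < w c := zero_lt_iff.2 (by simpa using hc)
  rw [mul_comm, ← le_div_iff₀ h0]
  refine gN_le fun k => ?_
  rw [le_div_iff₀ h0]
  have := le_gN (mul_mem (C_mem_BddPS c) hf) k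
  rwa [PowerSeries.coeff_C_mul, map_mul, mul_comm] at this

/-- a bounded family of values of a discrete valuation has a largest member -/
theorem IsDisc.exists_maxi (hw : IsDisc w) {ι : Type*} [Nonempty ι] (u : ι → L) {C : ℝ≥0}
    (hC : ∀ i, w (u i) ≤ C) : ∃ i, ∀ j, w (u j) ≤ w (u i) := by
  by_cases h0 : ∀ i, u i = 0
  · exact ⟨Classical.arbitrary ι, fun j => by simp [h0]⟩
  push Not at h0
  obtain ⟨ϖ, hϖ0, hϖ, hd⟩ := hw
  have hp : 0 < w ϖ := zero_lt_iff.2 (by simpa using hϖ0)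
  obtain ⟨N, hN⟩ : ∃ N : ℕ, C < (w ϖ)⁻¹ ^ N := pow_unbounded_of_one_lt _ ((one_lt_inv₀ hp).2 hϖ)
  obtain ⟨m, ⟨i, hi⟩, hm⟩ := Int.exists_least_of_bdd (P := fun m : ℤ => ∃ i, w (u i) = w ϖ ^ m)
    ⟨-N, by
      rintro m ⟨i, hi⟩
      have h1 : w ϖ ^ m < w ϖ ^ (-(N : ℤ)) := by
        rw [← hi, zpow_neg, zpow_natCast, ← inv_pow]
        exact (hC i).trans_lt hN
      exact ((zpow_lt_zpow_iff_right_of_lt_one₀ hp hϖ).1 h1).le⟩
    (by
      obtain ⟨i, hi⟩ := h0
      obtain ⟨m, hm⟩ := hd _ hi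
      exact ⟨m, i, hm⟩)
  refine ⟨i, fun j => ?_⟩
  by_cases hj : u j = 0
  · simp [hj]
  obtain ⟨m', hm'⟩ := hd _ hj
  rw [hm', hi]
  exact (zpow_le_zpow_iff_right_of_lt_one₀ hp hϖ).2 (hm m' ⟨j, hm'⟩)

/-- there is a gap below `1` -/
theorem IsDisc.exists_gap (hw : IsDisc w) : ∃ ρ : ℝ≥0, ρ < 1 ∧ ∀ a b : L, w a < w b → w a ≤ ρ * w b := by
  obtain ⟨ϖ, hϖ0, hϖ, hd⟩ := hw
  have hp : 0 < w ϖ := zero_lt_iff.2 (by simpa using hϖ0)
  refine ⟨w ϖ, hϖ, fun a b hab => ?_⟩
  by_cases ha : a = 0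
  · simp [ha]
  have hb : b ≠ 0 := by rintro rfl; simp at hab
  obtain ⟨m, hm⟩ := hd a ha
  obtain ⟨k, hk⟩ := hd b hb
  rw [hm, hk] at hab ⊢
  have := (zpow_lt_zpow_iff_right_of_lt_one₀ hp hϖ).1 hab
  rw [mul_comm, ← zpow_add_one₀ hp.ne']
  exact (zpow_le_zpow_iff_right_of_lt_one₀ hp hϖ).2 this

theorem gN_attained (hw : IsDisc w) {f : PowerSeries L} (hf : f ∈ BddPS w) :
    ∃ k, gN w f = w (PowerSeries.coeff k f) := by
  obtain ⟨C, hC⟩ := hf
  obtain ⟨k, hk⟩ := hw.exists_maxi (fun k => PowerSeries.coeff k f) hC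
  exact ⟨k, le_antisymm (gN_le hk) (le_gN ⟨C, hC⟩ k)⟩

theorem gN_lt_iff (hw : IsDisc w) {f : PowerSeries L} (hf : f ∈ BddPS w) {C : ℝ≥0} :
    gN w f < C ↔ ∀ k, w (PowerSeries.coeff k f) < C := by
  refine ⟨fun h k => (le_gN hf k).trans_lt h, fun h => ?_⟩
  obtain ⟨k, hk⟩ := gN_attained hw hf
  rw [hk]; exact h k

/-- normalisation -/
theorem exists_scale (hw : IsDisc w) {f : PowerSeries L} (hf : f ∈ BddPS w) (h0 : f ≠ 0) :
    ∃ c : L, c ≠ 0 ∧ w c = gN w f ∧ gN w (PowerSeries.C c⁻¹ * f) = 1 := by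
  obtain ⟨k, hk⟩ := gN_attained hw hf
  have h1 : gN w f ≠ 0 := fun h => h0 ((gN_eq_zero hf).1 h)
  refine ⟨_, fun h => h1 (by rw [hk, h, map_zero]), hk.symm, ?_⟩
  rw [gN_C_mul _ hf, map_inv₀, ← hk, inv_mul_cancel₀ h1]

theorem IsRed.ps_ne_zero_iff {R : Type} [Field R] {rd : L → R} (h : IsRed w rd) (hw : IsDisc w)
    {f : PowerSeries L} (hf : f ∈ IntPS w) : rdPS rd f ≠ 0 ↔ gN w f = 1 := by
  rw [Ne, h.ps_eq_zero_iff hf, ← gN_lt_iff hw (IntPS_le_BddPS w hf), not_lt]
  exact ⟨fun h1 => le_antisymm (gN_le hf) h1, fun h1 => h1.ge⟩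

/-- Gauss lemma -/
theorem gN_mul (hw : IsDisc w) {f g : PowerSeries L} (hf : f ∈ BddPS w) (hg : g ∈ BddPS w) :
    gN w (f * g) = gN w f * gN w g := by
  by_cases hf0 : f = 0
  · simp [hf0, gN_zero]
  by_cases hg0 : g = 0
  · simp [hg0, gN_zero]
  obtain ⟨a, ha0, ha, ha1⟩ := exists_scale hw hf hf0
  obtain ⟨b, hb0, hb, hb1⟩ := exists_scale hw hg hg0
  obtain ⟨R, _, rd, h, -⟩ := exists_isRed w
  have hf' := mul_mem (C_mem_BddPS (w := w) a⁻¹) hf
  have hg' := mul_mem (C_mem_BddPS (w := w) b⁻¹) hg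
  have hfi := (mem_IntPS_iff_gN hf').2 ha1.le
  have hgi := (mem_IntPS_iff_gN hg').2 hb1.le
  have h1 := (h.ps_ne_zero_iff hw (mul_mem hfi hgi)).1 (by
    rw [h.ps_mul hfi hgi]
    exact mul_ne_zero ((h.ps_ne_zero_iff hw hfi).2 ha1) ((h.ps_ne_zero_iff hw hgi).2 hb1))
  have h2 : f * g = PowerSeries.C (a * b) *
      (PowerSeries.C a⁻¹ * f * (PowerSeries.C b⁻¹ * g)) := by
    have : PowerSeries.C (a * b) * (PowerSeries.C a⁻¹ * PowerSeries.C b⁻¹) = 1 := by
      rw [← map_mul, ← map_mul, ← map_one PowerSeries.C]; congr 1; field_simp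
    linear_combination (-(f * g)) * this
  rw [h2, gN_C_mul _ (mul_mem hf' hg'), h1, map_mul, ha, hb, mul_one]

/-- the sup norm as a valuation on the ring of bounded series -/
def gVal (hw : IsDisc w) : Valuation (BddPS w) ℝ≥0 where
  toFun f := gN w f
  map_zero' := gN_zero
  map_one' := gN_one
  map_mul' f g := gN_mul hw f.2 g.2
  map_add_le_max' f g := gN_add_le f.2 g.2

theorem gVal_apply (hw : IsDisc w) (f : BddPS w) : gVal hw f = gN w f := rfl

theorem gN_pow (hw : IsDisc w) {f : PowerSeries L} (hf : f ∈ BddPS w) (m : ℕ) :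
    gN w (f ^ m) = gN w f ^ m := map_pow (gVal hw) ⟨f, hf⟩ m

theorem gN_prod (hw : IsDisc w) {ι : Type*} (s : Finset ι) {f : ι → PowerSeries L}
    (hf : ∀ i ∈ s, f i ∈ BddPS w) : gN w (∏ i ∈ s, f i) = ∏ i ∈ s, gN w (f i) := by
  induction s using Finset.induction_on with
  | empty => simpa using gN_one
  | insert i s hi ih =>
    have h1 : ∀ j ∈ s, f j ∈ BddPS w := fun j hj => hf j (Finset.mem_insert_of_mem hj)
    rw [Finset.prod_insert hi, Finset.prod_insert hi, gN_mul hw (hf i (Finset.mem_insert_self _ _))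
      (prod_mem h1), ih h1]

theorem gN_X_pow (m : ℕ) : gN w (PowerSeries.X ^ m) = 1 := by
  have h := pow_mem (X_mem_IntPS w) m
  refine le_antisymm (gN_le h) ?_
  simpa using le_gN (IntPS_le_BddPS w h) m

end Norm

/-! ## power series over a field -/

section Root

variable {R : Type} [Field R]

/-- a root in `R⟦X⟧` of a nonzero polynomial over `R` is constant -/
theorem const_of_root {P : Polynomial R} (hP : P ≠ 0) {f : PowerSeries R}
    (h : Polynomial.aeval f P = 0) : f = PowerSeries.C (PowerSeries.constantCoeff f) := by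
  obtain ⟨Q, hQ, hn⟩ := Polynomial.exists_eq_pow_rootMultiplicity_mul_and_not_dvd P hP
    (PowerSeries.constantCoeff f)
  rw [hQ, map_mul, map_pow, map_sub, Polynomial.aeval_X, Polynomial.aeval_C] at h
  rcases mul_eq_zero.1 h with h | h
  · exact sub_eq_zero.1 (pow_eq_zero_iff' .. |>.1 h).1
  · exfalso
    apply hn
    rw [Polynomial.dvd_iff_isRoot, Polynomial.IsRoot.def]
    have := congrArg PowerSeries.constantCoeff h
    rw [map_zero, Polynomial.aeval_def, Polynomial.hom_eval₂] at this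
    rw [← this, Polynomial.eval]
    congr 1


/-- an infinite lacunary series is not rational -/
theorem lacunary {p : ℕ} (hp : 2 ≤ p) {f : PowerSeries R} {N : ℕ}
    (h1 : ∀ k, N ≤ k → (∀ e, k ≠ p ^ e) → PowerSeries.coeff k f = 0)
    (h2 : ∀ M, ∃ k, M ≤ k ∧ PowerSeries.coeff k f ≠ 0) {a b : Polynomial R}
    (h : (a : PowerSeries R) * f = b) : a = 0 := by
  by_contra ha
  obtain ⟨k, hk, hk0⟩ := h2 (N + a.natDegree + b.natDegree + 1)
  obtain ⟨e, rfl⟩ : ∃ e, k = p ^ e := by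
    by_contra hne
    push Not at hne
    exact hk0 (h1 k (by omega) hne)
  have h3 := congrArg (PowerSeries.coeff (a.natDegree + p ^ e)) h
  rw [Polynomial.coeff_coe, Polynomial.coeff_eq_zero_of_natDegree_lt (by omega),
    PowerSeries.coeff_mul, Finset.sum_eq_single (a.natDegree, p ^ e)] at h3
  · rw [Polynomial.coeff_coe] at h3
    exact mul_ne_zero (Polynomial.leadingCoeff_ne_zero.2 ha) hk0 h3
  · rintro ⟨i, j⟩ hij hne
    have h4 := Finset.HasAntidiagonal.mem_antidiagonal.1 hij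
    simp only at h4 ⊢
    rw [Polynomial.coeff_coe]
    by_cases hi : a.natDegree < i
    · rw [Polynomial.coeff_eq_zero_of_natDegree_lt hi, zero_mul]
    have hj : p ^ e < j := by
      rcases (show p ^ e ≤ j by omega).lt_or_eq with h5 | h5
      · exact h5
      · exact absurd (Prod.ext (by simp only; omega) h5.symm) hne
    rw [h1 j (by omega), mul_zero]
    rintro e' rfl
    have h5 : e + 1 ≤ e' := (Nat.pow_lt_pow_iff_right (by omega)).1 hj
    have h6 : p ^ (e + 1) ≤ p ^ e' := Nat.pow_le_pow_right (by omega) h5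
    have h7 : 2 * p ^ e ≤ p ^ (e + 1) := by rw [pow_succ, mul_comm]; exact Nat.mul_le_mul_left _ hp
    omega
  · intro hh
    exact absurd (Finset.HasAntidiagonal.mem_antidiagonal.2 (by rfl)) hh

end Root

/-! ## conjugate valuations -/

section Conj

variable {L : Type} [Field L] {G : Type} [Group G] [MulSemiringAction G L]
  {w : Valuation L ℝ≥0} {δ : Derivation ℤ L L} {π0 : L} {p : ℕ}

theorem cw_one : cw G w 1 = w := by ext z; simp [cw_apply]

theorem cw_cw (g h : G) : cw G (cw G w g) h = cw G w (g * h) := by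
  ext z; simp [cw_apply, mul_smul]

theorem smul_natCast' (g : G) (m : ℕ) : g • (m : L) = m :=
  map_natCast (MulSemiringAction.toRingHom G L g) m

theorem IsDisc.cw (hw : IsDisc w) (g : G) : IsDisc (cw G w g) := by
  obtain ⟨ϖ, h0, h1, h2⟩ := hw
  refine ⟨g⁻¹ • ϖ, (smul_ne_zero_iff_ne _).2 h0, by simpa [cw_apply] using h1, fun z hz => ?_⟩
  simpa [cw_apply] using h2 (g • z) ((smul_ne_zero_iff_ne _).2 hz)

theorem Flow.dE_smul (h : Flow G p w δ π0) (g : G) (k : ℕ) (z : L) :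
    dE δ π0 k (g • z) = g • dE δ π0 k z := P179W.dE_smul δ (h.equiv g) (h.π0_fix g) k z

theorem Flow.tau_mem (h : Flow G p w δ π0) (z : L) : tau δ π0 z ∈ BddPS w :=
  ⟨w z, fun k => by rw [coeff_tau]; exact h.bound k z⟩

theorem Flow.gN_tau (h : Flow G p w δ π0) (z : L) : gN w (tau δ π0 z) = w z := by
  refine le_antisymm (gN_le fun k => by rw [coeff_tau]; exact h.bound k z) ?_
  simpa [dE_zero] using le_gN (h.tau_mem z) 0

theorem Flow.fixed_mem (h : Flow G p w δ π0) {f : L} (hf : ∀ g : G, g • f = f) :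
    f ∈ M0 w δ π0 := by
  obtain ⟨ρ, hρ, h1⟩ := h.gain
  have h2 : Tendsto (fun k : ℕ => ρ ^ k * w f) atTop (𝓝 0) := by
    simpa using (NNReal.tendsto_pow_atTop_nhds_zero_of_lt_one hρ).mul_const (w f)
  exact tendsto_of_tendsto_of_tendsto_of_le_of_le tendsto_const_nhds h2 (fun _ => zero_le)
    (h1 f hf)

theorem Flow.cw (h : Flow G p w δ π0) (g : G) : Flow G p (cw G w g) δ π0 where
  wp := by rw [cw_apply, smul_natCast']; exact h.wp
  disc := h.disc.cw g
  faith := h.faith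
  equiv := h.equiv
  π0_fix := h.π0_fix
  π0_const := h.π0_const
  bound k z := by rw [cw_apply, cw_apply, ← h.dE_smul]; exact h.bound _ _
  gain := by
    obtain ⟨ρ, hρ, h1⟩ := h.gain
    refine ⟨ρ, hρ, fun f hf k => ?_⟩
    rw [cw_apply, cw_apply, ← h.dE_smul, hf]
    exact h1 f hf k

theorem Flow.mem_M0_cw (h : Flow G p w δ π0) (g : G) (z : L) :
    z ∈ M0 (P179W.cw G w g) δ π0 ↔ g • z ∈ M0 w δ π0 := by
  simp only [M0, Set.mem_setOf_eq, cw_apply, h.dE_smul]

theorem mem_fixG {S : Set L} {g : G} : g ∈ fixG G S ↔ ∀ z ∈ S, g • z = z := Iff.rfl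

theorem Flow.mem_fixG_cw (h : Flow G p w δ π0) (g γ : G) :
    γ ∈ fixG G (M0 (P179W.cw G w g) δ π0) ↔ g * γ * g⁻¹ ∈ fixG G (M0 w δ π0) := by
  simp only [mem_fixG, h.mem_M0_cw]
  constructor
  · intro h1 z hz
    rw [mul_smul, mul_smul, h1 _ (by simpa using hz), smul_inv_smul]
  · intro h1 z hz
    have := h1 _ hz
    rw [mul_smul, mul_smul, inv_smul_smul] at this
    exact MulAction.injective g this

theorem Chart.cw {B : Subring L} (h : Chart G p w B) (g : G) : Chart G p (cw G w g) B where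
  noeth := h.noeth
  stab := h.stab
  le_one b hb := h.le_one _ (h.stab g b hb)
  frac := h.frac
  mp z N h1 h2 := h.mp z N h1 fun g' => by simpa [cw_apply, smul_smul] using h2 (g⁻¹ * g')
  loc z hz := by
    obtain ⟨s, hs, h1, h2⟩ := h.loc _ hz
    refine ⟨g⁻¹ • s, h.stab _ _ hs, by simpa [cw_apply] using h1, ?_⟩
    simpa [smul_mul'] using h.stab g⁻¹ _ h2

theorem IsRed.cw {R : Type} [Field R] {rd : L → R} (h : IsRed w rd) (g : G) :
    IsRed (cw G w g) (fun z => rd (g • z)) where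
  one := by rw [smul_one, h.one]
  add a b ha hb := by rw [smul_add]; exact h.add _ _ ha hb
  mul a b ha hb := by rw [smul_mul']; exact h.mul _ _ ha hb
  eq_zero a ha := h.eq_zero _ ha

end Conj

/-! ## families -/

section Fam

variable {L : Type} [Field L] [CharZero L] {G : Type} [Group G] [MulSemiringAction G L]
  {δ : Derivation ℤ L L} {π0 : L}

theorem Fam_gen {S : Set L} {ρ : Polynomial L} {z : L} (hρ : ∀ k, ρ.coeff k ∈ S) (hz : z ∈ S) :
    (fun h : G => (ρ : PowerSeries L) * tau δ π0 (h • z)) ∈ Fam G δ π0 S :=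
  AddSubgroup.subset_closure ⟨ρ, z, hρ, hz, rfl⟩

theorem Fam_mono {S T : Set L} (h : S ⊆ T) : Fam G δ π0 S ≤ Fam G δ π0 T :=
  AddSubgroup.closure_mono (by
    rintro _ ⟨ρ, z, h1, h2, rfl⟩
    exact ⟨ρ, z, fun k => h (h1 k), h h2, rfl⟩)

theorem Fam_induction {S : Set L} {P : (G → PowerSeries L) → Prop} (h0 : P 0)
    (hadd : ∀ a b, P a → P b → P (a + b)) (hneg : ∀ a, P a → P (-a))
    (hgen : ∀ (ρ : Polynomial L) (z : L), (∀ k, ρ.coeff k ∈ S) → z ∈ S →
      P fun h : G => (ρ : PowerSeries L) * tau δ π0 (h • z)) {c : G → PowerSeries L}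
    (hc : c ∈ Fam G δ π0 S) : P c := by
  induction hc using AddSubgroup.closure_induction with
  | mem c hc => obtain ⟨ρ, z, h1, h2, rfl⟩ := hc; exact hgen ρ z h1 h2
  | zero => exact h0
  | add a b _ _ ha hb => exact hadd a b ha hb
  | neg a _ ha => exact hneg a ha

variable (G δ π0) in
/-- the families form a ring -/
def FamRing (B : Subring L) : Subring (G → PowerSeries L) where
  carrier := Fam G δ π0 B
  zero_mem' := zero_mem _
  add_mem' := add_mem
  neg_mem' := neg_mem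
  one_mem' := by
    have := Fam_gen (G := G) (δ := δ) (π0 := π0) (S := B) (ρ := 1) (z := 1)
      (fun k => by rw [Polynomial.coeff_one]; split_ifs; exacts [B.one_mem, B.zero_mem]) B.one_mem
    simp only [tau_one, smul_one, Polynomial.coe_one, mul_one] at this
    exact this
  mul_mem' := by
    intro a b ha hb
    refine Fam_induction (P := fun a => a * b ∈ Fam G δ π0 B) (by simp)
      (fun a a' h h' => by rw [add_mul]; exact add_mem h h')
      (fun a h => by rw [neg_mul]; exact neg_mem h) (fun ρ z h1 h2 => ?_) ha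
    refine Fam_induction (P := fun b => (fun h : G => (ρ : PowerSeries L) * tau δ π0 (h • z)) * b ∈
      Fam G δ π0 B) (by simp) (fun a a' h h' => by rw [mul_add]; exact add_mem h h')
      (fun a h => by rw [mul_neg]; exact neg_mem h) (fun ρ' z' h1' h2' => ?_) hb
    have := Fam_gen (G := G) (δ := δ) (π0 := π0) (S := B) (ρ := ρ * ρ') (z := z * z')
      (fun k => by
        rw [Polynomial.coeff_mul]
        exact sum_mem fun ij _ => mul_mem (h1 _) (h1' _)) (B.mul_mem h2 h2')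
    convert this using 1
    funext h
    simp only [Pi.mul_apply, smul_mul', tau_mul, Polynomial.coe_mul]
    ring

theorem mem_FamRing {B : Subring L} {c : G → PowerSeries L} :
    c ∈ FamRing G δ π0 B ↔ c ∈ Fam G δ π0 B := Iff.rfl

theorem mem_FamRing_top {c : G → PowerSeries L} :
    c ∈ FamRing G δ π0 ⊤ ↔ c ∈ Fam G δ π0 Set.univ := Iff.rfl

theorem tau_mem_FamRing {B : Subring L} {z : L} (hz : z ∈ B) :
    (fun h : G => tau δ π0 (h • z)) ∈ FamRing G δ π0 B := by
  have := Fam_gen (G := G) (δ := δ) (π0 := π0) (S := B) (ρ := 1) (z := z)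
    (fun k => by rw [Polynomial.coeff_one]; split_ifs; exacts [B.one_mem, B.zero_mem]) hz
  simp only [Polynomial.coe_one, one_mul] at this
  exact this

theorem poly_mem_FamRing {B : Subring L} {ρ : Polynomial L} (hρ : ∀ k, ρ.coeff k ∈ B) :
    (fun _ : G => (ρ : PowerSeries L)) ∈ FamRing G δ π0 B := by
  have := Fam_gen (G := G) (δ := δ) (π0 := π0) (S := B) (z := 1) hρ B.one_mem
  simp only [tau_one, smul_one, mul_one] at this
  exact this

theorem C_mem_FamRing {B : Subring L} {c : L} (hc : c ∈ B) :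
    (fun _ : G => PowerSeries.C c) ∈ FamRing G δ π0 B := by
  have := poly_mem_FamRing (G := G) (δ := δ) (π0 := π0) (ρ := Polynomial.C c)
    (fun k => by rw [Polynomial.coeff_C]; split_ifs; exacts [hc, B.zero_mem])
  simpa using this

theorem X_mem_FamRing {B : Subring L} :
    (fun _ : G => (PowerSeries.X : PowerSeries L)) ∈ FamRing G δ π0 B := by
  have := poly_mem_FamRing (G := G) (δ := δ) (π0 := π0) (B := B) (ρ := Polynomial.X)
    (fun k => by rw [Polynomial.coeff_X]; split_ifs; exacts [B.one_mem, B.zero_mem])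
  simpa using this

/-- right translation -/
theorem Fam_transl {S : Set L} (g : G) (hS : ∀ z ∈ S, g • z ∈ S) {c : G → PowerSeries L}
    (hc : c ∈ Fam G δ π0 S) : (fun h => c (h * g)) ∈ Fam G δ π0 S := by
  refine Fam_induction (P := fun c => (fun h => c (h * g)) ∈ Fam G δ π0 S) (zero_mem _)
    (fun a b ha hb => add_mem ha hb) (fun a ha => neg_mem ha) (fun ρ z h1 h2 => ?_) hc
  simpa only [mul_smul] using Fam_gen (G := G) (δ := δ) (π0 := π0) h1 (hS z h2)

variable {w : Valuation L ℝ≥0} {p : ℕ}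

theorem Flow.Fam_bdd (hF : Flow G p w δ π0) {S : Set L} {c : G → PowerSeries L}
    (hc : c ∈ Fam G δ π0 S) (h : G) : c h ∈ BddPS w :=
  Fam_induction (P := fun c => c h ∈ BddPS w) (zero_mem _) (fun _ _ ha hb => add_mem ha hb)
    (fun _ ha => neg_mem ha)
    (fun ρ _ _ _ => mul_mem (NullPS_le_BddPS w (poly_mem_NullPS w ρ)) (hF.tau_mem _)) hc

/-- traces of families are null series -/
theorem Flow.Fam_trace (hF : Flow G p w δ π0) (H : Subgroup G) [Fintype H] (g : G)
    (hH : ∀ z : L, (∀ h ∈ H, h • z = z) → z ∈ M0 (P179W.cw G w g) δ π0) {S : Set L}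
    {c : G → PowerSeries L} (hc : c ∈ Fam G δ π0 S) : ∑ h : H, c (g * h) ∈ NullPS w := by
  refine Fam_induction (P := fun c => ∑ h : H, c (g * h) ∈ NullPS w) (by simp)
    (fun a b ha hb => by simpa [Finset.sum_add_distrib] using add_mem ha hb)
    (fun a ha => by simpa using ha) (fun ρ z _ _ => ?_) hc
  have h1 : g • ∑ h : H, (h : G) • z ∈ M0 w δ π0 := by
    rw [← hF.mem_M0_cw]
    refine hH _ fun h' hh' => ?_
    rw [Finset.smul_sum]
    exact Fintype.sum_equiv (Equiv.mulLeft ⟨h', hh'⟩) _ _ fun h => by simp [mul_smul]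
  rw [mem_M0_iff, Finset.smul_sum, ← tauHom_apply, map_sum] at h1
  simp only [← Finset.mul_sum, mul_smul]
  exact mul_mem (poly_mem_NullPS w ρ) h1

/-- invariant families are null series -/
theorem Flow.Fam_inv (hF : Flow G p w δ π0) [Finite G] (H : Subgroup G) (g : G)
    (hH : ∀ z : L, (∀ h ∈ H, h • z = z) → z ∈ M0 (P179W.cw G w g) δ π0) {S : Set L}
    {c : G → PowerSeries L} (hc : c ∈ Fam G δ π0 S) (hinv : ∀ h ∈ H, c (g * h) = c g) :
    c g ∈ NullPS w := by
  have := Fintype.ofFinite H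
  have h1 := hF.Fam_trace H g hH hc
  rw [Finset.sum_congr rfl fun (h : H) _ => hinv h h.2, Finset.sum_const, Finset.card_univ,
    nsmul_eq_mul] at h1
  have h2 := mul_mem (C_mem_NullPS w (Fintype.card H : L)⁻¹) h1
  rwa [← mul_assoc, ← map_natCast (PowerSeries.C (R := L)), ← map_mul,
    inv_mul_cancel₀ (Nat.cast_ne_zero.2 Fintype.card_ne_zero), map_one, one_mul] at h2

/-- the case `H = G` -/
theorem Flow.Fam_const (hF : Flow G p w δ π0) [Finite G] {S : Set L}
    {c : G → PowerSeries L} (hc : c ∈ Fam G δ π0 S) (hinv : ∀ h, c h = c 1) :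
    c 1 ∈ NullPS w :=
  hF.Fam_inv ⊤ 1 (fun z hz => (hF.cw 1).fixed_mem fun g => hz g trivial) hc
    fun h _ => hinv _

end Fam

end P179W
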