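import Vale.Agent.P179W.PS

/-!
# P179W : the multi-index Taylor formula for the flow of `∑ J i • D i`
-/

set_option linter.all false

open scoped NNReal Classical
open Filter Topology PowerSeries

noncomputable section

namespace P179W

namespace TransfH

variable {ι : Type} {L : Type} [Field L]

theorem der_prod {A : Type} [CommRing A] [Algebra L A] (d : Derivation L A A) (s : Finset ι)
    (f : ι → A) : d (∏ i ∈ s, f i) = ∑ i ∈ s, (∏ i' ∈ s.erase i, f i') * d (f i) := by
  induction s using Finset.induction_on with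
  | empty => simp
  | insert a s ha ih =>
    rw [Finset.prod_insert ha, Finset.sum_insert ha, Derivation.leibniz, ih, Finset.erase_insert ha,
      smul_eq_mul, smul_eq_mul, add_comm, Finset.mul_sum]
    congr 1
    refine Finset.sum_congr rfl fun i hi => ?_
    rw [Finset.erase_insert_of_ne (fun h => ha (by rw [h]; exact hi)),
      Finset.prod_insert (fun h => ha (Finset.mem_of_mem_erase h)), mul_assoc]

/-- `dE` as an additive endomorphism -/
def eE (δ : Derivation ℤ L L) (π0 : L) (k : ℕ) : AddMonoid.End L :=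
  AddMonoidHom.mk' (dE δ π0 k) (dE_add δ π0 k)

theorem eE_apply (δ : Derivation ℤ L L) (π0 : L) (k : ℕ) (z : L) :
    eE δ π0 k z = dE δ π0 k z := rfl

theorem eE_zero (δ : Derivation ℤ L L) (π0 : L) : eE δ π0 0 = 1 :=
  AddMonoidHom.ext fun z => dE_zero δ π0 z

theorem der_coef {δ : Derivation ℤ L L} {π0 : L} (h : δ π0 = 0) (k : ℕ) :
    δ (π0 ^ k / (k.factorial : L)) = 0 := by
  rw [div_eq_mul_inv, Derivation.leibniz, Derivation.leibniz_pow, h, Derivation.leibniz_inv,
    Derivation.map_natCast]
  simp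

theorem eE_comm {D D' : Derivation ℤ L L} {π0 : L} (h : ∀ z, D (D' z) = D' (D z))
    (h1 : D π0 = 0) (h2 : D' π0 = 0) (j k : ℕ) : Commute (eE D π0 j) (eE D' π0 k) := by
  refine AddMonoidHom.ext fun z => ?_
  show dE D π0 j (dE D' π0 k z) = dE D' π0 k (dE D π0 j z)
  have hc : Function.Commute (D : L → L) D' := h
  rw [dE, dE, dE, dE, der_iter_const_mul D (der_coef h1 k), der_iter_const_mul D' (der_coef h2 j),
    hc.iterate_iterate j k z]
  ring

/-- commuting derivations killing `π0` -/
structure Cm (D : ι → Derivation ℤ L L) (π0 : L) : Prop where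
  comm : ∀ i j z, D i (D j z) = D j (D i z)
  const : ∀ i, D i π0 = 0

variable {D : ι → Derivation ℤ L L} {π0 : L}

theorem Cm.pw (h : Cm D π0) (s : Finset ι) (j : ι → ℕ) :
    (s : Set ι).Pairwise (Function.onFun Commute fun i => eE (D i) π0 (j i)) :=
  fun i _ i' _ _ => eE_comm (h.comm i i') (h.const i) (h.const i') _ _

/-- the multi-index divided power -/
def EE (h : Cm D π0) (s : Finset ι) (j : ι → ℕ) : AddMonoid.End L :=
  s.noncommProd (fun i => eE (D i) π0 (j i)) (h.pw s j)

theorem EE_erase (h : Cm D π0) {s : Finset ι} {i : ι} (hi : i ∈ s) (j : ι → ℕ) (z : L) :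
    EE h s j z = EE h (s.erase i) j (dE (D i) π0 (j i) z) := by
  rw [EE, ← Finset.noncommProd_erase_mul s hi]
  rfl

theorem EE_congr (h : Cm D π0) {s : Finset ι} {j j' : ι → ℕ} (hj : ∀ i ∈ s, j i = j' i) :
    EE h s j = EE h s j' :=
  Finset.noncommProd_congr rfl (fun i hi => by rw [hj i hi]) _

theorem EE_zero (h : Cm D π0) {s : Finset ι} {j : ι → ℕ} (hj : ∀ i ∈ s, j i = 0) (z : L) :
    EE h s j z = z := by
  rw [EE, Finset.noncommProd_eq_pow_card _ _ _ 1 (fun i hi => by rw [hj i hi, eE_zero]), one_pow]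
  rfl

theorem EE_le (h : Cm D π0) (w : Valuation L ℝ≥0) (hb : ∀ i k z, w (dE (D i) π0 k z) ≤ w z)
    (s : Finset ι) (j : ι → ℕ) : ∀ z, w (EE h s j z) ≤ w z :=
  Finset.noncommProd_induction s _ _ (fun A : AddMonoid.End L => ∀ z, w (A z) ≤ w z)
    (fun a b ha hb z => (ha (b z)).trans (hb z)) (fun z => le_rfl) fun i _ z => hb i _ z

theorem dE_one (δ : Derivation ℤ L L) (π0 z : L) : dE δ π0 1 z = π0 * δ z := by simp [dE]

theorem dE_succ [CharZero L] {δ : Derivation ℤ L L} (h : δ π0 = 0) (k : ℕ) (z : L) :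
    dE δ π0 k (π0 * δ z) = (k + 1) * dE δ π0 (k + 1) z := by
  rw [← dE_one, dE_dE δ h, Nat.choose_succ_self_right]
  push_cast
  rfl

variable [Fintype ι]

theorem comb_apply (J : ι → L) (D : ι → Derivation ℤ L L) (z : L) :
    comb J D z = ∑ i, J i * D i z := by
  have := congrFun (map_sum (Derivation.coeFnAddMonoidHom (R := ℤ) (A := L) (M := L))
    (fun i => J i • D i) Finset.univ) z
  rw [Finset.sum_apply] at this
  exact this

/-- the Taylor polynomial over a box -/
def FF (h : Cm D π0) (ψ : ι → L⟦X⟧) (N : ι → ℕ) (z : L) : L⟦X⟧ :=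
  ∑ j ∈ Fintype.piFinset fun i => Finset.range (N i), (∏ i, ψ i ^ j i) * C (EE h Finset.univ j z)

theorem deriv_FF [CharZero L] (h : Cm D π0) (ψ : ι → L⟦X⟧) (N : ι → ℕ) (z : L) :
    d⁄dX L (FF h ψ N z) =
      ∑ i, d⁄dX L (ψ i) * FF h ψ (Function.update N i (N i - 1)) (π0 * D i z) := by
  have e1 : ∀ j : ι → ℕ, d⁄dX L ((∏ i, ψ i ^ j i) * C (EE h Finset.univ j z)) =
      ∑ i, d⁄dX L (ψ i) * ((∏ i' ∈ Finset.univ.erase i, ψ i' ^ j i') * ψ i ^ (j i - 1) *
        C ((j i : L) * EE h Finset.univ j z)) := fun j => by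
    rw [Derivation.leibniz, derivative_C, smul_zero, zero_add, der_prod, smul_eq_mul,
      Finset.mul_sum]
    refine Finset.sum_congr rfl fun i _ => ?_
    rw [Derivation.leibniz_pow, map_mul, map_natCast, nsmul_eq_mul, smul_eq_mul]
    ring
  rw [FF, map_sum, Finset.sum_congr rfl fun j _ => e1 j, Finset.sum_comm]
  refine Finset.sum_congr rfl fun i _ => ?_
  rw [← Finset.mul_sum, FF]
  congr 1
  symm
  refine Finset.sum_of_injOn (fun j => Function.update j i (j i + 1)) ?_ ?_ ?_ ?_
  · intro j _ j' _ e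
    funext i'
    have := congrFun e i'
    by_cases hi : i' = i
    · subst hi; simpa using this
    · simpa [hi] using this
  · intro j hj
    rw [Finset.mem_coe, Fintype.mem_piFinset] at hj ⊢
    intro i'
    have := hj i'
    by_cases hi : i' = i
    · subst hi; simp at this ⊢; omega
    · simpa [hi] using this
  · intro j hj hn
    by_cases h0 : j i = 0
    · simp [h0]
    · refine absurd ⟨Function.update j i (j i - 1), ?_, ?_⟩ hn
      · rw [Finset.mem_coe, Fintype.mem_piFinset]
        rw [Fintype.mem_piFinset] at hj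
        intro i'
        have := hj i'
        by_cases hi : i' = i
        · subst hi; simp at this ⊢; omega
        · simpa [hi] using this
      · funext i'
        by_cases hi : i' = i
        · subst hi; simp; omega
        · simp [hi]
  · intro j _
    have e2 : ∀ i' ∈ Finset.univ.erase i, Function.update j i (j i + 1) i' = j i' :=
      fun i' hi' => Function.update_of_ne (Finset.ne_of_mem_erase hi') _ _
    have e3 : ∏ i' ∈ Finset.univ.erase i, ψ i' ^ Function.update j i (j i + 1) i' =
        ∏ i' ∈ Finset.univ.erase i, ψ i' ^ j i' :=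
      Finset.prod_congr rfl fun i' hi' => by rw [e2 i' hi']
    rw [← Finset.prod_erase_mul _ _ (Finset.mem_univ i), EE_erase h (Finset.mem_univ i),
      EE_erase h (Finset.mem_univ i), EE_congr h e2, e3, Function.update_self, dE_succ (h.const i), Nat.add_sub_cancel,
      ← Nat.cast_succ, ← nsmul_eq_mul, map_nsmul, nsmul_eq_mul]

theorem taylor [CharZero L] (h : Cm D π0) (J : ι → L) (ψ : ι → L⟦X⟧)
    (h0 : ∀ i, constantCoeff (ψ i) = 0) (h1 : ∀ i, d⁄dX L (ψ i) = tau (comb J D) π0 (J i))
    (k : ℕ) : ∀ N : ι → ℕ, (∀ i, k < N i) → ∀ z,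
      dE (comb J D) π0 k z = coeff k (FF h ψ N z) := by
  induction k using Nat.strong_induction_on with
  | _ k ih =>
  intro N hN z
  rcases k with _ | k
  · rw [dE_zero, FF, coeff_zero_eq_constantCoeff_apply, map_sum, Finset.sum_eq_single 0]
    · simp [EE_zero h]
    · intro j _ hj
      obtain ⟨i, hi⟩ := Function.ne_iff.1 hj
      rw [map_mul, map_prod, Finset.prod_eq_zero (Finset.mem_univ i)
        (by rw [map_pow, h0, zero_pow hi]), zero_mul]
    · intro hn
      exact absurd (Fintype.mem_piFinset.2 fun i => Finset.mem_range.2 (hN i)) hn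
  · have hπ : comb J D π0 = 0 := by simp [comb_apply, h.const]
    have hk : ((k : L) + 1) ≠ 0 := Nat.cast_add_one_ne_zero k
    apply mul_left_cancel₀ hk
    rw [← dE_succ hπ, mul_comm ((k : L) + 1), ← coeff_derivative, deriv_FF, comb_apply,
      Finset.mul_sum, ← coeff_tau, ← tauHom_apply, map_sum, map_sum, map_sum]
    refine Finset.sum_congr rfl fun i _ => ?_
    rw [mul_left_comm, map_mul, h1, tauHom_apply, tauHom_apply, coeff_mul, coeff_mul]
    refine Finset.sum_congr rfl fun x hx => ?_
    have hx := Finset.HasAntidiagonal.mem_antidiagonal.1 hx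
    rw [coeff_tau _ _ (π0 * D i z), ih x.2 (by omega) (Function.update N i (N i - 1)) fun i' => ?_]
    have := hN i'
    by_cases hi : i' = i
    · subst hi; simp; omega
    · simp [hi]; omega

end TransfH

end P179W
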