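import Vale.Agent.P179W.Bound
import Vale.Agent.P179W.PS2
import Vale.Agent.P179W.TransfA

/-!
# P179W : `RankStmt` and `RegularStmt`
-/

set_option linter.all false

open scoped NNReal Classical
open Filter Topology Module

noncomputable section

namespace P179W

namespace RankH

section Ech
variable {L : Type} [Field L] {w : Valuation L ℝ≥0} {R : Type} [Field R] {rd : L → R}

/-- integral vectors with independent residues in a subspace -/
theorem echelon (h : IsRed w rd) (F : Subfield L) {ι : Type} [Fintype ι] (m : ℕ) :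
    ∀ N : Submodule F (ι → F), m ≤ finrank F N → ∃ J : Fin m → ι → F, (∀ k, J k ∈ N) ∧
      (∀ k i, w (J k i) ≤ 1) ∧ LinearIndependent R (fun k i => rd (J k i)) := by
  induction m with
  | zero =>
    intro N _
    exact ⟨Fin.elim0, fun k => k.elim0, fun k => k.elim0, linearIndependent_empty_type⟩
  | succ m ih =>
    intro N hN
    obtain ⟨v, hv, hv0⟩ : ∃ v ∈ N, v ≠ 0 := by
      by_contra hc
      push Not at hc
      have : N = ⊥ := (Submodule.eq_bot_iff N).2 hc
      rw [this, finrank_bot] at hN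
      omega
    obtain ⟨i₁, hi₁⟩ := Function.ne_iff.1 hv0
    obtain ⟨i₀, -, hi₀⟩ := Finset.exists_max_image Finset.univ (fun i => w (v i))
      ⟨i₁, Finset.mem_univ _⟩
    have h0 : 0 < w (v i₀) := lt_of_lt_of_le
      (w.pos_iff.2 fun e => hi₁ (Subtype.ext e)) (hi₀ i₁ (Finset.mem_univ _))
    have h1 : v i₀ ≠ 0 := fun e => by simp [e] at h0
    have hN' : m ≤ finrank F (N ⊓ LinearMap.ker (LinearMap.proj (R := F) (φ := fun _ : ι => F) i₀) :
        Submodule F (ι → F)) := by
      have a := LinearMap.finrank_range_add_finrank_ker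
        ((LinearMap.proj (R := F) (φ := fun _ : ι => F) i₀).domRestrict N)
      have b := (Submodule.finrank_le (LinearMap.range
        ((LinearMap.proj (R := F) (φ := fun _ : ι => F) i₀).domRestrict N))).trans
        (finrank_self F).le
      have c : finrank F (LinearMap.ker
          ((LinearMap.proj (R := F) (φ := fun _ : ι => F) i₀).domRestrict N)) =
          finrank F (N ⊓ LinearMap.ker (LinearMap.proj (R := F) (φ := fun _ : ι => F) i₀) :
            Submodule F (ι → F)) := by
        rw [LinearMap.ker_domRestrict, ← Submodule.finrank_map_subtype_eq,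
          Submodule.map_comap_subtype]
      omega
    obtain ⟨J, hJ, hJw, hJl⟩ := ih _ hN'
    refine ⟨Fin.cons ((v i₀)⁻¹ • v) J, ?_, ?_, ?_⟩
    · intro k
      refine Fin.cases ?_ (fun k => ?_) k
      · exact N.smul_mem _ hv
      · exact (hJ k).1
    · intro k i
      refine Fin.cases ?_ (fun k => ?_) k
      · show w (((v i₀)⁻¹ * v i : F) : L) ≤ 1
        push_cast
        rw [map_mul, map_inv₀]
        exact inv_mul_le_one_of_le₀ (hi₀ i (Finset.mem_univ _)) zero_le
      · exact hJw k i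
    · have e : (fun k i => rd ((Fin.cons ((v i₀)⁻¹ • v) J : Fin (m + 1) → ι → F) k i)) =
          (Fin.cons (fun i => rd (((v i₀)⁻¹ • v) i : F)) (fun k i => rd (J k i)) :
            Fin (m + 1) → ι → R) := by
        funext k
        refine Fin.cases rfl (fun k => rfl) k
      rw [e]
      refine hJl.finCons fun hs => ?_
      have key : ∀ u ∈ Submodule.span R (Set.range fun k i => rd (J k i)), u i₀ = 0 := by
        intro u hu
        induction hu using Submodule.span_induction with
        | mem u hu =>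
          obtain ⟨k, rfl⟩ := hu
          have : J k i₀ = 0 := (hJ k).2
          simp only [this]
          exact h.zero
        | zero => rfl
        | add a b _ _ ha hb => simp [ha, hb]
        | smul c a _ ha => simp [ha]
      have := key _ hs
      simp only [Pi.smul_apply, smul_eq_mul, inv_mul_cancel₀ h1] at this
      exact one_ne_zero (h.one.symm.trans this)

/-- the elements with bounded iterated derivatives -/
def bdd (w : Valuation L ℝ≥0) (δ : Derivation ℤ L L) : Subring L where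
  carrier := {z | ∃ C : ℝ≥0, ∀ k, w ((δ : L → L)^[k] z) ≤ C}
  zero_mem' := ⟨0, fun k => by simp [der_iter_zero]⟩
  one_mem' := ⟨1, fun k => by
    cases k with
    | zero => simp
    | succ k => simp [Function.iterate_succ_apply, der_iter_zero]⟩
  add_mem' := by
    rintro a b ⟨A, ha⟩ ⟨B, hb⟩
    refine ⟨max A B, fun k => ?_⟩
    rw [der_iter_add]
    exact w.map_add_le ((ha k).trans (le_max_left _ _)) ((hb k).trans (le_max_right _ _))
  neg_mem' := by
    rintro a ⟨A, ha⟩
    refine ⟨A, fun k => ?_⟩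
    have := der_iter_const_mul δ (c := -1) (by simp) k a
    rw [neg_one_mul, neg_one_mul] at this
    rw [this, Valuation.map_neg]
    exact ha k
  mul_mem' := by
    rintro a b ⟨A, ha⟩ ⟨B, hb⟩
    refine ⟨A * B, fun k => ?_⟩
    rw [der_iter_mul]
    refine Valuation.map_sum_le _ fun ij _ => ?_
    rw [map_mul, map_mul]
    simpa using mul_le_mul' (w_nat_le w (k.choose ij.1)) (mul_le_mul' (ha ij.1) (hb ij.2))

end Ech

section Reg

/-- the degree argument in the residue field -/
theorem reg_core {p : ℕ} (hp : 2 ≤ p) {R : Type} [Field R] (P : ValuationSubring R)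
    (hP : ∀ a c : R, a ≠ 0 → 1 < P.valuation c → ∃ N : ℕ, 1 < P.valuation (a * c ^ N))
    {g₁ g₂ Z : PowerSeries R} (h₁ : ∀ k, PowerSeries.coeff k g₁ ∈ P)
    (h₂ : ∀ k, PowerSeries.coeff k g₂ ∈ P) (h0 : g₂ ≠ 0) (h : g₂ * Z = g₁) {e0 : ℕ}
    (z1 : ∀ k, (∀ e, e0 ≤ e → k ≠ p ^ e) → PowerSeries.coeff k Z = 0)
    (z2 : ∀ e, e0 ≤ e → PowerSeries.coeff (p ^ (e + 1)) Z = PowerSeries.coeff (p ^ e) Z ^ p)
    {e : ℕ} (he : e0 ≤ e) : PowerSeries.coeff (p ^ e) Z ∈ P := by
  by_contra hc
  rw [← P.valuation_le_one_iff, not_le] at hc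
  have z3 : ∀ e, e0 ≤ e → ∀ j, PowerSeries.coeff (p ^ (e + j)) Z =
      PowerSeries.coeff (p ^ e) Z ^ p ^ j := by
    intro e he j
    induction j with
    | zero => simp
    | succ j ih => rw [← add_assoc, z2 _ (by omega), ih, ← pow_mul, ← pow_succ]
  set c := PowerSeries.coeff (p ^ e) Z with hcdef
  have ex : ∃ l, PowerSeries.coeff l g₂ ≠ 0 := by
    by_contra hh
    push Not at hh
    exact h0 (PowerSeries.ext fun k => by simpa using hh k)
  set l := Nat.find ex with hl
  obtain ⟨N, hN⟩ := hP _ c (Nat.find_spec ex) hc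
  have hM : 1 ≤ P.valuation c ^ p ^ N := one_le_pow₀ hc.le
  have small : ∀ k, k < p ^ (e + N + 1) →
      P.valuation (PowerSeries.coeff k Z) ≤ P.valuation c ^ p ^ N := by
    intro k hk
    by_cases hk' : ∀ e', e0 ≤ e' → k ≠ p ^ e'
    · rw [z1 k hk', map_zero]; exact zero_le
    push Not at hk'
    obtain ⟨e', he', rfl⟩ := hk'
    have h3 : e' ≤ e + N := by
      have := (Nat.pow_lt_pow_iff_right (by omega)).1 hk
      omega
    obtain ⟨j, hj⟩ := Nat.exists_eq_add_of_le h3
    have h4 := z3 e' he' j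
    rw [← hj, z3 e he N] at h4
    by_cases h5 : P.valuation (PowerSeries.coeff (p ^ e') Z) ≤ 1
    · exact h5.trans hM
    · rw [← map_pow, h4, map_pow]
      exact le_self_pow₀ (not_le.1 h5).le (pow_pos (by omega) _).ne'
  have h6 := congrArg (PowerSeries.coeff (l + p ^ (e + N + 1))) h
  rw [PowerSeries.coeff_mul, ← Finset.add_sum_erase _ _
    (Finset.HasAntidiagonal.mem_antidiagonal.2 (rfl : (l, p ^ (e + N + 1)).1 +
      (l, p ^ (e + N + 1)).2 = _))] at h6
  have h7 : P.valuation (PowerSeries.coeff l g₂ * PowerSeries.coeff (p ^ (e + N + 1)) Z) ≤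
      P.valuation c ^ p ^ N := by
    rw [eq_sub_of_add_eq h6]
    refine Valuation.map_sub_le _ (((P.valuation_le_one_iff _).2 (h₁ _)).trans hM)
      (Valuation.map_sum_le _ ?_)
    rintro ⟨i, k⟩ hik
    obtain ⟨hne, hik⟩ := Finset.mem_erase.1 hik
    have h8 := Finset.HasAntidiagonal.mem_antidiagonal.1 hik
    simp only at h8 ⊢
    by_cases hi : i < l
    · have := Nat.find_min ex hi
      rw [not_not.1 this, zero_mul, map_zero]
      exact zero_le
    · have hk : k < p ^ (e + N + 1) := by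
        rcases (show k ≤ p ^ (e + N + 1) by omega).lt_or_eq with h9 | h9
        · exact h9
        · exact absurd (Prod.ext (by simp only; omega) h9) hne
      rw [map_mul]
      simpa using mul_le_mul' ((P.valuation_le_one_iff _).2 (h₂ i)) (small k hk)
  rw [add_assoc, z3 e he, map_mul, map_pow] at h7
  rw [map_mul, map_pow] at hN
  have h9 : N + p ^ N ≤ p ^ (N + 1) := by
    have a := Nat.lt_pow_self (show 1 < p by omega) (n := N)
    have b : 2 * p ^ N ≤ p ^ (N + 1) := by rw [pow_succ, mul_comm]; exact Nat.mul_le_mul_left _ hp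
    omega
  have h10 : P.valuation c ^ p ^ N < P.valuation c ^ p ^ N :=
    calc P.valuation c ^ p ^ N = 1 * P.valuation c ^ p ^ N := (one_mul _).symm
      _ < P.valuation (PowerSeries.coeff l g₂) * P.valuation c ^ N * P.valuation c ^ p ^ N :=
          mul_lt_mul_of_pos_right hN (lt_of_lt_of_le zero_lt_one hM)
      _ = P.valuation (PowerSeries.coeff l g₂) * P.valuation c ^ (N + p ^ N) := by
          rw [pow_add, mul_assoc]
      _ ≤ P.valuation (PowerSeries.coeff l g₂) * P.valuation c ^ p ^ (N + 1) :=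
          mul_le_mul_right (pow_le_pow_right₀ hc.le h9) _
      _ ≤ _ := h7
  exact lt_irrefl _ h10

variable {L : Type} [Field L] {G : Type} [Group G] [MulSemiringAction G L]
  {w : Valuation L ℝ≥0} {p : ℕ} {B : Subring L}

/-- bounded denominators -/
theorem denom (hB : Chart G p w B) {γ : L} (hγ : γ ≠ 0) :
    ∃ s ∈ B, w s = 1 ∧ ∀ β ∈ B, w β ≤ w γ → s * (β / γ) ∈ B := by
  have := hB.noeth
  let I : Ideal B :=
    { carrier := {β | w β ≤ w γ}
      zero_mem' := by simp
      add_mem' := fun ha hb => w.map_add_le ha hb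
      smul_mem' := fun c β hβ => by
        show w ((c : L) * β) ≤ w γ
        rw [map_mul]
        simpa using mul_le_mul' (hB.le_one c c.2) hβ }
  obtain ⟨T, hT⟩ : I.FG := IsNoetherian.noetherian I
  have h1 : ∀ t : B, t ∈ I → ∃ s ∈ B, w s = 1 ∧ s * (t / γ) ∈ B := fun t ht =>
    hB.loc _ (by rw [map_div₀]; exact div_le_one_of_le₀ ht zero_le)
  choose! s hs1 hs2 hs3 using h1
  have hTI : ∀ t ∈ T, t ∈ I := fun t ht => hT ▸ Ideal.subset_span ht
  refine ⟨∏ t ∈ T, s t, prod_mem fun t ht => hs1 t (hTI t ht), ?_, fun β hβ hw => ?_⟩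
  · rw [map_prod]; exact Finset.prod_eq_one fun t ht => hs2 t (hTI t ht)
  · have h2 : (⟨β, hβ⟩ : B) ∈ Ideal.span (T : Set B) := hT ▸ hw
    have h3 : ∀ b ∈ Ideal.span (T : Set B), (∏ t ∈ T, s t) * ((b : L) / γ) ∈ B := by
      intro b hb
      induction hb using Submodule.span_induction with
      | mem t ht =>
        rw [← Finset.prod_erase_mul _ _ ht, mul_assoc]
        exact mul_mem (prod_mem fun t' ht' => hs1 t' (hTI t' (Finset.mem_of_mem_erase ht')))
          (hs3 t (hTI t ht))
      | zero => simp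
      | add a b _ _ ha hb =>
        rw [Subring.coe_add, add_div, mul_add]; exact add_mem ha hb
      | smul c a _ ha =>
        have : (∏ t ∈ T, s t) * (((c • a : B) : L) / γ) = c * ((∏ t ∈ T, s t) * ((a : L) / γ)) := by
          rw [smul_eq_mul, Subring.coe_mul]; ring
        rw [this]; exact mul_mem c.2 ha
    exact h3 _ h2

/-- common denominators -/
theorem common (hB : Chart G p w B) {ι : Type} (T : Finset ι) (z : ι → L) :
    ∃ d ∈ B, d ≠ 0 ∧ ∀ i ∈ T, d * z i ∈ B := by
  choose c hc1 hc2 hc3 using hB.frac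
  refine ⟨∏ i ∈ T, c (z i), prod_mem fun i _ => hc1 _, Finset.prod_ne_zero_iff.2 fun i _ => hc2 _,
    fun i hi => ?_⟩
  rw [← Finset.prod_erase_mul _ _ hi, mul_assoc]
  exact mul_mem (prod_mem fun i _ => hc1 _) (hc3 _)

/-- series with coefficients in a subring -/
def SPS (B : Subring L) : Subring (PowerSeries L) where
  carrier := {f | ∀ k, PowerSeries.coeff k f ∈ B}
  one_mem' k := by rw [PowerSeries.coeff_one]; split_ifs; exacts [B.one_mem, B.zero_mem]
  zero_mem' k := by simp
  add_mem' {f g} hf hg k := by rw [map_add]; exact add_mem (hf k) (hg k)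
  neg_mem' {f} hf k := by rw [map_neg]; exact neg_mem (hf k)
  mul_mem' {f g} hf hg k := by
    rw [PowerSeries.coeff_mul]; exact sum_mem fun ij _ => mul_mem (hf _) (hg _)

theorem C_mem_SPS {c : L} (hc : c ∈ B) : PowerSeries.C c ∈ SPS B := fun k => by
  rw [PowerSeries.coeff_C]; split_ifs; exacts [hc, B.zero_mem]

/-- normalisation of a quotient of two series with coefficients in the chart -/
theorem normalise (hB : Chart G p w B) (hw : IsDisc w) {g₁ g₂ Z : PowerSeries L}
    (h₁ : g₁ ∈ SPS B) (h₂ : g₂ ∈ SPS B) (h0 : g₂ ≠ 0) (hZ : Z ∈ IntPS w) (h : g₂ * Z = g₁) :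
    ∃ f₁ ∈ SPS B, ∃ f₂ ∈ SPS B, gN w f₂ = 1 ∧ f₂ * Z = f₁ := by
  have i₂ : g₂ ∈ IntPS w := fun k => hB.le_one _ (h₂ k)
  have b₂ := IntPS_le_BddPS w i₂
  obtain ⟨γ, hγ0, hγ, hγ1⟩ := exists_scale hw b₂ h0
  obtain ⟨s, hs, hs1, hs2⟩ := denom hB hγ0
  have key : ∀ g ∈ SPS B, (∀ k, w (PowerSeries.coeff k g) ≤ w γ) →
      PowerSeries.C s * (PowerSeries.C γ⁻¹ * g) ∈ SPS B := by
    intro g hg hk k
    rw [PowerSeries.coeff_C_mul, PowerSeries.coeff_C_mul, ← div_eq_inv_mul]
    exact hs2 _ (hg k) (hk k)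
  have k₂ : ∀ k, w (PowerSeries.coeff k g₂) ≤ w γ := fun k => hγ ▸ le_gN b₂ k
  refine ⟨_, key g₁ h₁ fun k => ?_, _, key g₂ h₂ k₂, ?_, by rw [← h]; ring⟩
  · rw [← h]
    simpa using val_coeff_mul_le w k₂ hZ k
  · rw [gN_C_mul _ (mul_mem (C_mem_BddPS _) b₂), hγ1, hs1, mul_one]

end Reg

end RankH

open RankH

theorem rank_holds : RankStmt := by
  intro p _ n _ L _ G _ _ R _ c
  have := c.charZero
  have := c.fin
  have := Fintype.ofFinite G
  let F := FixedPoints.subfield G L
  obtain ⟨e, he⟩ := Field.exists_primitive_element F L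
  let Φ : (ZMod n → F) →ₗ[F] L :=
    { toFun := fun J => ∑ i, (J i : L) * c.D i e
      map_add' := fun a b => by simp [add_mul, Finset.sum_add_distrib]
      map_smul' := fun a b => by
        simp only [Pi.smul_apply, smul_eq_mul, RingHom.id_apply, Finset.smul_sum]
        refine Finset.sum_congr rfl fun i _ => ?_
        rw [Subfield.smul_def, smul_eq_mul]
        push_cast
        ring }
  obtain ⟨J, hJ, hJw, hJl⟩ := echelon c.red F (finrank F (LinearMap.ker Φ)) (LinearMap.ker Φ) le_rfl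
  refine ⟨_, fun k i => J k i, ?_, fun k i => ⟨(J k i).2, hJw k i⟩, hJl, fun k z => ?_⟩
  · have a := LinearMap.finrank_range_add_finrank_ker Φ
    have b := (Submodule.finrank_le (LinearMap.range Φ)).trans (FixedPoints.finrank_le_card G L)
    rw [finrank_pi, ZMod.card] at a
    rw [Nat.card_eq_fintype_card]
    omega
  set δ := comb (fun i => (J k i : L)) c.D with hδ
  have hδe : δ e = 0 := by rw [hδ, TransfH.comb_apply]; exact hJ k
  have hδF : ∀ f : L, (∀ g : G, g • f = f) → (∀ g : G, g • δ f = δ f) ∧ c.w (δ f) ≤ c.w f := by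
    intro f hf
    rw [hδ, TransfH.comb_apply]
    constructor
    · intro g
      rw [Finset.smul_sum]
      refine Finset.sum_congr rfl fun i _ => ?_
      rw [smul_mul', (J k i).2 g, ← c.D_equiv, hf]
    · refine Valuation.map_sum_le _ fun i _ => ?_
      rw [map_mul]
      simpa using mul_le_mul' (hJw k i) (c.D_w i f hf)
  have hF : ∀ f : L, (∀ g : G, g • f = f) → f ∈ bdd c.w δ := by
    intro f hf
    refine ⟨c.w f, fun j => ?_⟩
    induction j generalizing f with
    | zero => exact le_rfl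
    | succ j ih => exact (ih _ (hδF f hf).1).trans (hδF f hf).2
  have hE : e ∈ bdd c.w δ := ⟨c.w e, fun j => by
    cases j with
    | zero => exact le_rfl
    | succ j => simp [Function.iterate_succ_apply, hδe, der_iter_zero]⟩
  have hz : z ∈ Algebra.adjoin F {e} := by
    rw [← IntermediateField.adjoin_simple_toSubalgebra_of_isAlgebraic (IsAlgebraic.of_finite F e),
      he]
    trivial
  have hz' : z ∈ bdd c.w δ := by
    induction hz using Algebra.adjoin_induction with
    | mem x hx => rw [Set.mem_singleton_iff.1 hx]; exact hE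
    | algebraMap r => exact hF _ r.2
    | add a b _ _ ha hb => exact add_mem ha hb
    | mul a b _ _ ha hb => exact mul_mem ha hb
  obtain ⟨C, hC⟩ := hz'
  obtain ⟨ρ, hρ, h1, -⟩ := exists_gain c.wp c.spec3
  have h2 : Tendsto (fun k : ℕ => ρ ^ k * C) atTop (𝓝 0) := by
    simpa using (NNReal.tendsto_pow_atTop_nhds_zero_of_lt_one hρ).mul_const C
  refine tendsto_of_tendsto_of_tendsto_of_le_of_le tendsto_const_nhds h2 (fun _ => zero_le)
    fun j => ?_
  show c.w (dE δ c.π0 j z) ≤ _
  rw [dE, map_mul]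
  exact mul_le_mul' (h1 j) (hC j)

theorem RankH.regular : RegularStmt := by
  intro p hp L _ _ G _ _ _ w δ π0 ζ B R _ rd P hF hB hint hrd hBP hP hζ b hb e0 hT e he
  have hζ1 : ζ - 1 ≠ 0 := sub_ne_zero.2 (hζ.ne_one hp.out.one_lt)
  let Z : PowerSeries L := PowerSeries.mk fun k => if p ^ e0 ≤ k then cc δ π0 ζ b k else 0
  let t : PowerSeries L := PowerSeries.mk fun k => if p ^ e0 ≤ k then 0 else dE δ π0 k b
  have hZ : Z ∈ IntPS w := fun k => by
    rw [PowerSeries.coeff_mk]
    split_ifs with h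
    · exact hT.le_one k h
    · simp
  have hsplit : tau δ π0 b = t + PowerSeries.C (b * (ζ - 1)) * Z := by
    ext k
    rw [coeff_tau, map_add, PowerSeries.coeff_C_mul, PowerSeries.coeff_mk, PowerSeries.coeff_mk]
    split_ifs with h
    · rw [cc]; field_simp; ring
    · simp
  obtain ⟨b₂, hb₂, hb₂0, hb₁⟩ := hB.frac b
  obtain ⟨d, hd, hd0, hdz⟩ := common hB (Finset.range (p ^ e0)) fun k => dE δ π0 k b
  obtain ⟨d', hd', hd0', hdz'⟩ := hB.frac (b * (ζ - 1))
  have htau : ∀ z ∈ B, tau δ π0 z ∈ SPS B := fun z hz k => by rw [coeff_tau]; exact hint z hz k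
  have ht : PowerSeries.C d * t ∈ SPS B := fun k => by
    rw [PowerSeries.coeff_C_mul, PowerSeries.coeff_mk]
    split_ifs with h
    · simp
    · exact hdz k (Finset.mem_range.2 (not_le.1 h))
  obtain ⟨f₁, hf₁, f₂, hf₂, hn, hf⟩ := normalise hB hF.disc
    (g₁ := PowerSeries.C d' * (PowerSeries.C d * tau δ π0 (b₂ * b) -
      PowerSeries.C d * t * tau δ π0 b₂))
    (g₂ := PowerSeries.C d * PowerSeries.C (d' * (b * (ζ - 1))) * tau δ π0 b₂)
    (mul_mem (C_mem_SPS hd') (sub_mem (mul_mem (C_mem_SPS hd) (htau _ hb₁))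
      (mul_mem ht (htau _ hb₂))))
    (mul_mem (mul_mem (C_mem_SPS hd) (C_mem_SPS hdz')) (htau _ hb₂))
    (fun h => by
      have := congrArg PowerSeries.constantCoeff h
      simp only [map_mul, PowerSeries.constantCoeff_C, constantCoeff_tau, map_zero] at this
      exact mul_ne_zero (mul_ne_zero hd0 (mul_ne_zero hd0' (mul_ne_zero hb hζ1))) hb₂0 this)
    hZ (by rw [tau_mul, hsplit, map_mul (PowerSeries.C) d']; ring)
  have i₂ : f₂ ∈ IntPS w := fun k => hB.le_one _ (hf₂ k)
  have hpe : ∀ e, e0 ≤ e → p ^ e0 ≤ p ^ e := fun e he => Nat.pow_le_pow_right hp.out.pos he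
  have hco : ∀ e, e0 ≤ e → PowerSeries.coeff (p ^ e) (rdPS rd Z) = rd (cc δ π0 ζ b (p ^ e)) :=
    fun e he => by rw [coeff_rdPS, PowerSeries.coeff_mk, if_pos (hpe e he)]
  rw [← hco e he]
  refine reg_core hp.out.two_le P hP (g₁ := rdPS rd f₁) (g₂ := rdPS rd f₂)
    (fun k => by rw [coeff_rdPS]; exact hBP _ (hf₁ k))
    (fun k => by rw [coeff_rdPS]; exact hBP _ (hf₂ k))
    ((hrd.ps_ne_zero_iff hF.disc i₂).2 hn) (by rw [← hrd.ps_mul i₂ hZ, hf]) (e0 := e0)
    (fun k hk => ?_) (fun e he => ?_) he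
  · rw [coeff_rdPS, PowerSeries.coeff_mk]
    split_ifs with h
    · refine (hrd.eq_zero _ (hT.le_one k h)).2 (hT.lt_one k h ?_)
      rintro e rfl
      exact hk e ((Nat.pow_le_pow_iff_right hp.out.one_lt).1 h) rfl
    · exact hrd.zero
  · rw [hco _ (by omega), hco e he, ← hrd.pow (hT.le_one _ (hpe e he))]
    refine (hrd.eq_iff (hT.le_one _ (hpe _ (by omega))) ?_).2 (hT.succ e he)
    rw [map_pow]
    exact pow_le_one' (hT.le_one _ (hpe e he)) _

end P179W
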