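import Vale.Agent.P179W.Gap

/-!
# P179W : regularity of the tails
-/

set_option linter.all false

open scoped NNReal Classical
open PowerSeries

noncomputable section

namespace P179W

namespace RegH

variable {L : Type} [Field L] (B : Subring L)

/-- series with coefficients in `B` -/
def BP : Subring L⟦X⟧ := (PowerSeries.map B.subtype).range

theorem mem_BP {f : L⟦X⟧} : f ∈ BP B ↔ ∀ k, coeff k f ∈ B :=
  ⟨fun ⟨g, e⟩ k => by rw [← e, coeff_map]; exact (coeff k g).2,
    fun h => ⟨mk fun k => ⟨_, h k⟩, by ext k; simp⟩⟩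

theorem C_mem {c : L} (h : c ∈ B) : C c ∈ BP B := ⟨C ⟨c, h⟩, by simp⟩

/-- series with bounded denominators -/
def QP : Subring L⟦X⟧ where
  carrier := {f | ∃ c ∈ B, c ≠ 0 ∧ C c * f ∈ BP B}
  one_mem' := ⟨1, one_mem _, one_ne_zero, by simp⟩
  zero_mem' := ⟨1, one_mem _, one_ne_zero, by simp⟩
  neg_mem' := fun ⟨c, h, k, e⟩ => ⟨c, h, k, by rw [mul_neg]; exact neg_mem e⟩
  add_mem' := fun {f g} ⟨c, h, k, e⟩ ⟨c', h', k', e'⟩ => ⟨c * c', mul_mem h h', mul_ne_zero k k', by
    convert add_mem (mul_mem (C_mem B h') e) (mul_mem (C_mem B h) e') using 1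
    rw [map_mul]; ring⟩
  mul_mem' := fun {f g} ⟨c, h, k, e⟩ ⟨c', h', k', e'⟩ => ⟨c * c', mul_mem h h', mul_ne_zero k k', by
    convert mul_mem e e' using 1
    rw [map_mul]; ring⟩

theorem BP_le : BP B ≤ QP B := fun _ h => ⟨1, one_mem _, one_ne_zero, by simpa using h⟩

variable {B}

theorem C_QP (h : ∀ z : L, ∃ c ∈ B, c ≠ 0 ∧ c * z ∈ B) (z : L) : C z ∈ QP B :=
  let ⟨c, h1, h2, h3⟩ := h z
  ⟨c, h1, h2, by rw [← map_mul]; exact C_mem B h3⟩

theorem poly_QP (h : ∀ z : L, ∃ c ∈ B, c ≠ 0 ∧ c * z ∈ B) (ρ : Polynomial L) :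
    (ρ : L⟦X⟧) ∈ QP B := by
  induction ρ using Polynomial.induction_on' with
  | add a b ha hb => rw [Polynomial.coe_add]; exact add_mem ha hb
  | monomial n a =>
    rw [Polynomial.coe_monomial, monomial_eq_C_mul_X_pow]
    exact mul_mem (C_QP h a) (pow_mem (BP_le B ⟨X, by simp⟩) n)

/-- bounded denominators -/
theorem exists_denom {p : ℕ} {G : Type} [Group G] [MulSemiringAction G L] {w : Valuation L ℝ≥0}
    (h : Chart G p w B) {c : L} (hc : c ≠ 0) :
    ∃ s ∈ B, w s = 1 ∧ ∀ z, w z ≤ 1 → c * z ∈ B → s * z ∈ B := by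
  let I : Ideal B :=
    { carrier := {β | w β ≤ w c}
      zero_mem' := by simp
      add_mem' := fun a b => w.map_add_le a b
      smul_mem' := fun a β k => by
        show w (a * β) ≤ _
        rw [map_mul]
        exact (mul_le_of_le_one_left' (h.le_one a a.2)).trans k }
  obtain ⟨T, hT⟩ := (isNoetherianRing_iff_ideal_fg B).1 h.noeth I
  have c0 := w.pos_iff.2 hc
  choose! s s1 s2 s3 using fun (β : B) (k : β ∈ I) =>
    h.loc (β / c) (by rw [map_div₀]; exact (div_le_one₀ c0).2 k)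
  have tI : ∀ β ∈ T, β ∈ I := fun β k => hT ▸ Ideal.subset_span k
  have key : ∀ β ∈ I, (∏ t ∈ T, s t) * (β / c) ∈ B := fun β k => by
    rw [← hT] at k
    induction k using Submodule.span_induction with
    | mem β k =>
      rw [← Finset.mul_prod_erase T s k, mul_right_comm]
      exact mul_mem (s3 β (tI β k)) (prod_mem fun t ht => s1 t (tI t (Finset.mem_of_mem_erase ht)))
    | zero => simp
    | add a b _ _ ha hb => rw [Subring.coe_add, add_div, mul_add]; exact add_mem ha hb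
    | smul a b _ hb =>
      rw [smul_eq_mul, Subring.coe_mul, mul_div_assoc, mul_left_comm]
      exact mul_mem a.2 hb
  refine ⟨∏ t ∈ T, s t, prod_mem fun t ht => s1 t (tI t ht), ?_, fun z hz k => ?_⟩
  · rw [map_prod]
    exact Finset.prod_eq_one fun t ht => s2 t (tI t ht)
  · have := key ⟨_, k⟩ (show w (c * z) ≤ w c by rw [map_mul]; exact mul_le_of_le_one_right' hz)
    rwa [mul_div_cancel_left₀ _ hc] at this

end RegH

open RegH in
theorem regular_holds : RegularStmt := by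
  intro p hp L _ _ G _ _ _ w δ π0 ζ B R _ rd P F hB hE h hP hA hζ b b0 e0 T e he
  obtain ⟨b2, m2, n2, m1⟩ := hB.frac b
  have π0' : b * (ζ - 1) ≠ 0 := mul_ne_zero b0 (sub_ne_zero.2 (hζ.ne_one hp.out.one_lt))
  have tB : ∀ a ∈ B, tau δ π0 a ∈ QP B := fun a ha =>
    BP_le B ((mem_BP B).2 fun k => by rw [coeff_tau]; exact hE a ha k)
  set z : L⟦X⟧ := (tau δ π0 b - (trunc (p ^ e0) (tau δ π0 b) : L⟦X⟧)) * C (b * (ζ - 1))⁻¹ with hz
  have zc : ∀ k, coeff k z = if p ^ e0 ≤ k then cc δ π0 ζ b k else 0 := fun k => by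
    rw [hz, coeff_mul_C, map_sub, Polynomial.coeff_coe, coeff_trunc, coeff_tau]
    split_ifs with h1 h2 h2
    exacts [by omega, by simp, by rw [sub_zero, cc, div_eq_mul_inv], by omega]
  have zi : z ∈ IntPS w := fun k => by
    rw [zc]
    split_ifs with h1
    exacts [T.le_one k h1, by simp]
  have ui := GapH.quot_int F b2
  have u1 : rdPS rd (tau δ π0 b2 * C b2⁻¹) = 1 := by
    ext k
    rw [coeff_rdPS, coeff_mul_C, coeff_tau, coeff_one]
    split_ifs with k0
    · rw [k0, dE_zero, mul_inv_cancel₀ n2, h.one]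
    · have : w (dE δ π0 k b2 * b2⁻¹) < 1 := by
        rw [map_mul, map_inv₀]
        exact (mul_inv_lt_iff₀ (w.pos_iff.2 n2)).2
          (by simpa using GapH.gap F (Nat.pos_of_ne_zero k0) n2)
      exact (h.eq_zero _ this.le).2 this
  obtain ⟨c, -, c0, hc⟩ : tau δ π0 b2 * C b2⁻¹ * z ∈ QP B := by
    have : tau δ π0 b2 * C b2⁻¹ * z = (tau δ π0 (b2 * b) - tau δ π0 b2 *
        (trunc (p ^ e0) (tau δ π0 b) : L⟦X⟧)) * C b2⁻¹ * C (b * (ζ - 1))⁻¹ := by
      rw [hz, tau_mul]; ring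
    rw [this]
    exact mul_mem (mul_mem (sub_mem (tB _ m1) (mul_mem (tB _ m2) (poly_QP hB.frac _)))
      (C_QP hB.frac _)) (C_QP hB.frac _)
  obtain ⟨s, s1, s2, s3⟩ := exists_denom hB c0
  have key : ∀ k, p ^ e0 ≤ k → rd s * rd (cc δ π0 ζ b k) ∈ P := fun k hk => by
    have i := mul_mem ui zi k
    have := hP _ (s3 _ i (by simpa using (mem_BP B).1 hc k))
    rwa [h.mul _ _ s2.le i, ← coeff_rdPS rd (_ * z), h.ps_mul ui zi, u1, one_mul, coeff_rdPS, zc,
      if_pos hk] at this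
  have le : ∀ j, p ^ e0 ≤ p ^ (e + j) := fun j => Nat.pow_le_pow_right hp.out.pos (by omega)
  have it : ∀ j, rd (cc δ π0 ζ b (p ^ (e + j))) = rd (cc δ π0 ζ b (p ^ e)) ^ p ^ j := fun j => by
    induction j with
    | zero => simp
    | succ j ih =>
      have i := T.le_one _ (le j)
      rw [pow_succ p j, pow_mul, ← ih, ← h.pow i]
      exact (h.eq_iff (T.le_one _ (le (j + 1))) (by rw [map_pow]; exact pow_le_one' i p)).2
        (T.succ (e + j) (by omega))
  by_contra hn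
  rw [← P.valuation_le_one_iff, not_le] at hn
  obtain ⟨N, hN⟩ := hA (rd s) _ ((h.ne_zero_iff s2.le).2 s2) hn
  have := (P.valuation_le_one_iff _).2 (key _ (le N))
  rw [it] at this
  refine absurd (hN.trans_le ?_) (not_lt.2 this)
  rw [map_mul, map_mul, map_pow, map_pow]
  exact mul_le_mul_right (pow_le_pow_right₀ hn.le (Nat.lt_pow_self hp.out.one_lt).le) _

end P179W
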