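import Vale.Agent.P179W.StmtsG

/-!
# P179W : the fixed point argument (SmithStmt)
-/

set_option linter.all false

open scoped Classical Pointwise

noncomputable section

namespace P179W

namespace SmithH

open Subgroup MulAction P179A P179K P179S

theorem fiber_sum {R Q : Type*} [Group R] [Fintype Q] [MulAction R Q] (f : Q → ℤ)
    (hf : ∀ (r : R) (q : Q), f (r • q) = f q) (q0 : Q) :
    ∑ q ∈ Finset.univ.filter (fun q : Q => (Quotient.mk'' q : orbitRel.Quotient R Q) =
      Quotient.mk'' q0), f q = (Nat.card (orbit R q0) : ℤ) * f q0 := by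
  have h2 : ∀ q ∈ Finset.univ.filter (fun q : Q => (Quotient.mk'' q : orbitRel.Quotient R Q) =
      Quotient.mk'' q0), f q = f q0 := by
    intro q hq
    rw [Finset.mem_filter] at hq
    have h3 : (orbitRel R Q) q q0 := Quotient.exact hq.2
    rw [orbitRel_apply] at h3
    obtain ⟨r, hr⟩ := h3
    have hr' : r • q0 = q := hr
    rw [← hr', hf]
  rw [Finset.sum_congr rfl h2, Finset.sum_const, nsmul_eq_mul]
  have h3 : (Finset.univ.filter (fun q : Q => (Quotient.mk'' q : orbitRel.Quotient R Q) =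
      Quotient.mk'' q0)).card = Nat.card (orbit R q0) := by
    rw [Nat.card_eq_fintype_card, ← Set.toFinset_card]
    congr 1
    ext q
    rw [Finset.mem_filter, Set.mem_toFinset]
    constructor
    · intro hq
      exact orbitRel_apply.1 (Quotient.exact hq.2)
    · intro hq
      exact ⟨Finset.mem_univ _, Quotient.sound (orbitRel_apply.2 hq)⟩
  rw [h3]

theorem pdvd {p : ℕ} [hp : Fact p.Prime] {R Y : Type*} [Group R] [Fintype Y] [MulAction R Y]
    (hR : IsPGroup p R) (F : Y → ℤ) (hF : ∀ (σ : R) y, F (σ • y) = F y) (d : ℤ)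
    (hd : ∀ y, d ∣ F y) (h0 : ∀ y, (∀ σ : R, σ • y = y) → F y = 0) : d * p ∣ ∑ y, F y := by
  have h1 : ∑ q, F q = ∑ ω : orbitRel.Quotient R Y,
      ∑ q ∈ Finset.univ.filter (fun q : Y => (Quotient.mk'' q : orbitRel.Quotient R Y) = ω),
        F q := by
    rw [Finset.sum_fiberwise]
  rw [h1]
  refine Finset.dvd_sum fun ω _ => ?_
  induction ω using Quotient.inductionOn' with
  | h q0 =>
  rw [fiber_sum F hF q0]
  obtain ⟨n, hn⟩ := hR.card_orbit q0
  rcases Nat.eq_zero_or_pos n with rfl | hn0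
  · rw [h0 q0, mul_zero]
    · exact dvd_zero _
    · intro σ
      rw [pow_zero] at hn
      haveI := (Nat.card_eq_one_iff_unique.mp hn).1
      have := Subsingleton.elim (⟨σ • q0, mem_orbit q0 σ⟩ : orbit R q0) ⟨q0, mem_orbit_self q0⟩
      exact congrArg Subtype.val this
  · rw [hn, mul_comm d]
    refine mul_dvd_mul ?_ (hd q0)
    push_cast
    exact dvd_pow_self _ hn0.ne'

/-- the action on the orbit space of a commuting action -/
@[reducible] def qAct (P G X : Type*) [Group P] [Group G] [MulAction G X] [MulAction P X]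
    [SMulCommClass P G X] : MulAction P (orbitRel.Quotient G X) where
  smul a := Quotient.map' (fun x => a • x) (fun x y h => by
    obtain ⟨g, hg⟩ := orbitRel_apply.1 h
    refine orbitRel_apply.2 ⟨g, ?_⟩
    have hg' : g • y = x := hg
    show g • a • y = a • x
    rw [← hg']
    exact (smul_comm a g y).symm)
  one_smul y := by
    induction y using Quotient.inductionOn' with
    | h x => exact congrArg Quotient.mk'' (one_smul P x)
  mul_smul a b y := by
    induction y using Quotient.inductionOn' with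
    | h x => exact congrArg Quotient.mk'' (mul_smul a b x)

theorem two_level {p : ℕ} [hp : Fact p.Prime] {P G X : Type*} [Group P] [Group G] [Finite G]
    [Fintype X] [MulAction G X] [MulAction P X] [SMulCommClass P G X] (f : X → ℤ)
    (hG : ∀ (g : G) x, f (g • x) = f x) (hP : ∀ (a : P) x, f (a • x) = f x)
    (hd : ∀ x, (p : ℤ) ^ (Nat.card (stabilizer G x)).factorization p ∣ f x)
    (hk : ∀ a : P, ∃ k : ℕ, ∀ x : X, ∃ g : G, a ^ p ^ k • x = g • x)
    (hfix : ∀ x : X, (∀ a : P, ∃ g : G, a • x = g • x) → f x = 0) :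
    (p : ℤ) ^ ((Nat.card G).factorization p + 1) ∣ ∑ x, f x := by
  letI := qAct P G X
  have hsm : ∀ (a : P) (x : X), a • (Quotient.mk'' x : orbitRel.Quotient G X) =
      Quotient.mk'' (a • x) := fun _ _ => rfl
  have h1 : ∑ q, f q = ∑ ω : orbitRel.Quotient G X,
      ∑ q ∈ Finset.univ.filter (fun q : X => (Quotient.mk'' q : orbitRel.Quotient G X) = ω),
        f q := by
    rw [Finset.sum_fiberwise]
  rw [h1, pow_succ]
  have hpg : IsPGroup p (MulAction.toPermHom P (orbitRel.Quotient G X)).range := by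
    rintro ⟨σ, a, rfl⟩
    obtain ⟨k, hk'⟩ := hk a
    refine ⟨k, Subtype.ext ?_⟩
    show MulAction.toPermHom P (orbitRel.Quotient G X) a ^ p ^ k = 1
    rw [← map_pow]
    ext y
    induction y using Quotient.inductionOn' with
    | h x =>
    obtain ⟨g, hg⟩ := hk' x
    show a ^ p ^ k • (Quotient.mk'' x : orbitRel.Quotient G X) = Quotient.mk'' x
    rw [hsm, hg]
    exact Quotient.sound (orbitRel_apply.2 (mem_orbit x g))
  refine pdvd hpg _ ?_ _ ?_ ?_
  · rintro ⟨σ, a, rfl⟩ y
    show ∑ q ∈ Finset.univ.filter (fun q : X =>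
      (Quotient.mk'' q : orbitRel.Quotient G X) = a • y), f q = _
    symm
    refine Finset.sum_bij (fun q _ => a • q) ?_ ?_ ?_ ?_
    · intro q hq
      rw [Finset.mem_filter] at hq ⊢
      exact ⟨Finset.mem_univ _, by rw [← hq.2, hsm]⟩
    · intro q _ q' _ h
      exact MulAction.injective a h
    · intro q hq
      rw [Finset.mem_filter] at hq
      refine ⟨a⁻¹ • q, ?_, smul_inv_smul a q⟩
      rw [Finset.mem_filter]
      exact ⟨Finset.mem_univ _, by rw [← hsm, hq.2, inv_smul_smul]⟩
    · intro q _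
      exact (hP a q).symm
  · intro y
    induction y using Quotient.inductionOn' with
    | h x =>
    rw [fiber_sum f hG x]
    have h3 : Nat.card (orbit G x) * Nat.card (stabilizer G x) = Nat.card G := by
      have := Fintype.ofFinite G
      rw [Nat.card_eq_fintype_card, Nat.card_eq_fintype_card, Nat.card_eq_fintype_card]
      exact card_orbit_mul_card_stabilizer_eq_card_group G x
    have h4 : Nat.card (orbit G x) ≠ 0 := by
      intro h; rw [h, zero_mul] at h3; exact Nat.card_pos.ne h3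
    have h5 : (Nat.card G).factorization p =
        (Nat.card (orbit G x)).factorization p + (Nat.card (stabilizer G x)).factorization p := by
      rw [← h3, Nat.factorization_mul h4 Nat.card_pos.ne', Finsupp.add_apply]
    rw [h5, pow_add]
    refine mul_dvd_mul ?_ (hd _)
    exact_mod_cast Nat.ordProj_dvd _ p
  · intro y hy
    induction y using Quotient.inductionOn' with
    | h x =>
    rw [fiber_sum f hG x, hfix x, mul_zero]
    intro a
    have h2 := hy ⟨_, a, rfl⟩
    have h3 : (Quotient.mk'' (a • x) : orbitRel.Quotient G X) = Quotient.mk'' x := h2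
    obtain ⟨g, hg⟩ := orbitRel_apply.1 (Quotient.exact h3)
    exact ⟨g, hg.symm⟩

section

variable {p : ℕ} {G : Type*} [Group G]

theorem dress' [Fintype G] (H T : Subgroup G) (hTn : T ≤ normalizer (H : Set G)) :
    (Nat.card T : ℤ) ∣ ∑ t : G, if t ∈ T then WW p (H ⊔ zpowers t) else 0 := by
  have hfin := Fintype.ofFinite (Finset (Subgroup G))
  have h1 : (∑ t : G, if t ∈ T then WW p (H ⊔ zpowers t) else 0) =
      ∑ s : Finset (Subgroup G), if IsPChain p s ∧ H ≤ stab s then
        (-1 : ℤ) ^ s.card * (Nat.card (T ⊓ stab s : Subgroup G) : ℤ) else 0 := by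
    have h2 : ∀ t : G, (if t ∈ T then WW p (H ⊔ zpowers t) else 0) =
        ∑ s : Finset (Subgroup G), if IsPChain p s ∧ H ≤ stab s ∧ t ∈ T ∧ t ∈ stab s then
          (-1 : ℤ) ^ s.card else 0 := by
      intro t
      by_cases ht : t ∈ T
      · rw [if_pos ht]
        unfold WW
        rw [← Finset.sum_filter]
        refine Finset.sum_congr ?_ fun _ _ => rfl
        ext s
        rw [Finset.mem_filter, Finset.mem_filter, mem_chains, sup_le_iff, zpowers_le]
        simp only [Finset.mem_univ, true_and, ht]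
      · rw [if_neg ht]
        symm
        refine Finset.sum_eq_zero fun s _ => ?_
        rw [if_neg fun h => ht h.2.2.1]
    rw [Finset.sum_congr rfl fun t _ => h2 t, Finset.sum_comm]
    refine Finset.sum_congr rfl fun s _ => ?_
    by_cases hs : IsPChain p s ∧ H ≤ stab s
    · rw [if_pos hs]
      have h3 : ∀ t : G, (if IsPChain p s ∧ H ≤ stab s ∧ t ∈ T ∧ t ∈ stab s then
          (-1 : ℤ) ^ s.card else 0) = if t ∈ T ⊓ stab s then (-1 : ℤ) ^ s.card else 0 := by
        intro t
        refine if_congr ?_ rfl rfl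
        rw [mem_inf]
        exact ⟨fun h => h.2.2, fun h => ⟨hs.1, hs.2, h⟩⟩
      rw [Finset.sum_congr rfl fun t _ => h3 t, ← Finset.sum_filter, Finset.sum_const,
        nsmul_eq_mul, mul_comm]
      congr 2
      rw [Nat.card_eq_fintype_card, Fintype.card_subtype]
    · rw [if_neg hs]
      refine Finset.sum_eq_zero fun t _ => ?_
      rw [if_neg fun h => hs ⟨h.1, h.2.1⟩]
  rw [h1]
  have h4 := P179S.orbit_dvd (R := T) (Q := Finset (Subgroup G))
    (fun s => if IsPChain p s ∧ H ≤ stab s then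
        (-1 : ℤ) ^ s.card * (Nat.card (T ⊓ stab s : Subgroup G) : ℤ) else 0) ?_ 1 ?_
  · rwa [one_mul] at h4
  · rintro ⟨r, hr⟩ s
    change (if IsPChain p (r • s) ∧ H ≤ stab (r • s) then
        (-1 : ℤ) ^ (r • s).card * (Nat.card (T ⊓ stab (r • s) : Subgroup G) : ℤ)
        else 0) = _
    have hH : cj r H = H := mem_normalizer_iff_cj.1 (hTn hr)
    have hT : cj r T = T := mem_normalizer_iff_cj.1 (le_normalizer hr)
    have hiff : H ≤ stab (r • s) ↔ H ≤ stab s := by
      conv_lhs => rw [← hH]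
      exact cj_le_stab_smul
    have hcard : Nat.card (T ⊓ stab (r • s) : Subgroup G) =
        Nat.card (T ⊓ stab s : Subgroup G) := by
      have h5 : T ⊓ stab (r • s) = cj r (T ⊓ stab s) := by
        conv_lhs => rw [← hT, stab_smul_eq]
        ext x
        rw [mem_inf, mem_cj, mem_cj, mem_cj, mem_inf]
      rw [h5, card_cj]
    rw [isPChain_smul, card_smul, hcard]
    exact if_congr (and_congr Iff.rfl hiff) rfl rfl
  · intro s
    rw [one_mul]
    by_cases hs : IsPChain p s ∧ H ≤ stab s
    · rw [if_pos hs]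
      have h6 : stabilizer T s = (stab s).subgroupOf T := by
        ext τ
        rw [mem_stabilizer_iff, mem_subgroupOf, ← smul_eq_iff_mem_stab hs.1]
        rfl
      have h7 : Nat.card (stabilizer T s) = Nat.card (T ⊓ stab s : Subgroup G) := by
        rw [h6]
        have h8 : (stab s).subgroupOf T = (T ⊓ stab s).subgroupOf T := by
          ext x
          rw [mem_subgroupOf, mem_subgroupOf, mem_inf]
          exact ⟨fun h => ⟨x.2, h⟩, fun h => h.2⟩
        rw [h8]
        exact Nat.card_congr (subgroupOfEquivOfLe inf_le_left).toEquiv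
      rw [h7]
      exact Dvd.intro_left _ rfl
    · rw [if_neg hs]
      exact dvd_zero _

theorem norm_of_comm {A B : Subgroup G} (h : ∀ a ∈ A, ∀ b ∈ B, a * b = b * a) :
    A ≤ normalizer (B : Set G) := by
  intro a ha
  rw [mem_normalizer_iff]
  intro b
  constructor
  · intro hb
    rw [h a ha b hb, mul_inv_cancel_right]
    exact hb
  · intro hb
    have h1 := h a ha _ hb
    have h2 : a * b * a⁻¹ = b := by
      have h3 : a * (a * b * a⁻¹) = a * b := by rw [h1]; group
      exact mul_left_cancel h3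
    rwa [h2] at hb

theorem cent_dvd [Finite G] (H T : Subgroup G) (hT : IsPGroup p T)
    (hc : ∀ t ∈ T, ∀ x ∈ H, t * x = x * t) : (Nat.card T : ℤ) ∣ WW p H := by
  have := Fintype.ofFinite G
  have h := dress' (p := p) H T (norm_of_comm hc)
  rw [Finset.sum_eq_single (1 : G)] at h
  · rwa [if_pos T.one_mem, zpowers_one_eq_bot, sup_bot_eq] at h
  · intro t _ ht1
    by_cases ht : t ∈ T
    · rw [if_pos ht]
      have hle : zpowers t ≤ T := zpowers_le.2 ht
      refine van_WW _ ⟨zpowers t, le_sup_right, by simpa using ht1, hT.to_le hle, ?_⟩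
      refine sup_le (norm_of_comm fun a ha b hb => (hc b (hle hb) a ha).symm) le_normalizer
    · rw [if_neg ht]
  · intro h1
    exact absurd (Finset.mem_univ _) h1

end

section

variable {p : ℕ} {A : Type} [Group A] {N : Subgroup A} {G : Type} [Group G]
  {Φ : Set (N →* G)} {P : Subgroup A}

/-- conjugation by an element of `P` -/
def cA (h : SmithData p N Φ P) (a : P) : N →* N where
  toFun γ := ⟨a.1 * γ.1 * a.1⁻¹, h.norm a.1 a.2 γ.1 γ.2⟩
  map_one' := Subtype.ext (by simp)
  map_mul' x y := Subtype.ext (by simp [mul_assoc])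

theorem comp_mem (h : SmithData p N Φ P) (a : P) {φ : N →* G} (hφ : φ ∈ Φ) :
    φ.comp (cA h a) ∈ Φ := by
  obtain ⟨φ', h1, h2⟩ := h.conjA a.1 a.2 φ hφ
  have : φ.comp (cA h a) = φ' := MonoidHom.ext fun γ => (h2 γ (cA h a γ) rfl).symm
  rwa [this]

@[reducible] def actG (h : SmithData p N Φ P) : MulAction G Φ where
  smul g φ := ⟨(MulAut.conj g).toMonoidHom.comp φ.1, h.conjG φ.1 φ.2 g⟩
  one_smul φ := Subtype.ext (MonoidHom.ext fun γ => by
    show 1 * φ.1 γ * 1⁻¹ = φ.1 γ
    simp)
  mul_smul a b φ := Subtype.ext (MonoidHom.ext fun γ => by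
    show a * b * φ.1 γ * (a * b)⁻¹ = a * (b * φ.1 γ * b⁻¹) * a⁻¹
    group)

@[reducible] def actP (h : SmithData p N Φ P) : MulAction P Φ where
  smul a φ := ⟨φ.1.comp (cA h a⁻¹), comp_mem h a⁻¹ φ.2⟩
  one_smul φ := Subtype.ext (MonoidHom.ext fun γ => by
    show φ.1 (cA h 1⁻¹ γ) = φ.1 γ
    congr 1
    exact Subtype.ext (by simp [cA]))
  mul_smul a b φ := Subtype.ext (MonoidHom.ext fun γ => by
    show φ.1 (cA h (a * b)⁻¹ γ) = φ.1 (cA h b⁻¹ (cA h a⁻¹ γ))
    congr 1
    exact Subtype.ext (by simp [cA, mul_assoc]))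

end

end SmithH

open SmithH Subgroup MulAction P179A P179K P179S in
theorem smith_holds : SmithStmt := by
  intro p hp A _ N G _ _ Φ P h
  haveI : Finite Φ := h.fin
  haveI := Fintype.ofFinite Φ
  letI := actG h
  letI := actP h
  have eG : ∀ (g : G) (φ : Φ) (γ : N), (g • φ).1 γ = g * φ.1 γ * g⁻¹ := fun _ _ _ => rfl
  have eP : ∀ (a : P) (φ : Φ) (γ : N), (a • φ).1 γ = φ.1 (cA h a⁻¹ γ) := fun _ _ _ => rfl
  haveI : SMulCommClass P G Φ := ⟨fun a g φ => rfl⟩
  have hsum : ∑ s ∈ chains p G, (-1) ^ s.card * ({φ | φ ∈ Φ ∧ φ.range ≤ stab s}.ncard : ℤ) =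
      ∑ φ : Φ, WW p φ.1.range := by
    unfold WW
    simp only [Finset.sum_filter]
    rw [Finset.sum_comm]
    refine Finset.sum_congr rfl fun s _ => ?_
    rw [← Finset.sum_filter, Finset.sum_const, nsmul_eq_mul, mul_comm]
    congr 2
    have e : {φ | φ ∈ Φ ∧ φ.range ≤ stab s} =
        Subtype.val '' (↑(Finset.univ.filter fun φ : Φ => φ.1.range ≤ stab s) : Set Φ) := by
      ext φ
      simp [and_comm]
    rw [e, Set.ncard_image_of_injective _ Subtype.val_injective, Set.ncard_coe_finset]
  rw [hsum]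
  refine two_level (P := P) (fun φ : Φ => WW p φ.1.range) ?_ ?_ ?_ ?_ ?_
  · intro g φ
    have e : (g • φ).1.range = cj g φ.1.range := by
      show ((MulAut.conj g).toMonoidHom.comp φ.1).range = _
      rw [MonoidHom.range_comp]
      rfl
    show WW p (g • φ).1.range = _
    rw [e]
    exact inv_WW g _
  · intro a φ
    have e : (a • φ).1.range = φ.1.range := by
      ext x
      constructor
      · rintro ⟨γ, rfl⟩
        exact ⟨_, (eP a φ γ).symm⟩
      · rintro ⟨γ, rfl⟩
        refine ⟨cA h a γ, ?_⟩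
        rw [eP]
        congr 1
        exact Subtype.ext (by simp [cA, mul_assoc])
    show WW p (a • φ).1.range = _
    rw [e]
  · intro φ
    obtain ⟨S⟩ : Nonempty (Sylow p (stabilizer G φ)) := inferInstance
    have h1 := cent_dvd (p := p) φ.1.range ((S : Subgroup (stabilizer G φ)).map (Subgroup.subtype _))
      (S.isPGroup'.map _) (by
        rintro t ⟨u, -, rfl⟩ x ⟨γ, rfl⟩
        have h2 : (u.1 • φ).1 γ = φ.1 γ := by rw [mem_stabilizer_iff.1 u.2]
        rw [eG] at h2
        show u.1 * φ.1 γ = φ.1 γ * u.1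
        rw [← mul_inv_eq_iff_eq_mul]
        exact h2)
    rw [Subgroup.card_map_of_injective (Subgroup.subtype_injective _), S.card_eq_multiplicity] at h1
    exact_mod_cast h1
  · intro a
    obtain ⟨k, hk⟩ := h.pgrp a⁻¹.1 a⁻¹.2
    refine ⟨k, fun φ => ?_⟩
    obtain ⟨g, hg⟩ := hk φ.1 φ.2
    refine ⟨g, Subtype.ext (MonoidHom.ext fun γ => ?_)⟩
    rw [eP, eG]
    exact hg γ _ (by simp [cA])
  · intro φ hφ
    obtain ⟨Q, h1, h2, h3, h4⟩ := h.fixed φ.1 φ.2 (fun a ha => by
      obtain ⟨g, hg⟩ := hφ (⟨a, ha⟩ : P)⁻¹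
      refine ⟨g, fun γ γ' hγ => ?_⟩
      have h5 : ((⟨a, ha⟩ : P)⁻¹ • φ).1 γ = (g • φ).1 γ := by rw [hg]
      rw [eP, eG] at h5
      rw [← h5]
      congr 1
      exact Subtype.ext (by simp [cA, hγ]))
    exact van_WW _ ⟨Q, h1, h2, h3, h4⟩

end P179W
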