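import Vale.Agent.P179W.SpecA

/-!
# P179W : the spectral lemma
-/

set_option linter.all false

open scoped NNReal Classical
open Filter Topology Finset

noncomputable section

namespace P179W

namespace SpecH

variable {U : Type} [Field U] {w : Valuation U ℝ≥0} {F : Subfield U}

theorem iter_le {δ : Derivation ℤ U U} (hF : ∀ f ∈ F, δ f ∈ F ∧ w (δ f) ≤ w f) {f : U}
    (hf : f ∈ F) (k : ℕ) : (δ : U → U)^[k] f ∈ F ∧ w ((δ : U → U)^[k] f) ≤ w f := by
  induction k with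
  | zero => exact ⟨hf, le_rfl⟩
  | succ k ih =>
    rw [Function.iterate_succ_apply']
    exact ⟨(hF _ ih.1).1, (hF _ ih.1).2.trans ih.2⟩

theorem iter_sum (δ : Derivation ℤ U U) (k : ℕ) {ι : Type} (s : Finset ι) (f : ι → U) :
    (δ : U → U)^[k] (∑ i ∈ s, f i) = ∑ i ∈ s, (δ : U → U)^[k] (f i) := by
  induction s using Finset.induction_on with
  | empty => simpa using der_iter_zero δ k
  | insert a s ha ih => rw [sum_insert ha, sum_insert ha, der_iter_add, ih]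

/-- the optimal scaling factor for a finite family of derivations -/
theorem optimal [CharZero U] [IsAlgClosed U] (hA : ∀ z, Alg F z)
    (L : IntermediateField F U) [FiniteDimensional F L] {κ : Type} [Fintype κ] [Nonempty κ]
    {δ : κ → Derivation ℤ U U}
    (hL : ∀ j, ∀ z ∈ L, δ j z ∈ L) (hF : ∀ j, ∀ f ∈ F, δ j f ∈ F ∧ w (δ j f) ≤ w f)
    {k0 : Subfield U} (hk : k0 ≤ F) (hδ : ∀ j, ∀ c ∈ k0, δ j c = 0)
    (hr : ∀ a : U, a ≠ 0 → ∀ m, 0 < m → ∃ ρ ∈ k0, w ρ ^ m * w a = 1) :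
    ∃ π ∈ k0, w π ≤ 1 ∧ (∃ C : ℝ≥0, ∀ j k, ∀ z ∈ L, ∀ c : ℝ≥0,
        (∀ g ∈ Fix (F : Set U), w (g z) ≤ c) → w π ^ k * w ((δ j : U → U)^[k] z) ≤ C * c) ∧
      (w π < 1 → ∃ j, ∃ z ∈ L, ∃ c : ℝ≥0, 0 < c ∧ ∀ k, ∃ g ∈ Fix (F : Set U),
        c ≤ w (g (π ^ k * (δ j : U → U)^[k] z))) := by
  let b := Module.finBasis F L
  have : Nonempty (Fin (Module.finrank F L)) := ⟨⟨0, Module.finrank_pos⟩⟩
  choose π hπ hπ1 hC hc using fun t : κ × Fin (Module.finrank F L) =>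
    cyclic hA L (hL t.1) (hF t.1) hk (hδ t.1) hr (b t.2).2
  choose C hC using hC
  obtain ⟨t0, -, ht0⟩ := exists_min_image univ (fun t => w (π t)) univ_nonempty
  obtain ⟨C', hC'⟩ := coord_le w hA L (v := fun i => (b i : U))
    (b.linearIndependent.map' L.val.toLinearMap (LinearMap.ker_eq_bot.2 Subtype.val_injective))
    fun i => (b i).2
  refine ⟨π t0, hπ t0, hπ1 t0, ⟨(∑ t, C t) * C', fun j k z hz c h => ?_⟩,
    fun h => ⟨t0.1, hc t0 h⟩⟩
  have h1 : z = ∑ i, (b.repr ⟨z, hz⟩ i : U) * b i := by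
    have := congrArg L.val (b.sum_repr ⟨z, hz⟩)
    rw [map_sum] at this
    exact this.symm
  have h2 := hC' _ c (fun i => (b.repr ⟨z, hz⟩ i).2) (h1 ▸ h)
  rw [h1, iter_sum, ← map_pow, ← map_mul, mul_sum]
  refine Valuation.map_sum_le _ fun i _ => ?_
  rw [der_iter_mul, mul_sum]
  refine Valuation.map_sum_le _ fun ij hij => ?_
  have h3 : w (π t0) ^ k * w ((δ j : U → U)^[ij.2] (b i)) ≤ ∑ t, C t := by
    refine le_trans (mul_le_mul' ?_ le_rfl) ((hC (j, i) ij.2).trans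
      (single_le_sum (fun _ _ => zero_le) (mem_univ _)))
    have := Finset.HasAntidiagonal.mem_antidiagonal.1 hij
    exact (pow_le_pow_right_of_le_one' (hπ1 t0) (by omega)).trans
      (pow_le_pow_left' (ht0 _ (mem_univ _)) _)
  have h4 := (iter_le (hF j) (b.repr ⟨z, hz⟩ i).2 ij.1).2.trans (h2 i)
  simp only [map_mul, map_pow]
  calc _ = w (k.choose ij.1 : U) * ((w (π t0) ^ k * w ((δ j : U → U)^[ij.2] (b i))) *
        w ((δ j : U → U)^[ij.1] (b.repr ⟨z, hz⟩ i : U))) := by ring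
    _ ≤ 1 * ((∑ t, C t) * (C' * c)) := mul_le_mul' (w_nat_le w _) (mul_le_mul' h3 h4)
    _ = _ := by ring

theorem w_fact [CharZero U] {p : ℕ} [hp : Fact p.Prime] (h : w (p : U) < 1) {π : U}
    (hπ : π ^ (p - 1) = p) (k : ℕ) :
    w (π ^ k / (k.factorial : U)) = w π ^ (p.digits k).sum := by
  have h0 : w π ≠ 0 := fun h0 => by
    rw [(map_eq_zero w).1 h0, zero_pow (by have := hp.out.two_le; omega)] at hπ
    exact hp.out.ne_zero (Nat.cast_eq_zero.1 hπ.symm)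
  rw [map_div₀, w_nat_val h k.factorial_ne_zero, ← hπ, map_pow, map_pow, ← pow_mul,
    sub_one_mul_padicValNat_factorial, div_eq_iff (pow_ne_zero _ h0), ← pow_add,
    Nat.add_sub_cancel' (Nat.digit_sum_le p k)]

end SpecH

open SpecH in
theorem spec_of (hW : WildStmt) (hD : DwStmt) : SpecStmt := by
  intro p hp n _ U _ S K' L σ h
  have := S.algClosed
  have : CharZero U := (RingHom.charZero_iff S.i.injective).1 inferInstance
  have hK : K' ≤ adj K' {S.x, S.y} := le_adj _ _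
  have hk : S.k0 ≤ adj K' {S.x, S.y} := ((le_adj _ _).trans h.Kt_le).trans hK
  have hA : ∀ z, Alg (adj K' {S.x, S.y}) z := fun z => by
    refine (S.U_alg z).trans fun c hc => alg_adj (T := Set.range S.i ∪ {S.x, S.y}) ?_ c
      (adj_le.2 ⟨Set.subset_union_left.trans (right_subset_adj _ _),
        Set.subset_union_right.trans (right_subset_adj _ _)⟩ hc)
    rintro t (ht | ht)
    · exact (S.Om_alg t ht).mono (h.Kt_le.trans hK)
    · exact alg_of_mem (right_subset_adj _ _ ht)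
  have hroot : ∀ c ∈ S.k0, ∀ m, 0 < m → ∃ ρ ∈ S.k0, ρ ^ m = c := fun c hc m hm => by
    obtain ⟨ρ, hρ⟩ := IsAlgClosed.exists_pow_nat_eq c hm
    refine ⟨ρ, S.k0_alg ρ (alg_iff.2 (IsAlgebraic.of_pow hm ?_)), hρ⟩
    rw [hρ]
    exact alg_iff.1 (alg_of_mem hc)
  have hr : ∀ a : U, a ≠ 0 → ∀ m, 0 < m → ∃ ρ ∈ S.k0, S.w ρ ^ m * S.w a = 1 := fun a ha m hm => by
    obtain ⟨c, hc, h1⟩ := S.val_k0 a⁻¹
    obtain ⟨ρ, hρ, h2⟩ := hroot c hc m hm
    exact ⟨ρ, hρ, by rw [← map_pow, h2, ← h1, ← map_mul, inv_mul_cancel₀ ha, map_one]⟩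
  obtain ⟨T, hT⟩ := h.normal.fin
  have := AmbGal.fin_adjoin T fun z _ => hA z
  have hL : ∀ z, z ∈ IntermediateField.adjoin (adj K' {S.x, S.y}) (T : Set U) ↔ z ∈ L :=
    fun z => by rw [hT, mem_adj_iff]
  obtain ⟨π, hπ, hπ1, ⟨C, hC⟩, hc⟩ := optimal (w := S.w) hA _ (δ := S.D)
    (fun j z hz => (hL _).2 ((hD p n U S K' L σ h j).2.2.1 z ((hL _).1 hz)))
    (fun j => (hD p n U S K' L σ h j).2.2.2.2.2) hk S.D_k0 hr
  simp only [hL] at hC hc
  have hlt : S.w π < 1 := lt_of_le_of_ne hπ1 fun h1 => by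
    obtain ⟨j, hj⟩ := hW p n U S K' L σ h
    exact hj ⟨C, fun k z hz c h2 => by simpa [h1] using hC j k z hz c h2⟩
  obtain ⟨j, z, hz, c, hc0, hc⟩ := hc hlt
  have hp1 : 0 < p - 1 := by have := hp.out.two_le; omega
  obtain ⟨ρ, hρ, hρp⟩ := hroot p (natCast_mem _ p) _ hp1
  have hwp : 0 < S.w (p : U) :=
    zero_lt_iff.2 ((map_ne_zero S.w).2 (Nat.cast_ne_zero.2 hp.out.ne_zero))
  have hρw : S.w ρ ^ (p - 1) = S.w (p : U) := by rw [← map_pow, hρp]
  have hρ1 : S.w ρ ≤ 1 := not_lt.1 fun h1 => (hρw ▸ one_le_pow₀ h1.le).not_gt S.wp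
  have hρ0 : 0 < S.w ρ := zero_lt_iff.2 fun h1 => by
    rw [h1, zero_pow hp1.ne'] at hρw
    exact hwp.ne hρw
  have hdE : ∀ j k z, dE (S.D j) (π * ρ) k z =
      ρ ^ k / (k.factorial : U) * (π ^ k * (S.D j : U → U)^[k] z) := fun j k z => by
    rw [dE]; ring
  refine ⟨π * ρ, mul_mem hπ hρ, ⟨C, fun j k z hz c h1 => ?_⟩,
    ⟨j, z, hz, S.w ρ * c, by positivity, fun e => ?_⟩, ?_⟩
  · rw [hdE, map_mul, w_fact S.wp hρp, map_mul, map_pow]
    exact (mul_le_of_le_one_left' (pow_le_one' hρ1 _)).trans (hC j k z hz c h1)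
  · obtain ⟨g, hg, h1⟩ := hc (p ^ e)
    refine ⟨g, hg, ?_⟩
    have h2 : (p.digits (p ^ e)).sum = 1 := by
      rw [← mul_one (p ^ e), Nat.digits_base_pow_mul hp.out.one_lt one_pos,
        Nat.digits_of_lt _ _ one_ne_zero hp.out.one_lt]
      simp
    rw [hdE, map_mul, hg _ (hk (div_mem (pow_mem hρ _) (natCast_mem _ _))), map_mul,
      w_fact S.wp hρp, h2, pow_one]
    exact mul_le_mul' le_rfl h1
  · rw [map_mul, mul_pow, hρw]
    exact mul_lt_of_lt_one_left hwp (pow_lt_one₀ zero_le hlt hp1.ne')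

end P179W
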