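import Vale.Agent.P179W.StmtsG

/-!
# P179W : step 0, from the `p ^ M`-pointed counts to the one-pointed counts
-/

set_option linter.all false

open scoped Classical

noncomputable section

namespace P179W

namespace St0

open MulAction Subgroup P179A P179S P179C P179K P179H524

section Pow

variable {K : Type*} [Group K] [Fintype K]

/-- the `n`-th convolution power of `z` -/
def cpow (z : K → ℤ) (n : ℕ) (x : K) : ℤ :=
  ∑ w : Fin n → K, if wprod w = x then ∏ i, z (w i) else 0

theorem coeff_pow (F : Type*) [CommRing F] (z : K → ℤ) (n : ℕ) (x : K) :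
    (toF F z ^ n).coeff x = (cpow z n x : F) := by
  rw [pow_eq_sum_words, MonoidAlgebra.coeff_sum, Finsupp.finsetSum_apply, cpow]
  push_cast
  refine Finset.sum_congr rfl fun w _ => ?_
  simp only [MonoidAlgebra.coeff_single, Finsupp.single_apply, coeff_toF]

theorem isCF_cpow (z : K → ℤ) (hz : IsCF z) (n : ℕ) : IsCF (cpow z n) := by
  intro t g
  have := isCF_pow (toF ℤ z) (isCF_toF _ z hz) n t g
  simp only [coeff_pow, Int.cast_id] at this
  exact this

theorem nTr_cpow (p : ℕ) [Fact p.Prime] (z : K → ℤ) (hz : IsCF z) (m : ℕ) :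
    (p : ℤ) * (Nat.card K : ℤ) ∣ nTr (cpow z (p ^ m)) - nTr z := by
  have hcf := isCF_cpow z hz (p ^ m)
  have htoF : toF (ZMod p) (cpow z (p ^ m)) = toF (ZMod p) z ^ p ^ m := by
    ext g
    rw [coeff_toF, coeff_pow]
  have h1 : ((∑ c : ConjClasses K, qTr z c.out : ℤ) : ZMod p) =
      ((∑ c : ConjClasses K, qTr (cpow z (p ^ m)) c.out : ℤ) : ZMod p) := by
    rw [← trace_Vcl z hz, ← trace_Vcl _ hcf, ← trace_pow_eq p _ m]
    congr 1
    rw [Module.End.pow_restrict]
    have : T (toF (ZMod p) z) ^ p ^ m = T (toF (ZMod p) (cpow z (p ^ m))) := by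
      rw [htoF, T_pow]
    simp only [this]
  rw [nTr_eq_card_mul z hz, nTr_eq_card_mul _ hcf, ← mul_sub, mul_comm]
  apply mul_dvd_mul_left
  rw [← ZMod.intCast_zmod_eq_zero_iff_dvd, Int.cast_sub, h1, sub_self]

end Pow

variable {G : Type} [Group G]

/-- the indicator function of `C` -/
def ind (C : Set G) (x : G) : ℤ := if x ∈ C then 1 else 0

theorem coe_prod (L : Subgroup G) {n : ℕ} (w : Fin n → L) :
    ((wprod w : L) : G) = (List.ofFn fun i => (w i : G)).prod := by
  unfold wprod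
  change L.subtype (List.ofFn w).prod = _
  rw [map_list_prod, List.map_ofFn]
  rfl

theorem tupCount_eq (L : Subgroup G) [Fintype L] (C : Set G) (n : ℕ) :
    (tupCount L C n : ℤ) = nTr (cpow (res L (ind C)) n) := by
  have h1 : tupCount L C n = Nat.card {t : (L × L) × (Fin n → L) //
      wprod t.2 = t.1.1 * t.1.2 * t.1.1⁻¹ * t.1.2⁻¹ ∧ ∀ i, (t.2 i : G) ∈ C} := by
    unfold tupCount
    refine Nat.card_congr
      { toFun := fun t => ⟨((⟨t.1.1, t.2.1⟩, ⟨t.1.2.1, t.2.2.1⟩),
          fun i => ⟨t.1.2.2 i, (t.2.2.2.1 i).1⟩), ?_, fun i => (t.2.2.2.1 i).2⟩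
        invFun := fun t => ⟨(t.1.1.1, t.1.1.2, fun i => t.1.2 i), t.1.1.1.2, t.1.1.2.2,
          fun i => ⟨(t.1.2 i).2, t.2.2 i⟩, ?_⟩
        left_inv := fun t => rfl
        right_inv := fun t => rfl }
    · apply Subtype.ext
      rw [coe_prod]
      exact t.2.2.2.2.symm
    · have := congrArg Subtype.val t.2.1
      rw [coe_prod] at this
      exact this.symm
  rw [h1, Nat.card_eq_fintype_card, Fintype.card_subtype, Finset.card_eq_sum_ones,
    Finset.sum_filter, Fintype.sum_prod_type]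
  unfold nTr
  rw [finsum_eq_sum_of_fintype]
  push_cast
  refine Finset.sum_congr rfl fun t _ => ?_
  unfold cpow
  refine Finset.sum_congr rfl fun w _ => ?_
  by_cases h2 : wprod w = t.1 * t.2 * t.1⁻¹ * t.2⁻¹
  · rw [if_pos h2]
    by_cases h3 : ∀ i, (w i : G) ∈ C
    · rw [if_pos ⟨h2, h3⟩]
      symm
      refine Finset.prod_eq_one fun i _ => ?_
      exact if_pos (h3 i)
    · rw [if_neg fun h => h3 h.2]
      obtain ⟨i, hi⟩ := not_forall.1 h3
      symm
      refine Finset.prod_eq_zero (Finset.mem_univ i) ?_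
      exact if_neg hi
  · rw [if_neg h2, if_neg fun h => h2 h.1]

theorem conj_prod (g : G) {n : ℕ} (w : Fin n → G) :
    (List.ofFn fun i => g * w i * g⁻¹).prod = g * (List.ofFn w).prod * g⁻¹ := by
  have := map_list_prod (MulAut.conj g) (List.ofFn w)
  rw [List.map_ofFn] at this
  exact this.symm

theorem tupCount_le [Finite G] (L : Subgroup G) (C : Set G)
    (hC : ∀ g : G, ∀ c ∈ C, g * c * g⁻¹ ∈ C) (n : ℕ) (g : G) :
    tupCount L C n ≤ tupCount (cj g L) C n := by
  unfold tupCount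
  have hm : ∀ x ∈ L, g * x * g⁻¹ ∈ cj g L := by
    intro x hx
    rw [mem_cj]
    have : g⁻¹ * (g * x * g⁻¹) * g = x := by group
    rwa [this]
  refine Nat.card_le_card_of_injective
    (fun t => ⟨(g * t.1.1 * g⁻¹, g * t.1.2.1 * g⁻¹, fun i => g * t.1.2.2 i * g⁻¹), hm _ t.2.1,
      hm _ t.2.2.1, fun i => ⟨hm _ (t.2.2.2.1 i).1, hC _ _ (t.2.2.2.1 i).2⟩, ?_⟩) ?_
  · change _ = (List.ofFn fun i => g * t.1.2.2 i * g⁻¹).prod
    rw [conj_prod, ← t.2.2.2.2]
    group
  · intro t t' h
    have h1 := congrArg Subtype.val h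
    simp only [Prod.mk.injEq, mul_left_inj, mul_right_inj] at h1
    apply Subtype.ext
    refine Prod.ext h1.1 (Prod.ext h1.2.1 ?_)
    funext i
    have := congrFun h1.2.2 i
    simpa using this

theorem tupCount_cj [Finite G] (L : Subgroup G) (C : Set G)
    (hC : ∀ g : G, ∀ c ∈ C, g * c * g⁻¹ ∈ C) (n : ℕ) (g : G) :
    tupCount (cj g L) C n = tupCount L C n := by
  apply le_antisymm
  · have := tupCount_le (cj g L) C hC n g⁻¹
    rwa [cj_cj, inv_mul_cancel, cj_one] at this
  · exact tupCount_le L C hC n g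

theorem isCF_ind (C : Set G) (hC : ∀ g : G, ∀ c ∈ C, g * c * g⁻¹ ∈ C) : IsCF (ind C) := by
  intro g x
  unfold ind
  refine if_congr ⟨fun h => ?_, hC g x⟩ rfl rfl
  have := hC g⁻¹ _ h
  have h2 : g⁻¹ * (g * x * g⁻¹) * g⁻¹⁻¹ = x := by group
  rwa [h2] at this

open scoped Pointwise in
theorem dvd_sub [Finite G] (p : ℕ) [Fact p.Prime] (C : Set G)
    (hC : ∀ g : G, ∀ c ∈ C, g * c * g⁻¹ ∈ C) (m : ℕ) :
    (p : ℤ) * (Nat.card G : ℤ) ∣
      ∑ s ∈ chains p G, (-1) ^ s.card * (tupCount (stab s) C (p ^ m) : ℤ) - FF p (ind C) := by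
  have hfin := Fintype.ofFinite (Finset (Subgroup G))
  have hz := isCF_ind C hC
  have h1 : ∑ s ∈ chains p G, (-1) ^ s.card * (tupCount (stab s) C (p ^ m) : ℤ) - FF p (ind C) =
      ∑ s : Finset (Subgroup G), if IsPChain p s then
        (-1 : ℤ) ^ s.card * ((tupCount (stab s) C (p ^ m) : ℤ) - nTr (res (stab s) (ind C)))
        else 0 := by
    unfold FF
    rw [← Finset.sum_sub_distrib, ← Finset.sum_filter]
    refine Finset.sum_congr ?_ fun s _ => by ring
    ext s
    simp
  rw [h1]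
  refine orbit_dvd (R := G) (Q := Finset (Subgroup G)) _ ?_ _ ?_
  · intro g s
    have key : nTr (res (stab (g • s)) (ind C)) = nTr (res (stab s) (ind C)) := by
      rw [← nTr_comp (stabEquiv g s), res_stab_smul hz g s]
    rw [key, isPChain_smul, card_smul, stab_smul_eq, tupCount_cj _ C hC]
  · intro s
    by_cases hs : IsPChain p s
    · rw [if_pos hs]
      have h6 : stabilizer G s = stab s := by
        ext τ
        rw [mem_stabilizer_iff, smul_eq_iff_mem_stab hs]
      rw [h6]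
      have := Fintype.ofFinite (stab s)
      rw [tupCount_eq]
      exact Dvd.dvd.mul_left (nTr_cpow p _ (isCF_res _ hz) m) _
    · rw [if_neg hs]
      exact dvd_zero _

theorem FF_ind [Finite G] [Fintype G] (p : ℕ) (g : G) :
    FF p (ind {c | IsConj g c}) =
      ((Finset.univ.filter fun b : G => IsConj g b).card : ℤ) * SS p g := by
  rw [FF_eq_SS]
  have h13 : ∀ x : G, ind {c | IsConj g c} x * SS p x = if IsConj g x then SS p g else 0 := by
    intro x
    unfold ind
    by_cases hx : IsConj g x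
    · rw [if_pos hx, if_pos (show x ∈ {c | IsConj g c} from hx), one_mul]
      obtain ⟨c, rfl⟩ := isConj_iff.1 hx
      rw [SS_conj]
    · rw [if_neg hx, if_neg (show x ∉ {c | IsConj g c} from hx), zero_mul]
  rw [Finset.sum_congr rfl fun x _ => h13 x, ← Finset.sum_filter, Finset.sum_const, nsmul_eq_mul]

theorem dvd_of_parts (p : ℕ) [hp : Fact p.Prime] {n : ℕ} (hn : n ≠ 0) {X : ℤ} (h1 : (n : ℤ) ∣ X)
    (h2 : (p : ℤ) ^ (n.factorization p + 1) ∣ X) : (p : ℤ) * n ∣ X := by
  have h3 : p ^ n.factorization p * (n / p ^ n.factorization p) = n :=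
    Nat.ordProj_mul_ordCompl_eq_self n p
  have h4 : Nat.Coprime p (n / p ^ n.factorization p) := Nat.coprime_ordCompl hp.out hn
  have h5 : ((n / p ^ n.factorization p : ℕ) : ℤ) ∣ X :=
    dvd_trans (by exact_mod_cast Nat.ordCompl_dvd n p) h1
  have h6 : IsCoprime ((p : ℤ) ^ (n.factorization p + 1)) ((n / p ^ n.factorization p : ℕ) : ℤ) := by
    apply IsCoprime.pow_left
    exact Nat.isCoprime_iff_coprime.2 h4
  have h7 := h6.mul_dvd h2 h5
  have h8 : (p : ℤ) * n = (p : ℤ) ^ (n.factorization p + 1) *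
      ((n / p ^ n.factorization p : ℕ) : ℤ) := by
    have h9 : (n : ℤ) = (p : ℤ) ^ n.factorization p * ((n / p ^ n.factorization p : ℕ) : ℤ) := by
      exact_mod_cast h3.symm
    rw [pow_succ', mul_assoc, ← h9]
  rwa [h8]

end St0

open St0 MulAction Subgroup P179A P179S P179C in
theorem step0_holds : Step0Stmt := by
  intro p _ hN G _ _ _ g hg
  obtain ⟨M, hM⟩ := hN G g hg
  have hC : ∀ a : G, ∀ c ∈ {c | IsConj g c}, a * c * a⁻¹ ∈ {c | IsConj g c} :=
    fun a c hc => IsConj.trans hc (isConj_iff.2 ⟨a, rfl⟩)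
  have h1 := St0.dvd_sub p _ hC M
  have h2 : (p : ℤ) ^ ((Nat.card G).factorization p + 1) ∣ (p : ℤ) * (Nat.card G : ℤ) := by
    rw [pow_succ']
    apply mul_dvd_mul_left
    exact_mod_cast Nat.ordProj_dvd _ p
  have h3 : (p : ℤ) ^ ((Nat.card G).factorization p + 1) ∣ FF p (ind {c | IsConj g c}) := by
    have := _root_.dvd_sub hM (h2.trans h1)
    rwa [sub_sub_cancel] at this
  have h4 := card_dvd_FF (p := p) _ (isCF_ind _ hC)
  have h5 := dvd_of_parts p Nat.card_pos.ne' h4 h3
  rw [FF_ind, ← card_class_mul g] at h5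
  have h6 : ((Finset.univ.filter fun b : G => IsConj g b).card : ℤ) ≠ 0 := by
    have : (Finset.univ.filter fun b : G => IsConj g b).Nonempty :=
      ⟨g, Finset.mem_filter.2 ⟨Finset.mem_univ _, IsConj.refl g⟩⟩
    exact_mod_cast this.card_ne_zero
  obtain ⟨c, hc⟩ := h5
  refine ⟨c, ?_⟩
  apply mul_left_cancel₀ h6
  rw [hc]
  push_cast
  ring

end P179W
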