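import Vale.Agent.P179.H143.CBridge
import Vale.Agent.P179.H525.Weights

/-!
# P179W : invariance of the counts under isomorphisms of groups
-/

set_option linter.all false

noncomputable section

namespace P179W.Univ

open Subgroup P179H524 P179B MonoidAlgebra

variable {k : Type*} [Field k] {G G' : Type*} [Group G] [Group G']

/-- restriction of irreducible representations along an isomorphism -/
def res (f : G ≃* G') (a : IrrRep k G') : IrrRep k G :=
  ⟨⟨a.1.1, a.1.2.comp f.toMonoidHom⟩,
    (isIrreducible_comp_iff a.1.2 f.toMonoidHom f.surjective).mpr a.2⟩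

theorem res_res (f : G ≃* G') (b : IrrRep k G) : res f (res f.symm b) = b := by
  obtain ⟨⟨n, ρ⟩, hρ⟩ := b
  apply Subtype.ext
  have h : (ρ.comp f.symm.toMonoidHom).comp f.toMonoidHom = ρ := by
    ext g : 1
    exact congrArg ρ (f.symm_apply_apply g)
  exact congrArg (Sigma.mk n) h

theorem alg_res (f : G ≃* G') (a : IrrRep k G') (z : MonoidAlgebra k G) :
    (res f a).1.2.asAlgebraHom z = a.1.2.asAlgebraHom (domCongr k k f z) := by
  induction z using MonoidAlgebra.induction_linear with
  | zero => rw [map_zero, map_zero, map_zero]; rfl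
  | add a b ha hb => rw [map_add, ha, hb, map_add, map_add]; rfl
  | single g c =>
    rw [domCongr_single, Representation.asAlgebraHom_single, Representation.asAlgebraHom_single]
    rfl

theorem hasScalar_res (f : G ≃* G') (a : IrrRep k G') (z : MonoidAlgebra k G) (c : k) :
    HasScalar (res f a) z c ↔ HasScalar a (domCongr k k f z) c := by
  unfold HasScalar ActsBy
  rw [alg_res]
  rfl

theorem numSimpleIn_congr (f : G ≃* G') (z : MonoidAlgebra k G) :
    numSimpleIn (domCongr k k f z) = numSimpleIn z := by
  have hin : ∀ a : IrrRep k G', InBlock (res f a) z ↔ InBlock a (domCongr k k f z) :=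
    fun a => hasScalar_res f a z 1
  refine Nat.card_congr (Quot.congr
    { toFun := fun a => ⟨res f a.1, (hin a.1).2 a.2⟩
      invFun := fun b => ⟨res f.symm b.1, by
        rw [← hin, res_res]
        exact b.2⟩
      left_inv := fun a => Subtype.ext (res_res f.symm a.1)
      right_inv := fun b => Subtype.ext (res_res f b.1) } ?_)
  intro a b
  constructor
  · rintro ⟨e⟩
    exact ⟨Representation.Equiv.mk e.toLinearEquiv fun g => e.isIntertwining' (f g)⟩
  · rintro ⟨e⟩
    refine ⟨Representation.Equiv.mk e.toLinearEquiv fun g => ?_⟩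
    obtain ⟨g, rfl⟩ := f.surjective g
    exact e.isIntertwining' g

theorem center_congr (f : G ≃* G') {z : MonoidAlgebra k G}
    (hz : z ∈ Subalgebra.center k (MonoidAlgebra k G)) :
    domCongr k k f z ∈ Subalgebra.center k (MonoidAlgebra k G') := by
  rw [Subalgebra.mem_center_iff] at hz ⊢
  intro b
  obtain ⟨b, rfl⟩ := (domCongr k k f).surjective b
  rw [← map_mul, ← map_mul, hz]

theorem isBlock_congr (f : G ≃* G') {B : MonoidAlgebra k G} (hB : IsBlock B) :
    IsBlock (domCongr k k f B) := by
  obtain ⟨h1, h2, h3, h4⟩ := hB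
  refine ⟨center_congr f h1, by rw [← map_mul, h2], by simpa using h3, fun e he k1 k2 => ?_⟩
  obtain ⟨e, rfl⟩ := (domCongr k k f).surjective e
  have := h4 e (by simpa [← domCongr_symm] using center_congr f.symm he)
    ((domCongr k k f).injective (by rw [map_mul, k1]))
    ((domCongr k k f).injective (by rw [map_mul, k2]))
  simpa using this

theorem centralChar_congr (f : G ≃* G') (B z : MonoidAlgebra k G) :
    centralChar (domCongr k k f B) (domCongr k k f z) = centralChar B z := by
  refine dite_aux _ _ (funext fun l => propext ⟨fun h a ha => ?_, fun h a ha => ?_⟩)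
  · rw [← res_res f a] at ha ⊢
    exact (hasScalar_res f _ z l).2 (h _ ((hasScalar_res f _ B 1).1 ha))
  · exact (hasScalar_res f _ z l).1 (h _ ((hasScalar_res f _ B 1).2 ha))

/-- conjugacy classes correspond -/
def clsEquiv (f : G ≃* G') (g : G) : {x : G // IsConj g x} ≃ {x : G' // IsConj (f g) x} :=
  f.toEquiv.subtypeEquiv fun x => ⟨fun h => f.toMonoidHom.map_isConj h, fun h => by
    simpa using f.symm.toMonoidHom.map_isConj h⟩

theorem classSum_congr [Finite G] (f : G ≃* G') (g : G) :
    domCongr k k f (classSum k g) = classSum k (f g) := by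
  rw [classSum, classSum, map_finsum _ (Set.toFinite _), ← finsum_comp_equiv (clsEquiv f g)]
  exact finsum_congr fun x => domCongr_single f x.1 1

theorem trunc_congr [Finite G] (f : G ≃* G') {H : Subgroup G} {H' : Subgroup G'} (η : H ≃* H')
    (h : ∀ x, (η x : G') = f x) (z : MonoidAlgebra k G) :
    domCongr k k η (trunc H z) = trunc H' (domCongr k k f z) := by
  rw [trunc, trunc, map_finsum _ (Set.toFinite _), ← finsum_comp_equiv η.toEquiv]
  refine finsum_congr fun x => ?_
  rw [domCongr_single, coeff_domCongr]
  congr 2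
  exact (f.symm_apply_eq.2 (h x)).symm

variable {p : ℕ}

/-- transport of weights -/
def wmap (f : G ≃* G') (w : Weight p G) : Weight p G' :=
  ⟨w.Q.map f.toMonoidHom, w.isPGroup.map _, fun x => w.φ ((nqEquiv f w.Q).symm x),
    w.defectZero.comp _⟩

theorem wmap_in [Finite G] (f : G ≃* G') (red : integralClosure ℤ ℂ →+* k) {w : Weight p G}
    {B : MonoidAlgebra k G} (h : WeightInBlock red w B) :
    WeightInBlock red (wmap f w) (domCongr k k f B) := by
  obtain ⟨b, h1, h2, h3⟩ := h
  refine ⟨domCongr k k (normalizerEquiv f w.Q) b, isBlock_congr _ h1, fun x => ?_,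
    fun z hz => ?_⟩
  · obtain ⟨x, rfl⟩ := (normalizerEquiv f w.Q).surjective x
    have e1 := centralChar_congr (normalizerEquiv f w.Q) b (classSum k x)
    rw [classSum_congr, h2, Nat.card_congr (clsEquiv (normalizerEquiv f w.Q) x)] at e1
    have e2 : ∀ y, infl (wmap f w) (normalizerEquiv f w.Q y) = infl w y := fun y =>
      congrArg w.φ ((nqEquiv f w.Q).symm_apply_apply (QuotientGroup.mk y))
    have e3 := e2 1
    rw [map_one] at e3
    exact e1.trans (by rw [← e2, ← e3]; rfl)
  · obtain ⟨z, rfl⟩ := (domCongr k k f).surjective z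
    have e1 := centralChar_congr (normalizerEquiv f w.Q) b (trunc _ z)
    rw [trunc_congr f _ (fun _ => rfl), h3 z (by
      simpa [← domCongr_symm] using center_congr f.symm hz), ← centralChar_congr f] at e1
    exact e1

theorem wmap_conj (f : G ≃* G') {a b : Weight p G} (h : Weight.Conj a b) :
    Weight.Conj (wmap f a) (wmap f b) := by
  obtain ⟨g, h1, h2⟩ := h
  refine ⟨f g, ?_, fun n n' hn => ?_⟩
  · show b.Q.map f.toMonoidHom = (a.Q.map f.toMonoidHom).map _
    rw [h1, Subgroup.map_map, Subgroup.map_map]
    congr 1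
    ext x
    simp
  · refine h2 ((normalizerEquiv f a.Q).symm n) ((normalizerEquiv f b.Q).symm n') ?_
    show f.symm n' = g * f.symm n * g⁻¹
    rw [hn]
    simp

theorem wmap_wmap (f : G ≃* G') (a : Weight p G) : Weight.Conj (wmap f.symm (wmap f a)) a := by
  refine ⟨1, ?_, fun n n' hn => ?_⟩
  · show a.Q = ((a.Q.map f.toMonoidHom).map f.symm.toMonoidHom).map _
    rw [Subgroup.map_map, Subgroup.map_map]
    conv_lhs => rw [← Subgroup.map_id a.Q]
    congr 1
    ext x
    simp
  · have : n' = (normalizerEquiv f a.Q).symm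
        ((normalizerEquiv f.symm (a.Q.map f.toMonoidHom)).symm n) := by
      apply Subtype.ext
      show _ = f.symm (f n)
      rw [hn]
      simp
    rw [this]
    rfl

theorem numWeightsIn_congr [Finite G] (f : G ≃* G') (red : integralClosure ℤ ℂ →+* k)
    (B : MonoidAlgebra k G) : numWeightsIn p red (domCongr k k f B) = numWeightsIn p red B := by
  haveI : Finite G' := Finite.of_equiv G f.toEquiv
  refine Nat.card_congr
    { toFun := Quot.map (fun a => ⟨wmap f.symm a.1, by
          simpa [← domCongr_symm] using wmap_in f.symm red a.2⟩) fun a b h => wmap_conj f.symm h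
      invFun := Quot.map (fun a => ⟨wmap f a.1, wmap_in f red a.2⟩) fun a b h => wmap_conj f h
      left_inv := ?_
      right_inv := ?_ }
  · rintro ⟨a⟩
    exact Quot.sound (wmap_wmap f.symm a.1)
  · rintro ⟨a⟩
    exact Quot.sound (wmap_wmap f a.1)

/-- reduction to groups in the lowest universe -/
theorem lift_univ (red : integralClosure ℤ ℂ →+* k)
    (h : ∀ (G : Type) [Group G] [Finite G] (B : MonoidAlgebra k G), IsBlock B →
      numSimpleIn B = numWeightsIn p red B ∧ 0 < numSimpleIn B)
    (G : Type*) [Group G] [Finite G] (B : MonoidAlgebra k G) (hB : IsBlock B) :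
    numSimpleIn B = numWeightsIn p red B ∧ 0 < numSimpleIn B := by
  let f : G ≃* Shrink.{0} G := (Shrink.mulEquiv).symm
  haveI : Finite (Shrink.{0} G) := Finite.of_equiv G f.toEquiv
  have := h (Shrink.{0} G) (domCongr k k f B) (isBlock_congr f hB)
  rwa [numSimpleIn_congr, numWeightsIn_congr] at this

end P179W.Univ
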