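import Vale.Agent.P179W.StmtsG
import Vale.Agent.P179W.Univ
import Vale.Agent.P179W.Core
import Vale.Agent.P179W.ChartFlow
import Vale.Agent.P179W.Conn
import Vale.Agent.P179W.Regular
import Vale.Agent.P179W.Rank
import Vale.Agent.P179W.NV
import Vale.Agent.P179W.Div
import Vale.Agent.P179W.PlaceC
import Vale.Agent.P179W.PtMap
import Vale.Agent.P179W.Indep
import Vale.Agent.P179W.Descent
import Vale.Agent.P179W.Horiz
import Vale.Agent.P179W.Der
import Vale.Agent.P179W.DerI
import Vale.Agent.P179W.Spec
import Vale.Agent.P179W.Residue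
import Vale.Agent.P179W.GaussTower
import Vale.Agent.P179W.Gal
import Vale.Agent.P179W.Smith
import Vale.Agent.P179W.Step0
import Vale.Agent.P179.H166.PPFinal

/-!
# P179W : assembly
-/

set_option linter.all false

namespace P179W

theorem awc_of' (hS : SetupStmt) (hR : RetEStmt) (hW : WildStmt) (hβ : BetaStmt)
    (p : ℕ) [Fact p.Prime] (k : Type*) [Field k] [IsAlgClosed k] [CharP k p] :
    Nonempty (integralClosure ℤ ℂ →+* k) ∧
    ∀ (red : integralClosure ℤ ℂ →+* k) (G : Type*) [Group G] [Finite G]
      (B : MonoidAlgebra k G), P179B.IsBlock B →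
      P179B.numSimpleIn B = P179B.numWeightsIn p red B ∧ 0 < P179B.numSimpleIn B := by
  have hC : CoreStmt := core_of (chartFlow_of gaussEll_holds valExt_holds tame_holds) regular_holds
    rank_holds (nv_of div_holds derEll_holds ptMap_holds ptRed_holds indep_holds) hβ
    (conn_of gaussEll_holds)
  have hG : ThmGStmt := thmG_of (horiz_of dw_holds) dw_holds (spec_of hW dw_holds) residue_holds hC
    derExt_holds gaussTower_holds
  obtain ⟨h1, h2⟩ := awc_of hS hR (gal_of hG inertiaDer_holds div_holds) smith_holds step0_holds p k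
  refine ⟨h1, fun red => Univ.lift_univ red fun G _ _ B hB => ⟨h2 red G B hB, ?_⟩⟩
  rw [P179B.numSimpleIn_eq]
  exact P179C.numSimpleIn_pos B hB

end P179W
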