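import Mathlib

/-!
# P179W : group theory for the Galois action on the covers
-/

set_option linter.all false

namespace P179W.Gal

open Subgroup

variable {p : ℕ} [hp : Fact p.Prime]

/-- the preimage of a Sylow subgroup of a finite quotient -/
theorem sylow_pre0 {D : Type*} [Group D] (N : Subgroup D) [N.Normal] [N.FiniteIndex] :
    ∃ P : Subgroup D, N ≤ P ∧ (∀ a ∈ P, ∃ k, a ^ p ^ k ∈ N) ∧
      (∀ R : Subgroup D, R.Normal → (∀ r ∈ R, ∃ k, r ^ p ^ k ∈ N) → R ≤ P) ∧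
      ∀ R : Subgroup D, R.Normal → N ≤ R → (∀ d, ∃ k, d ^ p ^ k ∈ R) →
        ∀ d, ∃ a ∈ P, a⁻¹ * d ∈ R := by
  obtain ⟨S⟩ : Nonempty (Sylow p (D ⧸ N)) := inferInstance
  refine ⟨(S : Subgroup (D ⧸ N)).comap (QuotientGroup.mk' N), fun a ha => ?_, fun a ha => ?_,
    fun R hR h => ?_, fun R hR hN h d => ?_⟩
  · rw [mem_comap, QuotientGroup.mk'_apply, (QuotientGroup.eq_one_iff a).2 ha]
    exact one_mem _
  · obtain ⟨k, hk⟩ := S.isPGroup' ⟨_, ha⟩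
    refine ⟨k, (QuotientGroup.eq_one_iff _).1 ?_⟩
    exact congrArg Subtype.val hk
  · rw [← map_le_iff_le_comap]
    haveI := hR.map _ (QuotientGroup.mk'_surjective N)
    refine IsPGroup.le_sylow_of_normal ?_ S
    rintro ⟨_, r, hr, rfl⟩
    obtain ⟨k, hk⟩ := h r hr
    exact ⟨k, Subtype.ext ((QuotientGroup.eq_one_iff (r ^ p ^ k)).2 hk)⟩
  · let f : D ⧸ N →* D ⧸ R := QuotientGroup.map N R (MonoidHom.id D) hN
    have hf : Function.Surjective f := fun q => by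
      obtain ⟨d, rfl⟩ := QuotientGroup.mk_surjective q
      exact ⟨d, rfl⟩
    have ht : IsPGroup p (⊤ : Subgroup (D ⧸ R)) := by
      rintro ⟨q, -⟩
      obtain ⟨d, rfl⟩ := QuotientGroup.mk_surjective q
      obtain ⟨k, hk⟩ := h d
      exact ⟨k, Subtype.ext ((QuotientGroup.eq_one_iff (d ^ p ^ k)).2 hk)⟩
    have e := (S.mapSurjective hf).is_maximal' ht le_top
    have : (d : D ⧸ R) ∈ ((S.mapSurjective hf : Sylow p (D ⧸ R)) : Subgroup (D ⧸ R)) :=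
      e ▸ mem_top _
    obtain ⟨q, hq, hq'⟩ := this
    obtain ⟨a, rfl⟩ := QuotientGroup.mk_surjective q
    exact ⟨a, hq, QuotientGroup.eq.1 hq'⟩

/-- `D` normalises `R` -/
def Nz {A : Type*} [Group A] (D R : Subgroup A) : Prop := ∀ d ∈ D, ∀ r ∈ R, d * r * d⁻¹ ∈ R

theorem Nz.normal {A : Type*} [Group A] {D R : Subgroup A} (h : Nz D R) :
    (R.subgroupOf D).Normal := ⟨fun r hr d => h d d.2 r hr⟩

theorem Nz.mono {A : Type*} [Group A] {D D' R : Subgroup A} (h : Nz D R) (k : D' ≤ D) :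
    Nz D' R := fun d hd => h d (k hd)

theorem Nz.inf {A : Type*} [Group A] {D R R' : Subgroup A} (h : Nz D R) (k : Nz D R') :
    Nz D (R ⊓ R') := fun d hd r hr => ⟨h d hd r hr.1, k d hd r hr.2⟩

theorem Nz.self {A : Type*} [Group A] (D : Subgroup A) : Nz D D :=
  fun _ hd _ hr => mul_mem (mul_mem hd hr) (inv_mem hd)

theorem Nz.sup {A : Type*} [Group A] {D R R' : Subgroup A} (h : Nz D R) (k : Nz D R') :
    Nz D (R ⊔ R') := fun d hd r hr => by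
  have : R ⊔ R' ≤ (R ⊔ R').comap (MulAut.conj d).toMonoidHom :=
    sup_le (fun r hr => mem_sup_left (h d hd r hr)) (fun r hr => mem_sup_right (k d hd r hr))
  exact this hr

theorem sylow_pre {A : Type*} [Group A] {D N : Subgroup A} (hND : N ≤ D) (hN : Nz D N)
    (hi : N.relIndex D ≠ 0) :
    ∃ P : Subgroup A, N ≤ P ∧ P ≤ D ∧ (∀ a ∈ P, ∃ k, a ^ p ^ k ∈ N) ∧
      (∀ R ≤ D, Nz D R → (∀ r ∈ R, ∃ k, r ^ p ^ k ∈ N) → R ≤ P) ∧
      ∀ R, Nz D R → N ≤ R → (∀ d ∈ D, ∃ k, d ^ p ^ k ∈ R) → ∀ d ∈ D, ∃ a ∈ P, a⁻¹ * d ∈ R := by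
  haveI := hN.normal
  haveI : (N.subgroupOf D).FiniteIndex := ⟨hi⟩
  obtain ⟨P, h1, h2, h3, h4⟩ := sylow_pre0 (p := p) (N.subgroupOf D)
  refine ⟨P.map D.subtype, fun a ha => ⟨⟨a, hND ha⟩, h1 ha, rfl⟩, map_subtype_le _, ?_,
    fun R hR hz h r hr => ⟨⟨r, hR hr⟩, h3 _ hz.normal (fun r hr => h r hr) hr, rfl⟩,
    fun R hz hR h d hd => ?_⟩
  · rintro _ ⟨a, ha, rfl⟩
    exact h2 a ha
  · obtain ⟨a, ha, ha'⟩ := h4 _ hz.normal (fun a ha => hR ha) (fun d => h d d.2) ⟨d, hd⟩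
    exact ⟨a, ⟨a, ha, rfl⟩, ha'⟩

/-- the preimage of `O_p (D / N)` -/
theorem op_pre {A : Type*} [Group A] {D N : Subgroup A} (hND : N ≤ D) (hN : Nz D N)
    (hi : N.relIndex D ≠ 0) :
    ∃ R : Subgroup A, N ≤ R ∧ R ≤ D ∧ Nz D R ∧ (∀ a ∈ R, ∃ k, a ^ p ^ k ∈ N) ∧
      (∀ R' ≤ D, Nz D R' → (∀ r ∈ R', ∃ k, r ^ p ^ k ∈ N) → R' ≤ R) ∧
      ∀ B : Subgroup A, Nz B D → Nz B N → Nz B R := by
  obtain ⟨P, h1, h2, h3, h4, -⟩ := sylow_pre (p := p) hND hN hi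
  set 𝒮 : Set (Subgroup A) := {R' | R' ≤ D ∧ Nz D R' ∧ ∀ r ∈ R', ∃ k, r ^ p ^ k ∈ N}
  have hP : sSup 𝒮 ≤ P := sSup_le fun R' h => h4 R' h.1 h.2.1 h.2.2
  have key : ∀ B : Subgroup A, Nz B D → Nz B N → Nz B (sSup 𝒮) := fun B hD hB b hb r hr => by
    have : sSup 𝒮 ≤ (sSup 𝒮).comap (MulAut.conj b).toMonoidHom := by
      refine sSup_le fun R' h => map_le_iff_le_comap.1 (le_sSup ⟨?_, ?_, ?_⟩)
      · rintro _ ⟨r, hr, rfl⟩
        exact hD b hb r (h.1 hr)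
      · rintro d hd _ ⟨r, hr, rfl⟩
        refine ⟨(b⁻¹ * d * b⁻¹⁻¹) * r * (b⁻¹ * d * b⁻¹⁻¹)⁻¹,
          h.2.1 _ (hD _ (inv_mem hb) d hd) r hr, ?_⟩
        simp [mul_assoc]
      · rintro _ ⟨r, hr, rfl⟩
        obtain ⟨k, hk⟩ := h.2.2 r hr
        refine ⟨k, ?_⟩
        rw [← map_pow]
        exact hB b hb _ hk
    exact this hr
  exact ⟨sSup 𝒮, le_sSup ⟨hND, hN, fun r hr => ⟨0, by simpa using hr⟩⟩, hP.trans h2,
    key D (Nz.self D) hN, fun a ha => h3 a (hP ha), fun R' a b c => le_sSup ⟨a, b, c⟩, key⟩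

/-- a normal subgroup which is a `p`-group modulo the centre -/
theorem exists_normalP {G : Type*} [Group G] [Finite G] {H R : Subgroup G} (hR : R ≤ H)
    (hz : Nz H R) (h : ∀ r ∈ R, ∃ k, ∀ s ∈ R, r ^ p ^ k * s = s * r ^ p ^ k) {r : G} (hr : r ∈ R)
    (hp' : p ∣ orderOf r) :
    ∃ Q : Subgroup G, Q ≤ H ∧ Q ≠ ⊥ ∧ IsPGroup p Q ∧ H ≤ normalizer (Q : Set G) := by
  have h1 : IsPGroup p (R ⧸ center R) := fun q => by
    obtain ⟨a, rfl⟩ := QuotientGroup.mk_surjective q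
    obtain ⟨k, hk⟩ := h a a.2
    refine ⟨k, (QuotientGroup.eq_one_iff (a ^ p ^ k)).2 (mem_center_iff.2 fun s => ?_)⟩
    exact Subtype.ext (hk s s.2).symm
  haveI : Group.IsNilpotent R := of_quotient_center_nilpotent h1.isNilpotent
  obtain ⟨S⟩ : Nonempty (Sylow p R) := inferInstance
  have hS : (S : Subgroup R).Normal := inferInstance
  haveI := S.characteristic_of_normal hS
  refine ⟨(S : Subgroup R).map R.subtype, (map_subtype_le _).trans hR, ?_, S.isPGroup'.map _, ?_⟩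
  · rw [Ne, map_eq_bot_iff_of_injective _ R.subtype_injective]
    refine S.ne_bot_of_dvd_card (hp'.trans ?_)
    rw [← orderOf_mk r hr]
    exact orderOf_dvd_natCard _
  · have key : ∀ a ∈ H, ∀ q ∈ (S : Subgroup R).map R.subtype,
        a * q * a⁻¹ ∈ (S : Subgroup R).map R.subtype := by
      rintro a ha _ ⟨q, hq, rfl⟩
      let e : R ≃* R :=
        { toFun := fun s => ⟨a * s * a⁻¹, hz a ha s s.2⟩
          invFun := fun s => ⟨a⁻¹ * s * a⁻¹⁻¹, hz _ (inv_mem ha) s s.2⟩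
          left_inv := fun s => Subtype.ext (by simp [mul_assoc])
          right_inv := fun s => Subtype.ext (by simp [mul_assoc])
          map_mul' := fun s t => Subtype.ext (by simp [mul_assoc]) }
      exact ⟨e q, characteristic_iff_le_comap.1 inferInstance e hq, rfl⟩
    intro a ha
    refine mem_normalizer_iff.2 fun q => ⟨key a ha q, fun hq => ?_⟩
    simpa [mul_assoc] using key _ (inv_mem ha) _ hq

/-- a cyclic extension -/
theorem cyc_ext {A : Type*} [Group A] {F : Subgroup A} {θ : A} (hθ : Nz (zpowers θ) F) {n : ℕ}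
    (hn : n ≠ 0) (h : θ ^ n ∈ F) :
    (∀ a ∈ F ⊔ zpowers θ, a ^ n ∈ F) ∧ F.relIndex (F ⊔ zpowers θ) ≠ 0 := by
  have hz : Nz (F ⊔ zpowers θ) F := fun d hd r hr => by
    have : F ⊔ zpowers θ ≤ normalizer (F : Set A) := by
      refine sup_le le_normalizer fun a ha => mem_normalizer_iff.2 fun q => ⟨hθ a ha q, fun hq => ?_⟩
      simpa [mul_assoc] using hθ _ (inv_mem ha) _ hq
    exact (mem_normalizer_iff.1 (this hd) r).1 hr
  haveI := hz.normal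
  let t : ↥(F ⊔ zpowers θ) := ⟨θ, mem_sup_right (mem_zpowers θ)⟩
  let π := QuotientGroup.mk' (F.subgroupOf (F ⊔ zpowers θ))
  have ht : π t ^ n = 1 := (QuotientGroup.eq_one_iff (t ^ n)).2 h
  have key : F ⊔ zpowers θ ≤ ((zpowers (π t)).comap π).map (F ⊔ zpowers θ).subtype := by
    refine sup_le (fun a ha => ⟨⟨a, mem_sup_left ha⟩, ?_, rfl⟩) (zpowers_le.2 ⟨t, mem_zpowers _, rfl⟩)
    have : π ⟨a, mem_sup_left ha⟩ = 1 := (QuotientGroup.eq_one_iff _).2 ha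
    exact mem_comap.2 (this ▸ one_mem _)
  have key' : ∀ q, q ∈ zpowers (π t) := fun q => by
    obtain ⟨a, rfl⟩ := QuotientGroup.mk_surjective q
    obtain ⟨b, hb, e⟩ := key a.2
    exact Subtype.ext e ▸ hb
  refine ⟨fun a ha => ?_, ?_⟩
  · obtain ⟨j, hj⟩ := key' (π ⟨a, ha⟩)
    have : π (⟨a, ha⟩ ^ n) = 1 := by
      rw [map_pow, ← hj, ← zpow_natCast, ← zpow_mul, mul_comm, zpow_mul, zpow_natCast, ht, one_zpow]
    exact (QuotientGroup.eq_one_iff (N := F.subgroupOf (F ⊔ zpowers θ))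
      ((⟨a, ha⟩ : ↥(F ⊔ zpowers θ)) ^ n)).1 this
  · have : Finite (zpowers (π t)) :=
      finite_zpowers.2 (isOfFinOrder_iff_pow_eq_one.2 ⟨n, Nat.pos_of_ne_zero hn, ht⟩)
    have : Finite (↥(F ⊔ zpowers θ) ⧸ F.subgroupOf (F ⊔ zpowers θ)) :=
      Finite.of_surjective (fun q : zpowers (π t) => q.1) fun q => ⟨⟨q, key' q⟩, rfl⟩
    exact index_ne_zero_of_finite

/-- a bound for the index -/
theorem relIndex_le_card {A G : Type*} [Group A] [Finite G] {R D : Subgroup A} (f : A → G)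
    (h : ∀ a ∈ D, ∀ b ∈ D, f a = f b → a⁻¹ * b ∈ R) : R.relIndex D ≤ Nat.card G := by
  refine Nat.card_le_card_of_injective (fun q : D ⧸ R.subgroupOf D => f q.out) fun q q' e => ?_
  rw [← q.out_eq', ← q'.out_eq']
  exact QuotientGroup.eq.2 (h _ q.out.2 _ q'.out.2 e)

end P179W.Gal
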