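import Vale.Agent.P179W.AmbBasic

/-!
# P179W : transport of places, invariance of `PhiSet`
-/

set_option linter.all false

open scoped NNReal Classical
open Polynomial

noncomputable section

namespace P179W.Gal

variable {U : Type} [Field U]

/-- `z ∈ pull a V ↔ a z ∈ V` -/
def pull (a : RingAut U) (V : ValuationSubring U) : ValuationSubring U := V.comap (a : U →+* U)

theorem mem_pull {a : RingAut U} {V : ValuationSubring U} {z : U} : z ∈ pull a V ↔ a z ∈ V :=
  Iff.rfl

theorem pull_mul (a b : RingAut U) (V : ValuationSubring U) :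
    pull (a * b) V = pull b (pull a V) := rfl

theorem pull_one (V : ValuationSubring U) : pull 1 V = V := rfl

theorem pull_equiv (a : RingAut U) (V : ValuationSubring U) :
    (pull a V).valuation.IsEquiv (V.valuation.comap (a : U →+* U)) :=
  Valuation.isEquiv_of_val_le_one fun z => by
    rw [ValuationSubring.valuation_le_one_iff, Valuation.comap_apply,
      ValuationSubring.valuation_le_one_iff]
    rfl

theorem pull_le {a : RingAut U} {V : ValuationSubring U} {s t : U} :
    (pull a V).valuation s ≤ (pull a V).valuation t ↔ V.valuation (a s) ≤ V.valuation (a t) :=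
  (pull_equiv a V).le_iff_le

theorem pull_lt {a : RingAut U} {V : ValuationSubring U} {s t : U} :
    (pull a V).valuation s < (pull a V).valuation t ↔ V.valuation (a s) < V.valuation (a t) :=
  (pull_equiv a V).lt_iff_lt

theorem pull_eq {a : RingAut U} {V : ValuationSubring U} {s t : U} :
    (pull a V).valuation s = (pull a V).valuation t ↔ V.valuation (a s) = V.valuation (a t) :=
  (pull_equiv a V).eq_iff

theorem pull_lt_one {a : RingAut U} {V : ValuationSubring U} {s : U} :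
    (pull a V).valuation s < 1 ↔ V.valuation (a s) < 1 :=
  (pull_equiv a V).lt_one_iff_lt_one

theorem above_pull {a : RingAut U} {V : ValuationSubring U} {x y c d : U} :
    Above (pull a V) x y c d ↔ Above V (a x) (a y) (a c) (a d) := by
  rw [Above, Above, pull_lt_one, pull_lt_one, map_sub a, map_sub a]

theorem app_inv (a : RingAut U) (z : U) : a (a⁻¹ z) = z := a.apply_symm_apply z

theorem inv_app (a : RingAut U) (z : U) : a⁻¹ (a z) = z := a.symm_apply_apply z

theorem mul_app (a b : RingAut U) (z : U) : (a * b) z = a (b z) := rfl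

/-- the automorphisms preserving a set -/
def Stab (K : Set U) : Subgroup (RingAut U) where
  carrier := {g | ∀ z, z ∈ K ↔ g z ∈ K}
  one_mem' := fun _ => Iff.rfl
  mul_mem' := fun {a b} ha hb z => (hb z).trans (ha (b z))
  inv_mem' := fun {a} ha z => by rw [ha (a⁻¹ z), app_inv]

theorem mem_Stab {K : Set U} {g : RingAut U} : g ∈ Stab K ↔ ∀ z, z ∈ K ↔ g z ∈ K := Iff.rfl

theorem Stab.conj {K : Set U} {a : RingAut U} (ha : a ∈ Stab K) {g : RingAut U} (hg : g ∈ Fix K) :
    a * g * a⁻¹ ∈ Fix K := fun z hz => by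
  rw [mul_app, mul_app, hg _ (((Stab K).inv_mem ha z).1 hz), app_inv]

theorem le_Stab {K : Set U} {H : Subgroup (RingAut U)} (h : ∀ g ∈ H, ∀ z ∈ K, g z ∈ K) :
    H ≤ Stab K := fun g hg z =>
  ⟨h g hg z, fun k => by simpa only [inv_app] using h _ (H.inv_mem hg) _ k⟩

theorem Fix_le_Stab (K : Set U) : Fix K ≤ Stab K := le_Stab fun g hg z hz => by rwa [hg z hz]

/-- conjugation on a normalised subgroup -/
def cj {H : Subgroup (RingAut U)} (a : RingAut U) (h : ∀ g ∈ H, a * g * a⁻¹ ∈ H) : H →* H where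
  toFun g := ⟨a * g * a⁻¹, h g g.2⟩
  map_one' := Subtype.ext (by simp)
  map_mul' g g' := Subtype.ext (by simp [mul_assoc])

section

variable {ι : Type} {i : ℂ →+* U} {x y : U} {xP yP : ι → U} {G : Type} [Group G] {C : Set G}

theorem phi_conjG (hC : ∀ g : G, ∀ c ∈ C, g * c * g⁻¹ ∈ C) {φ} (h : φ ∈ PhiSet i x y xP yP C)
    (g : G) : (MulAut.conj g).toMonoidHom.comp φ ∈ PhiSet i x y xP yP C := by
  obtain ⟨⟨T, hT⟩, h⟩ := h
  refine ⟨⟨T, fun γ hγ => by simp [hT γ hγ]⟩, fun V h1 h2 => ?_⟩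
  obtain ⟨t, γ, a1, a2, a3, a4⟩ := h V h1 h2
  have : kerField ((MulAut.conj g).toMonoidHom.comp φ) = kerField φ := by
    unfold kerField
    congr 1
    ext γ
    simp
  exact ⟨t, γ, a1, this ▸ a2, fun k => hC g _ (a3 k), fun k => by simp [a4 k]⟩

theorem phi_conjA {a : RingAut U} (hF : a ∈ Stab (adj (Set.range i) {x, y} : Set U))
    (hO : a ∈ Stab (Set.range i)) (hζ : ∀ r, a (i (zeta r)) = i (zeta r))
    (hA : ∀ V : ValuationSubring U, (∀ c, i c ∈ V) →
      ((∃ j, Above (pull a⁻¹ V) x y (xP j) (yP j)) ↔ ∃ j, Above V x y (xP j) (yP j)))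
    {φ} (h : φ ∈ PhiSet i x y xP yP C) :
    φ.comp (cj a fun _ => Stab.conj hF) ∈ PhiSet i x y xP yP C := by
  obtain ⟨⟨T, hT⟩, h⟩ := h
  have hF' := (Stab _).inv_mem hF
  refine ⟨⟨T.image ⇑(a⁻¹), fun γ hγ => hT _ fun z hz => ?_⟩, fun V h1 ⟨z, hz, hz'⟩ => ?_⟩
  · show a (γ.1 (a⁻¹ z)) = z
    rw [hγ _ (Finset.mem_coe.2 (Finset.mem_image_of_mem _ hz)), app_inv]
  obtain ⟨t, γ, ⟨a1, a2, a3, a4⟩, a5, a6, a7⟩ := h (pull a⁻¹ V) (fun c => by
    obtain ⟨c', hc'⟩ := ((Stab _).inv_mem hO _).1 ⟨c, rfl⟩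
    rw [mem_pull, ← hc']
    exact h1 c') ⟨a z, (hF z).1 hz, by rwa [mem_pull, inv_app]⟩
  let γ' : Fix (adj (Set.range i) {x, y} : Set U) := cj a⁻¹ (fun _ => Stab.conj hF') γ
  have e : cj a (fun _ => Stab.conj hF) γ' = γ := Subtype.ext (by simp [γ', cj, mul_assoc])
  refine ⟨a⁻¹ t, γ', ⟨(hF' t).1 a1, by simpa using a2, pull_lt_one.1 a3, fun s hs hs' => ?_⟩,
    fun z hz z0 m k hm hv => ?_, fun k => ?_, fun k => ?_⟩
  · simpa only [inv_app] using pull_le.1 (a4 (a s) ((hF s).1 hs) (by rwa [pull_lt_one, inv_app]))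
  · have hz' : a z ∈ kerField φ := by
      rintro g ⟨hg, hg'⟩
      have := hz (a⁻¹ * g * a⁻¹⁻¹) ⟨Stab.conj hF' hg, by
        rw [← hg']
        exact congrArg φ (Subtype.ext (by simp [cj, mul_assoc]))⟩
      rw [inv_inv, mul_app, mul_app] at this
      rw [← app_inv a (g (a z)), this]
    have := pull_lt.1 (a5 (a z) hz' (by simpa using z0) m k hm
      (by rw [pull_eq, map_pow, map_zpow₀, inv_app]; exact hv))
    beta_reduce at this
    rw [map_sub, map_mul, inv_app, ← hζ, inv_app] at this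
    exact this
  · rw [MonoidHom.comp_apply, e]
    exact a6 ((hA V h1).2 k)
  · rw [MonoidHom.comp_apply, e]
    exact a7 fun k' => k ((hA V h1).1 k')

end

end P179W.Gal
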