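import Vale.Agent.P179W.GalPhi
import Vale.Agent.P179W.GalGrp
import Vale.Agent.P179W.AmbGal
import Vale.Agent.P179W.AmbVal2
import Vale.Agent.P179W.PtRed
import Vale.Agent.P179W.PlaceA

/-!
# P179W : basic properties of a set-up; the group `𝒜`
-/

set_option linter.all false

open scoped NNReal Classical
open Polynomial

noncomputable section

namespace P179W.Gal

variable {U : Type} [Field U]

theorem alg_map {K : Subfield U} {g : RingAut U} (hg : g ∈ Stab (K : Set U)) {z : U}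
    (h : Alg K z) : Alg K (g z) := by
  obtain ⟨f, f0, f1, f2⟩ := h
  refine ⟨f.map (g : U →+* U), by simpa using f0, fun k => ?_, ?_⟩
  · rw [coeff_map]
    exact (hg _).1 (f1 k)
  · exact (eval_map_aut (g : U →+* U) f z).trans (by rw [f2, map_zero])

/-- the automorphisms preserving `w` on `K` -/
def Pres (K : Set U) (w : Valuation U ℝ≥0) : Subgroup (RingAut U) where
  carrier := {g | g ∈ Stab K ∧ ∀ z ∈ K, w (g z) = w z}
  one_mem' := ⟨one_mem _, fun _ _ => rfl⟩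
  mul_mem' := fun {a b} ha hb => ⟨mul_mem ha.1 hb.1, fun z hz => by
    rw [mul_app, ha.2 _ ((hb.1 z).1 hz), hb.2 z hz]⟩
  inv_mem' := fun {a} ha => ⟨inv_mem ha.1, fun z hz => by
    rw [← ha.2 _ ((inv_mem ha.1 z).1 hz), app_inv]⟩

/-- the automorphisms preserving `V ∩ K` -/
def PresV (K : Set U) (V : ValuationSubring U) : Subgroup (RingAut U) where
  carrier := {g | g ∈ Stab K ∧ ∀ z ∈ K, z ∈ V ↔ g z ∈ V}
  one_mem' := ⟨one_mem _, fun _ _ => Iff.rfl⟩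
  mul_mem' := fun {a b} ha hb => ⟨mul_mem ha.1 hb.1, fun z hz =>
    (hb.2 z hz).trans (ha.2 _ ((hb.1 z).1 hz))⟩
  inv_mem' := fun {a} ha => ⟨inv_mem ha.1, fun z hz => by
    rw [ha.2 _ ((inv_mem ha.1 z).1 hz), app_inv]⟩

theorem Fix_le_Pres (K : Set U) (w : Valuation U ℝ≥0) : Fix K ≤ Pres K w :=
  fun g hg => ⟨Fix_le_Stab K hg, fun z hz => by rw [hg z hz]⟩

theorem Fix_le_PresV (K : Set U) (V : ValuationSubring U) : Fix K ≤ PresV K V :=
  fun g hg => ⟨Fix_le_Stab K hg, fun z hz => by rw [hg z hz]⟩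

theorem Stab_inf {K L : Subfield U} {g : RingAut U} (h : g ∈ Stab (K : Set U))
    (k : g ∈ Stab (L : Set U)) : g ∈ Stab ((K ⊓ L : Subfield U) : Set U) :=
  fun z => and_congr (h z) (k z)

theorem Stab_fixedOf {B H : Subgroup (RingAut U)} (h : Nz B H) :
    B ≤ Stab (fixedOf (H : Set (RingAut U)) : Set U) := le_Stab fun g hg z hz r hr => by
  have := hz _ (h _ (inv_mem hg) r hr)
  rw [inv_inv, mul_app, mul_app] at this
  rw [← app_inv g (r (g z)), this]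

theorem Nz_Fix {B : Subgroup (RingAut U)} {K : Set U} (h : B ≤ Stab K) : Nz B (Fix K) :=
  fun _ hd _ hr => Stab.conj (h hd) hr

section Gauss

variable {Γ : Type} [LinearOrderedCommGroupWithZero Γ] (v : Valuation U Γ)

theorem gauss_prod {x : U} (s : Multiset U) (hs : ∀ c ∈ s, 1 ≤ v (x - c) ∧ v c ≤ v (x - c)) (a : U)
    (k : ℕ) : v ((C a * (s.map fun c => X - C c).prod).coeff k) ≤
      v ((C a * (s.map fun c => X - C c).prod).eval x) := by
  induction s using Multiset.induction_on generalizing k with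
  | empty =>
    simp only [Multiset.map_zero, Multiset.prod_zero, mul_one, eval_C, coeff_C]
    split_ifs
    exacts [le_rfl, by simp]
  | cons c s ih =>
    have ih' := ih fun c hc => hs c (Multiset.mem_cons_of_mem hc)
    obtain ⟨h1, h2⟩ := hs c (Multiset.mem_cons_self c s)
    rw [Multiset.map_cons, Multiset.prod_cons, mul_left_comm, mul_comm]
    set g := C a * (s.map fun c => X - C c).prod
    rw [eval_mul, eval_sub, eval_X, eval_C, map_mul, mul_sub, coeff_sub, coeff_mul_C]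
    refine v.map_sub_le ?_ ?_
    · refine le_trans ?_ (le_mul_of_one_le_right' h1)
      cases k with
      | zero => simp
      | succ k => rw [coeff_mul_X]; exact ih' k
    · rw [map_mul]
      exact mul_le_mul' (ih' k) h2

theorem gauss_of_alg [IsAlgClosed U] {K Om : Subfield U} {x : U} (hA : ∀ z ∈ Om, Alg K z)
    (hO : ∀ z, Alg Om z → z ∈ Om) (hx : v x ≤ 1) (hG : Pl.Gauss v K x) : Pl.Gauss v Om x := by
  have key : ∀ c ∈ Om, 1 ≤ v (x - c) := fun c hc => by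
    by_contra h
    push Not at h
    have hc1 : v c ≤ 1 := by
      simpa using v.map_sub_le hx h.le
    obtain ⟨f, f0, f1, f2⟩ := hA c hc
    obtain ⟨q, hq⟩ := sub_dvd_eval_sub x c f
    obtain ⟨k, -, hk⟩ := (Finset.range (f.natDegree + 1)).exists_max_image
      (fun k => v (f.coeff k)) ⟨0, by simp⟩
    have k0 : 0 < v (f.coeff k) := lt_of_lt_of_le
      ((v.pos_iff).2 (leadingCoeff_ne_zero.2 f0)) (hk _ (by simp))
    refine absurd (hG f f1 k) (not_le.2 ?_)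
    rw [← sub_zero (f.eval x), ← f2, eval_eq_sum_range, eval_eq_sum_range, ← Finset.sum_sub_distrib]
    refine v.map_sum_lt k0.ne' fun j hj => ?_
    rw [← mul_sub, map_mul, ← geom_sum₂_mul, map_mul]
    refine lt_of_le_of_lt (mul_le_mul' (hk j hj) (mul_le_of_le_one_left' ?_))
      (mul_lt_of_lt_one_right k0 h)
    refine v.map_sum_le fun l _ => ?_
    rw [map_mul, map_pow, map_pow]
    exact mul_le_one' (pow_le_one' hx _) (pow_le_one' hc1 _)
  intro f hf k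
  by_cases f0 : f = 0
  · simp [f0]
  rw [(IsAlgClosed.splits f).eq_prod_roots]
  refine gauss_prod v _ (fun c hc => ?_) _ k
  have h1 := key c (hO c ⟨f, f0, hf, (mem_roots f0).1 hc⟩)
  refine ⟨h1, ?_⟩
  simpa using v.map_sub_le (hx.trans h1) le_rfl

end Gauss

variable {p n : ℕ} (S : Setup p n U)

include S in
theorem charZero : CharZero U := charZero_of_injective_ringHom S.i.injective

theorem Om_closed (z : U) (h : Alg S.Om z) : z ∈ S.Om := by
  haveI : IsAlgClosed S.Om := IsAlgClosed.of_ringEquiv ℂ _ S.i.rangeRestrictFieldEquiv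
  have hi := (alg_iff.1 h).isIntegral
  obtain ⟨c, hc⟩ := minpoly.mem_range_of_degree_eq_one S.Om z
    (IsAlgClosed.degree_eq_one_of_irreducible _ (minpoly.irreducible hi))
  exact hc ▸ c.2

theorem k0_Kt : S.k0 ≤ S.Kt := le_adj _ _

theorem xP_Kt (j) : S.xP j ∈ S.Kt := right_subset_adj _ _ (.inl ⟨j, rfl⟩)

theorem yP_Kt (j) : S.yP j ∈ S.Kt := right_subset_adj _ _ (.inr ⟨j, rfl⟩)

theorem Kt_Om : S.Kt ≤ S.Om := adj_le.2 ⟨S.k0_le, by
  rintro _ (⟨j, rfl⟩ | ⟨j, rfl⟩)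
  exacts [(S.P_mem j).1, (S.P_mem j).2]⟩

theorem Ft_eq : S.Ft = adj S.Kt {S.x, S.y} := (adj_adj _ _ _).symm

theorem Kt_Ft : S.Kt ≤ S.Ft := Ft_eq S ▸ le_adj _ _

theorem x_Ft : S.x ∈ S.Ft := right_subset_adj _ _ (.inr (.inl rfl))

theorem y_Ft : S.y ∈ S.Ft := right_subset_adj _ _ (.inr (.inr rfl))

theorem Om_Fb : S.Om ≤ S.Fb := left_subset_adj _ _

theorem Ft_Fb : S.Ft ≤ S.Fb := Ft_eq S ▸ adj_mono (Kt_Om S) le_rfl

theorem alg_Ft (z : U) : Alg S.Ft z := (S.U_alg z).trans fun c hc =>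
  alg_adj (T := Set.range S.i) (fun t ht => (S.Om_alg t ht).mono (Kt_Ft S)) c
    (adj_le.2 ⟨right_subset_adj _ _, fun t ht => le_adj _ _ (Ft_eq S ▸ right_subset_adj _ _ ht)⟩ hc)

theorem Δ_ne : S.E.Δ ≠ 0 := fun h => by simpa [h] using S.wΔ

theorem coeff_Kt : CoeffIn S.E S.Kt := AmbGal.cmono S.coeff_k0 (k0_Kt S)

theorem coeff_Om : CoeffIn S.E S.Om := AmbGal.cmono S.coeff_k0 S.k0_le

theorem inf_le_Kt {z : U} (h : z ∈ S.Om) (k : z ∈ S.Ft) : z ∈ S.Kt := by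
  obtain ⟨a, ha, b, hb, e⟩ := Pl.mem_adj2 (coeff_Kt S) S.eqn (Ft_eq S ▸ k)
  have m : adj S.Kt {S.x} ≤ adj S.Om {S.x} := adj_mono (Kt_Om S) le_rfl
  obtain ⟨rfl, -⟩ := AmbGal.uniq (AmbGal.not_mem (coeff_Om S) S.eqn S.transc) (m ha) (m hb)
    (le_adj _ _ h) (zero_mem _) (a' := z) (b' := 0) (by rw [← e]; ring)
  obtain ⟨A, hA, B, hB, h1, h2⟩ := mem_adj_one.1 ha
  have e : C a * B - A = 0 := S.transc _ (fun k => by
    rw [coeff_sub, coeff_C_mul]
    exact sub_mem (mul_mem h (Kt_Om S (mem_polyIn.1 hB k))) (Kt_Om S (mem_polyIn.1 hA k)))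
    (by simp [h2])
  have B0 : B.leadingCoeff ≠ 0 := leadingCoeff_ne_zero.2 fun h => h1 (by simp [h])
  have := congrArg (fun f => f.coeff B.natDegree) (sub_eq_zero.1 e)
  simp only [coeff_C_mul] at this
  rw [eq_div_of_mul_eq B0 this]
  exact div_mem (mem_polyIn.1 hA _) (mem_polyIn.1 hB _)

theorem Stab_Om : Stab (S.Kt : Set U) ≤ Stab (S.Om : Set U) :=
  le_Stab fun g hg z hz => Om_closed S _ ((alg_map hg (S.Om_alg z hz)).mono (Kt_Om S))

theorem ze_k0 (r : ℚ) : S.ze r ∈ S.k0 := by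
  refine S.k0_alg _ ⟨X ^ r.den - C 1, X_pow_sub_C_ne_zero r.den_pos 1, mem_polyIn.1
    (sub_mem (pow_mem X_mem_polyIn _) (C_mem_polyIn (one_mem _))), ?_⟩
  rw [eval_sub, eval_pow, eval_X, eval_C, ← map_pow, zeta, ← Complex.exp_nat_mul,
    show (r.den : ℂ) * (2 * Real.pi * Complex.I * r) = (r.num : ℂ) * (2 * Real.pi * Complex.I) by
      rw [← Rat.cast_intCast r.num, ← Rat.mul_den_eq_num]; push_cast; ring,
    Complex.exp_int_mul_two_pi_mul_I, map_one, sub_self]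

theorem eqn_map {g : RingAut U} (hg : g ∈ Fix (S.k0 : Set U)) {a b : U}
    (h : S.E.toAffine.Equation a b) : S.E.toAffine.Equation (g a) (g b) := by
  obtain ⟨h1, h2, h3, h4, h6⟩ := S.coeff_k0
  have := congrArg g (AmbGal.eqn h)
  simp only [map_add, map_mul, map_pow, hg _ h1, hg _ h2, hg _ h3, hg _ h4, hg _ h6] at this
  exact (S.E.toAffine.equation_iff _ _).2 this

theorem val_one {V : ValuationSubring U} (hV : ∀ c, S.i c ∈ V) {z : U} (hz : z ∈ S.Om) :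
    V.valuation z ≤ 1 := by
  obtain ⟨c, rfl⟩ := hz
  exact (V.valuation_le_one_iff _).2 (hV c)

theorem ab_θ {V : ValuationSubring U} (hV : ∀ c, S.i c ∈ V) (j : ZMod n) :
    S.Ab (pull S.θ V) j ↔ S.Ab V (j + 1) := by
  obtain ⟨h1, h2, h3, h4, h6⟩ := coeff_Om S
  have hΔ : S.E.Δ ∈ S.Om := by
    simp only [WeierstrassCurve.Δ, WeierstrassCurve.b₂, WeierstrassCurve.b₄, WeierstrassCurve.b₆,
      WeierstrassCurve.b₈]
    have h1' : S.E.a₁ ∈ S.Om := h1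
    have h2' : S.E.a₂ ∈ S.Om := h2
    have h3' : S.E.a₃ ∈ S.Om := h3
    have h4' : S.E.a₄ ∈ S.Om := h4
    have h6' : S.E.a₆ ∈ S.Om := h6
    have hn : ∀ m : ℕ, [m.AtLeastTwo] → (OfNat.ofNat m : U) ∈ S.Om := fun m _ => natCast_mem _ _
    apply_rules (maxDepth := 200) only [add_mem, sub_mem, mul_mem, pow_mem, neg_mem, h1', h2',
      h3', h4', h6', hn]
  have H := (ptRed_holds U _ V.valuation S.E ⟨val_one S hV h1, val_one S hV h2, val_one S hV h3,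
    val_one S hV h4, val_one S hV h6⟩ (le_antisymm (val_one S hV hΔ) (by
      have := val_one S hV (inv_mem hΔ)
      rwa [map_inv₀, inv_le_one₀ ((Valuation.pos_iff _).2 (Δ_ne S))] at this))).2.2
  have e1 := eqn_map S S.θ_k0 S.eqn
  have e2 := eqn_map S S.θ_k0 (S.eqnP j)
  have l1 := val_one S hV (S.P_mem (j + 1)).1
  have l2 := val_one S hV (Kt_Om S ((S.θ_Kt _).1 (xP_Kt S j)))
  refine above_pull.trans ⟨fun h => ?_, fun h => ?_⟩
  · exact H _ _ _ _ _ _ _ _ _ e1 e2 S.eqn (S.eqnP _) l2 l1 (eq_add_neg_of_add_eq S.θ_a.symm)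
      (eq_add_neg_of_add_eq (S.θ_P j).symm) h.1 h.2
  · exact H _ _ _ _ _ _ _ _ _ S.eqn (S.eqnP _) e1 e2 l1 l2 S.θ_a (S.θ_P j) h.1 h.2

theorem pull_Om {g : RingAut U} (hg : g ∈ Stab (S.Om : Set U)) {V : ValuationSubring U}
    (hV : ∀ c, S.i c ∈ V) (c : ℂ) : S.i c ∈ pull g V := by
  obtain ⟨c', hc'⟩ := (hg _).1 ⟨c, rfl⟩
  rw [mem_pull, ← hc']
  exact hV c'

/-- the automorphisms permuting the places above the punctures -/
def PresAb : Subgroup (RingAut U) where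
  carrier := {g | g ∈ Stab (S.Om : Set U) ∧ ∀ V : ValuationSubring U, (∀ c, S.i c ∈ V) →
    ((∃ j, S.Ab (pull g V) j) ↔ ∃ j, S.Ab V j)}
  one_mem' := ⟨one_mem _, fun _ _ => Iff.rfl⟩
  mul_mem' := fun {a b} ha hb => ⟨mul_mem ha.1 hb.1, fun V hV =>
    (hb.2 _ (pull_Om S ha.1 hV)).trans (ha.2 V hV)⟩
  inv_mem' := fun {a} ha => ⟨inv_mem ha.1, fun V hV => by
    rw [← ha.2 _ (pull_Om S (inv_mem ha.1) hV), ← pull_mul, inv_mul_cancel, pull_one]⟩

/-- the lifts of the powers of `θ` -/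
def cA : Subgroup (RingAut U) := Fix (S.Ft : Set U) ⊔ Subgroup.zpowers S.θ

theorem cA_le {B : Subgroup (RingAut U)} (h : Fix (S.Ft : Set U) ≤ B) (k : S.θ ∈ B) : cA S ≤ B :=
  sup_le h (Subgroup.zpowers_le.2 k)

theorem Fix_cA : Fix (S.Ft : Set U) ≤ cA S := le_sup_left

theorem θ_cA : S.θ ∈ cA S := Subgroup.mem_sup_right (Subgroup.mem_zpowers _)

theorem cA_k0 : cA S ≤ Fix (S.k0 : Set U) :=
  cA_le S (Fix_anti ((k0_Kt S).trans (Kt_Ft S))) S.θ_k0

theorem cA_Kt : cA S ≤ Stab (S.Kt : Set U) :=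
  cA_le S ((Fix_anti (Kt_Ft S)).trans (Fix_le_Stab _)) S.θ_Kt

theorem cA_Om : cA S ≤ Stab (S.Om : Set U) := (cA_Kt S).trans (Stab_Om S)

theorem cA_Pres : cA S ≤ Pres S.Ft S.w := cA_le S (Fix_le_Pres _ _) ⟨S.θ_Ft, S.θ_w⟩

theorem cA_Ft : cA S ≤ Stab (S.Ft : Set U) := fun _ h => (cA_Pres S h).1

theorem cA_Fb : cA S ≤ Stab (S.Fb : Set U) := le_Stab fun g hg =>
  map_adj (g : U →+* U) (fun z hz => Om_Fb S ((cA_Om S hg z).1 hz)) (by
    rintro _ (rfl | rfl)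
    exacts [Ft_Fb S ((cA_Ft S hg _).1 (x_Ft S)), Ft_Fb S ((cA_Ft S hg _).1 (y_Ft S))])

theorem cA_Ab : cA S ≤ PresAb S := by
  refine cA_le S (fun g hg => ⟨cA_Om S (Fix_cA S hg), fun V hV => exists_congr fun j => ?_⟩)
    ⟨cA_Om S (θ_cA S), fun V hV => ⟨fun ⟨j, h⟩ => ⟨_, (ab_θ S hV j).1 h⟩,
      fun ⟨j, h⟩ => ⟨j - 1, (ab_θ S hV _).2 (by rwa [sub_add_cancel])⟩⟩⟩
  refine above_pull.trans ?_
  rw [hg _ (x_Ft S), hg _ (y_Ft S), hg _ (Kt_Ft S (xP_Kt S j)), hg _ (Kt_Ft S (yP_Kt S j))]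

theorem phi_cA {G : Type} [Group G] {C : Set G} {a : RingAut U} (ha : a ∈ cA S) {φ}
    (h : φ ∈ PhiSet S.i S.x S.y S.xP S.yP C) :
    φ.comp (cj a fun _ => Stab.conj (cA_Fb S ha)) ∈ PhiSet S.i S.x S.y S.xP S.yP C :=
  phi_conjA (cA_Fb S ha) (cA_Om S ha) (fun r => cA_k0 S ha _ (ze_k0 S r)) (cA_Ab S (inv_mem ha)).2 h

theorem cA_fin (hn : n ≠ 0) : (∀ a ∈ cA S, a ^ n ∈ Fix (S.Ft : Set U)) ∧
    (Fix (S.Ft : Set U)).relIndex (cA S) ≠ 0 :=
  cyc_ext (Nz_Fix (le_sup_right.trans (cA_Ft S))) hn S.θ_pow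

end P179W.Gal
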