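import Vale.Agent.P179W.GalSet

/-!
# P179W : decomposition groups, open subgroups
-/

set_option linter.all false

open scoped NNReal Classical
open Polynomial

noncomputable section

namespace P179W.Gal

variable {U : Type} [Field U] {p n : ℕ} (S : Setup p n U)

theorem mem_Op {z : U} (hz : z ∈ S.Om) (h : S.w z < 1) : z ∈ S.Op := by
  rcases S.Op.mem_or_inv_mem z with k | k
  · exact k
  · by_cases z0 : z = 0
    · rw [z0]; exact zero_mem _
    · have := S.Op_le _ (inv_mem hz) k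
      rw [map_inv₀, inv_le_one₀ ((Valuation.pos_iff _).2 z0)] at this
      exact absurd h (not_lt.2 this)

/-- an automorphism over `k0` which preserves the maximal ideal of `w` preserves `w` -/
theorem pres_of_lt {K : Subfield U} (hK : S.k0 ≤ K) {g : RingAut U} (h0 : g ∈ Fix (S.k0 : Set U))
    (hg : g ∈ Stab (K : Set U)) (h : ∀ z ∈ K, S.w z < 1 ↔ S.w (g z) < 1) : g ∈ Pres K S.w := by
  refine ⟨hg, fun z hz => ?_⟩
  by_cases z0 : z = 0
  · rw [z0, map_zero]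
  obtain ⟨c, hc, e⟩ := S.val_k0 z
  have c0 : S.w c ≠ 0 := e ▸ (Valuation.ne_zero_iff _).2 z0
  have p1 : 0 < S.w (g z) := (Valuation.pos_iff _).2 (by simpa using z0)
  have h1 := h _ (div_mem hz (hK hc))
  have h2 := h _ (div_mem (hK hc) hz)
  rw [map_div₀, map_div₀, map_div₀, h0 c hc, e, div_self c0] at h1 h2
  rw [div_lt_one₀ (pos_iff_ne_zero.2 c0)] at h1
  rw [div_lt_one₀ p1] at h2
  rw [e]
  exact le_antisymm (not_lt.1 fun k => lt_irrefl _ (h2.2 k)) (not_lt.1 fun k => lt_irrefl _ (h1.2 k))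

theorem pres_of_Op {K : Subfield U} (hK : S.k0 ≤ K) (hO : K ≤ S.Om) {g : RingAut U}
    (h0 : g ∈ Fix (S.k0 : Set U) ⊓ Stab (S.Om : Set U) ⊓ PresV K S.Op) : g ∈ Pres K S.w := by
  have key : ∀ g ∈ Fix (S.k0 : Set U) ⊓ Stab (S.Om : Set U) ⊓ PresV K S.Op, ∀ z ∈ K,
      S.w z < 1 → S.w (g z) < 1 := by
    rintro g ⟨⟨g0, g1⟩, g2⟩ z hz h
    by_cases z0 : z = 0
    · simp [z0]
    obtain ⟨c, hc, e⟩ := S.val_k0 z
    have c0 : S.w c ≠ 0 := e ▸ (Valuation.ne_zero_iff _).2 z0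
    have m : z * z / c ∈ K := div_mem (mul_mem hz hz) (hK hc)
    have := S.Op_le _ ((g1 _).1 (hO m)) ((g2.2 _ m).1 (mem_Op S (hO m) (by
      rw [map_div₀, map_mul, e, mul_div_assoc, div_self c0, mul_one, ← e]; exact h)))
    rw [map_div₀, map_mul, map_div₀, map_mul, g0 c hc, div_le_one₀ (pos_iff_ne_zero.2 c0)] at this
    by_contra k
    exact absurd ((one_le_mul (not_lt.1 k) (not_lt.1 k)).trans this) (not_le.2 (e ▸ h))
  refine pres_of_lt S hK h0.1.1 h0.2.1 fun z hz => ⟨key g h0 z hz, fun h => ?_⟩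
  simpa only [inv_app] using key _ (inv_mem h0) _ ((h0.2.1 z).1 hz) h

theorem pres_Fb {g : RingAut U} (hg : g ∈ cA S) (h : g ∈ Pres S.Om S.w) : g ∈ Pres S.Fb S.w := by
  haveI := S.algClosed
  refine ⟨cA_Fb S hg, ?_⟩
  have hx : S.w.comap (g : U →+* U) S.x ≤ 1 := ((cA_Pres S hg).2 _ (x_Ft S)).trans_le S.wx
  refine (gaussEll_holds U _ S.w S.Om S.E S.x S.y (coeff_Om S) S.coeff_int S.wΔ S.eqn S.wx
    S.gauss).2.2.2 (S.w.comap (g : U →+* U)) h.2 hx
    (gauss_of_alg _ S.Om_alg (Om_closed S) hx fun f hf k => ?_)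
  have := S.gauss f (fun k => Kt_Om S (hf k)) k
  rwa [← (cA_Pres S hg).2 _ (Kt_Ft S (hf k)),
    ← (cA_Pres S hg).2 _ (eval_mem (mem_polyIn.2 hf) (Kt_Ft S) (x_Ft S))] at this

/-- correction by an element of the geometric Galois group -/
theorem exists_pres {g : RingAut U} (hg : g ∈ cA S) (h : g ∈ Pres S.Fb S.w) :
    ∃ γ ∈ Fix (S.Fb : Set U), ∀ z, S.w ((g * γ) z) = S.w z := by
  haveI := S.algClosed
  haveI := charZero S
  obtain ⟨γ, h1, h2⟩ := trans_holds U S.Fb S.U_alg S.w.valuationSubring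
    (pull g S.w.valuationSubring) fun z hz => by
      rw [mem_pull, Valuation.mem_valuationSubring_iff, Valuation.mem_valuationSubring_iff,
        h.2 z hz]
  refine ⟨γ, h1, fun z => (pres_of_lt S (K := ⊤) le_top (mul_mem (cA_k0 S hg)
    (cA_k0 S (Fix_cA S (Fix_anti (Ft_Fb S) h1)))) (fun _ => Iff.rfl) fun z _ => ?_).2 z trivial⟩
  by_cases z0 : z = 0
  · simp [z0]
  have := h2 z⁻¹
  rw [mem_pull, Valuation.mem_valuationSubring_iff, Valuation.mem_valuationSubring_iff,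
    ← mul_app, map_inv₀, map_inv₀, map_inv₀, inv_le_one₀ ((Valuation.pos_iff _).2 z0),
    inv_le_one₀ ((Valuation.pos_iff _).2 (by simpa using z0))] at this
  rw [← not_le, ← not_le, this]

/-- correction by an automorphism fixing `K(x, y)` -/
theorem exists_presV {K : Subfield U} (hK : S.Kt ≤ K) (hO : K ≤ S.Om) {g : RingAut U}
    (hg : g ∈ cA S) (h : g ∈ PresV K S.Op) :
    ∃ γ ∈ Fix (adj K {S.x, S.y} : Set U), g * γ ∈ PresV S.Om S.Op := by
  haveI := S.algClosed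
  haveI := charZero S
  obtain ⟨γ, h1, h2⟩ := transConst_of trans_holds U K S.Om S.E S.x S.y hO
    (fun z hz => (S.Om_alg z hz).mono hK) (Om_closed S) (AmbGal.cmono (coeff_Kt S) hK) (Δ_ne S)
    S.eqn S.transc S.U_alg S.Op (pull g S.Op) h.2
  exact ⟨γ, h1, cA_Om S (mul_mem hg (Fix_cA S (Fix_anti (Ft_eq S ▸ adj_mono hK le_rfl) h1))), h2⟩

theorem exists_units [NeZero n] (hn : 1 < n) : ∃ u : ℕ → U, (∀ j, u j ∈ S.Kt ∧ S.w (u j) ≤ 1) ∧
    ∀ j l, j ≠ l → S.w (u j - u l) = 1 := by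
  haveI : Fact (1 < n) := ⟨hn⟩
  have h : ∀ j, S.w (S.xP 1 ^ j) ≤ 1 := fun j => by
    rw [map_pow]
    exact pow_le_one' (S.wP 1) j
  refine ⟨fun j => S.xP 1 ^ j, fun j => ⟨pow_mem (xP_Kt S 1) j, h j⟩, fun j l hjl =>
    le_antisymm (S.w.map_sub_le (h j) (h l)) ?_⟩
  have := S.gaussAll (MvPolynomial.X 1 ^ j - MvPolynomial.X 1 ^ l) (fun m => by
    simp only [MvPolynomial.coeff_sub, MvPolynomial.coeff_X_pow]
    split_ifs <;> simp) (Finsupp.single 1 j)
  have h0 : ¬ (l = 0 ∧ j = 0) := fun h => hjl (h.2.trans h.1.symm)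
  simpa [MvPolynomial.coeff_X_pow, Finsupp.single_eq_single_iff, hjl.symm, h0] using this

theorem D_Kt (j : ZMod n) {z : U} (hz : z ∈ S.Kt) : S.D j z ∈ S.Kt := by
  obtain ⟨h1, h2, h3, h4, h6⟩ := coeff_Kt S
  have hn : ∀ m : ℕ, [m.AtLeastTwo] → (OfNat.ofNat m : U) ∈ S.Kt := fun m _ => natCast_mem _ _
  have hi : ∀ (a : Prop) [Decidable a], (if a then (1 : U) else 0) ∈ S.Kt := fun a _ => by
    split_ifs
    exacts [one_mem _, zero_mem _]
  induction hz using Subfield.closure_induction with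
  | mem z hz =>
    rcases hz with hz | ⟨l, rfl⟩ | ⟨l, rfl⟩
    · rw [S.D_k0 j z hz]; exact zero_mem _
    · rw [S.D_xP]
      exact mul_mem (sub_mem (hi _) (hi _)) (add_mem (add_mem (mul_mem (hn 2) (yP_Kt S l))
        (mul_mem h1 (xP_Kt S l))) h3)
    · rw [S.D_yP]
      exact mul_mem (sub_mem (hi _) (hi _)) (sub_mem (add_mem (add_mem
        (mul_mem (hn 3) (pow_mem (xP_Kt S l) 2)) (mul_mem (mul_mem (hn 2) h2) (xP_Kt S l))) h4)
        (mul_mem h1 (yP_Kt S l)))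
  | one => rw [Derivation.map_one_eq_zero]; exact zero_mem _
  | add a b _ _ ha hb => rw [map_add]; exact add_mem ha hb
  | neg a _ ha => rw [map_neg]; exact neg_mem ha
  | inv a h ha => rw [Derivation.leibniz_inv]; exact mul_mem (neg_mem (pow_mem (inv_mem h) 2)) ha
  | mul a b h k ha hb => rw [Derivation.leibniz]; exact add_mem (mul_mem h hb) (mul_mem k ha)

/-- open subgroups containing the geometric Galois group -/
theorem open_sub {T : Finset U} {H : Subgroup (RingAut U)}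
    (h1 : Fix (adj (S.Ft : Set U) (T : Set U) : Set U) ≤ H) (h2 : H ≤ Fix (S.Ft : Set U))
    (h3 : Fix (S.Fb : Set U) ≤ H) :
    Fix (adj (S.Om ⊓ fixedOf (H : Set (RingAut U)) : Subfield U) {S.x, S.y} : Set U) = H := by
  haveI := S.algClosed
  haveI := charZero S
  refine le_antisymm ?_ fun g hg => mem_Fix_adj.2 ⟨fun z hz => hz.2 g hg, ?_⟩
  · rw [← ((openGal_holds U S.Ft (alg_Ft S) T).2.2 H h1 h2).1]
    refine Fix_anti fun z hz => ?_
    rw [((openGal_holds U S.Ft (alg_Ft S) T).2.2 H h1 h2).1]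
    refine normalForm_holds U S.Om S.E S.x S.y H (coeff_Om S) (Δ_ne S) S.eqn S.transc
      (fun g hg => ⟨fun z hz => (cA_Om S (Fix_cA S (h2 hg)) z).1 hz, h2 hg _ (x_Ft S),
        h2 hg _ (y_Ft S), AmbGal.cmono (coeff_Kt S) fun c hc => h2 hg _ (Kt_Ft S hc)⟩) z ?_ hz
    exact (fixedFix_holds U S.Fb S.U_alg).le (fixedOf_anti h3 hz)
  · rintro _ (rfl | rfl)
    exacts [h2 hg _ (x_Ft S), h2 hg _ (y_Ft S)]

/-- finite `𝒜`-stable sets -/
theorem exists_stable (hn : n ≠ 0) (T0 : Finset U) :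
    ∃ T : Finset U, T0 ⊆ T ∧ cA S ≤ Stab (T : Set U) := by
  haveI := S.algClosed
  haveI := charZero S
  have hf : ∀ z : U, (MulAction.orbit (cA S) z).Finite := fun z => by
    have h1 := (openGal_holds U S.Ft (alg_Ft S) {z}).1
    have h2 := Subgroup.relIndex_ne_zero_trans h1 (cA_fin S hn).2
    have h3 : (MulAction.stabilizer (cA S) z).index ≠ 0 := fun h =>
      h2 (Nat.eq_zero_of_zero_dvd (h ▸ Subgroup.index_dvd_of_le fun g hg =>
        hg z (right_subset_adj _ _ (by simp))))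
    rw [MulAction.index_stabilizer] at h3
    exact Set.finite_of_ncard_ne_zero h3
  have hT := T0.finite_toSet.biUnion fun z _ => hf z
  refine ⟨hT.toFinset, fun z hz => hT.mem_toFinset.2 (Set.mem_biUnion hz (MulAction.mem_orbit_self z)),
    le_Stab fun g hg z hz => ?_⟩
  rw [hT.coe_toFinset] at hz ⊢
  obtain ⟨z0, h0, a, rfl⟩ := Set.mem_iUnion₂.1 hz
  exact Set.mem_biUnion h0 ⟨⟨g, hg⟩ * a, rfl⟩

end P179W.Gal
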