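import Vale.Agent.P179W.Stmts

/-!
# P179W : Taylor series of elements which are étale for the graded ring (helper53)
-/

set_option linter.all false

open scoped NNReal Classical
open Filter Topology Polynomial

noncomputable section

namespace P179W

namespace Gam

variable {L : Type} [Field L]

theorem iter_add (δ : Derivation ℤ L L) (k : ℕ) (a b : L) :
    (δ : L → L)^[k] (a + b) = (δ : L → L)^[k] a + (δ : L → L)^[k] b := by
  induction k with
  | zero => rfl
  | succ k ih => rw [Function.iterate_succ_apply', ih, map_add, Function.iterate_succ_apply',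
      Function.iterate_succ_apply']

theorem iter_mul (δ : Derivation ℤ L L) (n : ℕ) (a b : L) :
    (δ : L → L)^[n] (a * b) = ∑ ij ∈ Finset.HasAntidiagonal.antidiagonal n,
      (n.choose ij.1 : L) * ((δ : L → L)^[ij.1] a * (δ : L → L)^[ij.2] b) := by
  induction n with
  | zero => simp
  | succ n ih =>
    rw [Finset.sum_antidiagonal_choose_succ_mul
      (fun i j => (δ : L → L)^[i] a * (δ : L → L)^[j] b), Function.iterate_succ_apply', ih,
      map_sum, ← Finset.sum_add_distrib]
    refine Finset.sum_congr rfl fun ij hij => ?_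
    have h2 : n.choose ij.2 = n.choose ij.1 := by
      rw [← Finset.HasAntidiagonal.mem_antidiagonal.1 hij, Nat.choose_symm_add]
    rw [h2, Derivation.leibniz, Derivation.leibniz, Derivation.map_natCast,
      Function.iterate_succ_apply', Function.iterate_succ_apply']
    simp only [smul_eq_mul]
    ring

theorem iter_one (δ : Derivation ℤ L L) (k : ℕ) : (δ : L → L)^[k + 1] 1 = 0 := by
  induction k with
  | zero => simp
  | succ k ih => rw [Function.iterate_succ_apply', ih, map_zero]

theorem dE_zero (δ : Derivation ℤ L L) (π0 z : L) : dE δ π0 0 z = z := by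
  simp [dE]

theorem coeff_tau (δ : Derivation ℤ L L) (π0 z : L) (k : ℕ) :
    PowerSeries.coeff k (tau δ π0 z) = dE δ π0 k z := by
  simp [tau]

theorem tau_add (δ : Derivation ℤ L L) (π0 a b : L) :
    tau δ π0 (a + b) = tau δ π0 a + tau δ π0 b := by
  ext k
  simp only [map_add, coeff_tau, dE, iter_add, mul_add]

theorem tau_one (δ : Derivation ℤ L L) (π0 : L) : tau δ π0 1 = 1 := by
  ext k
  rw [coeff_tau, PowerSeries.coeff_one]
  rcases k with _ | k
  · simp [dE]
  · simp [dE, iter_one]

theorem tau_mul [CharZero L] (δ : Derivation ℤ L L) (π0 a b : L) :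
    tau δ π0 (a * b) = tau δ π0 a * tau δ π0 b := by
  ext n
  rw [PowerSeries.coeff_mul, coeff_tau, dE, iter_mul, Finset.mul_sum]
  refine Finset.sum_congr rfl fun ij hij => ?_
  rw [coeff_tau, coeff_tau, dE, dE]
  have h := Finset.HasAntidiagonal.mem_antidiagonal.1 hij
  have h1 : ((n.factorial : ℕ) : L) = n.choose ij.1 * ij.1.factorial * ij.2.factorial := by
    rw [← h, ← Nat.add_choose_mul_factorial_mul_factorial ij.1 ij.2, Nat.choose_symm_add]
    push_cast
    ring
  have h2 : ((n.choose ij.1 : ℕ) : L) ≠ 0 := by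
    rw [Nat.cast_ne_zero]
    exact (Nat.choose_pos (by omega)).ne'
  have h3 : ((ij.1.factorial : ℕ) : L) ≠ 0 := Nat.cast_ne_zero.2 (Nat.factorial_ne_zero _)
  have h4 : ((ij.2.factorial : ℕ) : L) ≠ 0 := Nat.cast_ne_zero.2 (Nat.factorial_ne_zero _)
  rw [h1, ← h, pow_add]
  rw [← h] at h2
  field_simp

/-- `tau` as a ring homomorphism -/
def tauHom [CharZero L] (δ : Derivation ℤ L L) (π0 : L) : L →+* PowerSeries L where
  toFun := tau δ π0
  map_one' := tau_one δ π0
  map_mul' := tau_mul δ π0
  map_zero' := by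
    have := tau_add δ π0 0 0
    rw [add_zero] at this
    exact left_eq_add.1 this
  map_add' := tau_add δ π0

theorem tauHom_apply [CharZero L] (δ : Derivation ℤ L L) (π0 z : L) :
    tauHom δ π0 z = tau δ π0 z := rfl

theorem const_tau (δ : Derivation ℤ L L) (π0 z : L) :
    PowerSeries.constantCoeff (tau δ π0 z) = z := by
  rw [← PowerSeries.coeff_zero_eq_constantCoeff_apply, coeff_tau, dE_zero]

/-- weighted bounds for the coefficients of a series -/
def Bd (w : Valuation L ℝ≥0) (ρ r : ℝ≥0) (y : PowerSeries L) : Prop :=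
  ∀ k, w (PowerSeries.coeff k y) ≤ r * ρ ^ k

variable {w : Valuation L ℝ≥0} {ρ : ℝ≥0}

theorem Bd.mono {r s : ℝ≥0} {y : PowerSeries L} (h : Bd w ρ r y) (hrs : r ≤ s) : Bd w ρ s y :=
  fun k => (h k).trans (mul_le_mul_of_nonneg_right hrs zero_le)

theorem Bd.zero (r : ℝ≥0) : Bd w ρ r 0 := fun k => by simp

theorem Bd.add {r : ℝ≥0} {y z : PowerSeries L} (hy : Bd w ρ r y) (hz : Bd w ρ r z) :
    Bd w ρ r (y + z) := fun k => by
  rw [map_add]
  exact w.map_add_le (hy k) (hz k)

theorem Bd.sum {r : ℝ≥0} {ι : Type} (s : Finset ι) (y : ι → PowerSeries L)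
    (hy : ∀ i ∈ s, Bd w ρ r (y i)) : Bd w ρ r (∑ i ∈ s, y i) := fun k => by
  rw [map_sum]
  exact w.map_sum_le fun i hi => hy i hi k

theorem Bd.mul {r s : ℝ≥0} {y z : PowerSeries L} (hy : Bd w ρ r y) (hz : Bd w ρ s z) :
    Bd w ρ (r * s) (y * z) := fun k => by
  rw [PowerSeries.coeff_mul]
  refine w.map_sum_le fun ij hij => ?_
  rw [map_mul, ← Finset.HasAntidiagonal.mem_antidiagonal.1 hij, pow_add]
  calc _ ≤ (r * ρ ^ ij.1) * (s * ρ ^ ij.2) := mul_le_mul' (hy _) (hz _)
    _ = _ := by ring

theorem Bd.one : Bd w ρ 1 1 := fun k => by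
  rw [PowerSeries.coeff_one]
  split_ifs with h
  · simp [h]
  · simp

theorem Bd.pow {r : ℝ≥0} {y : PowerSeries L} (hy : Bd w ρ r y) (n : ℕ) :
    Bd w ρ (r ^ n) (y ^ n) := by
  induction n with
  | zero => simpa using Bd.one
  | succ n ih => rw [pow_succ, pow_succ]; exact ih.mul hy

/-- Hensel's lemma for weighted bounds -/
theorem hensel (P : (PowerSeries L)[X]) (n : ℕ) (r : ℝ≥0) (hr : r ≠ 0) (y : PowerSeries L)
    (hy : P.eval y = 0) (hP : ∀ i k, w (PowerSeries.coeff k (P.coeff i)) * r ^ i ≤ r ^ (n + 1) * ρ ^ k)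
    (h0 : w (PowerSeries.constantCoeff y) ≤ r)
    (hd : w (PowerSeries.constantCoeff (P.derivative.eval y)) = r ^ n) : Bd w ρ r y := by
  intro k
  induction k using Nat.strong_induction_on with
  | _ k ih =>
  rcases Nat.eq_zero_or_pos k with rfl | hk
  · simpa using h0
  set y' : PowerSeries L := ((PowerSeries.trunc k y : L[X]) : PowerSeries L) with hy'
  have hb : Bd w ρ r y' := by
    intro j
    rw [hy', Polynomial.coeff_coe, PowerSeries.coeff_trunc]
    split_ifs with h
    · exact ih j h
    · simp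
  obtain ⟨t, ht⟩ : PowerSeries.X ^ k ∣ y' - y := by
    rw [PowerSeries.X_pow_dvd_iff]
    intro j hj
    rw [map_sub, hy', Polynomial.coeff_coe, PowerSeries.coeff_trunc, if_pos hj, sub_self]
  obtain ⟨κ, hκ⟩ := P.binomExpansion y (PowerSeries.X ^ k * t)
  have e1 : y + PowerSeries.X ^ k * t = y' := by rw [← ht]; ring
  rw [e1, hy, zero_add] at hκ
  have e2 : P.eval y' = PowerSeries.X ^ k *
      (P.derivative.eval y * t + κ * PowerSeries.X ^ k * t ^ 2) := by rw [hκ]; ring
  have e3 : PowerSeries.coeff k (P.eval y') =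
      PowerSeries.constantCoeff (P.derivative.eval y) * PowerSeries.constantCoeff t := by
    have := PowerSeries.coeff_X_pow_mul
      (P.derivative.eval y * t + κ * PowerSeries.X ^ k * t ^ 2) k 0
    rw [zero_add] at this
    rw [e2, this, PowerSeries.coeff_zero_eq_constantCoeff_apply]
    simp [hk.ne']
  have e4 : PowerSeries.constantCoeff t = - PowerSeries.coeff k y := by
    have := PowerSeries.coeff_X_pow_mul t k 0
    rw [zero_add, ← ht, map_sub, hy', Polynomial.coeff_coe, PowerSeries.coeff_trunc,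
      if_neg (lt_irrefl k), zero_sub] at this
    rw [this, PowerSeries.coeff_zero_eq_constantCoeff_apply]
  have e5 : Bd w ρ (r ^ (n + 1)) (P.eval y') := by
    rw [Polynomial.eval_eq_sum_range]
    refine Bd.sum _ _ fun i _ => ?_
    have h1 : Bd w ρ (r ^ (n + 1) / r ^ i) (P.coeff i) := by
      intro j
      rw [div_mul_eq_mul_div, le_div_iff₀ (pow_pos (pos_iff_ne_zero.2 hr) i)]
      exact hP i j
    have h2 := h1.mul (hb.pow i)
    rwa [div_mul_cancel₀ _ (pow_ne_zero i hr)] at h2
  have e6 := e5 k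
  rw [e3, e4, map_mul, hd, Valuation.map_neg, pow_succ, mul_assoc] at e6
  exact le_of_mul_le_mul_left e6 (pow_pos (pos_iff_ne_zero.2 hr) n)

/-- the coefficients of a product of linear factors -/
theorem coeff_prod_le {ι : Type} (s : Finset ι) (a : ι → L) (r : ℝ≥0) (ha : ∀ i ∈ s, w (a i) ≤ r) :
    ∀ i, w ((∏ j ∈ s, (X - C (a j))).coeff i) * r ^ i ≤ r ^ s.card := by
  induction s using Finset.induction_on with
  | empty =>
    intro i
    rw [Finset.prod_empty, Polynomial.coeff_one]
    split_ifs with h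
    · simp [h]
    · simp
  | insert j s hj ih =>
    intro i
    have ih' := ih fun i hi => ha i (Finset.mem_insert_of_mem hi)
    have hj' := ha j (Finset.mem_insert_self j s)
    rw [Finset.prod_insert hj, Finset.card_insert_of_notMem hj, sub_mul, Polynomial.coeff_sub,
      Polynomial.coeff_C_mul]
    have h1 : w ((X * ∏ j ∈ s, (X - C (a j))).coeff i) * r ^ i ≤ r ^ (s.card + 1) := by
      rcases i with _ | i
      · simp
      · rw [Polynomial.coeff_X_mul, pow_succ, pow_succ, ← mul_assoc]
        exact mul_le_mul_of_nonneg_right (ih' i) zero_le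
    have h2 : w (a j * (∏ j ∈ s, (X - C (a j))).coeff i) * r ^ i ≤ r ^ (s.card + 1) := by
      rw [map_mul, mul_assoc, pow_succ']
      exact mul_le_mul' hj' (ih' i)
    refine le_trans (mul_le_mul_of_nonneg_right (w.map_sub _ _) zero_le) ?_
    rw [max_mul_of_nonneg _ _ zero_le]
    exact max_le h1 h2

variable {G : Type} [Group G] [Finite G] [MulSemiringAction G L]

/-- the product of the `X - y`, `y` in the orbit of `z`, has invariant coefficients -/
theorem orbit_poly (z : L) : ∃ s : Finset L, (∀ y, y ∈ s ↔ ∃ g : G, g • z = y) ∧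
    ∀ (g : G) (i : ℕ), g • (∏ y ∈ s, (X - C y)).coeff i = (∏ y ∈ s, (X - C y)).coeff i := by
  haveI := Fintype.ofFinite G
  refine ⟨Finset.univ.image fun g : G => g • z, fun y => by simp, fun g i => ?_⟩
  rw [← Polynomial.coeff_smul, Finset.smul_prod']
  congr 1
  refine Finset.prod_nbij (fun y => g • y) ?_ ?_ ?_ ?_
  · intro y hy
    simp only [Finset.mem_image, Finset.mem_univ, true_and] at hy ⊢
    obtain ⟨h, rfl⟩ := hy
    exact ⟨g * h, mul_smul _ _ _⟩
  · intro y _ y' _ h
    exact MulAction.injective g h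
  · intro y hy
    simp only [Finset.coe_image, Finset.coe_univ, Set.image_univ, Set.mem_range,
      Set.mem_image] at hy ⊢
    obtain ⟨h, rfl⟩ := hy
    exact ⟨(g⁻¹ * h) • z, ⟨_, rfl⟩, by rw [← mul_smul, mul_inv_cancel_left]⟩
  · intro y _
    rw [smul_sub, Polynomial.smul_X, Polynomial.smul_C]

/-- an element which is separated from its conjugates has an overconvergent Taylor series -/
theorem bd_tau_of_sep [CharZero L] (δ : Derivation ℤ L L) (π0 : L)
    (hρ : ∀ f : L, (∀ g : G, g • f = f) → ∀ k, w (dE δ π0 k f) ≤ ρ ^ k * w f)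
    (z : L) (hz : z ≠ 0) (h1 : ∀ g : G, w (g • z) ≤ w z)
    (h2 : ∀ g : G, g • z ≠ z → w (z - g • z) = w z) (k : ℕ) :
    w (dE δ π0 k z) ≤ w z * ρ ^ k := by
  obtain ⟨s, hs, hinv⟩ := orbit_poly (G := G) z
  have hzs : z ∈ s := (hs z).2 ⟨1, one_smul _ _⟩
  set P : L[X] := ∏ y ∈ s, (X - C y) with hP
  have hwz : w z ≠ 0 := by rwa [ne_eq, map_eq_zero]
  have hc : s.card = (s.erase z).card + 1 := (Finset.card_erase_add_one hzs).symm
  have hP2 : P = (X - C z) * ∏ y ∈ s.erase z, (X - C y) := by
    rw [hP, ← Finset.mul_prod_erase s _ hzs]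
  have := hensel (w := w) (ρ := ρ) (P.map (tauHom δ π0)) (s.erase z).card (w z) hwz
    (tau δ π0 z) ?_ ?_ ?_ ?_ k
  · rwa [coeff_tau] at this
  · rw [← tauHom_apply, Polynomial.eval_map, Polynomial.eval₂_hom, hP2]
    simp
  · intro i j
    rw [Polynomial.coeff_map, tauHom_apply, coeff_tau, ← hc]
    have h3 := coeff_prod_le (w := w) s (fun y => y) (w z) (fun y hy => by
      obtain ⟨g, rfl⟩ := (hs y).1 hy
      exact h1 g) i
    calc _ ≤ (ρ ^ j * w (P.coeff i)) * w z ^ i :=
          mul_le_mul_of_nonneg_right (hρ _ (fun g => hinv g i) j) zero_le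
      _ = ρ ^ j * (w (P.coeff i) * w z ^ i) := by ring
      _ ≤ ρ ^ j * w z ^ s.card := mul_le_mul_of_nonneg_left h3 zero_le
      _ = _ := by ring
  · rw [const_tau]
  · rw [Polynomial.derivative_map, ← tauHom_apply, Polynomial.eval_map, Polynomial.eval₂_hom,
      tauHom_apply, const_tau, hP2, Polynomial.derivative_mul]
    simp only [Polynomial.derivative_sub, Polynomial.derivative_X, Polynomial.derivative_C,
      sub_zero, one_mul, Polynomial.eval_add, Polynomial.eval_mul, Polynomial.eval_sub,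
      Polynomial.eval_X, Polynomial.eval_C, sub_self, zero_mul, add_zero, Polynomial.eval_prod,
      map_prod]
    rw [← Finset.prod_const]
    refine Finset.prod_congr rfl fun y hy => ?_
    obtain ⟨g, rfl⟩ := (hs y).1 (Finset.mem_of_mem_erase hy)
    exact h2 g (Finset.ne_of_mem_erase hy)

end Gam

end P179W
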