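import Vale.Agent.P179W.GammaA

/-!
# P179W : decomposition group, wild inertia, separating elements (helper53)
-/

set_option linter.all false

open scoped NNReal Classical
open Filter Topology Polynomial

noncomputable section

namespace P179W

namespace Gam

variable {L : Type} [Field L]

/-- a real valuation as an absolute value -/
def absV (w : Valuation L ℝ≥0) : AbsoluteValue L ℝ where
  toFun z := w z
  map_mul' a b := by simp
  nonneg' a := (w a).2
  eq_zero' a := by simp
  add_le' a b := by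
    have h := w.map_add a b
    have : w (a + b) ≤ w a + w b := h.trans (max_le le_self_add le_add_self)
    exact_mod_cast this

theorem absV_apply (w : Valuation L ℝ≥0) (z : L) : absV w z = w z := rfl

/-- weak approximation for a finite family of valuations which agree at an element of valuation
in `(0, 1)` -/
theorem exists_one_lt {ι : Type} [Finite ι] (v : ι → Valuation L ℝ≥0) (c : L) (hc : c ≠ 0)
    (i₀ : ι) (h1 : v i₀ c < 1) (h2 : ∀ i, v i c = v i₀ c) :
    ∃ a : L, 1 < v i₀ a ∧ ∀ i, v i ≠ v i₀ → v i a < 1 := by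
  haveI : Finite (Set.range v) := Set.finite_range v |>.to_subtype
  have h0 : v i₀ c ≠ 0 := by rwa [ne_eq, map_eq_zero]
  have hv : ∀ u : Set.range v, u.1 c = v i₀ c := by
    rintro ⟨_, i, rfl⟩
    exact h2 i
  obtain ⟨a, ha, hb⟩ := AbsoluteValue.exists_one_lt_lt_one_pi_of_not_isEquiv
    (v := fun u : Set.range v => absV u.1) (fun u => ⟨c, hc, by
      rw [absV_apply, hv u]
      exact_mod_cast h1.ne⟩) (fun u u' hne he => by
      apply hne
      obtain ⟨t, ht, h⟩ := AbsoluteValue.isEquiv_iff_exists_rpow_eq.1 he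
      have h3 := congrFun h c
      simp only [absV_apply, hv] at h3
      have h4 : t = 1 := by
        have h5 : (0 : ℝ) < v i₀ c := by exact_mod_cast pos_iff_ne_zero.2 h0
        have h6 : (v i₀ c : ℝ) ≠ 1 := by exact_mod_cast h1.ne
        have := Real.rpow_right_inj h5 h6 (y := t) (z := 1)
        rw [Real.rpow_one] at this
        exact this.1 h3
      subst h4
      ext z
      have := congrFun h z
      simp only [absV_apply, Real.rpow_one] at this
      exact this) ⟨v i₀, i₀, rfl⟩
  refine ⟨a, by exact_mod_cast ha, fun i hi => ?_⟩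
  have := hb ⟨v i, i, rfl⟩ (fun h => hi (congrArg Subtype.val h))
  exact_mod_cast this

variable (G : Type) [Group G] [MulSemiringAction G L] (w : Valuation L ℝ≥0)

/-- the decomposition group -/
def Dec : Subgroup G where
  carrier := {g | ∀ z : L, w (g • z) = w z}
  one_mem' := fun z => by rw [one_smul]
  mul_mem' := by
    intro a b ha hb z
    rw [mul_smul, ha, hb]
  inv_mem' := by
    intro a ha z
    rw [← ha (a⁻¹ • z), smul_inv_smul]

/-- the stabiliser of the leading term of `c` -/
def Lead (c : L) (hc : c ≠ 0) : Subgroup G where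
  carrier := {g | g ∈ Dec G w ∧ w (g • c - c) < w c}
  one_mem' := ⟨one_mem _, by
    rw [one_smul, sub_self, map_zero]
    exact pos_iff_ne_zero.2 (by rwa [ne_eq, map_eq_zero])⟩
  mul_mem' := by
    intro a b ha hb
    refine ⟨mul_mem ha.1 hb.1, ?_⟩
    have : (a * b) • c - c = a • (b • c - c) + (a • c - c) := by
      rw [smul_sub, mul_smul]; ring
    rw [this]
    exact w.map_add_lt (by rw [ha.1]; exact hb.2) ha.2
  inv_mem' := by
    intro a ha
    refine ⟨inv_mem ha.1, ?_⟩
    rw [← ha.1, smul_sub, smul_inv_smul, w.map_sub_swap]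
    exact ha.2

variable {G w}

theorem mem_Dec {g : G} : g ∈ Dec G w ↔ ∀ z : L, w (g • z) = w z := Iff.rfl

theorem mem_Lead {c : L} {hc : c ≠ 0} {g : G} :
    g ∈ Lead G w c hc ↔ g ∈ Dec G w ∧ w (g • c - c) < w c := Iff.rfl

theorem val_natCast_le (w : Valuation L ℝ≥0) (m : ℕ) : w (m : L) ≤ 1 := by
  induction m with
  | zero => simp
  | succ m ih =>
    push_cast
    exact w.map_add_le ih (by simp)

theorem val_natCast_eq {p : ℕ} (hp : p.Prime) (hw : w (p : L) < 1) {m : ℕ} (hm : ¬ p ∣ m) :
    w (m : L) = 1 := by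
  by_contra hne
  have hlt : w (m : L) < 1 := lt_of_le_of_ne (val_natCast_le w m) hne
  have hc : Nat.Coprime p m := (Nat.Prime.coprime_iff_not_dvd hp).2 hm
  have h1 : ((Nat.gcd p m : ℕ) : ℤ) = p * Nat.gcdA p m + m * Nat.gcdB p m := Nat.gcd_eq_gcd_ab p m
  rw [hc] at h1
  have h2 : (1 : L) = p * (Nat.gcdA p m : L) + m * (Nat.gcdB p m : L) := by
    have := congrArg (fun x : ℤ => (x : L)) h1
    simpa using this
  have hint : ∀ a : ℤ, w (a : L) ≤ 1 := by
    intro a
    obtain ⟨n, rfl | rfl⟩ := Int.eq_nat_or_neg a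
    · simpa using val_natCast_le w n
    · simpa using val_natCast_le w n
  have h3 : w (1 : L) < 1 := by
    rw [h2]
    refine w.map_add_lt ?_ ?_
    · rw [map_mul]; exact lt_of_le_of_lt (mul_le_of_le_one_right' (hint _)) hw
    · rw [map_mul]; exact lt_of_le_of_lt (mul_le_of_le_one_right' (hint _)) hlt
  simp at h3

/-- products of elements with given leading terms -/
theorem prod_sub_prod_lt {ι : Type} (s : Finset ι) (a b : ι → L)
    (h : ∀ i ∈ s, w (a i - b i) < w (b i)) :
    w (∏ i ∈ s, a i - ∏ i ∈ s, b i) < w (∏ i ∈ s, b i) := by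
  induction s using Finset.induction_on with
  | empty => simp
  | insert j s hj ih =>
    have ih' := ih fun i hi => h i (Finset.mem_insert_of_mem hi)
    have hj' := h j (Finset.mem_insert_self j s)
    rw [Finset.prod_insert hj, Finset.prod_insert hj]
    have e : a j * ∏ i ∈ s, a i - b j * ∏ i ∈ s, b i =
        (a j - b j) * ∏ i ∈ s, b i + a j * (∏ i ∈ s, a i - ∏ i ∈ s, b i) := by ring
    have ha : w (a j) = w (b j) := w.map_eq_of_sub_lt hj'
    have hb : 0 < w (b j) := lt_of_le_of_lt zero_le hj'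
    have hb' : 0 < w (∏ i ∈ s, b i) := lt_of_le_of_lt zero_le ih'
    rw [e]
    refine w.map_add_lt ?_ ?_
    · rw [map_mul, map_mul]
      exact mul_lt_mul_of_pos_right hj' hb'
    · rw [map_mul, map_mul, ha]
      exact mul_lt_mul_of_pos_left ih' hb

theorem prod_lt_prod_nn {ι : Type} {s : Finset ι} {a b : ι → ℝ≥0} (hs : s.Nonempty)
    (h : ∀ i ∈ s, a i < b i) : ∏ i ∈ s, a i < ∏ i ∈ s, b i := by
  induction hs using Finset.Nonempty.cons_induction with
  | singleton j => simpa using h
  | cons j s hj hs ih =>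
    rw [Finset.prod_cons, Finset.prod_cons]
    exact mul_lt_mul'' (h j (Finset.mem_cons_self _ _))
      (ih fun i hi => h i (Finset.mem_cons_of_mem hi)) zero_le zero_le

/-- the Frobenius is injective on leading terms -/
theorem val_pow_sub_pow {p : ℕ} (hp : p.Prime) (hw : w (p : L) < 1) (a c : L) (hc : c ≠ 0)
    (h1 : w a = w c) (h2 : w (a - c) = w c) (e : ℕ) :
    w (a ^ p ^ e - c ^ p ^ e) = w (c ^ p ^ e) := by
  have hwc : w c ≠ 0 := by rwa [ne_eq, map_eq_zero]
  have hu : a / c - 1 ∈ w.integer := by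
    rw [Valuation.mem_integer_iff, div_sub_one hc, map_div₀, h2, div_self hwc]
  obtain ⟨r, hr⟩ := exists_add_pow_prime_pow_eq hp (⟨_, hu⟩ : w.integer) 1 e
  have hr' : (a / c) ^ p ^ e = (a / c - 1) ^ p ^ e + 1 + p * (a / c - 1) * (r : L) := by
    have := congrArg Subtype.val hr
    simpa using this
  have h3 : w ((a / c) ^ p ^ e - 1) = 1 := by
    have e1 : (a / c) ^ p ^ e - 1 = (a / c - 1) ^ p ^ e + p * (a / c - 1) * (r : L) := by
      rw [hr']; ring
    have e2 : w (a / c - 1) = 1 := by rw [div_sub_one hc, map_div₀, h2, div_self hwc]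
    have e3 : w ((a / c - 1) ^ p ^ e) = 1 := by rw [map_pow, e2, one_pow]
    rw [e1, w.map_add_eq_of_lt_left, e3]
    rw [e3, map_mul, map_mul, e2, mul_one]
    exact lt_of_le_of_lt (mul_le_of_le_one_right' r.2) hw
  have e4 : a ^ p ^ e - c ^ p ^ e = ((a / c) ^ p ^ e - 1) * c ^ p ^ e := by
    rw [div_pow, sub_mul, div_mul_cancel₀ _ (pow_ne_zero _ hc), one_mul]
  rw [e4, map_mul, h3, one_mul]

variable [Finite G]

/-- an element of valuation one which is small at the other places -/
theorem exists_eps [CharZero L] {p : ℕ} (hp : p.Prime) (hw : w (p : L) < 1) :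
    ∃ ε : L, w (ε - 1) < 1 ∧ ∀ g : G, g ∉ Dec G w → w (g • ε) < 1 := by
  obtain ⟨a, ha, hb⟩ := exists_one_lt (fun g : G => cw G w g) (p : L)
    (Nat.cast_ne_zero.2 hp.ne_zero) 1 (by rwa [cw_apply, one_smul]) (fun g => by
      rw [cw_apply, cw_apply, one_smul]
      exact congrArg w (map_natCast (MulSemiringAction.toRingHom G L g) p))
  rw [cw_apply, one_smul] at ha
  have h1 : w (1 + a) = w a := w.map_add_eq_of_lt_right (by simpa using ha)
  have h0 : 1 + a ≠ 0 := by
    intro h
    rw [h, map_zero] at h1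
    rw [← h1] at ha
    simp at ha
  refine ⟨a / (1 + a), ?_, fun g hg => ?_⟩
  · have : a / (1 + a) - 1 = - (1 + a)⁻¹ := by field_simp; ring
    rw [this, Valuation.map_neg, map_inv₀, h1]
    exact inv_lt_one_of_one_lt₀ ha
  · have h2 : w (g • a) < 1 := by
      refine hb g fun h => hg fun z => ?_
      have := congrArg (fun v : Valuation L ℝ≥0 => v z) h
      simpa only [cw_apply, one_smul] using this
    have h3 : w (1 + g • a) = 1 := by
      rw [w.map_add_eq_of_lt_left (by simpa using h2), map_one]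
    rw [smul_div₀', smul_add, smul_one, map_div₀, h3, div_one]
    exact h2

/-- elements can be made small at the other places without changing their leading terms -/
theorem exists_modify [CharZero L] {p : ℕ} (hp : p.Prime) (hw : w (p : L) < 1) (c : L)
    (hc : c ≠ 0) : ∃ c' : L, (∀ g ∈ Dec G w, w (g • c' - g • c) < w c) ∧
      ∀ g : G, g ∉ Dec G w → w (g • c') < w c := by
  obtain ⟨ε, h1, h2⟩ := exists_eps (G := G) hp hw
  have hwc : 0 < w c := pos_iff_ne_zero.2 (by rwa [ne_eq, map_eq_zero])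
  have h3 : ∀ g : G, ∀ᶠ N : ℕ in atTop, g ∉ Dec G w → w (g • c) * w (g • ε) ^ N < w c := by
    intro g
    by_cases hg : g ∈ Dec G w
    · exact Eventually.of_forall fun N h => absurd hg h
    · have := (NNReal.tendsto_pow_atTop_nhds_zero_of_lt_one (h2 g hg)).const_mul (w (g • c))
      rw [mul_zero] at this
      exact (this.eventually (gt_mem_nhds hwc)).mono fun N h _ => h
  obtain ⟨N, hN⟩ := (eventually_all.2 h3).exists
  refine ⟨c * ε ^ N, fun g hg => ?_, fun g hg => ?_⟩
  · rw [← smul_sub, hg, ← mul_sub_one, map_mul]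
    have := prod_sub_prod_lt (w := w) (Finset.range N) (fun _ => ε) (fun _ => 1)
      (fun _ _ => by simpa using h1)
    simp only [Finset.prod_const, Finset.card_range, one_pow, map_one] at this
    exact mul_lt_of_lt_one_right hwc this
  · rw [smul_mul', smul_pow', map_mul, map_pow]
    exact hN g hg

/-- An element which is fixed by the stabiliser of the leading term of `c` and separated from its
conjugates. -/
theorem exists_sep {p : ℕ} [hp : Fact p.Prime] (hw : w (p : L) < 1) (c : L) (hc : c ≠ 0)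
    (h : ∀ g : G, g ∉ Dec G w → w (g • c) < w c) :
    ∃ z : L, z ≠ 0 ∧ (∀ g : G, w (g • z) ≤ w z) ∧ (∀ g ∈ Lead G w c hc, g • z = z) ∧
      ∀ g : G, g ∉ Lead G w c hc → w (z - g • z) = w z := by
  set H := Lead G w c hc with hH
  obtain ⟨S₀⟩ : Nonempty (Sylow p H) := inferInstance
  obtain ⟨S, hS1, hS2⟩ : ∃ S : Subgroup H, IsPGroup p S ∧ ¬ p ∣ S.index :=
    ⟨S₀, S₀.isPGroup', S₀.not_dvd_index⟩
  haveI := Fintype.ofFinite G
  haveI := Fintype.ofFinite H
  haveI := Fintype.ofFinite S
  obtain ⟨e, he⟩ := IsPGroup.iff_card.1 hS1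
  have he' : Fintype.card S = p ^ e := by rw [← he, Nat.card_eq_fintype_card]
  set N : L := ∏ s : S, ((s : H) : G) • c with hN
  set O : Finset L := Finset.univ.image fun h : H => (h : G) • N with hO
  have hwc : 0 < w (c ^ p ^ e) := pos_iff_ne_zero.2 (by
    rw [ne_eq, map_eq_zero]; exact pow_ne_zero _ hc)
  have hprod : ∀ g : G, ∀ y ∈ O, ∃ a : S → H, g • y = ∏ s : S, (g * a s) • c := by
    intro g y hy
    obtain ⟨h, -, rfl⟩ := Finset.mem_image.1 hy
    refine ⟨fun s => h * s, ?_⟩
    rw [hN, Finset.smul_prod', Finset.smul_prod']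
    refine Finset.prod_congr rfl fun s _ => ?_
    rw [Subgroup.coe_mul, mul_smul, mul_smul]
  have hcard : ¬ p ∣ O.card := by
    have h1 : O.card = (MulAction.stabilizer H N).index := by
      rw [MulAction.index_stabilizer, ← Set.ncard_coe_finset]
      congr 1
      ext y
      simp [hO, MulAction.mem_orbit_iff, Subgroup.smul_def]
    have h2 : S ≤ MulAction.stabilizer H N := by
      intro s hs
      rw [MulAction.mem_stabilizer_iff, Subgroup.smul_def, hN, Finset.smul_prod']
      refine Fintype.prod_equiv (Equiv.mulLeft (⟨s, hs⟩ : S)) _ _ fun t => ?_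
      simp [mul_smul]
    rw [h1]
    exact fun hd => hS2 (hd.trans (Subgroup.index_dvd_of_le h2))
  have hm : w (O.card : L) = 1 := val_natCast_eq hp.out hw hcard
  set z : L := ∑ y ∈ O, y with hz
  have hD : ∀ g ∈ Dec G w, w (g • z - O.card * (g • c) ^ p ^ e) < w (c ^ p ^ e) := by
    intro g hg
    rw [hz, Finset.smul_sum, ← nsmul_eq_mul, ← Finset.sum_const, ← Finset.sum_sub_distrib]
    refine w.map_sum_lt hwc.ne' fun y hy => ?_
    obtain ⟨a, ha⟩ := hprod g y hy
    have := prod_sub_prod_lt (w := w) Finset.univ (fun s : S => (g * a s) • c) (fun _ => g • c)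
      (fun s _ => by
        rw [mul_smul, ← smul_sub, hg, hg]
        exact (a s).2.2)
    rw [Finset.prod_const, Finset.card_univ, he', ← ha, map_pow, hg, ← map_pow] at this
    exact this
  have hval : ∀ g ∈ Dec G w, w (O.card * (g • c) ^ p ^ e) = w (c ^ p ^ e) := by
    intro g hg
    rw [map_mul, hm, one_mul, map_pow, hg, map_pow]
  have hwz : w z = w (c ^ p ^ e) := by
    have h1 := hD 1 (one_mem _)
    rw [← hval 1 (one_mem _), one_smul] at h1
    rw [w.map_eq_of_sub_lt h1, hval 1 (one_mem _)]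
  have hnD : ∀ g : G, g ∉ Dec G w → w (g • z) < w z := by
    intro g hg
    rw [hwz, hz, Finset.smul_sum]
    refine w.map_sum_lt hwc.ne' fun y hy => ?_
    obtain ⟨a, ha⟩ := hprod g y hy
    rw [ha, map_prod, map_pow, ← he', ← Finset.card_univ, ← Finset.prod_const]
    refine prod_lt_prod_nn Finset.univ_nonempty fun s _ => h _ fun h' => hg ?_
    have := mul_mem h' (inv_mem (a s).2.1)
    simpa using this
  refine ⟨z, ?_, fun g => ?_, fun g hg => ?_, fun g hg => ?_⟩
  · intro h0
    rw [h0, map_zero] at hwz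
    exact hwc.ne hwz
  · by_cases hg : g ∈ Dec G w
    · exact (hg z).le
    · exact (hnD g hg).le
  · rw [hz, Finset.smul_sum]
    refine Finset.sum_nbij (fun y => g • y) ?_ ?_ ?_ ?_
    · intro y hy
      obtain ⟨h, -, rfl⟩ := Finset.mem_image.1 hy
      exact Finset.mem_image.2 ⟨⟨g, hg⟩ * h, Finset.mem_univ _, by simp [mul_smul]⟩
    · intro y _ y' _ h
      exact MulAction.injective g h
    · intro y hy
      obtain ⟨h, -, rfl⟩ := Finset.mem_image.1 (Finset.mem_coe.1 hy)
      refine ⟨((⟨g, hg⟩⁻¹ * h : H) : G) • N, Finset.mem_coe.2 (Finset.mem_image.2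
        ⟨_, Finset.mem_univ _, rfl⟩), ?_⟩
      simp [mul_smul]
    · intro y _
      rfl
  · by_cases hg' : g ∈ Dec G w
    · have h1 : w (g • c - c) = w c := by
        refine le_antisymm ((w.map_sub _ _).trans (by rw [hg' c, max_self])) ?_
        by_contra hlt
        exact hg ⟨hg', not_le.1 hlt⟩
      have h2 := val_pow_sub_pow hp.out hw (g • c) c hc (hg' c) h1 e
      have h3 := hD g hg'
      have h4 := hD 1 (one_mem _)
      rw [one_smul, one_smul] at h4
      have e1 : z - g • z = - (O.card * ((g • c) ^ p ^ e - c ^ p ^ e)) +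
          ((z - O.card * c ^ p ^ e) - (g • z - O.card * (g • c) ^ p ^ e)) := by ring
      have e2 : w (- (O.card * ((g • c) ^ p ^ e - c ^ p ^ e))) = w (c ^ p ^ e) := by
        rw [Valuation.map_neg, map_mul, hm, one_mul, h2]
      rw [e1, w.map_add_eq_of_lt_left, e2, hwz]
      rw [e2]
      exact w.map_sub_lt h4 h3
    · exact w.map_sub_eq_of_lt_left (hnD g hg')

/-- Outside of the wild inertia group, there are separated elements which are moved. -/
theorem exists_sep_of_not_wild [CharZero L] {p : ℕ} [hp : Fact p.Prime] (hw : w (p : L) < 1)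
    (g : G) (hg : ¬ ∀ c : L, c ≠ 0 → w (g • c - c) < w c) :
    ∃ z : L, z ≠ 0 ∧ (∀ h : G, w (h • z) ≤ w z) ∧ (∀ h : G, h • z ≠ z → w (z - h • z) = w z) ∧
      g • z ≠ z := by
  push Not at hg
  obtain ⟨c, hc, hgc⟩ := hg
  obtain ⟨c', h1, h2⟩ := exists_modify (G := G) hp.out hw c hc
  have h3 : w (c' - c) < w c := by simpa using h1 1 (one_mem _)
  have h4 : w c' = w c := w.map_eq_of_sub_lt h3
  have hc' : c' ≠ 0 := by
    intro h
    rw [h, map_zero] at h4
    exact hc ((map_eq_zero w).1 h4.symm)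
  obtain ⟨z, hz, h5, h6, h7⟩ := exists_sep (G := G) hw c' hc' (fun h hh => h4 ▸ h2 h hh)
  have hwz : w z ≠ 0 := by rwa [ne_eq, map_eq_zero]
  refine ⟨z, hz, h5, fun h hh => h7 h fun h' => hh (h6 h h'), fun h => ?_⟩
  have h8 : g ∉ Lead G w c' hc' := by
    rintro ⟨hD, hlt⟩
    have e1 : g • c - c = (g • c' - c') + (c' - c) - (g • c' - g • c) := by ring
    refine absurd hgc (not_le.2 ?_)
    rw [e1]
    exact w.map_sub_lt (w.map_add_lt (h4 ▸ hlt) h3) (h1 g hD)
  have := h7 g h8
  rw [h, sub_self, map_zero] at this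
  exact hwz this.symm

/-- an element of the wild inertia group has `p`-power order on `L` -/
theorem wild_pow {p : ℕ} (hp : p.Prime) (hw : w (p : L) < 1) (g : G)
    (hg : ∀ c : L, c ≠ 0 → w (g • c - c) < w c) : ∃ k : ℕ, ∀ z : L, g ^ p ^ k • z = z := by
  have hD : g ∈ Dec G w := fun c => by
    by_cases hc : c = 0
    · simp [hc]
    · exact w.map_eq_of_sub_lt (hg c hc)
  have hpow : ∀ (j : ℕ) (c : L), c ≠ 0 → w (g ^ j • c - c) < w c := fun j c hc =>
    (pow_mem (show g ∈ Lead G w c hc from ⟨hD, hg c hc⟩) j).2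
  obtain ⟨k, m, hm, hkm⟩ := Nat.exists_eq_pow_mul_and_not_dvd (orderOf_pos g).ne' p hp.ne_one
  refine ⟨k, fun z => ?_⟩
  by_contra hne
  set u := g ^ p ^ k with hu
  have hd : u • z - z ≠ 0 := sub_ne_zero.2 hne
  have hum : u ^ m = 1 := by rw [hu, ← pow_mul, ← hkm, pow_orderOf_eq_one]
  have h1 : ∑ j ∈ Finset.range m, u ^ j • (u • z - z) = 0 := by
    have := Finset.sum_range_sub (fun j => u ^ j • z) m
    simp only [hum, pow_zero, sub_self] at this
    rw [← this]
    refine Finset.sum_congr rfl fun j _ => ?_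
    rw [smul_sub, pow_succ, mul_smul]
  have h2 : w (∑ j ∈ Finset.range m, (u ^ j • (u • z - z) - (u • z - z))) < w (u • z - z) := by
    refine w.map_sum_lt (by rwa [ne_eq, map_eq_zero]) fun j _ => ?_
    rw [hu, ← pow_mul]
    exact hpow _ _ hd
  rw [Finset.sum_sub_distrib, h1, zero_sub, Valuation.map_neg, Finset.sum_const, Finset.card_range,
    nsmul_eq_mul, map_mul, val_natCast_eq hp hw hm, one_mul] at h2
  exact lt_irrefl _ h2

end Gam

end P179W
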