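import Vale.Agent.P179W.PS
import Vale.Agent.P179W.AmbBasic
import Vale.Agent.P179W.AmbVal2

/-!
# P179W : existence of Gauss valuations (B10)
-/

set_option linter.all false

open scoped NNReal Classical

noncomputable section

namespace P179W

namespace GaussH

open MvPolynomial

variable {ι : Type}

theorem exists_lift {A B : Type} [CommRing A] [CommRing B] (φ : A →+* B) (f : MvPolynomial ι B)
    (hf : ∀ m, f.coeff m ∈ Set.range φ) : ∃ g : MvPolynomial ι A, map φ g = f := by
  refine mem_range_map_iff_coeffs_subset.2 fun c hc => ?_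
  obtain ⟨m, -, rfl⟩ := mem_coeffs_iff.1 hc
  exact hf m

variable {k : Type} [Field k] (w : Valuation k ℝ≥0)

/-- the Gauss norm -/
def gn (f : MvPolynomial ι k) : ℝ≥0 := f.support.sup fun m => w (f.coeff m)

theorem le_gn (f : MvPolynomial ι k) (m : ι →₀ ℕ) : w (f.coeff m) ≤ gn w f := by
  by_cases h : m ∈ f.support
  · exact Finset.le_sup (f := fun m => w (f.coeff m)) h
  · rw [notMem_support_iff.1 h, map_zero]
    exact zero_le

theorem gn_le {f : MvPolynomial ι k} {c : ℝ≥0} (h : ∀ m, w (f.coeff m) ≤ c) : gn w f ≤ c :=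
  Finset.sup_le fun m _ => h m

theorem gn_att {f : MvPolynomial ι k} (hf : f ≠ 0) :
    ∃ m, f.coeff m ≠ 0 ∧ gn w f = w (f.coeff m) := by
  obtain ⟨m, h1, h2⟩ := Finset.exists_mem_eq_sup _ (support_nonempty.2 hf)
    fun m => w (f.coeff m)
  exact ⟨m, mem_support_iff.1 h1, h2⟩

theorem gn_zero : gn w (0 : MvPolynomial ι k) = 0 := by simp [gn]

theorem gn_C_mul (c : k) (f : MvPolynomial ι k) : gn w (C c * f) = w c * gn w f := by
  refine le_antisymm (gn_le w fun m => ?_) ?_
  · rw [coeff_C_mul, map_mul]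
    exact mul_le_mul_right (le_gn w f m) _
  · by_cases hf : f = 0
    · rw [hf, gn_zero, mul_zero]
      exact zero_le
    · obtain ⟨m, -, h⟩ := gn_att w hf
      rw [h, ← map_mul, ← coeff_C_mul]
      exact le_gn w _ m

theorem gn_mul_one {f g : MvPolynomial ι k} (hf : gn w f = 1) (hg : gn w g = 1) :
    gn w (f * g) = 1 := by
  obtain ⟨R, _, rd, h, -⟩ := exists_isRed w
  have key : ∀ f : MvPolynomial ι k, gn w f = 1 → ∃ f₀ : MvPolynomial ι w.valuationSubring,
      map w.valuationSubring.subtype f₀ = f ∧ map h.hom f₀ ≠ 0 := by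
    intro f hf
    obtain ⟨f₀, rfl⟩ := exists_lift w.valuationSubring.subtype f fun m =>
      ⟨⟨f.coeff m, (le_gn w f m).trans hf.le⟩, rfl⟩
    refine ⟨f₀, rfl, fun h0 => ?_⟩
    obtain ⟨m, -, h2⟩ := gn_att w (f := map w.valuationSubring.subtype f₀) (by
      intro h1
      rw [h1, gn_zero] at hf
      exact zero_ne_one hf)
    rw [hf, coeff_map] at h2
    have h3 := congrArg (coeff m) h0
    rw [coeff_map, coeff_zero] at h3
    exact (h.ne_zero_iff h2.symm.le).2 h2.symm h3
  obtain ⟨f₀, rfl, h1⟩ := key f hf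
  obtain ⟨g₀, rfl, h2⟩ := key g hg
  obtain ⟨m, hm⟩ := ne_zero_iff.1 (mul_ne_zero h1 h2)
  rw [← map_mul, coeff_map] at hm
  rw [← map_mul]
  refine le_antisymm (gn_le w fun m => ?_) ?_
  · rw [coeff_map]
    exact (coeff m (f₀ * g₀)).2
  · refine le_trans ?_ (le_gn w _ m)
    rw [coeff_map]
    exact ((h.ne_zero_iff (coeff m (f₀ * g₀)).2).1 hm).ge

theorem gn_mul (f g : MvPolynomial ι k) : gn w (f * g) = gn w f * gn w g := by
  by_cases hf : f = 0
  · rw [hf, zero_mul, gn_zero, zero_mul]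
  by_cases hg : g = 0
  · rw [hg, mul_zero, gn_zero, mul_zero]
  obtain ⟨m, h1, h2⟩ := gn_att w hf
  obtain ⟨n, h3, h4⟩ := gn_att w hg
  have h5 : gn w (C (f.coeff m)⁻¹ * f) = 1 := by
    rw [gn_C_mul, h2, ← map_mul, inv_mul_cancel₀ h1, map_one]
  have h6 : gn w (C (g.coeff n)⁻¹ * g) = 1 := by
    rw [gn_C_mul, h4, ← map_mul, inv_mul_cancel₀ h3, map_one]
  have h7 : f * g = C (f.coeff m * g.coeff n) * (C (f.coeff m)⁻¹ * f * (C (g.coeff n)⁻¹ * g)) := by
    have : (C (f.coeff m * g.coeff n) * (C (f.coeff m)⁻¹ * C (g.coeff n)⁻¹) :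
        MvPolynomial ι k) = 1 := by
      rw [← C_mul, ← C_mul, ← mul_inv, mul_inv_cancel₀ (mul_ne_zero h1 h3), C_1]
    linear_combination (-(f * g)) * this
  rw [h7, gn_C_mul, gn_mul_one w h5 h6, mul_one, map_mul, h2, h4]

theorem gn_monomial (m : ι →₀ ℕ) (c : k) : gn w (monomial m c) = w c := by
  refine le_antisymm (gn_le w fun n => ?_) ?_
  · rw [coeff_monomial]
    split_ifs
    · exact le_rfl
    · rw [map_zero]
      exact zero_le
  · simpa using le_gn w (monomial m c) m

/-- the Gauss valuation -/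
def gv : Valuation (MvPolynomial ι k) ℝ≥0 where
  toFun := gn w
  map_zero' := gn_zero w
  map_one' := (gn_monomial w 0 1).trans (map_one w)
  map_mul' := gn_mul w
  map_add_le_max' f g := gn_le w fun m => by
    rw [coeff_add]
    exact (w.map_add _ _).trans (max_le_max (le_gn w f m) (le_gn w g m))

end GaussH

open GaussH MvPolynomial in
theorem gaussEx_holds : GaussExStmt := by
  intro U _ k w₀ ι _ X hX halg
  let φ : MvPolynomial ι k →+* U := eval₂Hom k.subtype X
  have hφ : ∀ f, φ f = eval X (map k.subtype f) := fun f => (eval_map _ _ f).symm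
  have hinj : Function.Injective φ := by
    refine (injective_iff_map_eq_zero _).2 fun f hf => ?_
    refine map_injective k.subtype k.subtype_injective ?_
    rw [map_zero]
    exact hX _ (fun m => by rw [coeff_map]; exact (coeff m f).2) ((hφ f).symm.trans hf)
  let K := FractionRing (MvPolynomial ι k)
  have hS : nonZeroDivisors (MvPolynomial ι k) ≤ (gv w₀).supp.primeCompl := by
    intro f hf h0
    obtain ⟨m, h1, h2⟩ := gn_att w₀ (nonZeroDivisors.ne_zero hf)
    have h3 : gn w₀ f = 0 := h0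
    exact h1 (w₀.zero_iff.1 (h2.symm.trans h3))
  let ψ : K →+* U := IsFractionRing.lift hinj
  have hψ : ∀ f, ψ (algebraMap _ K f) = φ f := fun f => IsFractionRing.lift_algebraMap hinj f
  obtain ⟨w, hw⟩ := realExt_holds K U ψ (fun z => (halg z).mono (adj_le.2
    ⟨fun c hc => ⟨algebraMap _ K (C (⟨c, hc⟩ : k)), by rw [hψ]; simp [φ]⟩, by
      rintro _ ⟨j, rfl⟩
      exact ⟨algebraMap _ K (MvPolynomial.X j), by rw [hψ]; simp [φ]⟩⟩))
    ((gv w₀).extendToLocalization hS K)
  have hw' : ∀ f, w (φ f) = gn w₀ f := fun f => by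
    rw [← hψ, hw, Valuation.extendToLocalization_apply_map_apply]
    rfl
  have hc : ∀ c : k, w c = w₀ c := fun c => by
    have := hw' (C c)
    rw [C_apply, gn_monomial, ← C_apply] at this
    simpa [φ] using this
  refine ⟨w, hc, fun j => ?_, fun f hf m => ?_⟩
  · have h1 := (hw' (MvPolynomial.X j)).trans (gn_monomial w₀ (Finsupp.single j 1) 1)
    simpa [φ] using h1.le
  · obtain ⟨g, rfl⟩ := exists_lift k.subtype f fun m => ⟨⟨_, hf m⟩, rfl⟩
    rw [← hφ, hw', coeff_map]
    exact (hc _).trans_le (le_gn w₀ g m)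

end P179W
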