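import Vale.Agent.P179W.AmbGal
import Vale.Agent.P179W.PtMap

/-!
# P179W : generic tuples of points (B7, B8)
-/

set_option linter.all false

open scoped NNReal Classical
open Polynomial

noncomputable section

namespace P179W

namespace GenH

variable {U U' : Type} [Field U] [Field U']

/-- two ring maps with the same kernel induce a map of the generated fields -/
theorem ker_ext {A : Type} [CommRing A] (φ : A →+* U) (φ' : A →+* U')
    (h : ∀ a, φ a = 0 ↔ φ' a = 0) (L : Subfield U) (hL : L ≤ Subfield.closure (Set.range φ)) :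
    ∃ f : L →+* U', ∀ a (z : L), z.1 = φ a → f z = φ' a := by
  haveI : (RingHom.ker φ).IsPrime := RingHom.ker_isPrime φ
  let B := A ⧸ RingHom.ker φ
  let g : B →+* U := Ideal.Quotient.lift _ φ fun a ha => ha
  let g' : B →+* U' := Ideal.Quotient.lift _ φ' fun a ha => (h a).1 ha
  have hg : Function.Injective g := by
    rw [injective_iff_map_eq_zero]
    intro b hb
    obtain ⟨a, rfl⟩ := Ideal.Quotient.mk_surjective b
    exact Ideal.Quotient.eq_zero_iff_mem.2 hb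
  have hg' : Function.Injective g' := by
    rw [injective_iff_map_eq_zero]
    intro b hb
    obtain ⟨a, rfl⟩ := Ideal.Quotient.mk_surjective b
    exact Ideal.Quotient.eq_zero_iff_mem.2 ((h a).2 hb)
  let ψ : FractionRing B →+* U := IsFractionRing.lift hg
  let ψ' : FractionRing B →+* U' := IsFractionRing.lift hg'
  have e : ∀ a, ψ (algebraMap B _ (Ideal.Quotient.mk _ a)) = φ a := fun a =>
    IsFractionRing.lift_algebraMap hg _
  have e' : ∀ a, ψ' (algebraMap B _ (Ideal.Quotient.mk _ a)) = φ' a := fun a =>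
    IsFractionRing.lift_algebraMap hg' _
  have hle : L ≤ ψ.fieldRange := hL.trans (Subfield.closure_le.2 (by
    rintro _ ⟨a, rfl⟩
    exact ⟨_, e a⟩))
  refine ⟨ψ'.comp (ψ.rangeRestrictFieldEquiv.symm.toRingHom.comp (Subfield.inclusion hle)),
    fun a z hz => ?_⟩
  have k : ψ.rangeRestrictFieldEquiv.symm (Subfield.inclusion hle z) =
      algebraMap B _ (Ideal.Quotient.mk _ a) := by
    apply ψ.injective
    rw [RingHom.rangeRestrictFieldEquiv_apply_symm_apply, e, ← hz]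
    rfl
  show ψ' (ψ.rangeRestrictFieldEquiv.symm (Subfield.inclusion hle z)) = _
  rw [k, e']

/-- extension of an embedding to a simple extension -/
theorem simple_ext (K : Subfield U) (f₀ : K →+* U') (x : U) (x' : U')
    (h : ∀ p : K[X], aeval x p = 0 ↔ eval₂ f₀ x' p = 0) :
    ∃ f : ↥(adj (K : Set U) {x}) →+* U',
      (∀ (c : K) (z : ↥(adj (K : Set U) {x})), z.1 = c.1 → f z = f₀ c) ∧
      ∀ z : ↥(adj (K : Set U) {x}), z.1 = x → f z = x' := by
  obtain ⟨f, hf⟩ := ker_ext (aeval x : K[X] →ₐ[K] U).toRingHom (eval₂RingHom f₀ x') h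
    (adj (K : Set U) {x}) (adj_le.2 ⟨fun c hc => Subfield.subset_closure
      ⟨C ⟨c, hc⟩, aeval_C _ _⟩, by
        rintro _ rfl
        exact Subfield.subset_closure ⟨X, aeval_X _⟩⟩)
  refine ⟨f, fun c z hz => ?_, fun z hz => ?_⟩
  · rw [hf (C c) z (hz.trans (aeval_C x c).symm)]
    exact eval₂_C _ _
  · rw [hf X z (hz.trans (aeval_X (R := K) x).symm)]
    exact eval₂_X _ _

theorem range_le {K T : Set U} (f : ↥(adj K T) →+* U') (M : Subfield U')
    (h : ∀ z : ↥(adj K T), z.1 ∈ K ∪ T → f z ∈ M) : f.fieldRange ≤ M := by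
  have k : adj K T ≤ (M.comap f).map (adj K T).subtype := Subfield.closure_le.2 fun z hz =>
    ⟨⟨z, Subfield.subset_closure hz⟩, h _ hz, rfl⟩
  rintro _ ⟨z, rfl⟩
  obtain ⟨z', h1, h2⟩ := k z.2
  have : z' = z := Subtype.ext h2
  exact this ▸ h1

theorem transc_ker (K : Subfield U) (f₀ : K →+* U') {x : U} {x' : U'} (hx : Transc K x)
    (hx' : Transc f₀.fieldRange x') (p : K[X]) : aeval x p = 0 ↔ eval₂ f₀ x' p = 0 := by
  have h1 : aeval x p = 0 ↔ p = 0 :=
    ⟨fun h => by_contra fun h0 => transc_iff.1 hx ⟨p, h0, h⟩, fun h => by simp [h]⟩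
  rw [h1]
  refine ⟨fun h => by simp [h], fun h => ?_⟩
  have := hx' (p.map f₀) (fun k => by rw [coeff_map]; exact ⟨_, rfl⟩) (by rwa [eval_map])
  exact (Polynomial.map_eq_zero_iff f₀.injective).1 this

theorem quad_ker (K : Subfield U) (f₀ : K →+* U') {y : U} {y' : U'} (s t : K)
    (e : y ^ 2 + s * y = t) (e' : y' ^ 2 + f₀ s * y' = f₀ t) (hy : y ∉ K)
    (hy' : y' ∉ f₀.fieldRange) (p : K[X]) : aeval y p = 0 ↔ eval₂ f₀ y' p = 0 := by
  obtain ⟨a, b, h1, h2⟩ : ∃ a b : K, aeval y p = a + b * y ∧ eval₂ f₀ y' p = f₀ a + f₀ b * y' := by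
    induction p using Polynomial.induction_on with
    | C c => exact ⟨c, 0, by rw [aeval_C]; simp; rfl, by simp⟩
    | add p q hp hq =>
      obtain ⟨a, b, h1, h2⟩ := hp
      obtain ⟨a', b', h3, h4⟩ := hq
      refine ⟨a + a', b + b', ?_, ?_⟩
      · rw [map_add, h1, h3]; push_cast; ring
      · rw [eval₂_add, h2, h4, map_add, map_add]; ring
    | monomial n c ih =>
      obtain ⟨a, b, h1, h2⟩ := ih
      refine ⟨b * t, a - b * s, ?_, ?_⟩
      · rw [pow_succ, ← mul_assoc, map_mul, h1, aeval_X]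
        push_cast
        linear_combination (b : U) * e
      · rw [pow_succ, ← mul_assoc, eval₂_mul, h2, eval₂_X, map_mul, map_sub, map_mul]
        linear_combination f₀ b * e'
  rw [h1, h2]
  constructor
  · intro h
    obtain ⟨k1, k2⟩ := AmbGal.uniq hy a.2 b.2 (zero_mem _) (zero_mem _) (h.trans (by simp))
    rw [show a = 0 from Subtype.ext k1, show b = 0 from Subtype.ext k2]
    simp
  · intro h
    obtain ⟨k1, k2⟩ := AmbGal.uniq hy' ⟨a, rfl⟩ ⟨b, rfl⟩ (zero_mem _) (zero_mem _)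
      (h.trans (by simp))
    rw [(map_eq_zero f₀).1 k1, (map_eq_zero f₀).1 k2]
    simp

/-- `f` sends `a` to `b` -/
def Snd {K : Subfield U} (f : K →+* U') (a : U) (b : U') : Prop :=
  a ∈ K ∧ ∀ z : K, z.1 = a → f z = b

theorem Snd.app {K : Subfield U} {f : K →+* U'} {a : U} {b : U'} (h : Snd f a b) :
    f ⟨a, h.1⟩ = b := h.2 _ rfl

/-- extension of an embedding to the function field of the curve -/
theorem pair_ext (K : Subfield U) (f₀ : K →+* U') (E : WeierstrassCurve U)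
    (E' : WeierstrassCurve U') (h1 : Snd f₀ E.a₁ E'.a₁) (h2 : Snd f₀ E.a₂ E'.a₂)
    (h3 : Snd f₀ E.a₃ E'.a₃) (h4 : Snd f₀ E.a₄ E'.a₄) (h6 : Snd f₀ E.a₆ E'.a₆) {x y : U}
    {x' y' : U'} (e : E.toAffine.Equation x y) (e' : E'.toAffine.Equation x' y')
    (hx : Transc K x) (hx' : Transc f₀.fieldRange x') (L : Subfield U)
    (hL : L = adj (K : Set U) {x, y}) :
    ∃ f : L →+* U', (∀ a b, Snd f₀ a b → Snd f a b) ∧ Snd f x x' ∧ Snd f y y' := by
  have hE : CoeffIn E K := ⟨h1.1, h2.1, h3.1, h4.1, h6.1⟩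
  have hE' : CoeffIn E' f₀.fieldRange :=
    ⟨⟨_, h1.app⟩, ⟨_, h2.app⟩, ⟨_, h3.app⟩, ⟨_, h4.app⟩, ⟨_, h6.app⟩⟩
  obtain ⟨f₁, k1, k2⟩ := simple_ext K f₀ x x' (transc_ker K f₀ hx hx')
  have up : ∀ a b, Snd f₀ a b → Snd f₁ a b := fun a b h =>
    ⟨le_adj K _ h.1, fun z hz => (k1 ⟨a, h.1⟩ z hz).trans h.app⟩
  have hx1 : Snd f₁ x x' := ⟨right_subset_adj _ _ rfl, k2⟩
  have hle : f₁.fieldRange ≤ adj (f₀.fieldRange : Set U') {x'} := by
    refine range_le f₁ _ fun z hz => ?_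
    rcases hz with hz | hz
    · rw [k1 ⟨z.1, hz⟩ z rfl]
      exact le_adj _ _ ⟨_, rfl⟩
    · rw [k2 z hz]
      exact right_subset_adj _ _ rfl
  let xx : ↥(adj (K : Set U) {x}) := ⟨x, hx1.1⟩
  let c : ∀ {a b}, Snd f₀ a b → ↥(adj (K : Set U) {x}) := fun {a b} h => ⟨a, (up a b h).1⟩
  have hc : ∀ {a b} (h : Snd f₀ a b), f₁ (c h) = b := fun {a b} h => (up a b h).app
  have hxx : f₁ xx = x' := hx1.app
  obtain ⟨f₂, k3, k4⟩ := simple_ext (adj (K : Set U) {x}) f₁ y y'
    (quad_ker _ f₁ (c h1 * xx + c h3) (xx ^ 3 + c h2 * xx ^ 2 + c h4 * xx + c h6)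
      (by
        have := AmbGal.eqn e
        simp only [c, xx]
        push_cast
        linear_combination this)
      (by
        have := AmbGal.eqn e'
        simp only [map_add, map_mul, map_pow, hc, hxx]
        linear_combination this)
      (AmbGal.not_mem hE e hx) (fun h => AmbGal.not_mem hE' e' hx' (hle h)))
  have hL' : L ≤ adj (adj (K : Set U) {x} : Set U) {y} := by rw [hL, AmbGal.adj_pair]
  have m : ∀ a, a ∈ K → a ∈ L := fun a ha => hL ▸ le_adj K _ ha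
  refine ⟨f₂.comp (Subfield.inclusion hL'), fun a b h => ⟨m a h.1, fun z hz => ?_⟩,
    ⟨hL ▸ right_subset_adj _ _ (by simp), fun z hz => ?_⟩,
    ⟨hL ▸ right_subset_adj _ _ (by simp), fun z hz => k4 _ hz⟩⟩
  · exact (k3 (c h) _ hz).trans (hc h)
  · exact (k3 xx _ hz).trans hxx

theorem ai_iff {ι : Type} (k : Subfield U) (X : ι → U) :
    (∀ f : MvPolynomial ι U, (∀ m, f.coeff m ∈ k) → MvPolynomial.eval X f = 0 → f = 0) ↔
      AlgebraicIndependent k X := by
  have e : ∀ p : MvPolynomial ι k,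
      MvPolynomial.eval X (MvPolynomial.map k.subtype p) = MvPolynomial.aeval X p := fun p => by
    rw [MvPolynomial.eval_map, MvPolynomial.aeval_def]
    rfl
  rw [algebraicIndependent_iff]
  constructor
  · intro h p hp
    refine MvPolynomial.map_injective k.subtype k.subtype.injective ?_
    rw [map_zero]
    exact h _ (fun m => by rw [MvPolynomial.coeff_map]; exact (p.coeff m).2) ((e p).trans hp)
  · intro h f hf h0
    obtain ⟨p, rfl⟩ : f ∈ Set.range (MvPolynomial.map k.subtype) := by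
      rw [MvPolynomial.mem_range_map_iff_coeffs_subset]
      intro c hc
      obtain ⟨m, -, rfl⟩ := MvPolynomial.mem_coeffs_iff.1 hc
      exact ⟨⟨_, hf m⟩, rfl⟩
    rw [h p ((e p).symm.trans h0), map_zero]

theorem alg_iff' (k : Subfield U) (S : Set U) (z : U) :
    Alg (adj (k : Set U) S) z ↔ IsAlgebraic (Algebra.adjoin k S) z := by
  rw [← IntermediateField.isAlgebraic_adjoin_iff, adj_eq_adjoin]
  exact alg_iff

theorem alg_XY {ι : Type} {k : Subfield U} {E : WeierstrassCurve U} (hE : CoeffIn E k)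
    {X Y : ι → U} (T : Set ι) (h : ∀ j ∈ T, E.toAffine.Equation (X j) (Y j) ∨ Y j = 0) :
    ∀ z ∈ adj (k : Set U) (X '' T ∪ Y '' T), Alg (adj (k : Set U) (X '' T)) z := by
  rw [← adj_adj]
  refine alg_adj ?_
  rintro _ ⟨j, hj, rfl⟩
  rcases h j hj with h | h
  · exact AmbGal.alg_y (AmbGal.cmono hE (left_subset_adj _ _)) h
      (right_subset_adj _ _ ⟨j, hj, rfl⟩)
  · rw [h]; exact alg_of_mem (zero_mem _)

theorem gen_transc {ι : Type} {k : Subfield U} {E : WeierstrassCurve U} (hE : CoeffIn E k)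
    {X Y : ι → U} (h : Gen k E X Y) (T : Set ι) {j : ι} (hj : j ∉ T) :
    Transc (adj (k : Set U) (X '' T ∪ Y '' T)) (X j) := by
  rw [transc_iff_not_alg]
  intro h1
  have h2 := h1.trans (alg_XY hE T fun l _ => .inl (h.1 l))
  exact ((ai_iff k X).1 h.2).transcendental_adjoin hj ((alg_iff' k _ _).1 h2)

/-- the subgroup of the points over a subfield -/
def onSub (k : Subfield U) (E : WeierstrassCurve U) (hE : CoeffIn E k) :
    AddSubgroup E.toAffine.Point where
  carrier := {P | OnSet (k : Set U) P}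
  zero_mem' := trivial
  neg_mem' := by
    rintro (_ | ⟨x, y, h⟩) hP
    · trivial
    · exact ⟨hP.1, sub_mem (sub_mem (neg_mem hP.2) (mul_mem hE.1 hP.1)) hE.2.2.1⟩
  add_mem' := by
    rintro (_ | ⟨x₁, y₁, h₁⟩) (_ | ⟨x₂, y₂, h₂⟩) hP hQ
    · trivial
    · exact hQ
    · exact hP
    · by_cases hxy : x₁ = x₂ ∧ y₁ = E.toAffine.negY x₂ y₂
      · rw [WeierstrassCurve.Affine.Point.add_of_Y_eq hxy.1 hxy.2]
        trivial
      · rw [WeierstrassCurve.Affine.Point.add_some hxy]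
        obtain ⟨a1, a2, a3, a4, a6⟩ := hE
        obtain ⟨p1, p2⟩ := hP
        obtain ⟨q1, q2⟩ := hQ
        have neg : ∀ x y, x ∈ k → y ∈ k → E.toAffine.negY x y ∈ k := fun x y hx hy =>
          sub_mem (sub_mem (neg_mem hy) (mul_mem a1 hx)) a3
        have n : ∀ m : ℕ, (m : U) ∈ k := fun m => natCast_mem k m
        have sl : E.toAffine.slope x₁ x₂ y₁ y₂ ∈ k := by
          unfold WeierstrassCurve.Affine.slope
          split_ifs
          · exact zero_mem _
          · exact div_mem (sub_mem (add_mem (add_mem (mul_mem (n 3) (pow_mem p1 2))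
              (mul_mem (mul_mem (n 2) a2) p1)) a4) (mul_mem a1 p2)) (sub_mem p2 (neg _ _ p1 p2))
          · exact div_mem (sub_mem p2 q2) (sub_mem p1 q1)
        have ax : E.toAffine.addX x₁ x₂ (E.toAffine.slope x₁ x₂ y₁ y₂) ∈ k :=
          sub_mem (sub_mem (sub_mem (add_mem (pow_mem sl 2) (mul_mem a1 sl)) a2) p1) q1
        exact ⟨ax, neg _ _ ax (add_mem (mul_mem sl (sub_mem ax p1)) p2)⟩

/-- a family spanning an independent family of the same finite size is independent -/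
theorem ai_of_span {ι : Type} [Fintype ι] (k : Subfield U) {X X' : ι → U}
    (h : AlgebraicIndependent k X) (h' : ∀ j, Alg (adj (k : Set U) (Set.range X')) (X j)) :
    AlgebraicIndependent k X' := by
  let M := AlgebraicIndependent.matroid k U
  have h1 : M.Indep (Set.range X) := h.to_subtype_range
  have h2 : Set.range X ⊆ M.closure (Set.range X') := by
    rintro _ ⟨j, rfl⟩
    rw [AlgebraicIndependent.matroid_closure_eq]
    exact (Subalgebra.mem_algebraicClosure _ _).2 ((alg_iff' k _ _).1 (h' j))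
  have h3 : (Set.univ : Set ι).encard ≤ M.eRk (Set.range X') := by
    rw [← M.eRk_closure_eq, ← h.injective.encard_image, Set.image_univ]
    exact h1.encard_le_eRk_of_subset h2
  have h4 : (Set.range X').encard ≤ (Set.univ : Set ι).encard := by
    rw [← Set.image_univ]; exact Set.encard_image_le _ _
  have h5 := M.eRk_le_encard (Set.range X')
  have h6 : M.Indep (Set.range X') :=
    (Matroid.indep_iff_eRk_eq_encard_of_finite (Set.finite_range X')).2
      (le_antisymm h5 (h4.trans h3))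
  have h7 : Set.InjOn X' Set.univ := Set.toFinite _ |>.injOn_of_encard_image_eq (by
    rw [Set.image_univ]; exact le_antisymm h4 (h3.trans h5))
  exact .of_subtype_range (Set.injOn_univ.1 h7) h6

def xc {E : WeierstrassCurve U} : E.toAffine.Point → U
  | .zero => 0
  | .some x _ _ => x

def yc {E : WeierstrassCurve U} : E.toAffine.Point → U
  | .zero => 0
  | .some _ y _ => y

theorem onSet_iff {E : WeierstrassCurve U} (F : Subfield U) (P : E.toAffine.Point) :
    OnSet (F : Set U) P ↔ xc P ∈ F ∧ yc P ∈ F := by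
  rcases P with _ | ⟨x, y, h⟩
  · exact ⟨fun _ => ⟨zero_mem _, zero_mem _⟩, fun _ => trivial⟩
  · exact Iff.rfl

theorem xc_eq {E : WeierstrassCurve U} (P : E.toAffine.Point) :
    E.toAffine.Equation (xc P) (yc P) ∧ P = pt E (xc P) (yc P) ∨ xc P = 0 ∧ yc P = 0 := by
  rcases P with _ | ⟨x, y, h⟩
  · exact .inr ⟨rfl, rfl⟩
  · exact .inl ⟨h.1, (pt_of h).symm⟩

end GenH

namespace GenH

variable {U U' : Type} [Field U] [Field U']

theorem Snd.incl {K L : Subfield U} {f : K →+* U'} {a : U} {b : U'} (hle : L ≤ K)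
    (h : Snd f a b) (ha : a ∈ L) : Snd (f.comp (Subfield.inclusion hle)) a b :=
  ⟨ha, fun z hz => h.2 _ hz⟩

theorem Snd.base {K : Subfield U} (f : K →+* U') (c : K) : Snd f c.1 (f c) :=
  ⟨c.2, fun z hz => congrArg f (Subtype.ext hz)⟩

theorem Snd.of_eq {K : Subfield U} {f : K →+* U'} {a : U} {b b' : U'} (h : Snd f a b)
    (e : b' = b) : Snd f a b' := e ▸ h

theorem ins_eq {ι : Type} (k : Set U) (X Y : ι → U) (T : Set ι) (j : ι) :
    adj k (X '' insert j T ∪ Y '' insert j T) =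
      adj (adj k (X '' T ∪ Y '' T) : Set U) {X j, Y j} := by
  rw [adj_adj, Set.image_insert_eq, Set.image_insert_eq]
  congr 1
  ext z
  simp only [Set.mem_union, Set.mem_insert_iff, Set.mem_singleton_iff]
  tauto

theorem step {ι : Type} {k : Subfield U} {E : WeierstrassCurve U} {E' : WeierstrassCurve U'}
    {f₀ : k →+* U'} (e1 : Snd f₀ E.a₁ E'.a₁) (e2 : Snd f₀ E.a₂ E'.a₂) (e3 : Snd f₀ E.a₃ E'.a₃)
    (e4 : Snd f₀ E.a₄ E'.a₄) (e6 : Snd f₀ E.a₆ E'.a₆) {X Y : ι → U} {X' Y' : ι → U'}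
    (hG : Gen k E X Y) (hG' : Gen f₀.fieldRange E' X' Y') (T : Set ι) (j : ι) (hj : j ∉ T)
    (f : ↥(adj (k : Set U) (X '' T ∪ Y '' T)) →+* U') (h1 : ∀ a b, Snd f₀ a b → Snd f a b)
    (h2 : ∀ l ∈ T, Snd f (X l) (X' l) ∧ Snd f (Y l) (Y' l)) :
    ∃ g : ↥(adj (k : Set U) (X '' insert j T ∪ Y '' insert j T)) →+* U',
      (∀ a b, Snd f₀ a b → Snd g a b) ∧
        ∀ l ∈ insert j T, Snd g (X l) (X' l) ∧ Snd g (Y l) (Y' l) := by
  have hE : CoeffIn E k := ⟨e1.1, e2.1, e3.1, e4.1, e6.1⟩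
  have hE' : CoeffIn E' f₀.fieldRange :=
    ⟨⟨_, e1.app⟩, ⟨_, e2.app⟩, ⟨_, e3.app⟩, ⟨_, e4.app⟩, ⟨_, e6.app⟩⟩
  have hle : f.fieldRange ≤ adj (f₀.fieldRange : Set U') (X' '' T ∪ Y' '' T) := by
    refine range_le f _ fun z hz => ?_
    rcases hz with hz | ⟨l, hl, hz⟩ | ⟨l, hl, hz⟩
    · have e : f z = f₀ ⟨z.1, hz⟩ := (h1 z.1 _ (Snd.base f₀ ⟨z.1, hz⟩)).2 z rfl
      rw [e]
      exact le_adj f₀.fieldRange _ (f₀.mem_fieldRange_self _)
    · rw [(h2 l hl).1.2 z hz.symm]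
      exact right_subset_adj _ _ (.inl ⟨l, hl, rfl⟩)
    · rw [(h2 l hl).2.2 z hz.symm]
      exact right_subset_adj _ _ (.inr ⟨l, hl, rfl⟩)
  have t1 := gen_transc hE hG T hj
  have t2 : Transc f.fieldRange (X' j) := (gen_transc hE' hG' T hj).mono hle
  obtain ⟨g, g1, g2, g3⟩ := pair_ext (adj (k : Set U) (X '' T ∪ Y '' T)) f E E' (h1 _ _ e1)
    (h1 _ _ e2) (h1 _ _ e3) (h1 _ _ e4) (h1 _ _ e6) (hG.1 j) (hG'.1 j) t1 t2
    (adj (k : Set U) (X '' insert j T ∪ Y '' insert j T)) (ins_eq (k : Set U) X Y T j)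
  refine ⟨g, fun a b h => g1 _ _ (h1 a b h), fun l hl => ?_⟩
  rcases hl with rfl | hl
  · exact ⟨g2, g3⟩
  · exact ⟨g1 _ _ (h2 l hl).1, g1 _ _ (h2 l hl).2⟩

theorem main {ι : Type} {k : Subfield U} {E : WeierstrassCurve U} {E' : WeierstrassCurve U'}
    {f₀ : k →+* U'} (e1 : Snd f₀ E.a₁ E'.a₁) (e2 : Snd f₀ E.a₂ E'.a₂) (e3 : Snd f₀ E.a₃ E'.a₃)
    (e4 : Snd f₀ E.a₄ E'.a₄) (e6 : Snd f₀ E.a₆ E'.a₆) {X Y : ι → U} {X' Y' : ι → U'}
    (hG : Gen k E X Y) (hG' : Gen f₀.fieldRange E' X' Y') (T : Set ι) (hT : T.Finite) :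
    ∃ f : ↥(adj (k : Set U) (X '' T ∪ Y '' T)) →+* U', (∀ a b, Snd f₀ a b → Snd f a b) ∧
      ∀ l ∈ T, Snd f (X l) (X' l) ∧ Snd f (Y l) (Y' l) := by
  induction T, hT using Set.Finite.induction_on with
  | empty =>
    have hle : adj (k : Set U) (X '' ∅ ∪ Y '' ∅) ≤ k := adj_le.2 ⟨le_rfl, by simp⟩
    exact ⟨f₀.comp (Subfield.inclusion hle), fun a b h => h.incl hle (le_adj k _ h.1),
      fun l hl => hl.elim⟩
  | insert hj _ ih =>
    obtain ⟨f, h1, h2⟩ := ih
    exact step e1 e2 e3 e4 e6 hG hG' _ _ hj f h1 h2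

end GenH

open GenH in
theorem genMap_holds : GenMapStmt := by
  intro U U' _ _ ι _ k E E' f₀ hE e1 e2 e3 e4 e6 X Y X' Y' hG hG'
  obtain ⟨f, h1, h2⟩ := main ((Snd.base f₀ ⟨_, hE.1⟩).of_eq e1)
    ((Snd.base f₀ ⟨_, hE.2.1⟩).of_eq e2) ((Snd.base f₀ ⟨_, hE.2.2.1⟩).of_eq e3)
    ((Snd.base f₀ ⟨_, hE.2.2.2.1⟩).of_eq e4) ((Snd.base f₀ ⟨_, hE.2.2.2.2⟩).of_eq e6) hG hG'
    Set.univ Set.finite_univ
  have hle : adj (k : Set U) (Set.range X ∪ Set.range Y) ≤
      adj (k : Set U) (X '' Set.univ ∪ Y '' Set.univ) := by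
    rw [Set.image_univ, Set.image_univ]
  exact ⟨f.comp (Subfield.inclusion hle),
    fun c z hz => ((h1 _ _ (Snd.base f₀ c)).incl hle (le_adj k _ c.2)).2 z hz, fun j z =>
    ⟨fun hz => ((h2 j trivial).1.incl hle (right_subset_adj _ _ (.inl ⟨j, rfl⟩))).2 z hz,
      fun hz => ((h2 j trivial).2.incl hle (right_subset_adj _ _ (.inr ⟨j, rfl⟩))).2 z hz⟩⟩

open GenH in
theorem GenH.indep : IndepStmt := by
  intro U _ k E hE hΔ
  refine ⟨⟨onSub k E hE, fun P => Iff.rfl⟩, fun ι _ X Y hG Z hZ hc => ?_⟩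
  set X' : ι → U := fun j => xc (Z j) with hX'
  set Y' : ι → U := fun j => yc (Z j) with hY'
  have hle : adj (k : Set U) (Set.range X' ∪ Set.range Y') ≤
      adj (k : Set U) (Set.range X ∪ Set.range Y) := by
    refine adj_le.2 ⟨left_subset_adj _ _, ?_⟩
    rintro _ (⟨j, rfl⟩ | ⟨j, rfl⟩)
    · exact ((onSet_iff _ _).1 (hZ j)).1
    · exact ((onSet_iff _ _).1 (hZ j)).2
  have hcl : AddSubgroup.closure (Set.range Z ∪ {P | OnSet (k : Set U) P}) ≤
      onSub (adj (k : Set U) (Set.range X' ∪ Set.range Y')) E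
        (AmbGal.cmono hE (left_subset_adj _ _)) := by
    refine (AddSubgroup.closure_le _).2 ?_
    rintro P (⟨j, rfl⟩ | hP)
    · exact (onSet_iff _ _).2 ⟨right_subset_adj _ _ (.inl ⟨j, rfl⟩),
        right_subset_adj _ _ (.inr ⟨j, rfl⟩)⟩
    · have := (onSet_iff k P).1 hP
      exact (onSet_iff _ _).2 ⟨le_adj k _ this.1, le_adj k _ this.2⟩
  have hm : ∀ j, X j ∈ adj (k : Set U) (Set.range X' ∪ Set.range Y') ∧
      Y j ∈ adj (k : Set U) (Set.range X' ∪ Set.range Y') := fun j => by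
    have := hcl (hc j)
    rw [pt_of (nonsing_of_Δ hΔ (hG.1 j))] at this
    exact this
  have hai : AlgebraicIndependent k X' := by
    refine ai_of_span k ((ai_iff k X).1 hG.2) fun j => ?_
    have := alg_XY hE (X := X') (Y := Y') Set.univ
      (fun l _ => (xc_eq (Z l)).imp (fun h => h.1) fun h => h.2)
    rw [Set.image_univ, Set.image_univ] at this
    exact this _ (hm j).1
  have hz : ∀ j, E.toAffine.Equation (X' j) (Y' j) ∧ Z j = pt E (X' j) (Y' j) := fun j =>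
    (xc_eq (Z j)).resolve_right fun h => hai.transcendental j (by
      rw [show X' j = 0 from h.1]; exact isAlgebraic_zero)
  refine ⟨X', Y', fun j => (hz j).2, ⟨fun j => (hz j).1, (ai_iff k X').2 hai⟩,
    le_antisymm hle (adj_le.2 ⟨left_subset_adj _ _, ?_⟩)⟩
  rintro _ (⟨j, rfl⟩ | ⟨j, rfl⟩)
  · exact (hm j).1
  · exact (hm j).2

end P179W
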