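import Vale.Agent.P179W.PlaceB
import Vale.Agent.P179W.AmbBasic

/-!
# P179W : derivations and discrete valuations in residue characteristic zero
-/

open scoped NNReal Classical
open Polynomial

noncomputable section

namespace P179W

namespace HorizH

open Pl

variable {R : Type} [Field R] {k F M : Subfield R} {Γ : Type} [LinearOrderedCommGroupWithZero Γ]
  {v : Valuation R Γ}

theorem normalize (v : Valuation R Γ) {f : R[X]} (f0 : f ≠ 0) (hf : ∀ j, f.coeff j ∈ F) :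
    ∃ c ∈ F, c ≠ 0 ∧ (∀ j, v (c * f.coeff j) ≤ 1) ∧ ∃ j, v (c * f.coeff j) = 1 := by
  obtain ⟨i, hi, h⟩ := f.support.exists_max_image (fun i => v (f.coeff i)) (support_nonempty.2 f0)
  have a := mem_support_iff.1 hi
  have b := v.pos_iff.2 a
  refine ⟨_, inv_mem (hf i), inv_ne_zero a, fun j => ?_, i, by rw [inv_mul_cancel₀ a, map_one]⟩
  rw [map_mul, map_inv₀, inv_mul_le_one₀ b]
  by_cases hj : j ∈ f.support
  · exact h j hj
  · simp [notMem_support_iff.1 hj]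

theorem val_aeval [IsAlgClosed k] (hk : ∀ c ∈ k, v c ≤ 1) {x : R} (hx : v x ≤ 1)
    (hc : ∀ a ∈ k, 1 ≤ v (x - a)) (f : k[X]) : f ≠ 0 → v (aeval x f) = 1 := by
  induction IsAlgClosed.splits f using Submonoid.closure_induction with
  | mem g hg =>
    rcases hg with ⟨a, rfl⟩ | ⟨a, rfl⟩
    · exact fun h0 => by
        rw [aeval_C]
        exact vk hk a.2 fun e => h0 (by rw [show a = 0 from Subtype.ext e, map_zero])
    · intro _
      rw [map_add, aeval_X, aeval_C]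
      refine le_antisymm (v.map_add_le hx (hk _ a.2)) ?_
      have := hc _ (neg_mem a.2)
      rwa [sub_neg_eq_add] at this
  | one => simp
  | mul f g _ _ hf hg =>
    exact fun h0 => by
      rw [map_mul, map_mul, hf (left_ne_zero_of_mul h0), hg (right_ne_zero_of_mul h0), mul_one]

/-- the residue field of an algebraic extension -/
theorem residue [IsAlgClosed k] (hk : ∀ c ∈ k, v c ≤ 1)
    (hF : ∀ u ∈ F, v u ≤ 1 → ∃ c ∈ k, v (u - c) < 1) {z : R} (ha : Alg F z) (hz : v z ≤ 1) :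
    ∃ c ∈ k, v (z - c) < 1 := by
  by_contra hc
  push Not at hc
  obtain ⟨f, f0, hf, e⟩ := ha
  obtain ⟨c, hc1, c0, h1, i, h2⟩ := normalize v f0 hf
  choose a ha h3 using fun j => hF _ (mul_mem hc1 (hf j)) (h1 j)
  let g : k[X] := ∑ j ∈ f.support, monomial j ⟨a j, ha j⟩
  have hi : i ∈ f.support := mem_support_iff.2 fun e => by simp [e] at h2
  have g0 : g ≠ 0 := fun e => by
    have := congrArg (fun p : k[X] => (p.coeff i : R)) e
    simp only [g, finsetSum_coeff, coeff_monomial, Finset.sum_ite_eq', hi, if_true, coeff_zero,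
      ZeroMemClass.coe_zero] at this
    have h4 := h3 i
    rw [this, sub_zero, h2] at h4
    exact h4.false
  have h4 : aeval z g = -∑ j ∈ f.support, (c * f.coeff j - a j) * z ^ j := by
    have : ∑ j ∈ f.support, f.coeff j * z ^ j = 0 := eval_eq_sum.symm.trans e
    simp only [g, map_sum, aeval_monomial, sub_mul, Finset.sum_sub_distrib, mul_assoc,
      ← Finset.mul_sum, this, mul_zero, zero_sub, neg_neg]
    rfl
  have h5 := val_aeval hk hz hc g g0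
  rw [h4, v.map_neg] at h5
  exact (v.map_sum_lt one_ne_zero fun j _ => vmul_lt' v (h3 j) (vpow_le v hz j)).ne h5

theorem binom (T : Subring R) {f : R[X]} (hf : ∀ j, f.coeff j ∈ T) {a h : R} (ha : a ∈ T)
    (hh : h ∈ T) : f.derivative.eval a ∈ T ∧
      ∃ κ ∈ T, f.eval (a + h) = f.eval a + f.derivative.eval a * h + κ * h ^ 2 := by
  obtain ⟨g, rfl⟩ : f ∈ lifts T.subtype := (lifts_iff_coeff_lifts _).2 fun j => ⟨⟨_, hf j⟩, rfl⟩
  have ev (p : T[X]) (z : T) : (p.map T.subtype).eval z.1 = (p.eval z).1 :=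
    eval_map_apply T.subtype z
  obtain ⟨κ, e⟩ := binomExpansion g ⟨a, ha⟩ ⟨h, hh⟩
  simp only [coe_mapRingHom, derivative_map]
  refine ⟨ev _ ⟨a, ha⟩ ▸ SetLike.coe_mem _, κ, κ.2, ?_⟩
  rw [ev _ ⟨a, ha⟩, ev _ ⟨a, ha⟩]
  exact (ev g (⟨a, ha⟩ + ⟨h, hh⟩)).trans (congrArg Subtype.val e)

theorem exists_sep [CharZero R] {z : R} (ha : Alg F z) : ∃ f : R[X], (∀ j, f.coeff j ∈ F) ∧
    f.eval z = 0 ∧ f.derivative.eval z ≠ 0 := by
  have h := (alg_iff.1 ha).isIntegral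
  refine ⟨_, coeff_map_mem F (minpoly F z), ?_, ?_⟩
  · rw [eval_map_algebraMap, minpoly.aeval]
  · rw [derivative_map, eval_map_algebraMap]
    exact (minpoly.irreducible h).separable.aeval_derivative_ne_zero (minpoly.aeval F z)

/-- the integral elements whose derivative is bounded by `C` -/
def derLe (v : Valuation R Γ) (δ : Derivation ℤ R R) (C : Γ) : Subring R where
  carrier := {z | v z ≤ 1 ∧ v (δ z) ≤ C}
  zero_mem' := ⟨by simp, by simp⟩
  one_mem' := ⟨by simp, by simp⟩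
  add_mem' ha hb := ⟨v.map_add_le ha.1 hb.1, by rw [map_add]; exact v.map_add_le ha.2 hb.2⟩
  neg_mem' ha := ⟨by rw [v.map_neg]; exact ha.1, by rw [map_neg, v.map_neg]; exact ha.2⟩
  mul_mem' ha hb := ⟨vmul_le v ha.1 hb.1, by
    rw [Derivation.leibniz, smul_eq_mul, smul_eq_mul]
    refine v.map_add_le ?_ ?_ <;> rw [map_mul]
    exacts [(mul_le_of_le_one_left' ha.1).trans hb.2, (mul_le_of_le_one_left' hb.1).trans ha.2]⟩

theorem derLe_cl {δ : Derivation ℤ R R} {C : Γ} (hk : ∀ c ∈ k, v c ≤ 1)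
    (h : ∀ c ∈ k, v (δ c) ≤ C) : Cl v k (derLe v δ C) := by
  refine ⟨fun c hc => ⟨hk c hc, h c hc⟩, fun u hu h1 => ⟨by rw [map_inv₀, h1, inv_one], ?_⟩⟩
  rw [Derivation.leibniz_inv, smul_eq_mul, map_mul, v.map_neg, map_pow, map_inv₀, h1, inv_one,
    one_pow, one_mul]
  exact hu.2

theorem vint (v : Valuation R Γ) (n : ℤ) : v (n : R) ≤ 1 := intCast_mem v.integer n

theorem small {ϖ : R} (ϖ0 : ϖ ≠ 0) (ϖ1 : v ϖ < 1) {z : R} (hd : z ≠ 0 → ∃ m : ℤ, v z = v ϖ ^ m)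
    (hz : v z < 1) : v z ≤ v ϖ := by
  by_cases z0 : z = 0
  · simp [z0]
  obtain ⟨m, hm⟩ := hd z0
  have p := v.pos_iff.2 ϖ0
  rw [hm, zpow_lt_one_iff_right_of_lt_one₀ p ϖ1] at hz
  rw [hm]
  exact (zpow_le_zpow_right_of_le_one₀ p ϖ1.le (by omega : 1 ≤ m)).trans (zpow_one _).le

theorem approx (FM : F ≤ M) {ϖ : R} (hϖ : ϖ ∈ F) (ϖ0 : ϖ ≠ 0) (ϖ1 : v ϖ < 1)
    (hd : ∀ z ∈ M, z ≠ 0 → ∃ m : ℤ, v z = v ϖ ^ m)
    (hr : ∀ z ∈ M, v z ≤ 1 → ∃ c ∈ F, v (z - c) < 1) {z : R} (hz : z ∈ M) (hv : v z ≤ 1)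
    (N : ℕ) : ∃ u ∈ F, v (u - z) ≤ v ϖ ^ N := by
  induction N with
  | zero => exact ⟨0, zero_mem _, by simpa using hv⟩
  | succ N ih =>
    obtain ⟨u, hu, h⟩ := ih
    have p := pow_pos (v.pos_iff.2 ϖ0) N
    have h1 := div_mem (sub_mem (FM hu) hz) (pow_mem (FM hϖ) N)
    obtain ⟨c, hc, h2⟩ := hr _ h1 (by rwa [map_div₀, map_pow, div_le_one₀ p])
    refine ⟨u - ϖ ^ N * c, sub_mem hu (mul_mem (pow_mem hϖ N) hc), ?_⟩
    rw [show u - ϖ ^ N * c - z = ϖ ^ N * ((u - z) / ϖ ^ N - c) by field_simp; ring, map_mul,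
      map_pow, pow_succ]
    exact mul_le_mul_right (small ϖ0 ϖ1 (hd _ (sub_mem h1 (FM hc))) h2) _

/-- a derivation which is bounded on the valuation ring of `F` is bounded on the valuation ring
of an algebraic extension with the same value group and the same residue field -/
theorem bound_ext [CharZero R] (FM : F ≤ M) {ϖ : R} (hϖ : ϖ ∈ F) (ϖ0 : ϖ ≠ 0) (ϖ1 : v ϖ < 1)
    (hd : ∀ z ∈ M, z ≠ 0 → ∃ m : ℤ, v z = v ϖ ^ m)
    (hr : ∀ z ∈ M, v z ≤ 1 → ∃ c ∈ F, v (z - c) < 1) {δ : Derivation ℤ R R} {C : Γ}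
    (hF : ∀ u ∈ F, v u ≤ 1 → v (δ u) ≤ C) {z : R} (hz : z ∈ M) (ha : Alg F z) (hv : v z ≤ 1) :
    v (δ z) ≤ C := by
  by_contra hc
  push Not at hc
  have p := v.pos_iff.2 ϖ0
  obtain ⟨f, hf, e0, e1⟩ : ∃ f : R[X], (∀ j, f.coeff j ∈ F ∧ v (f.coeff j) ≤ 1) ∧
      f.eval z = 0 ∧ f.derivative.eval z ≠ 0 := by
    obtain ⟨f, hf, e0, e1⟩ := exists_sep ha
    obtain ⟨c, h1, c0, h2, -⟩ := normalize v (by rintro rfl; simp at e1) hf
    refine ⟨Polynomial.C c * f, fun j => ?_, by simp [e0], by simp [c0, e1]⟩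
    rw [coeff_C_mul]
    exact ⟨mul_mem h1 (hf j), h2 j⟩
  have hT (u : R) (hu : u ∈ F) (h : v u ≤ 1) : u ∈ derLe v δ (v (δ z)) :=
    ⟨h, (hF u hu h).trans hc.le⟩
  have zT : z ∈ derLe v δ (v (δ z)) := ⟨hv, le_rfl⟩
  have key (N : ℕ) : v (f.derivative.eval z) ≤ v ϖ ^ N := by
    obtain ⟨u, hu, h⟩ := approx FM hϖ ϖ0 ϖ1 hd hr hz hv (N + 1)
    have q : v ϖ ^ (N + 1) ≤ v ϖ ^ N := pow_le_pow_right_of_le_one' ϖ1.le N.le_succ
    have h0 : v (u - z) ≤ 1 := h.trans (pow_le_one' ϖ1.le _)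
    have u1 : v u ≤ 1 := by
      rw [← sub_add_cancel u z]
      exact v.map_add_le h0 hv
    obtain ⟨h1, κ, h2, e⟩ := binom _ (fun j => hT _ (hf j).1 (hf j).2) zT (sub_mem (hT u hu u1) zT)
    obtain ⟨G, hG⟩ : ∃ G, G = f.derivative.eval z + κ * (u - z) := ⟨_, rfl⟩
    have GT : G ∈ derLe v δ (v (δ z)) := hG ▸ add_mem h1 (mul_mem h2 (sub_mem (hT u hu u1) zT))
    have e' : f.eval u = (u - z) * G := by
      rw [add_sub_cancel, e0] at e
      rw [e, hG]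
      ring
    have h3 : v (δ (u - z)) = v (δ z) := by
      rw [map_sub, v.map_sub_eq_of_lt_right ((hF u hu u1).trans_lt hc)]
    have h4 : f.eval u ∈ F := eval_mem (mem_polyIn.2 fun j => (hf j).1) le_rfl hu
    have h5 : v (f.eval u / ϖ ^ (N + 1)) ≤ 1 := by
      rw [map_div₀, map_pow, div_le_one₀ (pow_pos p _), e', map_mul]
      exact (mul_le_of_le_one_right' GT.1).trans h
    have h6 : v (δ (f.eval u)) ≤ v ϖ ^ N * v (δ z) := by
      have k1 := (hF _ (div_mem h4 (pow_mem hϖ _)) h5).trans hc.le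
      rw [← mul_div_cancel₀ (f.eval u) (pow_ne_zero (N + 1) ϖ0), Derivation.leibniz,
        Derivation.leibniz_pow, smul_eq_mul, smul_eq_mul, smul_eq_mul, nsmul_eq_mul]
      refine v.map_add_le ?_ ?_
      · rw [map_mul, map_pow]
        exact mul_le_mul' q k1
      · rw [map_mul, map_mul, map_mul, map_pow, Nat.add_sub_cancel]
        refine (mul_le_of_le_one_left' h5).trans ((mul_le_of_le_one_left' ?_).trans
          (mul_le_mul_right ((hF _ hϖ ϖ1.le).trans hc.le) _))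
        simpa using vint v (N + 1 : ℕ)
    have h7 : v G * v (δ z) ≤ v ϖ ^ N * v (δ z) := by
      rw [← h3, ← map_mul, show G * δ (u - z) = δ (f.eval u) - (u - z) * δ G by
        rw [e', Derivation.leibniz, smul_eq_mul, smul_eq_mul]; ring, h3]
      refine v.map_sub_le h6 ?_
      rw [map_mul]
      exact mul_le_mul' (h.trans q) GT.2
    rw [show f.derivative.eval z = G - κ * (u - z) by rw [hG]; ring]
    refine v.map_sub_le (le_of_mul_le_mul_right h7 (zero_le.trans_lt hc)) ?_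
    rw [map_mul]
    exact (mul_le_of_le_one_left' h2.1).trans (h.trans q)
  have h1 : f.derivative.eval z ∈ M := eval_mem (K := F) (mem_polyIn.2 fun j => by
    rw [coeff_derivative]
    exact mul_mem (hf _).1 (add_mem (natCast_mem F j) (one_mem F))) FM hz
  obtain ⟨m, hm⟩ := hd _ h1 e1
  have := key (m.toNat + 1)
  rw [hm, ← zpow_natCast, zpow_le_zpow_iff_right_of_lt_one₀ p ϖ1] at this
  omega

theorem exchange {x y : R} (hx : Transc k x) (hy : Transc k y) (h : Alg (adj k {x}) y) :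
    Alg (adj k {y}) x := by
  rw [adj_eq_adjoin, alg_iff] at h ⊢
  exact IntermediateField.isAlgebraic_adjoin_iff.2 (IsAlgebraic.adjoin_singleton
    (transc_iff.1 hx) (transc_iff.1 hy) (IntermediateField.isAlgebraic_adjoin_iff.1 h))

theorem transc_of_lt (hk : ∀ c ∈ k, v c ≤ 1) {s : R} (s0 : s ≠ 0) (hs : v s < 1) : Transc k s :=
  transc_iff.2 fun ⟨f, f0, e⟩ => by
    obtain ⟨m, g, h1, h2⟩ := lead_poly hk hs f0
    rw [e] at h2
    rw [(mul_eq_zero.1 h2.symm).resolve_left (pow_ne_zero m s0)] at h1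
    simp at h1

theorem logder (δ : Derivation ℤ R R) {ϖ z : R} (ϖ0 : ϖ ≠ 0) (m : ℤ) :
    δ z = z * (m * (δ ϖ / ϖ)) + ϖ ^ m * δ (z / ϖ ^ m) := by
  conv_lhs => rw [← mul_div_cancel₀ z (zpow_ne_zero m ϖ0), Derivation.leibniz,
    Derivation.leibniz_zpow, zpow_sub_one₀ ϖ0]
  simp only [smul_eq_mul, zsmul_eq_mul]
  have := zpow_ne_zero m ϖ0
  field_simp
  ring

/-- a derivation which is logarithmic on one element of the maximal ideal is logarithmic -/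
theorem log_ext [CharZero R] (hk : ∀ c ∈ k, v c ≤ 1) (kM : k ≤ M) {ϖ : R} (hϖ : ϖ ∈ M)
    (ϖ0 : ϖ ≠ 0) (ϖ1 : v ϖ < 1) (hd : ∀ z ∈ M, z ≠ 0 → ∃ m : ℤ, v z = v ϖ ^ m)
    (hr : ∀ z ∈ M, v z ≤ 1 → ∃ c ∈ k, v (z - c) < 1) (ha : ∀ z ∈ M, Alg (adj k {ϖ}) z)
    {δ : Derivation ℤ R R} (h0 : ∀ c ∈ k, v (δ c) ≤ 1) {t : R} (ht : t ∈ M) (t0 : t ≠ 0)
    (t1 : v t < 1) (hδ : v (δ t) ≤ v t) {z : R} (hz : z ∈ M) : v (δ z) ≤ v z := by
  have p := v.pos_iff.2 ϖ0
  have h1 (z : R) (hz : z ∈ M) (m : ℤ) (hm : v z = v ϖ ^ m) :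
      v (ϖ ^ m * δ (z / ϖ ^ m)) ≤ v z * max 1 (v (δ ϖ)) := by
    rw [map_mul, map_zpow₀, ← hm]
    refine mul_le_mul_right (bound_ext (Pl.adj_le kM (Set.singleton_subset_iff.2 hϖ)) (x_mem1 _ ϖ)
      ϖ0 ϖ1 hd (fun z hz h => (hr z hz h).imp fun c hc => ⟨mem_adj_base hc.1, hc.2⟩)
      (fun u hu h => ((derLe_cl hk fun c hc => (h0 c hc).trans (le_max_left _ _)).gen1 hk ϖ0 ϖ1
        ⟨ϖ1.le, le_max_right _ _⟩ hu h).2) (div_mem hz (zpow_mem hϖ m))
      (ha _ (div_mem hz (zpow_mem hϖ m))) ?_) _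
    rw [map_div₀, map_zpow₀, hm, div_self (zpow_pos p m).ne']
  have h2 : v (δ ϖ / ϖ) ≤ 1 := by
    by_contra hc
    push Not at hc
    obtain ⟨m, hm⟩ := hd t ht t0
    have m0 : (m : R) ≠ 0 := Int.cast_ne_zero.2 (by
      rintro rfl
      rw [zpow_zero] at hm
      exact t1.ne hm)
    have q := v.pos_iff.2 t0
    have e : v (t * (m * (δ ϖ / ϖ))) = v t * v (δ ϖ / ϖ) := by
      rw [map_mul, map_mul, vk hk (intCast_mem k m) m0, one_mul]
    rw [logder δ ϖ0 m, v.map_add_eq_of_lt_left, e] at hδ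
    · exact (lt_mul_of_one_lt_right q hc).not_ge hδ
    rw [e]
    refine (h1 t ht m hm).trans_lt (mul_lt_mul_of_pos_left (max_lt hc ?_) q)
    rw [← div_mul_cancel₀ (δ ϖ) ϖ0, map_mul, div_mul_cancel₀ (δ ϖ) ϖ0]
    exact mul_lt_of_lt_one_right (zero_lt_one.trans hc) ϖ1
  by_cases z0 : z = 0
  · simp [z0]
  obtain ⟨m, hm⟩ := hd z hz z0
  rw [logder δ ϖ0 m]
  refine v.map_add_le ?_ ((h1 z hz m hm).trans (mul_le_of_le_one_right' (max_le le_rfl ?_)))
  · rw [map_mul]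
    exact mul_le_of_le_one_right' (vmul_le v (vint v m) h2)
  · rw [← div_mul_cancel₀ (δ ϖ) ϖ0]
    exact vmul_le v h2 ϖ1.le

end HorizH

end P179W
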