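import Vale.Agent.P179W.PS2

/-!
# P179W : power series which are algebraic over `κ[X]` are separable (helper53)
-/

set_option linter.all false

open scoped NNReal Classical
open Filter Topology Polynomial

noncomputable section

namespace P179W

namespace Ine

variable {κ : Type} [Field κ] {p : ℕ} [hp : Fact p.Prime] [CharP κ p]

/-- Cartier operators on a field -/
theorem exists_cartier (b : κ) (hb : b ≠ 0) :
    ∃ lam : κ →+ κ, (∀ u x, lam (u ^ p * x) = u * lam x) ∧ lam b ≠ 0 := by
  set F : Subfield κ := (frobenius κ p).fieldRange with hF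
  obtain ⟨φ, hφ⟩ := Module.Projective.exists_dual_ne_zero F hb
  have hinj : Function.Injective (frobenius κ p) := frobenius_inj κ p
  have hex : ∀ x, ∃ r, frobenius κ p r = φ x := fun x => (φ x).2
  choose r hr using hex
  refine ⟨AddMonoidHom.mk' r fun x y => hinj ?_, fun u x => hinj ?_, fun h => hφ ?_⟩
  · rw [map_add, hr, hr, hr, map_add]; rfl
  · have h1 : u ^ p * x = (⟨u ^ p, u, rfl⟩ : F) • x := rfl
    show frobenius κ p (r _) = frobenius κ p (u * r x)
    rw [map_mul, hr, hr, h1, map_smul]; rfl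
  · have h1 := hr b
    have h2 : r b = 0 := h
    rw [h2, map_zero] at h1
    exact Subtype.ext h1.symm

theorem coeff_pow_char (u : PowerSeries κ) (n : ℕ) :
    PowerSeries.coeff n (u ^ p) = if p ∣ n then PowerSeries.coeff (n / p) u ^ p else 0 := by
  have h := MvPowerSeries.map_frobenius_expand (R := κ) (σ := Unit) p hp.out.ne_zero (f := u)
  have h2 : u ^ p = PowerSeries.map (frobenius κ p) (PowerSeries.expand p hp.out.ne_zero u) :=
    h.symm
  rw [h2, PowerSeries.coeff_map, PowerSeries.coeff_expand]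
  split_ifs
  · rfl
  · exact map_zero _

variable (p) in
/-- Cartier operators on power series -/
def cart (lam : κ →+ κ) (l : ℕ) : PowerSeries κ →+ PowerSeries κ :=
  AddMonoidHom.mk' (fun f => PowerSeries.mk fun n => lam (PowerSeries.coeff (p * n + l) f))
    fun f g => by ext n; simp

theorem coeff_cart (lam : κ →+ κ) (l : ℕ) (f : PowerSeries κ) (n : ℕ) :
    PowerSeries.coeff n (cart p lam l f) = lam (PowerSeries.coeff (p * n + l) f) := by
  simp [cart]

theorem cart_mul {lam : κ →+ κ} (hl : ∀ u x, lam (u ^ p * x) = u * lam x) {l : ℕ} (hlp : l < p)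
    (u f : PowerSeries κ) : cart p lam l (u ^ p * f) = u * cart p lam l f := by
  ext n
  rw [coeff_cart, PowerSeries.coeff_mul, PowerSeries.coeff_mul, map_sum]
  symm
  have hp0 : 0 < p := hp.out.pos
  refine Finset.sum_of_injOn (fun ij => (p * ij.1, p * ij.2 + l)) ?_ ?_ ?_ ?_
  · intro a _ b _ h
    simp only [Prod.mk.injEq] at h
    exact Prod.ext (Nat.eq_of_mul_eq_mul_left hp0 h.1)
      (Nat.eq_of_mul_eq_mul_left hp0 (by omega))
  · intro ij hij
    rw [Finset.mem_coe, Finset.HasAntidiagonal.mem_antidiagonal] at hij ⊢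
    rw [← hij]; ring
  · intro ij hij hn
    rw [coeff_pow_char, if_neg, zero_mul, map_zero]
    rintro ⟨i, hi⟩
    apply hn
    rw [Finset.HasAntidiagonal.mem_antidiagonal] at hij
    have h1 : i ≤ n := by
      by_contra h
      have : p * (n + 1) ≤ p * i := Nat.mul_le_mul_left p (by omega)
      rw [mul_add] at this
      omega
    obtain ⟨j, rfl⟩ := Nat.exists_eq_add_of_le h1
    refine ⟨(i, j), by simp, Prod.ext hi.symm ?_⟩
    rw [mul_add] at hij
    simp only
    omega
  · intro ij _
    rw [coeff_pow_char, if_pos (dvd_mul_right _ _), Nat.mul_div_cancel_left _ hp0, hl, coeff_cart]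

theorem cart_poly (lam : κ →+ κ) (l : ℕ) (ρ : κ[X]) :
    ∃ ρ' : κ[X], cart p lam l (ρ : PowerSeries κ) = ρ' := by
  refine ⟨PowerSeries.trunc (ρ.natDegree + 1) (cart p lam l ρ), ?_⟩
  ext n
  rw [Polynomial.coeff_coe, PowerSeries.coeff_trunc]
  split_ifs with h
  · rfl
  · have h1 : n ≤ p * n := Nat.le_mul_of_pos_left n hp.out.pos
    rw [coeff_cart, Polynomial.coeff_coe, Polynomial.coeff_eq_zero_of_natDegree_lt (by omega),
      map_zero]

include hp in
/-- a power series which is algebraic over the polynomial ring is a simple root -/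
theorem exists_simple [CharP κ p] (y : PowerSeries κ) (P : (PowerSeries κ)[X]) (h0 : P ≠ 0)
    (hc : ∀ i, ∃ ρ : κ[X], P.coeff i = ρ) (hy : P.eval y = 0) :
    ∃ Q : (PowerSeries κ)[X], (∀ i, ∃ ρ : κ[X], Q.coeff i = ρ) ∧ Q.eval y = 0 ∧
      Q.derivative.eval y ≠ 0 := by
  induction hn : P.natDegree using Nat.strong_induction_on generalizing P with
  | _ n ih =>
  subst hn
  have hd : P.natDegree ≠ 0 := by
    intro h
    rw [Polynomial.eq_C_of_natDegree_eq_zero h] at hy h0
    rw [Polynomial.eval_C] at hy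
    exact h0 (by rw [hy, map_zero])
  by_cases h1 : P.derivative.eval y ≠ 0
  · exact ⟨P, hc, hy, h1⟩
  push Not at h1
  by_cases h2 : P.derivative ≠ 0
  · refine ih _ (Polynomial.natDegree_derivative_lt hd) _ h2 (fun i => ?_) h1 rfl
    obtain ⟨ρ, hρ⟩ := hc (i + 1)
    refine ⟨ρ * ((i : κ[X]) + 1), ?_⟩
    rw [Polynomial.coeff_derivative, hρ, Polynomial.coe_mul, Polynomial.coe_add,
      Polynomial.coe_one, ← Polynomial.coeToPowerSeries.ringHom_apply (φ := (i : κ[X])),
      map_natCast]
  push Not at h2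
  haveI : CharP (PowerSeries κ) p :=
    charP_of_injective_ringHom (f := PowerSeries.C (R := κ)) PowerSeries.C_injective p
  have h3 := Polynomial.expand_contract p h2 hp.out.ne_zero
  set Q0 := Polynomial.contract p P with hQ0
  have h4 : P.natDegree = Q0.natDegree * p := by rw [← h3, Polynomial.natDegree_expand]
  have h5 : Q0 ≠ 0 := by
    intro h
    rw [h, map_zero] at h3
    exact h0 h3.symm
  obtain ⟨k, hk⟩ : ∃ k, PowerSeries.coeff k (Q0.coeff Q0.natDegree) ≠ 0 := by
    by_contra h
    push Not at h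
    exact Polynomial.leadingCoeff_ne_zero.2 h5 (PowerSeries.ext fun k => by simpa using h k)
  obtain ⟨lam, hl, hlb⟩ := exists_cartier (p := p) _ hk
  set Q : (PowerSeries κ)[X] := ∑ i ∈ Finset.range (Q0.natDegree + 1),
    Polynomial.monomial i (cart p lam (k % p) (Q0.coeff i)) with hQ
  have hQc : ∀ i, Q.coeff i = cart p lam (k % p) (Q0.coeff i) := by
    intro i
    rw [hQ, Polynomial.finset_sum_coeff]
    simp only [Polynomial.coeff_monomial, Finset.sum_ite_eq', Finset.mem_range]
    split_ifs with h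
    · rfl
    · rw [Polynomial.coeff_eq_zero_of_natDegree_lt (by omega), map_zero]
  refine ih Q.natDegree ?_ Q ?_ (fun i => ?_) ?_ rfl
  · have h6 : Q.natDegree ≤ Q0.natDegree := by
      rw [Polynomial.natDegree_le_iff_coeff_eq_zero]
      intro i hi
      rw [hQc, Polynomial.coeff_eq_zero_of_natDegree_lt hi, map_zero]
    have h7 : Q0.natDegree ≠ 0 := by
      intro h
      rw [h, zero_mul] at h4
      exact hd h4
    have h8 : Q0.natDegree * 1 < Q0.natDegree * p :=
      Nat.mul_lt_mul_of_pos_left hp.out.one_lt (Nat.pos_of_ne_zero h7)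
    omega
  · intro h
    have h6 := hQc Q0.natDegree
    rw [h, Polynomial.coeff_zero] at h6
    have h7 := congrArg (PowerSeries.coeff (k / p)) h6
    rw [coeff_cart, Nat.div_add_mod, map_zero] at h7
    exact hlb h7.symm
  · obtain ⟨ρ, hρ⟩ := hc (i * p)
    rw [hQc, hQ0, Polynomial.coeff_contract hp.out.ne_zero, hρ]
    exact cart_poly lam _ ρ
  · rw [← h3, Polynomial.expand_eval, Polynomial.eval_eq_sum_range] at hy
    have h6 := congrArg (cart p lam (k % p)) hy
    rw [map_zero, map_sum] at h6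
    rw [hQ, Polynomial.eval_finset_sum, ← h6]
    refine Finset.sum_congr rfl fun i _ => ?_
    rw [Polynomial.eval_monomial, ← pow_mul, mul_comm p i, pow_mul, mul_comm (Q0.coeff i),
      cart_mul hl (Nat.mod_lt _ hp.out.pos), mul_comm]

/-- purely inseparable and algebraic over the polynomial ring implies rational -/
theorem exists_frac (S : Subring (PowerSeries κ)) (hS : ∀ ρ : κ[X], (ρ : PowerSeries κ) ∈ S)
    (y : PowerSeries κ) (P : (PowerSeries κ)[X]) (h0 : P ≠ 0)
    (hc : ∀ i, ∃ ρ : κ[X], P.coeff i = ρ) (hy : P.eval y = 0) (e : ℕ) (a b : PowerSeries κ)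
    (ha : a ∈ S) (hb : b ∈ S) (hb0 : b ≠ 0) (hab : b * y ^ p ^ e = a) :
    ∃ a' ∈ S, ∃ b' ∈ S, b' ≠ 0 ∧ b' * y = a' := by
  obtain ⟨Q, hQ, hQ0, hQ1⟩ := exists_simple (p := p) y P h0 hc hy
  set E := FractionRing (PowerSeries κ)
  set ι := algebraMap (PowerSeries κ) E with hι
  have hinj : Function.Injective ι := IsFractionRing.injective _ _
  set F : Subfield E := Subfield.closure (S.map ι : Set E) with hF
  have hSF : ∀ s ∈ S, ι s ∈ F := fun s hs => Subfield.subset_closure ⟨s, hs, rfl⟩
  haveI : CharP (PowerSeries κ) p :=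
    charP_of_injective_ringHom (f := PowerSeries.C (R := κ)) PowerSeries.C_injective p
  haveI : CharP E p := charP_of_injective_ringHom hinj p
  haveI : ExpChar F p := ExpChar.prime hp.out
  obtain ⟨Q', hQ'⟩ : Q.map ι ∈ Polynomial.lifts (algebraMap F E) := by
    rw [Polynomial.lifts_iff_coeff_lifts]
    intro i
    obtain ⟨ρ, hρ⟩ := hQ i
    rw [Polynomial.coeff_map, hρ]
    exact ⟨⟨_, hSF _ (hS ρ)⟩, rfl⟩
  rw [Polynomial.coe_mapRingHom] at hQ'
  have e1 : Polynomial.aeval (ι y) Q' = 0 := by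
    rw [Polynomial.aeval_def, ← Polynomial.eval_map, hQ', Polynomial.eval_map,
      Polynomial.eval₂_hom, hQ0, map_zero]
  have e2 : Polynomial.aeval (ι y) Q'.derivative ≠ 0 := by
    rw [Polynomial.aeval_def, ← Polynomial.eval_map, ← Polynomial.derivative_map, hQ',
      Polynomial.derivative_map, Polynomial.eval_map, Polynomial.eval₂_hom]
    exact fun h => hQ1 (hinj (by rw [h, map_zero]))
  have hQ'0 : Q' ≠ 0 := by
    rintro rfl
    simp at e2
  have hint : IsIntegral F (ι y) := (IsAlgebraic.isIntegral ⟨Q', hQ'0, e1⟩)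
  have hsep : (minpoly F (ι y)).Separable := by
    rw [Polynomial.separable_iff_derivative_ne_zero (minpoly.irreducible hint)]
    intro h
    obtain ⟨r, hr⟩ := minpoly.dvd F (ι y) e1
    apply e2
    rw [hr, Polynomial.derivative_mul, h]
    simp
  have hdeg := (minpoly.natSepDegree_eq_one_iff_pow_mem (F := F) (x := ι y) p).2 ⟨e, by
    have hb1 : ι b ≠ 0 := fun h => hb0 (hinj (by rw [h, map_zero]))
    refine ⟨⟨ι a / ι b, div_mem (hSF a ha) (hSF b hb)⟩, ?_⟩
    show ι a / ι b = _
    rw [← hab, map_mul, map_pow, mul_div_cancel_left₀ _ hb1]⟩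
  rw [hsep.natSepDegree_eq_natDegree, minpoly.natDegree_eq_one_iff] at hdeg
  obtain ⟨⟨z, hz⟩, hz'⟩ := hdeg
  have hz'' : z = ι y := hz'
  subst hz''
  by_cases hy0 : y = 0
  · exact ⟨0, zero_mem _, 1, one_mem _, one_ne_zero, by simp [hy0]⟩
  obtain ⟨u, hu, v, hv, huv⟩ := Subfield.mem_closure_iff.1 hz
  rw [Subring.closure_eq] at hu hv
  obtain ⟨a', ha', rfl⟩ := hu
  obtain ⟨b', hb', rfl⟩ := hv
  have hb1 : ι b' ≠ 0 := by
    intro h
    rw [h, div_zero] at huv
    exact hy0 (hinj (by rw [← huv, map_zero]))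
  refine ⟨a', ha', b', hb', fun h => hb1 (by rw [h, map_zero]), hinj ?_⟩
  rw [map_mul, ← huv, mul_div_cancel₀ _ hb1]

end Ine

end P179W
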