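import Vale.Agent.P179W.InvValA

/-!
# P179W : a valuation invariant under the cyclic shift
-/

set_option linter.all false

open scoped Classical

noncomputable section

namespace P179W

namespace InvValH

variable {R : Type} [Field R] {k : Subfield R} {n : ℕ} {𝒱 : Set (ValuationSubring R)}
  {u : Fin n → R}

section res

variable (hk : ∀ V ∈ 𝒱, ∀ c ∈ k, c ∈ V)

theorem Res.const {r : R} (hr : r ∈ k) : Res k 𝒱 r r := ⟨hr, fun V _ => by simp⟩

theorem Res.add {z r z' r' : R} (h : Res k 𝒱 z r) (h' : Res k 𝒱 z' r') :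
    Res k 𝒱 (z + z') (r + r') := ⟨k.add_mem h.1 h'.1, fun V hV => by
  rw [add_sub_add_comm]; exact V.valuation.map_add_lt (h.2 V hV) (h'.2 V hV)⟩

theorem Res.sub {z r z' r' : R} (h : Res k 𝒱 z r) (h' : Res k 𝒱 z' r') :
    Res k 𝒱 (z - z') (r - r') := ⟨k.sub_mem h.1 h'.1, fun V hV => by
  rw [sub_sub_sub_comm]; exact V.valuation.map_sub_lt (h.2 V hV) (h'.2 V hV)⟩

include hk

theorem Res.mem {z r : R} (h : Res k 𝒱 z r) {V : ValuationSubring R} (hV : V ∈ 𝒱) : z ∈ V := by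
  simpa using V.add_mem _ _ ((V.valuation_le_one_iff _).1 (h.2 V hV).le) (hk V hV r h.1)

theorem Res.mul {z r z' r' : R} (h : Res k 𝒱 z r) (h' : Res k 𝒱 z' r') :
    Res k 𝒱 (z * z') (r * r') := ⟨k.mul_mem h.1 h'.1, fun V hV => by
  rw [show z * z' - r * r' = z * (z' - r') + r' * (z - r) by ring]
  exact V.valuation.map_add_lt
    (Pl.vmul_lt _ ((V.valuation_le_one_iff _).2 (h.mem hk hV)) (h'.2 V hV))
    (Pl.vmul_lt _ ((V.valuation_le_one_iff _).2 (hk V hV _ h'.1)) (h.2 V hV))⟩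

theorem Res.ld (hu : ∀ i, u i ≠ 0) (hne : 𝒱.Nonempty) {z r : R} (h : Res k 𝒱 z r) (r0 : r ≠ 0) :
    Ld k 𝒱 u z := by
  refine Ld.of_close hu hk h.1 r0 (fun e => ?_) 0 fun V hV => by
    simpa [mon_zero] using h.2 V hV
  obtain ⟨V, hV⟩ := hne
  have := h.2 V hV
  rw [e, zero_sub, Valuation.map_neg, val_k (hk V hV) h.1 r0] at this
  exact lt_irrefl _ this

theorem ld_step (hu : ∀ i, u i ≠ 0) (hne : 𝒱.Nonempty) (hC : ∀ V ∈ 𝒱, CC V u)
    {E : WeierstrassCurve R} (hE : CoeffIn E k) {a b : R} (hψ : psi E a b ≠ 0)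
    {K : Subfield R} (hkK : k ≤ K) {x y : R} (hx : x ∈ K) (he : E.toAffine.Equation x y)
    (rx : Res k 𝒱 x a) (ry : Res k 𝒱 y b) (hK : ∀ z ∈ K, z ≠ 0 → Ld k 𝒱 u z) :
    ∀ z ∈ adj K {x, y}, z ≠ 0 → Ld k 𝒱 u z := by
  have hE' : CoeffIn E K := ⟨hkK hE.1, hkK hE.2.1, hkK hE.2.2.1, hkK hE.2.2.2.1, hkK hE.2.2.2.2⟩
  have h1 : adj K {x} ≤ K := Pl.adj_le le_rfl (Set.singleton_subset_iff.2 hx)
  have key : ∀ γ ∈ K, ∀ δ ∈ K, ∀ r s, Res k 𝒱 γ r → Res k 𝒱 δ s → (s = 0 → r ≠ 0) →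
      γ + δ * y ≠ 0 → Ld k 𝒱 u (γ + δ * y) := by
    intro γ hγ δ hδ r s hr hs hrs h0
    by_cases e : r + s * b = 0
    · have h2 := (hr.add (hs.mul hk (((Res.const k.zero_mem).sub ry).sub
        (((Res.const hE.1).mul hk rx).add (Res.const hE.2.2.1))))).ld hk hu hne (fun e' => by
          have : s * psi E a b = 0 := by rw [psi]; linear_combination e - e'
          have s0 := (mul_eq_zero.1 this).resolve_right hψ
          exact hrs s0 (by simpa [s0] using e))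
      rw [zero_sub] at h2
      have h3 := (hK _ (h1 (Pl.norm_mem hE' he (Pl.mem_adj_base hγ) (Pl.mem_adj_base hδ)))
        (mul_ne_zero h0 (h2.ne hu))).mul hu h2.inv
      rwa [mul_inv_cancel_right₀ (h2.ne hu)] at h3
    · exact (hr.add (hs.mul hk ry)).ld hk hu hne e
  intro z hz z0
  obtain ⟨α, hα, β, hβ, rfl⟩ := Pl.mem_adj2 hE' he hz
  replace hα := h1 hα
  replace hβ := h1 hβ
  have c1 := Res.const (𝒱 := 𝒱) k.one_mem
  by_cases β0 : β = 0
  · rw [β0, zero_mul, add_zero] at z0 ⊢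
    exact hK _ hα z0
  have e1 : α + β * y = β * (α / β + 1 * y) := by field_simp
  have f1 : ∀ r, Res k 𝒱 (α / β) r → Ld k 𝒱 u (α + β * y) := fun r hr => by
    rw [e1] at z0 ⊢
    exact (hK _ hβ β0).mul hu (key _ (K.div_mem hα hβ) _ K.one_mem r 1 hr c1
      (fun e => absurd e one_ne_zero) (right_ne_zero_of_mul z0))
  by_cases α0 : α = 0
  · exact f1 0 (by rw [α0, zero_div]; exact Res.const k.zero_mem)
  rcases (hK _ (K.div_mem hα hβ) (div_ne_zero α0 β0)).dich hk hC with ⟨r, hr⟩ | hr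
  · exact f1 r hr
  · have e2 : α + β * y = α * (1 + (α / β)⁻¹ * y) := by field_simp
    rw [e2] at z0 ⊢
    exact (hK _ hα α0).mul hu (key _ K.one_mem _ (K.inv_mem (K.div_mem hα hβ)) 1 0 c1 hr
      (fun _ => one_ne_zero) (right_ne_zero_of_mul z0))

theorem ld_tower {ι : Type} [Fintype ι] (hu : ∀ i, u i ≠ 0) (hne : 𝒱.Nonempty)
    (hC : ∀ V ∈ 𝒱, CC V u) {E : WeierstrassCurve R} (hE : CoeffIn E k) {a b : R} (ha : a ∈ k)
    (hb : b ∈ k) (hψ : psi E a b ≠ 0) {X Y : ι → R} (he : ∀ j, E.toAffine.Equation (X j) (Y j))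
    (hA : ∀ V ∈ 𝒱, ∀ j, Above V (X j) (Y j) a b) (hX : ∀ j, X j ∈ adj k (Set.range u)) :
    ∀ z ∈ adj (k : Set R) (Set.range X ∪ Set.range Y), z ≠ 0 → Ld k 𝒱 u z := by
  suffices h : ∀ T : Finset ι, ∀ z ∈ adj (k : Set R) (Set.range X ∪ Y '' T), z ≠ 0 → Ld k 𝒱 u z by
    simpa using h Finset.univ
  intro T
  induction T using Finset.induction_on with
  | empty =>
    intro z hz
    refine ld_base hu hk hC (Pl.adj_le (fun c hc => Pl.mem_adj_base hc) ?_ hz)
    rintro _ (⟨j, rfl⟩ | h)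
    · exact hX j
    · simp at h
  | insert j T _ ih =>
    intro z hz
    set K := adj (k : Set R) (Set.range X ∪ Y '' T) with hK
    have h1 : k ≤ K := fun c hc => Pl.mem_adj_base hc
    have h2 : ∀ c ∈ K, c ∈ adj K {X j, Y j} := fun c hc => Pl.mem_adj_base hc
    have h3 : ∀ c ∈ Set.range X ∪ Y '' T, c ∈ K := fun c hc => Pl.mem_adj_gen hc
    refine ld_step hk hu hne hC hE hψ h1 (h3 _ (.inl ⟨j, rfl⟩)) (he j)
      ⟨ha, fun V h => (hA V h j).1⟩ ⟨hb, fun V h => (hA V h j).2⟩ ih z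
      (Pl.adj_le (fun c hc => h2 c (h1 hc)) ?_ hz)
    rintro _ (h | ⟨l, hl, rfl⟩)
    · exact h2 _ (h3 _ (.inl h))
    · rcases Finset.mem_insert.1 hl with rfl | hl
      · exact Pl.y_mem2 _ _ _
      · exact h2 _ (h3 _ (.inr ⟨l, hl, rfl⟩))

end res

theorem root_or {V : ValuationSubring R} (h1 : ∀ c ∈ k, c ∈ V) {E : WeierstrassCurve R}
    (hE : CoeffIn E k) {a b x y : R} (ha : a ∈ k) (hb : b ∈ k) (hab : E.toAffine.Equation a b)
    (he : E.toAffine.Equation x y) (hx : V.valuation (x - a) < 1) (h : ¬ V.valuation (y - b) < 1) :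
    V.valuation (E.toAffine.negY x y - b) < 1 := by
  have hk : ∀ V' ∈ ({V} : Set (ValuationSubring R)), ∀ c ∈ k, c ∈ V' := by
    rintro _ rfl; exact h1
  have rx : Res k {V} x a := ⟨ha, by rintro _ rfl; exact hx⟩
  have c := fun r hr => Res.const (k := k) (𝒱 := {V}) (r := r) hr
  have := (((c _ (k.mul_mem hb hb)).add ((c _ hb).mul hk (((c _ hE.1).mul hk rx).add
    (c _ hE.2.2.1)))).sub (((((rx.mul hk rx).mul hk rx).add ((c _ hE.2.1).mul hk
      (rx.mul hk rx))).add ((c _ hE.2.2.2.1).mul hk rx)).add (c _ hE.2.2.2.2))).2 V rfl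
  by_contra h'
  refine (one_le_mul (not_lt.1 h) (not_lt.1 h')).not_gt ?_
  rw [← map_mul]
  convert this using 2
  rw [WeierstrassCurve.Affine.negY]
  linear_combination (Pl.eqn hab) - Pl.eqn he

theorem lex_neg {c : Fin n → ℤ} (i : Fin n) (h1 : ∀ j < i, c j = 0) (h2 : c i < 0) :
    toLex c < 0 := ⟨i, h1, h2⟩

theorem pull (F : Subfield R) (f : F →+* R) (V : ValuationSubring R) :
    ∃ V' : ValuationSubring R, (∀ z : F, z.1 ∈ V' ↔ f z ∈ V) ∧
      ∀ z : F, V.valuation (f z) < 1 → V'.valuation z.1 < 1 := by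
  obtain ⟨V', h⟩ := valExt_holds.1 F R F.subtype (V.comap f)
  have h1 : ∀ z : F, z.1 ∈ V' ↔ f z ∈ V := fun z => (h z).symm
  refine ⟨V', h1, fun z hz => ?_⟩
  by_cases z0 : z = 0
  · simp [z0]
  have := (AV.mem_iff_inv V (f z⁻¹)).2 ⟨by simpa using z0, by simpa using hz⟩
  rw [← h1] at this
  simpa using ((AV.mem_iff_inv V' _).1 this).2

/-- iterated differences -/
def DD {N : ℕ} (t : ZMod N → R) (i : ℕ) : ZMod N → R := (fwdDiff 1)^[i] t

theorem DD_succ {N : ℕ} (t : ZMod N → R) (i : ℕ) (j : ZMod N) :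
    DD t (i + 1) j = DD t i (j + 1) - DD t i j := by
  rw [DD, Function.iterate_succ_apply']; rfl

theorem DD_top (p : ℕ) [hp : Fact p.Prime] [CharP R p] (M : ℕ) (t : ZMod (p ^ M) → R)
    (j : ZMod (p ^ M)) : DD t (p ^ M) j = 0 := by
  have h0 : 0 < p ^ M := pow_pos hp.out.pos M
  rw [DD, fwdDiff_iter_eq_sum_shift, Finset.sum_range_succ, Finset.sum_eq_single 0]
  · simp [neg_one_pow_char_pow]
  · intro i hi i0
    obtain ⟨c, hc⟩ := hp.out.dvd_choose_pow i0 (Finset.mem_range.1 hi).ne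
    simp [hc]
  · exact fun h => absurd (Finset.mem_range.2 h0) h

end InvValH

open InvValH in
theorem invVal_of (hG : GenMapStmt) : InvValStmt := by
  intro p hp M R _ _ k E hE hΔ X Y hXY a ha b hb hab hψ
  have n0 : 0 < p ^ M := pow_pos hp.out.pos M
  haveI : NeZero (p ^ M) := ⟨n0.ne'⟩
  have hX := Gen.algInd hXY
  have hXa : ∀ j, X j - a ≠ 0 := fun j e => hX.transcendental j
    (by rw [sub_eq_zero.1 e]; exact isAlgebraic_algebraMap (⟨a, ha⟩ : k))
  set t : ZMod (p ^ M) → R := fun j => (X j - a)⁻¹ with ht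
  set u : Fin (p ^ M) → R := fun i => DD t i 0 with hu_def
  have ind : ∀ P : ℕ → ZMod (p ^ M) → Prop, (∀ i < p ^ M, P i 0) →
      (∀ i < p ^ M, ∀ j, P i j → (i + 1 < p ^ M → P (i + 1) j) → P i (j + 1)) →
      ∀ j, ∀ i < p ^ M, P i j := fun P h0 h1 j => by
    rw [← ZMod.natCast_zmod_val j]
    induction j.val with
    | zero => simpa using h0
    | succ m ih =>
      intro i hi
      rw [Nat.cast_succ]
      exact h1 i hi _ (ih i hi) (ih _)
  have top : ∀ i < p ^ M, ¬ i + 1 < p ^ M → ∀ j, DD t (i + 1) j = 0 := fun i h1 h2 j => by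
    rw [show i + 1 = p ^ M by omega, DD_top]
  have hmem : ∀ S : Subring R, (∀ i, u i ∈ S) → ∀ j, t j ∈ S := fun S hS j =>
    ind (fun i j => DD t i j ∈ S) (fun i hi => hS ⟨i, hi⟩) (fun i hi j h1 h2 => by
      rw [← sub_add_cancel (DD t i (j + 1)) (DD t i j), ← DD_succ]
      refine S.add_mem ?_ h1
      by_cases h : i + 1 < p ^ M
      · exact h2 h
      · rw [top i hi h]; exact S.zero_mem) j 0 n0
  have hXt : ∀ j, X j = a + (t j)⁻¹ := fun j => by simp [ht]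
  have hU : AlgebraicIndependent k u := algInd_of_span hX (by simp) fun j => by
    rw [hXt]
    exact (isAlgebraic_algebraMap (⟨a, Subalgebra.algebraMap_mem _ (⟨a, ha⟩ : k)⟩ :
      Algebra.adjoin k (Set.range u))).add (isAlgebraic_algebraMap (⟨t j, hmem
        (Algebra.adjoin k (Set.range u)).toSubring (fun i => Algebra.subset_adjoin ⟨i, rfl⟩) j⟩ :
          Algebra.adjoin k (Set.range u))).inv
  have hu : ∀ i, u i ≠ 0 := hU.ne_zero
  have hlt : ∀ V, CC V u → ∀ i < p ^ M, V.valuation (DD t (i + 1) 0) < V.valuation (DD t i 0) := by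
    intro V hV i hi
    have m0 := V.valuation.pos_iff.2 (hu ⟨i, hi⟩)
    by_cases h : i + 1 < p ^ M
    · have := hV (Pi.single ⟨i + 1, h⟩ 1 + Pi.single ⟨i, hi⟩ (-1)) (lex_neg ⟨i, hi⟩ (fun j hj => by
        have : j.1 < i := hj
        have h1 : j ≠ ⟨i + 1, h⟩ := fun e => by rw [e] at this; simp at this
        simp [h1, hj.ne]) (by simp))
      rwa [mon_add hu, mon_single, mon_single, zpow_one, zpow_neg_one, map_mul, map_inv₀,
        mul_inv_lt_iff₀ m0, one_mul] at this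
    · rw [top i hi h, map_zero]; exact m0
  have hval : ∀ V, CC V u → ∀ j, ∀ i < p ^ M,
      V.valuation (DD t i j) = V.valuation (DD t i 0) := fun V hV =>
    ind (fun i j => V.valuation (DD t i j) = V.valuation (DD t i 0)) (fun _ _ => rfl)
      fun i hi j h1 h2 => by
        rw [← add_sub_cancel (DD t i j) (DD t i (j + 1)), ← DD_succ, ← h1]
        refine V.valuation.map_add_eq_of_lt_left ?_
        rw [h1]
        by_cases h : i + 1 < p ^ M
        · rw [h2 h]; exact hlt V hV i hi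
        · rw [top i hi h, map_zero]; exact V.valuation.pos_iff.2 (hu ⟨i, hi⟩)
  have hx : ∀ V, CC V u → ∀ j, V.valuation (X j - a) < 1 := fun V hV j => by
    have := hV (Pi.single ⟨0, n0⟩ (-1)) (lex_neg ⟨0, n0⟩
      (fun j hj => absurd hj (Nat.not_lt_zero _)) (by simp))
    rw [mon_single, zpow_neg_one, map_inv₀] at this
    have h1 : V.valuation (t j) = V.valuation (u ⟨0, n0⟩) := hval V hV j 0 n0
    rwa [← h1, ← map_inv₀, inv_inv] at this
  set F := adj (k : Set R) (Set.range X ∪ Set.range Y) with hF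
  have mX : ∀ j, X j ∈ F := fun j => Pl.mem_adj_gen (.inl ⟨j, rfl⟩)
  have mY : ∀ j, Y j ∈ F := fun j => Pl.mem_adj_gen (.inr ⟨j, rfl⟩)
  have mk : ∀ c ∈ k, c ∈ F := fun c hc => Pl.mem_adj_base hc
  have back : ∀ V : ValuationSubring R, (∀ c ∈ k, c ∈ V) → CC V u → ∀ (f : F →+* R) s,
      (∀ z : F, z.1 ∈ k → f z = z.1) → (∀ j (z : F), z.1 = X j → f z = X (j + s)) →
      (∀ j, V.valuation (f ⟨Y j, mY j⟩ - b) < 1) →
      ∃ V' : ValuationSubring R, ((∀ c ∈ k, c ∈ V') ∧ CC V' u ∧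
        ∀ j, Above V' (X j) (Y j) a b) ∧ ∀ z : F, z.1 ∈ V' ↔ f z ∈ V := by
    intro V h1 h2 f s f1 f2 f3
    obtain ⟨V', g1, g2⟩ := pull F f V
    have hD : ∀ i j, ∃ z : F, z.1 = DD t i j ∧ f z = DD t i (j + s) := fun i => by
      induction i with
      | zero => exact fun j => ⟨(⟨X j, mX j⟩ - ⟨a, mk a ha⟩)⁻¹, rfl, by
          rw [map_inv₀, map_sub, f1 ⟨a, _⟩ ha, f2 j _ rfl]; rfl⟩
      | succ i ih =>
        intro j
        obtain ⟨z, e1, e2⟩ := ih j
        obtain ⟨z', e1', e2'⟩ := ih (j + 1)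
        exact ⟨z' - z, by rw [DD_succ, ← e1, ← e1']; rfl,
          by rw [map_sub, DD_succ, e2, e2', add_right_comm]⟩
    choose z e1 e2 using hD
    have hC : CC V' u := fun c hc => by
      have := g2 (∏ i : Fin (p ^ M), z i 0 ^ c i) (by
        refine lt_of_eq_of_lt ?_ (h2 c hc)
        simp only [mon, map_prod, map_zpow₀, e2]
        exact Finset.prod_congr rfl fun i _ => by rw [hval V h2 _ i i.2])
      refine lt_of_eq_of_lt (congrArg _ ?_) this
      change _ = F.subtype _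
      simp only [map_prod, map_zpow₀, mon]
      exact Finset.prod_congr rfl fun i _ => congrArg (· ^ c i) (e1 i 0).symm
    exact ⟨V', ⟨fun c hc => (g1 ⟨c, mk c hc⟩).2 (by rw [f1 _ hc]; exact h1 c hc), hC, fun j =>
      ⟨hx V' hC j, g2 (⟨Y j, mY j⟩ - ⟨b, mk b hb⟩) (by rw [map_sub, f1 ⟨b, _⟩ hb]; exact f3 j)⟩⟩, g1⟩
  obtain ⟨V0, h1, h2⟩ := exists_CC hU
  let Y' : ZMod (p ^ M) → R := fun j =>
    if V0.valuation (Y j - b) < 1 then Y j else E.toAffine.negY (X j) (Y j)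
  obtain ⟨f0, f1, f2⟩ := hG R R (ZMod (p ^ M)) k E E k.subtype hE rfl rfl rfl rfl rfl X Y X Y' hXY
    ⟨fun j => by
      simp only [Y']
      split_ifs
      · exact hXY.1 j
      · exact (WeierstrassCurve.Affine.equation_neg _ _).2 (hXY.1 j),
    by rw [Subfield.fieldRange_subtype]; exact hXY.2⟩
  obtain ⟨V, hV, -⟩ := back V0 h1 h2 f0 0 (fun z hz => f1 ⟨z.1, hz⟩ z rfl)
    (fun j z e => by rw [add_zero]; exact (f2 j z).1 e) fun j => by
      rw [(f2 j _).2 rfl]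
      simp only [Y']
      split_ifs with h
      · exact h
      · exact root_or h1 hE ha hb hab (hXY.1 j) (hx _ h2 j) h
  let 𝒱 : Set (ValuationSubring R) :=
    {V | (∀ c ∈ k, c ∈ V) ∧ CC V u ∧ ∀ j, Above V (X j) (Y j) a b}
  have hk : ∀ V ∈ 𝒱, ∀ c ∈ k, c ∈ V := fun V h => h.1
  have hC : ∀ V ∈ 𝒱, CC V u := fun V h => h.2.1
  have hA : ∀ V ∈ 𝒱, ∀ j, Above V (X j) (Y j) a b := fun V h => h.2.2
  have hne : 𝒱.Nonempty := ⟨V, hV⟩
  have tower := ld_tower hk hu hne hC hE ha hb hψ hXY.1 hA fun j => by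
    rw [hXt]
    have hm : ∀ K : Subfield R, (∀ i, u i ∈ K) → t j ∈ K := fun K h => hmem K.toSubring h j
    exact Subfield.add_mem _ (Pl.mem_adj_base ha)
      (Subfield.inv_mem _ (hm _ fun i => Pl.mem_adj_gen (Set.mem_range_self i)))
  have dich : ∀ z ∈ F, (∃ r, Res k 𝒱 z r) ∨ ∀ V ∈ 𝒱, z ∉ V := fun z hz => by
    by_cases z0 : z = 0
    · exact .inl ⟨0, by rw [z0]; exact Res.const k.zero_mem⟩
    refine ((tower z hz z0).dich hk hC).imp_right fun h V hV => ?_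
    exact (AV.mem_iff_inv V z).2 ⟨z0, by simpa using h.2 V hV⟩
  refine ⟨V, hV.1, hV.2.2, fun z hz hz' => ?_, fun f g1 g2 z => ?_⟩
  · obtain ⟨r, hr⟩ := (dich z hz).resolve_right fun h => h V hV hz'
    exact ⟨r, hr.1, hr.2 V hV⟩
  · obtain ⟨V', hV', e⟩ := back V hV.1 hV.2.1 f 1 g1 (fun j z e => (g2 j z).1 e) fun j => by
      rw [(g2 j _).2 rfl]; exact (hV.2.2 _).2
    rw [← e]
    rcases dich z.1 z.2 with ⟨r, hr⟩ | h
    · exact iff_of_true (hr.mem hk hV) (hr.mem hk hV')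
    · exact iff_of_false (h V hV) (h V' hV')

end P179W
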