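import Vale.Agent.P179W.PlaceA
import Vale.Agent.P179W.AmbVal

/-!
# P179W : monomial valuations for the lexicographic order
-/

set_option linter.all false

open scoped Classical

noncomputable section

namespace P179W

namespace InvValH

variable {R : Type} [Field R] {k : Subfield R} {n : ℕ}

theorem algInd_of_span {ι κ : Type} [Finite ι] [Finite κ] {X : κ → R} {u : ι → R}
    (hX : AlgebraicIndependent k X) (hc : Nat.card ι ≤ Nat.card κ)
    (h : ∀ j, IsAlgebraic (Algebra.adjoin k (Set.range u)) (X j)) : AlgebraicIndependent k u := by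
  set M := AlgebraicIndependent.matroid k R
  have hI : M.Indep (Set.range X) := hX.to_subtype_range
  have h1 : (Set.range X).encard ≤ M.eRk (Set.range u) := by
    rw [← M.eRk_closure_eq]
    refine hI.encard_le_eRk_of_subset ?_
    rintro _ ⟨j, rfl⟩
    rw [AlgebraicIndependent.matroid_closure_eq]
    exact h j
  have h2 : (Set.univ : Set ι).encard ≤ (Set.range X).encard := by
    rw [← Set.image_univ, hX.injective.encard_image, Set.encard_univ, Set.encard_univ,
      ENat.card_eq_coe_natCard, ENat.card_eq_coe_natCard]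
    exact_mod_cast hc
  have h3 : (Set.range u).encard ≤ (Set.univ : Set ι).encard := by
    rw [← Set.image_univ]; exact Set.encard_image_le _ _
  have h4 := M.eRk_le_encard (Set.range u)
  have h5 : Function.Injective u := Set.injOn_univ.1 (Set.finite_univ.injOn_of_encard_image_eq
    (by rw [Set.image_univ]; exact h3.antisymm (h2.trans (h1.trans h4))))
  exact (algebraicIndependent_subtype_range h5).1
    ((M.indep_iff_eRk_eq_encard_of_finite (Set.finite_range u)).2
      (h4.antisymm (h3.trans (h2.trans h1))))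

theorem Gen.algInd {ι : Type} {E : WeierstrassCurve R} {X Y : ι → R} (h : Gen k E X Y) :
    AlgebraicIndependent k X := by
  rw [algebraicIndependent_iff]
  intro q hq
  apply MvPolynomial.map_injective k.subtype k.subtype_injective
  rw [map_zero]
  refine h.2 _ (fun m => by rw [MvPolynomial.coeff_map]; exact (q.coeff m).2) ?_
  rw [MvPolynomial.eval_map]
  exact hq

/-- Laurent monomials -/
def mon (u : Fin n → R) (c : Fin n → ℤ) : R := ∏ i, u i ^ c i

theorem mon_zero (u : Fin n → R) : mon u 0 = 1 := by simp [mon]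

theorem mon_add {u : Fin n → R} (hu : ∀ i, u i ≠ 0) (c c' : Fin n → ℤ) :
    mon u (c + c') = mon u c * mon u c' := by
  simp only [mon, Pi.add_apply, zpow_add₀ (hu _), Finset.prod_mul_distrib]

theorem mon_ne {u : Fin n → R} (hu : ∀ i, u i ≠ 0) (c : Fin n → ℤ) : mon u c ≠ 0 :=
  Finset.prod_ne_zero_iff.2 fun i _ => zpow_ne_zero _ (hu i)

theorem mon_neg (u : Fin n → R) (c : Fin n → ℤ) : mon u (-c) = (mon u c)⁻¹ := by
  simp [mon]

theorem mon_single (u : Fin n → R) (i : Fin n) (m : ℤ) : mon u (Pi.single i m) = u i ^ m := by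
  rw [mon, Finset.prod_eq_single i (fun j _ hj => by simp [hj]) (by simp), Pi.single_eq_same]

theorem mon_li {u : Fin n → R} (h : AlgebraicIndependent k u) : LinearIndependent k (mon u) := by
  have hu : ∀ i, u i ≠ 0 := h.ne_zero
  have h0 := (MvPolynomial.basisMonomials (Fin n) k).linearIndependent.map'
    (MvPolynomial.aeval u : MvPolynomial (Fin n) k →ₐ[k] R).toLinearMap
    (LinearMap.ker_eq_bot.2 h)
  rw [linearIndependent_iff_finset_linearIndependent]
  intro s
  obtain ⟨N, hN⟩ : ∃ N : Fin n → ℤ, ∀ c ∈ s, ∀ i, 0 ≤ c i + N i := by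
    obtain ⟨b, hb⟩ := s.finite_toSet.bddBelow
    exact ⟨-b, fun c hc i => by have := hb hc i; simp; linarith⟩
  let φ : s → (Fin n →₀ ℕ) := fun c =>
    Finsupp.equivFunOnFinite.symm fun i => (c.1 i + N i).toNat
  have hφ : ∀ c i, ((φ c i : ℕ) : ℤ) = c.1 i + N i := fun c i => Int.toNat_of_nonneg (hN _ c.2 i)
  have hi : Function.Injective φ := fun c c' e => Subtype.ext (funext fun i => by
    have := hφ c i
    rw [e, hφ] at this
    linarith)
  refine LinearIndependent.of_comp (LinearMap.mulRight k (mon u N)) ?_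
  refine (congrArg (fun v : s → R => LinearIndependent k v) (funext fun c => ?_)).mpr (h0.comp φ hi)
  simp only [Function.comp_apply, LinearMap.mulRight_apply, ← mon_add hu,
    MvPolynomial.coe_basisMonomials, AlgHom.toLinearMap_apply, MvPolynomial.aeval_monomial,
    map_one, one_mul]
  rw [Finsupp.prod_fintype _ _ (by simp), mon]
  exact Finset.prod_congr rfl fun i _ => by rw [← zpow_natCast, hφ]; rfl

/-- the negative monomials are infinitesimal -/
def CC (V : ValuationSubring R) (u : Fin n → R) : Prop :=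
  ∀ c : Fin n → ℤ, toLex c < 0 → V.valuation (mon u c) < 1

theorem exists_CC {u : Fin n → R} (h : AlgebraicIndependent k u) :
    ∃ V : ValuationSubring R, (∀ c ∈ k, c ∈ V) ∧ CC V u := by
  have hu : ∀ i, u i ≠ 0 := h.ne_zero
  let I : Submodule k R := Submodule.span k (mon u '' {c | toLex c < 0})
  let A : Subring R :=
    { carrier := {z | ∀ y ∈ I, z * y ∈ I}
      mul_mem' := fun ha hb y hy => by rw [mul_assoc]; exact ha _ (hb y hy)
      one_mem' := fun y hy => by rwa [one_mul]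
      add_mem' := fun ha hb y hy => by rw [add_mul]; exact I.add_mem (ha y hy) (hb y hy)
      zero_mem' := fun y _ => by rw [zero_mul]; exact I.zero_mem
      neg_mem' := fun ha y hy => by rw [neg_mul]; exact I.neg_mem (ha y hy) }
  let J : Ideal A :=
    { carrier := {a | a.1 ∈ I}
      add_mem' := fun ha hb => I.add_mem ha hb
      zero_mem' := I.zero_mem
      smul_mem' := fun a y hy => a.2 y.1 hy }
  have hJ : J ≠ ⊤ := (Ideal.ne_top_iff_one J).2 fun h1 =>
    (mon_li h).notMem_span_image (s := {c | toLex c < 0}) (x := 0) (lt_irrefl (0 : Lex (Fin n → ℤ)))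
      (by rw [mon_zero]; exact h1)
  obtain ⟨V, h1, h2⟩ := J.image_subset_nonunits_valuationSubring hJ
  refine ⟨V, fun c hc => h1 (show c ∈ A from fun y hy => I.smul_mem ⟨c, hc⟩ hy), fun c hc => ?_⟩
  have hA : mon u c ∈ A := fun y hy => by
    induction hy using Submodule.span_induction with
    | mem y hy =>
      obtain ⟨c', hc', rfl⟩ := hy
      rw [← mon_add hu]
      exact Submodule.subset_span ⟨c + c', add_neg hc hc', rfl⟩
    | zero => rw [mul_zero]; exact I.zero_mem
    | add y z _ _ hy hz => rw [mul_add]; exact I.add_mem hy hz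
    | smul a y _ hy => rw [mul_smul_comm]; exact I.smul_mem a hy
  exact V.mem_nonunits_iff.1 (h2 ⟨⟨_, hA⟩, Submodule.subset_span ⟨c, hc, rfl⟩, rfl⟩)

/-! ### the group of the elements `r * mon c * (1 + small)` -/

variable (k) in
/-- elements with a leading monomial which does not depend on the valuation -/
def Ld (𝒱 : Set (ValuationSubring R)) (u : Fin n → R) (z : R) : Prop :=
  ∃ r ∈ k, r ≠ 0 ∧ ∃ c x, x ≠ 0 ∧ (∀ V ∈ 𝒱, V.valuation (x - 1) < 1) ∧ z = r * mon u c * x

variable {𝒱 : Set (ValuationSubring R)} {u : Fin n → R}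

theorem val_one {V : ValuationSubring R} {x : R} (h : V.valuation (x - 1) < 1) :
    V.valuation x = 1 := by
  simpa using V.valuation.map_one_add_of_lt h

theorem val_k {V : ValuationSubring R} (hk : ∀ c ∈ k, c ∈ V) {r : R} (hr : r ∈ k) (h0 : r ≠ 0) :
    V.valuation r = 1 := by
  refine ((V.valuation_le_one_iff _).2 (hk r hr)).antisymm ?_
  have := (V.valuation_le_one_iff _).2 (hk _ (k.inv_mem hr))
  rwa [map_inv₀, inv_le_one₀ (V.valuation.pos_iff.2 h0)] at this

theorem Ld.mul (hu : ∀ i, u i ≠ 0) {z z' : R} (h : Ld k 𝒱 u z) (h' : Ld k 𝒱 u z') :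
    Ld k 𝒱 u (z * z') := by
  obtain ⟨r, hr, r0, c, x, x0, hx, rfl⟩ := h
  obtain ⟨r', hr', r0', c', x', x0', hx', rfl⟩ := h'
  refine ⟨r * r', k.mul_mem hr hr', mul_ne_zero r0 r0', c + c', x * x', mul_ne_zero x0 x0',
    fun V hV => ?_, by rw [mon_add hu]; ring⟩
  rw [show x * x' - 1 = x * (x' - 1) + (x - 1) by ring]
  refine V.valuation.map_add_lt ?_ (hx V hV)
  rw [map_mul, val_one (hx V hV), one_mul]
  exact hx' V hV

theorem Ld.inv {z : R} (h : Ld k 𝒱 u z) : Ld k 𝒱 u z⁻¹ := by
  obtain ⟨r, hr, r0, c, x, x0, hx, rfl⟩ := h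
  refine ⟨r⁻¹, k.inv_mem hr, inv_ne_zero r0, -c, x⁻¹, inv_ne_zero x0, fun V hV => ?_,
    by rw [mon_neg]; ring⟩
  rw [show x⁻¹ - 1 = -(x⁻¹ * (x - 1)) by field_simp; ring, Valuation.map_neg, map_mul, map_inv₀,
    val_one (hx V hV), inv_one, one_mul]
  exact hx V hV

theorem Ld.ne (hu : ∀ i, u i ≠ 0) {z : R} (h : Ld k 𝒱 u z) : z ≠ 0 := by
  obtain ⟨r, hr, r0, c, x, x0, hx, rfl⟩ := h
  exact mul_ne_zero (mul_ne_zero r0 (mon_ne hu c)) x0

/-- an element close to a nonzero multiple of a monomial -/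
theorem Ld.of_close (hu : ∀ i, u i ≠ 0) (hk : ∀ V ∈ 𝒱, ∀ c ∈ k, c ∈ V) {z r : R} (hr : r ∈ k)
    (r0 : r ≠ 0) (z0 : z ≠ 0) (c : Fin n → ℤ)
    (h : ∀ V ∈ 𝒱, V.valuation (z - r * mon u c) < V.valuation (mon u c)) : Ld k 𝒱 u z := by
  have m0 := mon_ne hu c
  refine ⟨r, hr, r0, c, z / (r * mon u c), div_ne_zero z0 (mul_ne_zero r0 m0), fun V hV => ?_,
    by field_simp⟩
  rw [div_sub_one (mul_ne_zero r0 m0), map_div₀, map_mul, val_k (hk V hV) hr r0, one_mul,
    div_lt_one₀ (V.valuation.pos_iff.2 m0)]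
  exact h V hV

variable (k) in
/-- elements with a residue in `k` which does not depend on the valuation -/
def Res (𝒱 : Set (ValuationSubring R)) (z r : R) : Prop :=
  r ∈ k ∧ ∀ V ∈ 𝒱, V.valuation (z - r) < 1

theorem Ld.dich (hk : ∀ V ∈ 𝒱, ∀ c ∈ k, c ∈ V) (hC : ∀ V ∈ 𝒱, CC V u) {z : R}
    (h : Ld k 𝒱 u z) : (∃ r, Res k 𝒱 z r) ∨ Res k 𝒱 z⁻¹ 0 := by
  obtain ⟨r, hr, r0, c, x, x0, hx, rfl⟩ := h
  rcases lt_trichotomy (toLex c) 0 with hc | hc | hc
  · refine .inl ⟨0, k.zero_mem, fun V hV => ?_⟩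
    rw [sub_zero, map_mul, map_mul, val_k (hk V hV) hr r0, val_one (hx V hV), one_mul, mul_one]
    exact hC V hV c hc
  · refine .inl ⟨r, hr, fun V hV => ?_⟩
    rw [show c = 0 from hc, mon_zero, mul_one, ← mul_sub_one, map_mul, val_k (hk V hV) hr r0,
      one_mul]
    exact hx V hV
  · refine .inr ⟨k.zero_mem, fun V hV => ?_⟩
    rw [sub_zero, map_inv₀, map_mul, map_mul, val_k (hk V hV) hr r0, val_one (hx V hV), one_mul,
      mul_one, ← map_inv₀, ← mon_neg]
    exact hC V hV _ (neg_lt_zero.2 hc : -toLex c < 0)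

theorem ld_span (hu : ∀ i, u i ≠ 0) (hk : ∀ V ∈ 𝒱, ∀ c ∈ k, c ∈ V) (hC : ∀ V ∈ 𝒱, CC V u)
    {z : R} (hz : z ∈ Submodule.span k (Set.range (mon u))) (z0 : z ≠ 0) : Ld k 𝒱 u z := by
  obtain ⟨g, rfl⟩ := Finsupp.mem_span_range_iff_exists_finsupp.1 hz
  have hne : g.support.Nonempty := by
    rw [Finsupp.support_nonempty_iff]
    rintro rfl
    simp at z0
  obtain ⟨c, hc, hm⟩ := g.support.exists_max_image toLex hne
  refine Ld.of_close hu hk (g c).2 (fun e => Finsupp.mem_support_iff.1 hc (Subtype.ext e)) z0 c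
    fun V hV => ?_
  have m0 := V.valuation.pos_iff.2 (mon_ne hu c)
  rw [Finsupp.sum, ← Finset.add_sum_erase _ _ hc]
  erw [add_sub_cancel_left]
  refine V.valuation.map_sum_lt m0.ne' fun c' hc' => ?_
  have h1 : toLex (c' - c) < 0 := sub_neg.2 ((hm c' (Finset.mem_of_mem_erase hc')).lt_of_ne
    fun e => Finset.ne_of_mem_erase hc' e)
  have h2 := hC V hV _ h1
  rw [sub_eq_add_neg, mon_add hu, mon_neg, map_mul, map_inv₀, mul_inv_lt_iff₀ m0, one_mul] at h2
  refine lt_of_le_of_lt ?_ h2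
  rw [Subfield.smul_def, smul_eq_mul, map_mul]
  exact mul_le_of_le_one_left' ((V.valuation_le_one_iff _).2 (hk V hV _ (g c').2))

theorem ld_base (hu : ∀ i, u i ≠ 0) (hk : ∀ V ∈ 𝒱, ∀ c ∈ k, c ∈ V) (hC : ∀ V ∈ 𝒱, CC V u)
    {z : R} (hz : z ∈ adj k (Set.range u)) (z0 : z ≠ 0) : Ld k 𝒱 u z := by
  have key : ∀ y ∈ Subring.closure ((k : Set R) ∪ Set.range u),
      y ∈ Submodule.span k (Set.range (mon u)) := by
    intro y hy
    have h1 : (1 : R) ∈ Submodule.span k (Set.range (mon u)) :=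
      Submodule.subset_span ⟨0, mon_zero u⟩
    induction hy using Subring.closure_induction with
    | mem y hy =>
      rcases hy with hy | ⟨i, rfl⟩
      · simpa [Subfield.smul_def] using Submodule.smul_mem _ (⟨y, hy⟩ : k) h1
      · exact Submodule.subset_span ⟨Pi.single i 1, by rw [mon_single, zpow_one]⟩
    | zero => exact Submodule.zero_mem _
    | one => exact h1
    | add y z _ _ hy hz => exact Submodule.add_mem _ hy hz
    | neg y _ hy => exact Submodule.neg_mem _ hy
    | mul y z _ _ hy hz =>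
      have := Submodule.mul_mem_mul hy hz
      rw [Submodule.span_mul_span] at this
      refine Submodule.span_mono ?_ this
      rintro _ ⟨_, ⟨c, rfl⟩, _, ⟨c', rfl⟩, rfl⟩
      exact ⟨c + c', mon_add hu c c'⟩
  obtain ⟨y, hy, y', hy', rfl⟩ := Subfield.mem_closure_iff.1 hz
  rw [div_eq_mul_inv] at z0 ⊢
  exact (ld_span hu hk hC (key y hy) (left_ne_zero_of_mul z0)).mul hu
    (ld_span hu hk hC (key y' hy') (fun e => z0 (by rw [e, inv_zero, mul_zero]))).inv

end InvValH

end P179W
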