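import Vale.Agent.P179W.NVLoc

/-!
# P179W / NV : degrees of subbundles, abstractly
-/

set_option linter.all false

open Matrix WithZero

noncomputable section

namespace P179W.NV

theorem Mx_map {K K' : Type} [Field K] [Field K'] {Γ : Type} [LinearOrderedCommGroupWithZero Γ]
    {ι κ : Type} [Fintype ι] [Fintype κ] (v : Valuation K Γ) (v' : Valuation K' Γ) (f : K →+* K')
    (k : ℕ) (hk : k ≠ 0) (h : ∀ z, v' (f z) = v z ^ k) (u : Matrix ι κ K) :
    Mx v' (u.map f) = Mx v u ^ k := by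
  classical
  have h1 : ∀ I : ι → κ, v' ((u.map f).submatrix id I).det = v (u.submatrix id I).det ^ k := by
    intro I
    rw [← h, RingHom.map_det]; rfl
  apply le_antisymm
  · refine Mx_le _ _ _ fun I => ?_
    rw [h1]
    exact pow_le_pow_left' (le_Mx v u I) k
  · by_cases h0 : Mx v u = 0
    · rw [h0, zero_pow hk]; exact zero_le
    obtain ⟨I, hI⟩ := exists_Mx v u h0
    rw [← hI, ← h1]
    exact le_Mx _ _ I

theorem exp_sum {ι : Type} (s : Finset ι) (f : ι → ℤ) :
    exp (∑ i ∈ s, f i) = ∏ i ∈ s, exp (f i) := by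
  classical
  induction s using Finset.induction_on with
  | empty => simp
  | insert a s h ih => rw [Finset.sum_insert h, Finset.prod_insert h, exp_add, ih]

/-- the data of the degree argument -/
structure Abs (p n : ℕ) (F : Type) [Field F] (A : Type) [AddCommGroup A] where
  v : A → Valuation F (WithZero (Multiplicative ℤ))
  t : A → ZMod n → F
  Pj : ZMod n → A
  σ : F ≃+* F
  s : A ≃+ A
  Q : A
  δ : Derivation ℤ F F
  charP : CharP F p
  fin : ∀ z, z ≠ 0 → {P | v P z ≠ 1}.Finite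
  prod : ∀ z, z ≠ 0 → ∑ᶠ P, log (v P z) = 0
  abel : ∀ z, z ≠ 0 → ∑ᶠ P, log (v P z) • P = 0
  t_ne : ∀ P j, P ≠ Pj j → t P j = 1
  t_eq : ∀ j, v (Pj j) (t (Pj j) j) = exp (-1)
  v_σ : ∀ P z, v (s P - Q) (σ z) = v P z
  s_Pj : ∀ j, s (Pj j) - Q = Pj (j + 1)
  period : ∀ (b : A) (d : ℕ), 0 < d → d < n → s b - b ≠ d • Q
  δ_int : ∀ P z, v P z ≤ 1 → v P (δ z) ≤ 1
  δ_ker : ∀ z, δ z = 0 → ∃ u, u ^ p = z

namespace Abs

variable {p n : ℕ} [NeZero n] {F : Type} [Field F] {A : Type} [AddCommGroup A] (c : Abs p n F A)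
variable {ι ι' : Type} [Fintype ι] [Fintype ι']

open Classical in
theorem v_t (P : A) (j : ZMod n) :
    c.v P (c.t P j) = if P = c.Pj j then exp (-1) else 1 := by
  split_ifs with h
  · rw [h, c.t_eq]
  · rw [c.t_ne P j h, map_one]

theorem t_ne_zero (P : A) (j : ZMod n) : c.t P j ≠ 0 := by
  intro h
  have := c.v_t P j
  rw [h, map_zero] at this
  split_ifs at this
  · exact exp_ne_zero this.symm
  · exact zero_ne_one this

/-- the lattice -/
def T (q : ℕ) (P : A) : Matrix (ZMod n) (ZMod n) F := diagonal fun j => c.t P j ^ q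

theorem mul_T (q : ℕ) (P : A) (u : Matrix ι (ZMod n) F) (i : ι) (j : ZMod n) :
    (u * c.T q P) i j = u i j * c.t P j ^ q := by
  simp [T]

/-- the order of vanishing -/
def m (q : ℕ) (u : Matrix ι (ZMod n) F) (P : A) : ℤ := -log (Mx (c.v P) (u * c.T q P))

/-- the degree -/
def deg (q : ℕ) (u : Matrix ι (ZMod n) F) : ℤ := ∑ᶠ P, c.m q u P

/-- the Abel sum -/
def ab (q : ℕ) (u : Matrix ι (ZMod n) F) : A := ∑ᶠ P, c.m q u P • P

theorem Mx_ne {u : Matrix ι (ZMod n) F} (hu : LinearIndependent F u) (q : ℕ) (P : A) :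
    Mx (c.v P) (u * c.T q P) ≠ 0 := by
  classical
  obtain ⟨I, hI⟩ := exists_det u hu
  rw [Mx_ne_zero_iff]
  refine indep_of_det _ I ?_
  rw [T, det_diag]
  exact mul_ne_zero hI (Finset.prod_ne_zero_iff.2 fun k _ => pow_ne_zero _ (c.t_ne_zero _ _))

theorem fin_log {z : F} (hz : z ≠ 0) : Function.HasFiniteSupport fun P => log (c.v P z) :=
  (c.fin z hz).subset fun P hP h => hP (by simp [h])

theorem fin_m {u : Matrix ι (ZMod n) F} (hu : LinearIndependent F u) (q : ℕ) :
    Function.HasFiniteSupport (c.m q u) := by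
  classical
  obtain ⟨I, hI⟩ := exists_det u hu
  have h1 : (⋃ x : ι × ZMod n, {P | ¬ c.v P (u x.1 x.2) ≤ 1}).Finite := by
    refine Set.finite_iUnion fun x => ?_
    by_cases h : u x.1 x.2 = 0
    · simp [h]
    · exact (c.fin _ h).subset fun P hP h => hP h.le
  refine ((h1.union (c.fin _ hI)).union (Set.finite_range c.Pj)).subset fun P hP => ?_
  by_contra h
  simp only [Set.mem_union, Set.mem_iUnion, Set.mem_setOf_eq, Set.mem_range, not_or, not_exists,
    not_not] at h
  obtain ⟨⟨h2, h3⟩, h4⟩ := h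
  have h5 : c.T q P = 1 := by
    rw [T, ← diagonal_one]
    congr 1
    funext j
    rw [c.t_ne P j fun h => h4 j h.symm, one_pow]
  apply hP
  have : Mx (c.v P) u = 1 :=
    le_antisymm (Mx_le_one _ _ fun i j => h2 (i, j)) (h3 ▸ le_Mx (c.v P) u I)
  rw [m, h5, Matrix.mul_one, this, log_one, neg_zero]

theorem deg_le {u : Matrix ι (ZMod n) F} (hu : LinearIndependent F u) (q : ℕ) :
    c.deg q u ≤ q * Fintype.card ι := by
  classical
  obtain ⟨I, hI⟩ := exists_det u hu
  have h1 : ∀ P, c.m q u P ≤ -log (c.v P (u.submatrix id I).det) +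
      ∑ k, if P = c.Pj (I k) then (q : ℤ) else 0 := by
    intro P
    have h2 := le_Mx (c.v P) (u * c.T q P) I
    rw [show ((u * c.T q P).submatrix id I).det = _ from det_diag _ _ _, map_mul, map_prod] at h2
    have h3 : ∏ k, c.v P (c.t P (I k) ^ q) =
        exp (-∑ k, if P = c.Pj (I k) then (q : ℤ) else 0) := by
      rw [← Finset.sum_neg_distrib, exp_sum]
      refine Finset.prod_congr rfl fun k _ => ?_
      rw [map_pow, c.v_t]
      split_ifs
      · rw [← WithZero.exp_nsmul]; simp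
      · simp
    have h4 : c.v P (u.submatrix id I).det ≠ 0 := (map_ne_zero _).2 hI
    rw [h3] at h2
    replace h2 := (log_le_log (mul_ne_zero h4 exp_ne_zero) (c.Mx_ne hu q P)).2 h2
    rw [log_mul h4 exp_ne_zero, log_exp] at h2
    rw [m]
    linarith
  have h5 : ∀ k, Function.HasFiniteSupport fun P => if P = c.Pj (I k) then (q : ℤ) else 0 :=
    fun k => (Set.finite_singleton (c.Pj (I k))).subset fun P hP => by
      by_contra h
      exact hP (if_neg h)
  have h6 : Function.HasFiniteSupport fun P => ∑ k, if P = c.Pj (I k) then (q : ℤ) else 0 :=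
    Function.HasFiniteSupport.sum h5 _
  refine (finsum_le_finsum' (c.fin_m hu q) ((c.fin_log hI).fun_neg.fun_add h6) h1).trans_eq ?_
  rw [finsum_add_distrib (c.fin_log hI).fun_neg h6, finsum_neg_distrib, c.prod _ hI,
    finsum_sum_comm _ _ fun k _ => h5 k]
  simp [finsum_eq_single _ _ fun P (hP : P ≠ c.Pj (I _)) => if_neg hP, mul_comm]

theorem fin_smul {f : A → ℤ} (hf : Function.HasFiniteSupport f) (g : A → A) :
    Function.HasFiniteSupport fun P => f P • g P :=
  Set.Finite.subset hf fun P hP h => hP (by simp [h])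

theorem deg_change {u : Matrix ι (ZMod n) F} {u' : Matrix ι' (ZMod n) F}
    (hu : LinearIndependent F u) (hu' : LinearIndependent F u')
    (hc : Fintype.card ι' = Fintype.card ι) (h : ∀ i, u' i ∈ Submodule.span F (Set.range u))
    (q : ℕ) : c.deg q u' = c.deg q u ∧ c.ab q u' = c.ab q u := by
  obtain ⟨f, hf, h1⟩ := exists_change u u' hu hu' hc h
  have h2 : ∀ P, c.m q u' P = -log (c.v P f) + c.m q u P := by
    intro P
    rw [m, m, h1, log_mul ((map_ne_zero _).2 hf) (c.Mx_ne hu q P)]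
    ring
  constructor
  · rw [deg, finsum_congr h2, finsum_add_distrib (c.fin_log hf).fun_neg (c.fin_m hu q),
      finsum_neg_distrib, c.prod _ hf, deg]
    simp
  · rw [ab, finsum_congr fun P => by rw [h2, add_smul, neg_smul],
      finsum_add_distrib (fin_smul (c.fin_log hf) _).fun_neg (fin_smul (c.fin_m hu q) _),
      finsum_neg_distrib, c.abel _ hf, ab]
    simp

/-- `b` has maximal degree, and maximal rank among the families of maximal degree -/
def IsMax (q : ℕ) (N : Submodule F (ZMod n → F)) (b : Matrix ι (ZMod n) F) : Prop :=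
  LinearIndependent F b ∧ (∀ i, b i ∈ N) ∧
    ∀ (τ : Type) [Fintype τ] (u : Matrix τ (ZMod n) F), LinearIndependent F u → (∀ i, u i ∈ N) →
      c.deg q u ≤ c.deg q b ∧ (c.deg q u = c.deg q b → Fintype.card τ ≤ Fintype.card ι)

theorem card_le {u : Matrix ι (ZMod n) F} (hu : LinearIndependent F u) : Fintype.card ι ≤ n := by
  have := hu.fintype_card_le_finrank
  simpa using this

theorem exists_max (q : ℕ) (N : Submodule F (ZMod n → F)) :
    ∃ (τ : Type) (_ : Fintype τ) (b : Matrix τ (ZMod n) F), c.IsMax q N b := by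
  obtain ⟨z, ⟨τ, _, b, hb, hbN, rfl⟩, hz⟩ := Int.exists_greatest_of_bdd
    (P := fun z => ∃ (τ : Type) (_ : Fintype τ) (b : Matrix τ (ZMod n) F),
      LinearIndependent F b ∧ (∀ i, b i ∈ N) ∧ c.deg q b * (n + 1) + Fintype.card τ = z)
    ⟨q * n * (n + 1) + n, by
      rintro z ⟨τ, _, b, hb, -, rfl⟩
      have h1 := c.deg_le hb q
      have h2 : (Fintype.card τ : ℤ) ≤ n := by exact_mod_cast card_le hb
      have h3 : c.deg q b ≤ q * n := h1.trans (by gcongr)
      gcongr⟩
    ⟨_, Empty, inferInstance, Matrix.of Empty.elim, linearIndependent_empty_type,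
      fun i => i.elim, rfl⟩
  refine ⟨τ, inferInstance, b, hb, hbN, fun τ' _ u hu huN => ?_⟩
  have h1 := hz _ ⟨τ', inferInstance, u, hu, huN, rfl⟩
  have h2 : (Fintype.card τ : ℤ) ≤ n := by exact_mod_cast card_le hb
  have h3 : (0 : ℤ) ≤ Fintype.card τ' := by positivity
  refine ⟨?_, fun h => ?_⟩
  · by_contra h
    have h4 : c.deg q b + 1 ≤ c.deg q u := by omega
    have h5 : (c.deg q b + 1) * (n + 1) ≤ c.deg q u * (n + 1) := by gcongr
    linarith
  · rw [h] at h1
    exact_mod_cast le_of_add_le_add_left h1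

/-- stability of the maximal subbundle -/
theorem stable (q : ℕ) (N : Submodule F (ZMod n → F)) {b₀ : Matrix ι (ZMod n) F}
    {b : Matrix ι' (ZMod n) F} (hb₀ : LinearIndependent F b₀) (hN : ∀ i, b₀ i ∈ N)
    (hb : c.IsMax q N b) (hdeg : c.deg q b₀ = c.deg q b) (φ : (ZMod n → F) →+ (ZMod n → F))
    (h1 : ∀ (a : F), ∀ x ∈ Submodule.span F (Set.range b₀),
      φ (a • x) - a • φ x ∈ Submodule.span F (Set.range b))
    (h2 : ∀ x ∈ N, φ x ∈ N)
    (h3 : ∀ P (x : ZMod n → F), (∀ j, c.v P (x j * c.t P j ^ q) ≤ 1) →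
      ∀ j, c.v P (φ x j * c.t P j ^ q) ≤ 1) :
    ∀ x ∈ Submodule.span F (Set.range b₀), φ x ∈ Submodule.span F (Set.range b) := by
  classical
  set B₀ := Submodule.span F (Set.range b₀)
  set B := Submodule.span F (Set.range b)
  have hBN : B₀ ≤ N := Submodule.span_le.2 (Set.range_subset_iff.2 hN)
  let ψ : B₀ →ₗ[F] ((ZMod n → F) ⧸ B) :=
    { toFun := fun x => B.mkQ (φ x)
      map_add' := fun x y => by simp
      map_smul' := fun a x => by
        rw [RingHom.id_apply, ← map_smul, Submodule.mkQ_apply, Submodule.mkQ_apply,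
          Submodule.Quotient.eq]
        exact h1 a x x.2 }
  obtain ⟨C, hC⟩ := Submodule.exists_isCompl (LinearMap.ker ψ)
  haveI : Module.Free F (LinearMap.ker ψ) := Module.Free.of_divisionRing F (LinearMap.ker ψ)
  haveI : Module.Free F C := Module.Free.of_divisionRing F C
  let a' := Module.finBasis F (LinearMap.ker ψ)
  let w' := Module.finBasis F C
  let bb := (a'.prod w').map (Submodule.prodEquivOfIsCompl _ _ hC)
  have ba : ∀ i, bb (Sum.inl i) = a' i := fun i => by simp [bb]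
  have bw : ∀ i, bb (Sum.inr i) = w' i := fun i => by simp [bb]
  let a : Matrix _ (ZMod n) F := Matrix.of fun i => (bb (Sum.inl i)).1
  let w : Matrix _ (ZMod n) F := Matrix.of fun i => (bb (Sum.inr i)).1
  let w₂ : Matrix _ (ZMod n) F := Matrix.of fun i => φ (w i)
  have e1 : fromRows a w = Matrix.of fun i => (bb i).1 := by
    ext (i | i) j <;> rfl
  have haw : LinearIndependent F (fromRows a w) := by
    rw [e1]
    exact bb.linearIndependent.map' B₀.subtype B₀.ker_subtype
  have K0 : ∀ g, B.mkQ (g ᵥ* w₂) = ψ (∑ i, g i • bb (Sum.inr i)) := by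
    intro g
    rw [vecMul_eq_sum, map_sum, map_sum]
    refine Finset.sum_congr rfl fun i _ => ?_
    rw [map_smul, map_smul]; rfl
  have K : ∀ g₀ g, ∃ d, d ᵥ* b + g ᵥ* w₂ = φ (g₀ ᵥ* a + g ᵥ* w) := by
    intro g₀ g
    have : φ (g₀ ᵥ* a + g ᵥ* w) - g ᵥ* w₂ ∈ B := by
      rw [← Submodule.Quotient.eq, ← Submodule.mkQ_apply, ← Submodule.mkQ_apply, K0]
      have e2 : g₀ ᵥ* a + g ᵥ* w =
          (∑ i, g₀ i • bb (Sum.inl i) + ∑ i, g i • bb (Sum.inr i) : B₀).1 := by
        simp [vecMul_eq_sum, a, w]; rfl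
      rw [e2]
      show ψ _ = _
      rw [map_add, map_sum, Finset.sum_eq_zero, zero_add]
      intro i _
      rw [map_smul, ba, (a' i).2, smul_zero]
    obtain ⟨d, hd⟩ := (Submodule.mem_span_range_iff_exists_fun F).1 this
    exact ⟨d, by rw [vecMul_eq_sum, hd, sub_add_cancel]⟩
  have hbw : LinearIndependent F (fromRows b w₂) := by
    refine Fintype.linearIndependent_iff.2 fun g hg => ?_
    rw [Fintype.sum_sum_type] at hg
    have e3 : ∑ i, g (Sum.inl i) • b i + (fun i => g (Sum.inr i)) ᵥ* w₂ = 0 := by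
      rw [vecMul_eq_sum]; exact hg
    have e4 : ψ (∑ i, g (Sum.inr i) • bb (Sum.inr i)) = 0 := by
      rw [← K0, eq_neg_of_add_eq_zero_right e3, Submodule.mkQ_apply,
        Submodule.Quotient.mk_eq_zero]
      exact B.neg_mem (B.sum_mem fun i _ => B.smul_mem _ (Submodule.subset_span ⟨i, rfl⟩))
    have e5 : ∑ i, g (Sum.inr i) • bb (Sum.inr i) = 0 := by
      refine (Submodule.disjoint_def.1 hC.disjoint) _ e4 (C.sum_mem fun i _ => C.smul_mem _ ?_)
      rw [bw]; exact (w' i).2
    have e6 := Fintype.linearIndependent_iff.1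
      (bb.linearIndependent.comp Sum.inr Sum.inr_injective) _ e5
    have e7 : (fun i => g (Sum.inr i)) = 0 := funext e6
    rw [e7, zero_vecMul, add_zero] at e3
    rintro (i | i)
    · exact Fintype.linearIndependent_iff.1 hb.1 _ e3 i
    · exact e6 i
  have ha : LinearIndependent F a := haw.comp Sum.inl Sum.inl_injective
  have i1 : ∀ P, c.m q b P + c.m q (fromRows a w) P ≤ c.m q (fromRows b w₂) P + c.m q a P := by
    intro P
    have := Mx_ineq (c.v P) (a * c.T q P) (w * c.T q P) (w₂ * c.T q P) (b * c.T q P)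
      (by rw [← fromRows_mul, ← Mx_ne_zero_iff (c.v P)]; exact c.Mx_ne haw q P)
      (by rw [← Mx_ne_zero_iff (c.v P)]; exact c.Mx_ne hb.1 q P) (by
        intro g₀ g hg
        obtain ⟨d, hd⟩ := K g₀ g
        refine ⟨d, fun j => ?_⟩
        rw [← vecMul_vecMul, ← vecMul_vecMul, ← add_vecMul] at hg ⊢
        rw [hd, T, vecMul_diagonal]
        refine h3 P _ (fun j => ?_) j
        have := hg j
        rwa [T, vecMul_diagonal] at this)
    rw [← fromRows_mul, ← fromRows_mul] at this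
    replace this := (log_le_log (mul_ne_zero (c.Mx_ne hbw q P) (c.Mx_ne ha q P))
      (mul_ne_zero (c.Mx_ne hb.1 q P) (c.Mx_ne haw q P))).2 this
    rw [log_mul (c.Mx_ne hbw q P) (c.Mx_ne ha q P), log_mul (c.Mx_ne hb.1 q P) (c.Mx_ne haw q P)]
      at this
    simp only [m]
    linarith
  have i2 := finsum_le_finsum' ((c.fin_m hb.1 q).fun_add (c.fin_m haw q))
    ((c.fin_m hbw q).fun_add (c.fin_m ha q)) i1
  rw [finsum_add_distrib (c.fin_m hb.1 q) (c.fin_m haw q),
    finsum_add_distrib (c.fin_m hbw q) (c.fin_m ha q)] at i2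
  change c.deg q b + c.deg q (fromRows a w) ≤ c.deg q (fromRows b w₂) + c.deg q a at i2
  have i3 : c.deg q (fromRows a w) = c.deg q b₀ := by
    refine (c.deg_change hb₀ haw ?_ ?_ q).1
    · rw [← Module.finrank_eq_card_basis bb, finrank_span_eq_card hb₀]
    · intro i; rw [e1]; exact (bb i).2
  have i4 := (hb.2.2 _ a ha fun i => hBN (bb _).2).1
  have i5 := hb.2.2 _ _ hbw (by
    rintro (i | i)
    · exact hb.2.1 i
    · exact h2 _ (hBN (bb _).2))
  have i6 := i5.2 (by linarith [i5.1])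
  rw [Fintype.card_sum, add_le_iff_nonpos_right, Nat.le_zero, Fintype.card_eq_zero_iff] at i6
  intro x hx
  obtain ⟨d, hd⟩ := K (fun i => bb.repr ⟨x, hx⟩ (Sum.inl i)) (fun i => bb.repr ⟨x, hx⟩ (Sum.inr i))
  have e8 : (fun i => bb.repr ⟨x, hx⟩ (Sum.inl i)) ᵥ* a +
      (fun i => bb.repr ⟨x, hx⟩ (Sum.inr i)) ᵥ* w = x := by
    have := congrArg Subtype.val (bb.sum_repr ⟨x, hx⟩)
    rw [Fintype.sum_sum_type] at this
    rw [vecMul_eq_sum, vecMul_eq_sum]
    rw [Submodule.coe_add, Submodule.coe_sum, Submodule.coe_sum] at this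
    exact this
  rw [e8, vecMul_eq_sum, vecMul_eq_sum] at hd
  rw [← hd, Finset.univ_eq_empty (α := Fin _), Finset.sum_empty, add_zero]
  exact B.sum_mem fun i _ => B.smul_mem _ (Submodule.subset_span ⟨i, rfl⟩)

end Abs

end P179W.NV
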