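import Vale.Agent.P179W.NVEll

/-!
# P179W / NV : construction of the abstract data
-/

set_option linter.all false

open scoped NNReal Classical
open Matrix WithZero WeierstrassCurve

noncomputable section

namespace P179W.NV

variable {p n : ℕ} {R : Type} [Field R]

/-- the function field -/
abbrev FF (c : Deg p n R) : Subfield R := adj c.kb {c.x, c.y}

theorem kb_le (c : Deg p n R) : c.kb ≤ FF c := fun z hz => Subfield.subset_closure (Or.inl hz)

theorem x_mem (c : Deg p n R) : c.x ∈ FF c := Subfield.subset_closure (Or.inr (Or.inl rfl))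

theorem y_mem (c : Deg p n R) : c.y ∈ FF c := Subfield.subset_closure (Or.inr (Or.inr rfl))

theorem FF_stab (c : Deg p n R) (τ : R ≃+* R) (hk : ∀ z ∈ c.kb, τ z ∈ c.kb)
    (hτ : CoeffIn c.E {z | τ z = z}) (h : OnSet (FF c : Set R) (pt c.E (τ c.x) (τ c.y))) :
    ∀ z ∈ FF c, τ z ∈ FF c := by
  obtain ⟨h', e⟩ := pt_eq c.Δ_ne (eqn_map τ hτ c.eqn)
  rw [e] at h
  have : FF c ≤ (FF c).comap (τ : R →+* R) := by
    refine Subfield.closure_le.2 ?_
    rintro z (hz | rfl | rfl)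
    · exact kb_le c (hk z hz)
    · exact h.1
    · exact h.2
  exact this

theorem FF_σ (hmap : PtMapStmt) (hind : IndepStmt) (c : Deg p n R) :
    (∀ z ∈ FF c, c.σ z ∈ FF c) ∧ ∀ z ∈ FF c, c.σ.symm z ∈ FF c := by
  have hE : CoeffIn c.E (FF c) := by
    obtain ⟨a, b, d, e, f⟩ := c.coeff
    exact ⟨kb_le c a, kb_le c b, kb_le c d, kb_le c e, kb_le c f⟩
  obtain ⟨⟨H, hH⟩, -⟩ := hind R (FF c) c.E hE c.Δ_ne
  have h1 : pt c.E c.x c.y ∈ H := by
    obtain ⟨h', e⟩ := pt_eq c.Δ_ne c.eqn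
    rw [hH, e]
    exact ⟨x_mem c, y_mem c⟩
  have hk : ∀ z ∈ c.kb, c.σ.symm z ∈ c.kb := fun z hz => (c.σ_kb _).2 (by simpa using hz)
  constructor
  · refine FF_stab c c.σ (fun z hz => (c.σ_kb z).1 hz) c.σ_E ?_
    rw [← hH, c.σ_a]
    exact H.add_mem h1 ((hH _).2 (on_mono (kb_le c) c.Q_on))
  · refine FF_stab c c.σ.symm hk (coeff_symm _ c.σ_E) ?_
    obtain ⟨h2, h3, -⟩ := hmap R R (c.σ.symm : R →+* R) c.E c.E (map_self _ (coeff_symm _ c.σ_E))
    have h4 := congrArg (ptFun (c.σ.symm : R →+* R) c.E) c.σ_a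
    rw [h2, h3, h3] at h4
    simp only [RingHom.coe_coe, RingEquiv.symm_apply_apply] at h4
    rw [← hH, eq_sub_of_add_eq h4.symm]
    exact H.sub_mem h1 ((hH _).2 (on_mono (kb_le c)
      (on_map c.Δ_ne c.σ.symm (coeff_symm _ c.σ_E) hk c.Q_on)))

theorem exists_abs [Fact p.Prime] [NeZero n] (hdiv : DivStmt) (hder : DerEllStmt)
    (hmap : PtMapStmt) (hred : PtRedStmt) (hind : IndepStmt) (c : Deg p n R) :
    ∃ (A : Type) (_ : AddCommGroup A) (a : Abs p n (FF c) A) (Rel : ValuationSubring R → A → Prop),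
      (∀ z : FF c, (a.σ z : R) = c.σ z) ∧ (∀ P, ∃ V, c.IsPl V ∧ Rel V P) ∧
      (∀ V, c.IsPl V → ∃ P, Rel V P) ∧ ∀ V P, Rel V P → (∀ j, c.tt V j = a.t P j) ∧
        ∀ z z' : FF c, a.v P z ≤ a.v P z' ↔ V.valuation z ≤ V.valuation z' := by
  haveI := c.charP
  obtain ⟨ord, hcent, hex, hord, hsum, hunif⟩ :=
    hdiv R c.kb c.E c.x c.y c.kb_alg c.coeff c.Δ_ne c.eqn c.transc
  obtain ⟨δ, hδ1, hδ2⟩ := hder p R c.kb c.E c.x c.y c.kb_alg c.coeff c.Δ_ne c.eqn c.transc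
  obtain ⟨⟨H, hH⟩, -⟩ := hind R c.kb c.E c.coeff c.Δ_ne
  obtain ⟨hσ1, hσ2⟩ := FF_σ hmap hind c
  have hk : ∀ z ∈ c.kb, c.σ z ∈ c.kb := fun z hz => (c.σ_kb z).1 hz
  have hk' : ∀ z ∈ c.kb, c.σ.symm z ∈ c.kb := fun z hz => (c.σ_kb _).2 (by simpa using hz)
  have hord' : ∀ (V : ValuationSubring R) (P : H), (∀ z ∈ c.kb, z ∈ V) → Cent V c.x c.y P.1 →
      ∃ t : FF c, 0 < V.valuation t ∧ V.valuation t < 1 ∧ ∀ z : FF c, z ≠ 0 →
        (V.valuation.comap (FF c).subtype) z = V.valuation t ^ ord P z := by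
    intro V P h1 h2
    obtain ⟨t, ht, h3, h4, h5⟩ := hord V P h1 ((hH _).1 P.2) h2
    refine ⟨⟨t, ht⟩, zero_lt_iff.2 ((_root_.map_ne_zero _).2 h3), h4, fun z hz => ?_⟩
    rw [← map_zpow₀]
    exact h5 z z.2 fun h => hz (Subtype.ext h)
  have hv : ∀ P : H, ∃ v : Valuation (FF c) (WithZero (Multiplicative ℤ)),
      ∀ z, z ≠ 0 → v z = exp (-ord P z) := by
    intro P
    obtain ⟨V, h1, -, h2⟩ := hex P ((hH _).1 P.2)
    obtain ⟨t, h3, h4, h5⟩ := hord' V P h1 h2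
    exact exists_val _ _ h3 h4 _ h5
  choose v hv using hv
  have hcmp : ∀ (V : ValuationSubring R) (P : H), (∀ z ∈ c.kb, z ∈ V) → Cent V c.x c.y P.1 →
      ∀ z z' : FF c, v P z ≤ v P z' ↔ V.valuation z ≤ V.valuation z' := by
    intro V P h1 h2
    obtain ⟨t, h3, h4, h5⟩ := hord' V P h1 h2
    exact cmp_ord _ _ h3 h4 _ h5 _ (map_zero _) (hv P)
  have huni : ∀ P : H, ∃ t, v P t = exp (-1) := by
    intro P
    obtain ⟨V, h1, -, h2⟩ := hex P ((hH _).1 P.2)
    obtain ⟨t, h3, h4, h5⟩ := hord' V P h1 h2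
    have ht : t ≠ 0 := by
      rintro rfl
      simp at h3
    refine ⟨t, ?_⟩
    have h6 : ord P t = 1 := zpow_right_injective₀ h3 h4.ne (by
      simp only
      rw [← h5 t ht, zpow_one]; rfl)
    rw [hv P t ht, h6]
  obtain ⟨m1, m2, m3⟩ := hmap R R (c.σ : R →+* R) c.E c.E (map_self _ c.σ_E)
  let s0 : H →+ H := AddMonoidHom.mk'
    (fun P => ⟨ptFun c.σ c.E P.1, (hH _).2 (on_map c.Δ_ne c.σ c.σ_E hk ((hH _).1 P.2))⟩)
    fun P Q => Subtype.ext (m1 _ _)
  let s : H ≃+ H := AddEquiv.ofBijective s0 ⟨fun P Q h => Subtype.ext (m3 (congrArg Subtype.val h)),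
    fun P => ⟨⟨ptFun c.σ.symm c.E P.1,
      (hH _).2 (on_map c.Δ_ne c.σ.symm (coeff_symm _ c.σ_E) hk' ((hH _).1 P.2))⟩,
      Subtype.ext (ptFun_symm c.Δ_ne c.σ c.σ_E _)⟩⟩
  have hs : ∀ P : H, (s P).1 = ptFun c.σ c.E P.1 := fun P => rfl
  let Q : H := ⟨c.Q, (hH _).2 c.Q_on⟩
  have hPj : ∀ j, pt c.E (c.xP j) (c.yP j) ∈ H := by
    intro j
    obtain ⟨h', e⟩ := pt_eq c.Δ_ne (c.eqnP j)
    rw [hH, e]
    exact c.P_mem j
  let Pj : ZMod n → H := fun j => ⟨_, hPj j⟩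
  let u : ZMod n → FF c := fun j => ⟨c.x - c.xP j, sub_mem (x_mem c) (kb_le c (c.P_mem j).1)⟩
  have hu : ∀ j, u j ≠ 0 := by
    intro j h
    have h1 : c.x - c.xP j = 0 := congrArg Subtype.val h
    refine Polynomial.X_sub_C_ne_zero (c.xP j) (c.transc _ (fun k => ?_) (by simpa using h1))
    rw [Polynomial.coeff_sub, Polynomial.coeff_X, Polynomial.coeff_C]
    refine sub_mem ?_ ?_ <;> split_ifs
    exacts [one_mem _, zero_mem _, (c.P_mem j).1, zero_mem _]
  let σF : FF c ≃+* FF c :=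
    { toFun := fun z => ⟨c.σ z, hσ1 _ z.2⟩
      invFun := fun z => ⟨c.σ.symm z, hσ2 _ z.2⟩
      left_inv := fun z => Subtype.ext (c.σ.symm_apply_apply _)
      right_inv := fun z => Subtype.ext (c.σ.apply_symm_apply _)
      map_mul' := fun a b => Subtype.ext (map_mul c.σ _ _)
      map_add' := fun a b => Subtype.ext (map_add c.σ _ _) }
  have hlog : ∀ z : FF c, z ≠ 0 → ∃ T : Finset H, (∀ P, P ∉ T → v P z = 1) ∧
      ∑ P ∈ T, log (v P z) = 0 ∧ ∑ P ∈ T, log (v P z) • P = 0 := by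
    intro z hz
    obtain ⟨T, h1, h2, h3, h4⟩ := hsum z z.2 fun h => hz (Subtype.ext h)
    have h5 : ∀ P ∈ T, P ∈ H := fun P hP => (hH _).2 (h1 P hP)
    refine ⟨T.subtype (· ∈ H), fun P hP => ?_, ?_, ?_⟩
    · rw [hv P z hz, h2 P ((hH _).1 P.2) fun h => hP (Finset.mem_subtype.2 h)]; simp
    · simp only [hv _ z hz, log_exp, Finset.sum_neg_distrib]
      rw [Finset.sum_subtype_of_mem (fun P => ord P z) h5, h3, neg_zero]
    · apply Subtype.ext
      simp only [hv _ z hz, log_exp, neg_smul, Finset.sum_neg_distrib, AddSubgroup.coe_neg,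
        AddSubgroup.val_finsetSum, AddSubgroup.coe_zsmul]
      rw [Finset.sum_subtype_of_mem (fun P => ord P z • P) h5, h4, neg_zero]; rfl
  refine ⟨H, inferInstance,
    { v := v
      t := fun P j => if P = Pj j then u j else 1
      Pj := Pj
      σ := σF
      s := s
      Q := Q
      δ := δ
      charP := inferInstance
      fin := fun z hz => ?_
      prod := fun z hz => ?_
      abel := fun z hz => ?_
      t_ne := fun P j h => if_neg h
      t_eq := fun j => ?_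
      v_σ := fun P z => ?_
      s_Pj := fun j => ?_
      period := fun b d h1 h2 h => ?_
      δ_int := fun P z h => ?_
      δ_ker := hδ2 }, fun V P => (∀ z ∈ c.kb, z ∈ V) ∧ Cent V c.x c.y P.1, fun z => rfl,
      fun P => ?_, fun V hV => ?_, fun V P h => ⟨fun j => ?_, hcmp V P h.1 h.2⟩⟩
  · obtain ⟨T, h1, -⟩ := hlog z hz
    exact T.finite_toSet.subset fun P hP => by
      by_contra h
      exact hP (h1 P h)
  · obtain ⟨T, h1, h2, -⟩ := hlog z hz
    rw [finsum_eq_sum_of_support_subset (s := T) _ fun P hP => by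
      by_contra h
      exact hP (by simp [h1 P h]), h2]
  · obtain ⟨T, h1, -, h2⟩ := hlog z hz
    rw [finsum_eq_sum_of_support_subset (s := T) _ fun P hP => by
      by_contra h
      exact hP (by simp [h1 P h]), h2]
  · rw [if_pos rfl, hv _ _ (hu j)]
    exact congrArg (fun k => exp (-k))
      (hunif _ (c.P_mem j).1 _ (c.P_mem j).2 (c.eqnP j) (c.P_psi j))
  · obtain ⟨V, h1, ⟨z0, h2, h3⟩, h4⟩ := hex P ((hH _).1 P.2)
    let w := V.valuation.comap (c.σ.symm : R →+* R)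
    have hw : ∀ a b, w.valuationSubring.valuation (c.σ a) ≤ w.valuationSubring.valuation (c.σ b) ↔
        V.valuation a ≤ V.valuation b := by
      intro a b
      rw [← w.isEquiv_valuation_valuationSubring]
      simp [w]
    have hw1 : ∀ a, c.σ a ∈ w.valuationSubring ↔ a ∈ V := by
      intro a
      rw [← ValuationSubring.valuation_le_one_iff, ← ValuationSubring.valuation_le_one_iff,
        ← map_one V.valuation, ← hw, map_one, map_one]
    have hw2 : ∀ a, V.valuation a < 1 → w.valuationSubring.valuation (c.σ a) < 1 := by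
      intro a ha
      rw [← not_le, ← map_one V.valuation, ← hw, map_one, map_one, not_le] at ha
      exact ha
    have h5 : ∀ z ∈ c.kb, z ∈ w.valuationSubring := fun z hz => by
      rw [← c.σ.apply_symm_apply z, hw1]
      exact h1 _ (hk' z hz)
    obtain ⟨P', h6, h7⟩ := hcent _ h5 ⟨c.σ z0, hσ1 _ h2, fun h => h3 ((hw1 _).1 h)⟩
    have h8 : Cent w.valuationSubring (c.σ c.x) (c.σ c.y) (s P).1 := by
      rw [hs]
      obtain ⟨_ | ⟨a, b, hab⟩, hP⟩ := P
      · exact fun h => h4 ((hw1 _).1 h)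
      · obtain ⟨h', e⟩ := ptFun_some c.Δ_ne c.σ c.σ_E hab
        simp only
        rw [e]
        exact ⟨by rw [← map_sub]; exact hw2 _ h4.1, by rw [← map_sub]; exact hw2 _ h4.2⟩
    have h9 := cent_shift hred c.coeff c.Δ_ne H hH h5 c.eqn (eqn_map c.σ c.σ_E c.eqn)
      ((hH _).2 h6) (s P).2 Q.2 c.σ_a h7 h8
    have h10 : P' = (s P - Q).1 := eq_sub_of_add_eq h9.symm
    rw [h10] at h7
    obtain ⟨t, ht⟩ := huni P
    obtain ⟨t', ht'⟩ := huni (s P - Q)
    refine eq_of_cmp ((v (s P - Q)).comap (σF : FF c →+* FF c)) (v P) (fun z z' => ?_)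
      (σF.symm t') t (by simpa using ht') ht z
    rw [hcmp V P h1 h4, ← hw]
    exact hcmp _ _ h5 h7 _ _
  · apply Subtype.ext
    show ptFun c.σ c.E (pt c.E (c.xP j) (c.yP j)) - c.Q = pt c.E (c.xP (j + 1)) (c.yP (j + 1))
    rw [sub_eq_iff_eq_add, ← c.σ_P]
    exact m2 _ _
  · exact c.period b ((hH _).1 b.2) d h1 h2 (congrArg Subtype.val h)
  · obtain ⟨V, h1, -, h2⟩ := hex P ((hH _).1 P.2)
    rw [← map_one (v P), hcmp V P h1 h2] at h ⊢
    simp only [OneMemClass.coe_one, map_one, ValuationSubring.valuation_le_one_iff] at h ⊢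
    exact hδ1 V h1 z h
  · obtain ⟨V, h1, h2, h3⟩ := hex P ((hH _).1 P.2)
    exact ⟨V, ⟨h1, h2⟩, h1, h3⟩
  · obtain ⟨P, h1, h2⟩ := hcent V hV.1 hV.2
    exact ⟨⟨P, (hH _).2 h1⟩, hV.1, h2⟩
  · obtain ⟨h', e⟩ := pt_eq c.Δ_ne (c.eqnP j)
    have h1 : Above V c.x c.y (c.xP j) (c.yP j) ↔ Cent V c.x c.y (Pj j).1 := by
      simp only [Pj]
      rw [e]; rfl
    simp only [Deg.tt]
    by_cases h2 : P = Pj j
    · rw [if_pos h2, if_pos (h1.2 (h2 ▸ h.2))]
    · rw [if_neg h2, if_neg fun h3 => h2 (Subtype.ext ?_)]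
      · rfl
      have := cent_shift hred c.coeff c.Δ_ne H hH h.1 c.eqn c.eqn (Pj j).2 P.2 H.zero_mem
        (add_zero _).symm (h1.1 h3) h.2
      rwa [add_zero] at this

end P179W.NV
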