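import Vale.Agent.P179W.NVAbs

/-!
# P179W / NV : no subbundle of positive degree
-/

set_option linter.all false

open Matrix WithZero

noncomputable section

namespace P179W.NV

namespace Abs

variable {p n : ℕ} [NeZero n] {F : Type} [Field F] {A : Type} [AddCommGroup A] (c : Abs p n F A)
variable {ι ι' : Type} [Fintype ι] [Fintype ι']

/-- the orthogonal of the `q`-th powers of `𝒱` -/
def NN (𝒱 : Set (ZMod n → F)) (q : ℕ) : Submodule F (ZMod n → F) where
  carrier := {ω | ∀ v ∈ 𝒱, ∑ j, v j ^ q * ω j = 0}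
  zero_mem' := fun v _ => by simp
  add_mem' := by
    intro a b ha hb v hv
    simp only [Pi.add_apply, mul_add, Finset.sum_add_distrib, ha v hv, hb v hv, add_zero]
  smul_mem' := by
    intro r a ha v hv
    have := ha v hv
    simp only [Pi.smul_apply, smul_eq_mul, mul_left_comm _ r, ← Finset.mul_sum, this, mul_zero]

theorem mem_NN {𝒱 : Set (ZMod n → F)} {q : ℕ} {ω : ZMod n → F} :
    ω ∈ NN 𝒱 q ↔ ∀ v ∈ 𝒱, ∑ j, v j ^ q * ω j = 0 := Iff.rfl

/-- the shifted family -/
def sh (u : Matrix ι (ZMod n) F) : Matrix ι (ZMod n) F := Matrix.of fun i j => c.σ.symm (u i (j + 1))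

theorem bij : Function.Bijective fun P => c.s P - c.Q :=
  (c.s.toEquiv.trans (Equiv.subRight c.Q)).bijective

theorem v_t_sh (P : A) (j : ZMod n) :
    c.v (c.s P - c.Q) (c.t (c.s P - c.Q) (j + 1)) = c.v P (c.t P j) := by
  rw [c.v_t, c.v_t, ← c.s_Pj]
  by_cases h : P = c.Pj j
  · rw [if_pos h, if_pos (by rw [h])]
  · rw [if_neg h, if_neg fun h' => h (c.bij.1 h')]

theorem det_sh (u : Matrix ι (ZMod n) F) [DecidableEq ι] (I : ι → ZMod n) :
    c.σ ((c.sh u).submatrix id I).det = (u.submatrix id fun k => I k + 1).det := by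
  rw [RingEquiv.map_det]
  congr 1
  ext i j
  simp [sh]

theorem m_sh (q : ℕ) (u : Matrix ι (ZMod n) F) (P : A) :
    c.m q (c.sh u) P = c.m q u (c.s P - c.Q) := by
  classical
  have h : ∀ I : ι → ZMod n, c.v P ((c.sh u * c.T q P).submatrix id I).det =
      c.v (c.s P - c.Q) ((u * c.T q (c.s P - c.Q)).submatrix id fun k => I k + 1).det := by
    intro I
    rw [T, T, det_diag, det_diag, map_mul, map_mul, ← c.det_sh, c.v_σ, map_prod, map_prod]
    simp only [map_pow, c.v_t_sh]
  rw [m, m]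
  congr 2
  apply le_antisymm
  · refine Mx_le _ _ _ fun I => ?_
    rw [h]; exact le_Mx _ _ _
  · refine Mx_le _ _ _ fun I => ?_
    have := h fun k => I k - 1
    simp only [sub_add_cancel] at this
    rw [← this]; exact le_Mx _ _ _

theorem deg_sh (q : ℕ) (u : Matrix ι (ZMod n) F) : c.deg q (c.sh u) = c.deg q u := by
  rw [deg, finsum_congr (c.m_sh q u), deg]
  exact finsum_comp (g := c.m q u) _ c.bij

theorem indep_sh {u : Matrix ι (ZMod n) F} (hu : LinearIndependent F u) :
    LinearIndependent F (c.sh u) := by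
  classical
  obtain ⟨I, hI⟩ := exists_det u hu
  refine indep_of_det _ (fun k => I k - 1) fun h => hI ?_
  have := c.det_sh u fun k => I k - 1
  simp only [sub_add_cancel] at this
  rw [← this, h, map_zero]

theorem ab_sh (q : ℕ) {u : Matrix ι (ZMod n) F} (hu : LinearIndependent F u) :
    c.s (c.ab q (c.sh u)) = c.ab q u + c.deg q u • c.Q := by
  have h1 := c.fin_m (c.indep_sh hu) q
  rw [ab, map_finsum _ (fin_smul h1 _), ← c.deg_sh, deg, ab,
    ← finsum_comp (g := fun P => c.m q u P • P) _ c.bij,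
    show (∑ᶠ P, c.m q (c.sh u) P) • c.Q = ∑ᶠ P, c.m q (c.sh u) P • c.Q from
      map_finsum ((smulAddHom ℤ A).flip c.Q) h1]
  simp only [← c.m_sh]
  rw [← finsum_add_distrib (fin_smul h1 _) (fin_smul h1 _)]
  refine finsum_congr fun P => ?_
  rw [map_zsmul, ← smul_add, sub_add_cancel]

theorem base (𝒱 : Set (ZMod n → F)) (d : ℕ) (hd : d < n)
    (hσ : ∀ v ∈ 𝒱, (fun j => c.σ (v (j - 1))) ∈ 𝒱)
    (hr : ∃ m : ℕ, n ≤ m + d ∧ ∃ u : Fin m → ZMod n → F, (∀ k, u k ∈ 𝒱) ∧ LinearIndependent F u)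
    {b : Matrix ι (ZMod n) F} (hb : c.IsMax 1 (NN 𝒱 1) b) : c.deg 1 b ≤ 0 := by
  by_contra h0
  have h1 : ∀ i, c.sh b i ∈ NN 𝒱 1 := by
    intro i v hv
    apply c.σ.injective
    rw [map_zero, ← hb.2.1 i _ (hσ v hv), map_sum]
    refine Fintype.sum_equiv (Equiv.addRight 1) _ _ fun j => ?_
    simp [sh]
  have h2 := c.stable 1 _ (c.indep_sh hb.1) h1 hb (c.deg_sh 1 b) (AddMonoidHom.id _)
    (fun a x _ => by simp) (fun x hx => hx) (fun P x hx => hx)
  have h3 := (c.deg_change hb.1 (c.indep_sh hb.1) rfl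
    (fun i => h2 _ (Submodule.subset_span ⟨i, rfl⟩)) 1).2
  have h4 := c.ab_sh 1 hb.1
  rw [h3] at h4
  obtain ⟨m, hm, u, hu, hui⟩ := hr
  have h5 : Matrix.of u * bᵀ = 0 := by
    ext k i
    simpa [Matrix.mul_apply] using hb.2.1 i _ (hu k)
  have h6 := rank_add_rank_le_card_of_mul_eq_zero h5
  rw [rank_transpose, LinearIndependent.rank_matrix (M := Matrix.of u) hui,
    LinearIndependent.rank_matrix (M := b) hb.1, Fintype.card_fin, ZMod.card] at h6
  have h7 := c.deg_le hb.1 1
  obtain ⟨k, hk⟩ := Int.eq_ofNat_of_zero_le (not_le.1 h0).le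
  refine c.period (c.ab 1 b) k (by omega) (by omega) ?_
  rw [h4, hk, natCast_zsmul, add_sub_cancel_left]

theorem step [Fact p.Prime] (𝒱 : Set (ZMod n → F)) (q : ℕ)
    {b : Matrix ι (ZMod n) F} (hb : c.IsMax (q * p) (NN 𝒱 (q * p)) b) :
    ∃ u : Matrix ι (ZMod n) F, LinearIndependent F u ∧ (∀ i, u i ∈ NN 𝒱 q) ∧
      c.deg (q * p) b = p * c.deg q u := by
  classical
  haveI := c.charP
  have hp : ∀ z : F, c.δ (z ^ (q * p)) = 0 := by
    intro z
    rw [Derivation.leibniz_pow, nsmul_eq_mul, Nat.cast_mul, CharP.cast_eq_zero F p, mul_zero,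
      zero_mul]
  let φ : (ZMod n → F) →+ (ZMod n → F) :=
    { toFun := fun x j => c.δ (x j)
      map_zero' := by funext j; simp
      map_add' := fun x y => by funext j; simp }
  have h2 := c.stable (q * p) _ hb.1 hb.2.1 hb rfl φ
    (fun a x hx => by
      have : φ (a • x) - a • φ x = c.δ a • x := by
        funext j
        simp [φ, mul_comm]
      rw [this]
      exact Submodule.smul_mem _ _ hx)
    (fun x hx v hv => by
      rw [← map_zero c.δ, ← hx v hv, map_sum]
      refine Finset.sum_congr rfl fun j _ => ?_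
      rw [Derivation.leibniz, hp]
      simp [φ])
    (fun P x hx j => by
      have := c.δ_int P _ (hx j)
      rw [Derivation.leibniz, hp] at this
      simpa [φ, mul_comm] using this)
  obtain ⟨I, hI⟩ := exists_det b hb.1
  set b' := (b.submatrix id I)⁻¹ * b with hb'
  have h3 : b'.submatrix id I = 1 := by
    rw [hb', mul_sub, nonsing_inv_mul _ (Ne.isUnit hI)]
  have h4 : ∀ i, b' i ∈ Submodule.span F (Set.range b) := by
    intro i
    have : b' i = ((b.submatrix id I)⁻¹ i) ᵥ* b := rfl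
    rw [this, vecMul_eq_sum]
    exact Submodule.sum_mem _ fun i _ => Submodule.smul_mem _ _ (Submodule.subset_span ⟨i, rfl⟩)
  have h5 : ∀ i j, c.δ (b' i j) = 0 := by
    intro i j
    obtain ⟨g, hg⟩ := (Submodule.mem_span_range_iff_exists_fun F).1 (h2 _ (h4 i))
    have h6 : g ᵥ* b.submatrix id I = 0 := by
      funext k
      have h7 : b' i (I k) = (1 : Matrix ι ι F) i k := by rw [← h3]; rfl
      have h8 := congrFun hg (I k)
      have h9 : φ (b' i) (I k) = 0 := by
        show c.δ (b' i (I k)) = 0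
        rw [h7, one_apply]
        split_ifs <;> simp
      rw [h9] at h8
      simpa [vecMul, dotProduct] using h8
    have h10 := eq_zero_of_vecMul_eq_zero hI h6
    have := congrFun hg j
    rw [h10] at this
    simpa [φ] using this.symm
  choose u hu using fun i j => c.δ_ker _ (h5 i j)
  have e1 : b' = (Matrix.of u).map (frobenius F p) := by
    ext i j
    exact (hu i j).symm
  have hui : LinearIndependent F (Matrix.of u) := by
    refine indep_of_det _ I fun h => ?_
    have : ((Matrix.of u).map (frobenius F p)).submatrix id I =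
      (frobenius F p).mapMatrix ((Matrix.of u).submatrix id I) := rfl
    rw [e1, this] at h3
    have h4 := congrArg det h3
    rw [← RingHom.map_det, h, map_zero, det_one] at h4
    exact zero_ne_one h4
  have hb'i : LinearIndependent F b' := indep_of_det _ I (by rw [h3, det_one]; exact one_ne_zero)
  refine ⟨Matrix.of u, hui, fun i v hv => ?_, ?_⟩
  · have h6 := (Submodule.span_le.2 (Set.range_subset_iff.2 hb.2.1) (h4 i)) v hv
    apply (frobenius F p).injective
    rw [map_zero, ← h6, map_sum]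
    refine Finset.sum_congr rfl fun j _ => ?_
    rw [frobenius_def, mul_pow, ← pow_mul, ← hu]; rfl
  · rw [← (c.deg_change hb.1 hb'i rfl h4 _).1, deg, deg, mul_finsum]
    refine finsum_congr fun P => ?_
    have e2 : b' * c.T (q * p) P = (Matrix.of u * c.T q P).map (frobenius F p) := by
      ext i j
      rw [mul_T, map_apply, mul_T, frobenius_def, mul_pow, ← pow_mul, ← hu]; rfl
    rw [m, m, e2, Mx_map (c.v P) (c.v P) _ p (Fact.out : p.Prime).ne_zero
      (fun z => by rw [frobenius_def, map_pow]), log_pow]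
    simp

theorem deg_nonpos [Fact p.Prime] (𝒱 : Set (ZMod n → F)) (d : ℕ) (hd : d < n)
    (hσ : ∀ v ∈ 𝒱, (fun j => c.σ (v (j - 1))) ∈ 𝒱)
    (hr : ∃ m : ℕ, n ≤ m + d ∧ ∃ u : Fin m → ZMod n → F, (∀ k, u k ∈ 𝒱) ∧ LinearIndependent F u)
    (e : ℕ) : ∀ (ι : Type) [Fintype ι] (u : Matrix ι (ZMod n) F), LinearIndependent F u →
      (∀ i, u i ∈ NN 𝒱 (p ^ e)) → c.deg (p ^ e) u ≤ 0 := by
  induction e with
  | zero =>
    intro ι _ u hu hN
    obtain ⟨τ, _, b, hb⟩ := c.exists_max 1 (NN 𝒱 1)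
    rw [pow_zero] at hN ⊢
    exact (hb.2.2 _ u hu hN).1.trans (c.base 𝒱 d hd hσ hr hb)
  | succ e ih =>
    intro ι _ u hu hN
    obtain ⟨τ, _, b, hb⟩ := c.exists_max (p ^ e * p) (NN 𝒱 (p ^ e * p))
    rw [pow_succ] at hN ⊢
    obtain ⟨u', h1, h2, h3⟩ := c.step 𝒱 _ hb
    refine (hb.2.2 _ u hu hN).1.trans ?_
    rw [h3]
    exact mul_nonpos_of_nonneg_of_nonpos (by positivity) (ih _ u' h1 h2)

end Abs

end P179W.NV
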