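import Vale.Agent.P179W.Stmts
import Vale.Agent.P179W.NVSemi

/-!
# P179W / NV : the degree data of an elliptic curve
-/

set_option linter.all false

open scoped NNReal Classical
open Matrix WithZero WeierstrassCurve

noncomputable section

namespace P179W.NV

section Val

variable {K : Type} [Field K] {Γ : Type} [LinearOrderedCommGroupWithZero Γ]

theorem cmp_ord (w : Valuation K Γ) (τ : Γ) (h0 : 0 < τ) (h1 : τ < 1) (o : K → ℤ)
    (h : ∀ z, z ≠ 0 → w z = τ ^ o z) (v : K → WithZero (Multiplicative ℤ)) (hv0 : v 0 = 0)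
    (hv : ∀ z, z ≠ 0 → v z = exp (-o z)) (z z' : K) : v z ≤ v z' ↔ w z ≤ w z' := by
  by_cases hz : z = 0
  · simp [hz, hv0]
  by_cases hz' : z' = 0
  · simp [hz', hv0, hv z hz, hz]
  rw [hv z hz, hv z' hz', h z hz, h z' hz', zpow_le_zpow_iff_right_of_lt_one₀ h0 h1,
    exp_le_exp, neg_le_neg_iff]

theorem exists_val (w : Valuation K Γ) (τ : Γ) (h0 : 0 < τ) (h1 : τ < 1) (o : K → ℤ)
    (h : ∀ z, z ≠ 0 → w z = τ ^ o z) :
    ∃ v : Valuation K (WithZero (Multiplicative ℤ)), ∀ z, z ≠ 0 → v z = exp (-o z) := by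
  let f : K → WithZero (Multiplicative ℤ) := fun z => if z = 0 then 0 else exp (-o z)
  have f0 : f 0 = 0 := if_pos rfl
  have f1 : ∀ z, z ≠ 0 → f z = exp (-o z) := fun z hz => if_neg hz
  have hc := cmp_ord w τ h0 h1 o h f f0 f1
  have hinj := zpow_right_injective₀ h0 h1.ne
  refine ⟨{ toFun := f, map_zero' := f0, map_one' := ?_, map_mul' := ?_, map_add_le_max' := ?_ },
    f1⟩
  · have : o 1 = 0 := hinj (by simp only; rw [← h 1 one_ne_zero]; simp)
    rw [f1 1 one_ne_zero, this]; simp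
  · intro a b
    by_cases ha : a = 0
    · simp [ha, f0]
    by_cases hb : b = 0
    · simp [hb, f0]
    have : o (a * b) = o a + o b := hinj (by
      simp only
      rw [← h _ (mul_ne_zero ha hb), zpow_add₀ h0.ne', ← h a ha, ← h b hb, map_mul])
    rw [f1 _ (mul_ne_zero ha hb), f1 a ha, f1 b hb, this, neg_add, exp_add]
  · intro a b
    simp only [le_max_iff, hc]
    exact le_max_iff.1 (w.map_add a b)

theorem eq_of_cmp (v v' : Valuation K (WithZero (Multiplicative ℤ)))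
    (h : ∀ z z', v z ≤ v z' ↔ v' z ≤ v' z') (t t' : K) (ht : v t = exp (-1))
    (ht' : v' t' = exp (-1)) (z : K) : v z = v' z := by
  have h1 : ∀ x : WithZero (Multiplicative ℤ), ¬ 1 ≤ x → x ≤ exp (-1) := by
    intro x hx
    rw [← lt_mul_exp_iff_le exp_ne_zero, ← exp_add]
    simpa using hx
  have h2 : ¬ (1 : WithZero (Multiplicative ℤ)) ≤ exp (-1) := by
    rw [← exp_zero, exp_le_exp]; omega
  have h3 : v' t = exp (-1) := by
    apply le_antisymm
    · apply h1
      rw [← map_one v', ← h, map_one, ht]; exact h2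
    · rw [← ht', ← h, ht]
      apply h1
      rw [← map_one v, h, map_one, ht']; exact h2
  by_cases hz : z = 0
  · simp [hz]
  have h4 : v z = v (t ^ (-log (v z))) := by
    rw [map_zpow₀, ht, ← WithZero.exp_zsmul]
    simp [exp_log ((_root_.map_ne_zero v).2 hz)]
  have h5 : v' z = v' (t ^ (-log (v z))) :=
    le_antisymm ((h _ _).1 h4.le) ((h _ _).1 h4.ge)
  rw [h5, map_zpow₀, h3, ← ht, ← map_zpow₀]
  exact h4

end Val

section Ell

variable {R : Type} [Field R] {E : WeierstrassCurve R}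

theorem pt_eq (hΔ : E.Δ ≠ 0) {x y : R} (h : E.toAffine.Equation x y) :
    ∃ h', pt E x y = .some x y h' :=
  ⟨(E.toAffine.equation_iff_nonsingular_of_Δ_ne_zero hΔ).1 h, dif_pos _⟩

theorem pt_some {x y : R} (h : E.toAffine.Nonsingular x y) : pt E x y = .some x y h := dif_pos h

theorem delta_mem {k : Subfield R} (h : CoeffIn E k) : E.Δ ∈ k := by
  obtain ⟨h1, h2, h3, h4, h6⟩ := h
  simp only [SetLike.mem_coe] at h1 h2 h3 h4 h6
  simp only [WeierstrassCurve.Δ, b₂, b₄, b₆, b₈]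
  have h7 : ∀ m : ℕ, (m : R) ∈ k := fun m => natCast_mem k m
  repeat first
    | assumption
    | exact h7 _
    | apply sub_mem
    | apply add_mem
    | apply mul_mem
    | apply neg_mem
    | apply pow_mem

theorem val_unit {k : Subfield R} {V : ValuationSubring R} (hk : ∀ c ∈ k, c ∈ V) {z : R}
    (hz : z ∈ k) (h0 : z ≠ 0) : V.valuation z = 1 := by
  apply le_antisymm ((V.valuation_le_one_iff z).2 (hk z hz))
  have := (V.valuation_le_one_iff _).2 (hk _ (k.inv_mem hz))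
  rwa [map_inv₀, inv_le_one₀ (zero_lt_iff.2 ((_root_.map_ne_zero _).2 h0))] at this

theorem cent_shift (hred : PtRedStmt) {k : Subfield R} (hE : CoeffIn E k) (hΔ : E.Δ ≠ 0)
    (H : AddSubgroup E.toAffine.Point) (hH : ∀ P, P ∈ H ↔ OnSet (k : Set R) P)
    {V : ValuationSubring R} (hk : ∀ c ∈ k, c ∈ V) {X Y X' Y' : R}
    (h1 : E.toAffine.Equation X Y) (h2 : E.toAffine.Equation X' Y') {P P' Q : E.toAffine.Point}
    (hP : P ∈ H) (hP' : P' ∈ H) (hQ : Q ∈ H) (h : pt E X' Y' = pt E X Y + Q)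
    (hc : Cent V X Y P) (hc' : Cent V X' Y' P') : P' = P + Q := by
  have hi : CoeffIn E {z | V.valuation z ≤ 1} := by
    obtain ⟨a, b, c, d, e⟩ := hE
    refine ⟨?_, ?_, ?_, ?_, ?_⟩ <;> exact (V.valuation_le_one_iff _).2 (hk _ ‹_›)
  obtain ⟨-, hr, -⟩ := hred R _ V.valuation E hi (val_unit hk (delta_mem hE) hΔ)
  let r : R → IsLocalRing.ResidueField V := fun z =>
    if h : z ∈ V then IsLocalRing.residue V ⟨z, h⟩ else 0
  have hr0 : ∀ z (h : z ∈ V), r z = IsLocalRing.residue V ⟨z, h⟩ := fun z h => dif_pos h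
  have hadd : ∀ a b, V.valuation a ≤ 1 → V.valuation b ≤ 1 → r (a + b) = r a + r b := by
    intro a b ha hb
    rw [V.valuation_le_one_iff] at ha hb
    rw [hr0 a ha, hr0 b hb, hr0 _ (add_mem ha hb), ← map_add]; rfl
  have hz : ∀ a, V.valuation a ≤ 1 → (r a = 0 ↔ V.valuation a < 1) := by
    intro a ha
    rw [V.valuation_le_one_iff] at ha
    rw [hr0 a ha, IsLocalRing.residue_eq_zero_iff, V.valuation_lt_one_iff]
  obtain ⟨-, hn, ha⟩ := hr _ r ⟨r E.a₁, r E.a₂, r E.a₃, r E.a₄, r E.a₆⟩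
    (by rw [hr0 1 V.one_mem]; exact map_one _) hadd (by
      intro a b ha hb
      rw [V.valuation_le_one_iff] at ha hb
      rw [hr0 a ha, hr0 b hb, hr0 _ (mul_mem ha hb), ← map_mul]; rfl) hz rfl rfl rfl rfl rfl
  set red := fun P : E.toAffine.Point => ptRed {z | V.valuation z ≤ 1} r
    (⟨r E.a₁, r E.a₂, r E.a₃, r E.a₄, r E.a₆⟩ : WeierstrassCurve _) P with hred'
  have ha' : ∀ P Q, red (P + Q) = red P + red Q := ha
  have hcong : ∀ a ∈ k, ∀ z, V.valuation (z - a) < 1 → V.valuation z ≤ 1 ∧ r z = r a := by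
    intro a ha z hz'
    have h3 := (V.valuation_le_one_iff _).2 (hk a ha)
    have h4 : z = z - a + a := by ring
    constructor
    · rw [h4]; exact V.valuation.map_add_le hz'.le h3
    · rw [h4, hadd _ _ hz'.le h3, (hz _ hz'.le).2 hz', zero_add]
  have hcent : ∀ X Y P, E.toAffine.Equation X Y → P ∈ H → Cent V X Y P →
      red (pt E X Y) = red P := by
    intro X Y P h hP hc
    obtain ⟨h', e⟩ := pt_eq hΔ h
    rw [e]
    rcases P with _ | ⟨a, b, hab⟩
    · exact if_neg fun h => hc ((V.valuation_le_one_iff _).1 h)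
    · obtain ⟨h3, h4⟩ := (hH _).1 hP
      obtain ⟨h5, h6⟩ := hcong a h3 X hc.1
      obtain ⟨-, h7⟩ := hcong b h4 Y hc.2
      show ite _ _ _ = ite _ _ _
      rw [if_pos (by exact h5), if_pos (by exact (V.valuation_le_one_iff _).2 (hk a h3)), h6, h7]
  have hinj : ∀ P ∈ H, red P = 0 → P = 0 := by
    rintro (_ | ⟨a, b, hab⟩) hP h0
    · rfl
    · obtain ⟨h3, h4⟩ := (hH _).1 hP
      have h5 := (V.valuation_le_one_iff _).2 (hk a h3)
      have : red (.some a b hab) = pt _ (r a) (r b) := if_pos h5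
      rw [this, pt_some (hn a b hab.1 h5)] at h0
      exact absurd h0 (Affine.Point.some_ne_zero _)
  rw [← sub_eq_zero]
  apply hinj _ (H.sub_mem hP' (H.add_mem hP hQ))
  have h3 := ha' (P' - (P + Q)) (P + Q)
  rw [sub_add_cancel, ← hcent _ _ _ h2 hP' hc', h, ha', hcent _ _ _ h1 hP hc, ← ha'] at h3
  exact right_eq_add.1 h3

theorem map_self (σ : R ≃+* R) (h : CoeffIn E {z | σ z = z}) : E.map (σ : R →+* R) = E := by
  obtain ⟨a, b, c, d, e⟩ := h
  ext
  exacts [a, b, c, d, e]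

theorem coeff_symm (σ : R ≃+* R) (h : CoeffIn E {z | σ z = z}) :
    CoeffIn E {z | σ.symm z = z} := by
  obtain ⟨a, b, c, d, e⟩ := h
  refine ⟨?_, ?_, ?_, ?_, ?_⟩ <;> exact σ.symm_apply_eq.2 (Eq.symm ‹_›)

theorem eqn_map (σ : R ≃+* R) (h : CoeffIn E {z | σ z = z}) {x y : R}
    (hx : E.toAffine.Equation x y) : E.toAffine.Equation (σ x) (σ y) := by
  have := hx.map (σ : R →+* R)
  have e : E.toAffine.map (σ : R →+* R) = E.toAffine := map_self σ h
  rwa [e] at this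

theorem ptFun_some (hΔ : E.Δ ≠ 0) (σ : R ≃+* R) (h : CoeffIn E {z | σ z = z}) {x y : R}
    (hx : E.toAffine.Nonsingular x y) :
    ∃ h', ptFun σ E (.some x y hx : E.toAffine.Point) = .some (σ x) (σ y) h' :=
  pt_eq hΔ (eqn_map σ h hx.1)

theorem on_map (hΔ : E.Δ ≠ 0) (σ : R ≃+* R) (h : CoeffIn E {z | σ z = z}) {S : Set R}
    (hS : ∀ z ∈ S, σ z ∈ S) {P : E.toAffine.Point} (hP : OnSet S P) : OnSet S (ptFun σ E P) := by
  rcases P with _ | ⟨a, b, hab⟩
  · trivial
  · obtain ⟨h', e⟩ := ptFun_some hΔ σ h hab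
    rw [e]
    exact ⟨hS _ hP.1, hS _ hP.2⟩

theorem ptFun_symm (hΔ : E.Δ ≠ 0) (σ : R ≃+* R) (h : CoeffIn E {z | σ z = z})
    (P : E.toAffine.Point) : ptFun σ E (ptFun σ.symm E P) = P := by
  rcases P with _ | ⟨a, b, hab⟩
  · rfl
  · obtain ⟨h', e⟩ := ptFun_some hΔ σ.symm (coeff_symm σ h) hab
    rw [e]
    show pt E _ _ = _
    rw [σ.apply_symm_apply, σ.apply_symm_apply, pt_some hab]

theorem on_mono {S S' : Set R} (h : S ⊆ S') {P : E.toAffine.Point} (hP : OnSet S P) :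
    OnSet S' P := by
  rcases P with _ | ⟨a, b, hab⟩
  · trivial
  · exact ⟨h hP.1, h hP.2⟩

end Ell

end P179W.NV
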