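import Mathlib

/-!
# P179W / NV : maximal minors over a valued field
-/

set_option linter.all false

open Matrix

noncomputable section

namespace P179W.NV

variable {K : Type} [Field K] {Γ : Type} [LinearOrderedCommGroupWithZero Γ]
variable {ι ι' κ κ' : Type} [Fintype ι] [Fintype ι'] [Fintype κ] [Fintype κ']

/-- the largest valuation of a maximal minor -/
def Mx (v : Valuation K Γ) (u : Matrix ι κ K) : Γ :=
  letI := Classical.decEq ι
  Finset.univ.sup fun I : ι → κ => v (u.submatrix id I).det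

theorem le_Mx [i : DecidableEq ι] (v : Valuation K Γ) (u : Matrix ι κ K) (I : ι → κ) :
    v (u.submatrix id I).det ≤ Mx v u := by
  obtain rfl : i = Classical.decEq ι := Subsingleton.elim _ _
  unfold Mx
  letI := Classical.decEq ι
  exact Finset.le_sup (f := fun I : ι → κ => v (u.submatrix id I).det) (Finset.mem_univ I)

theorem Mx_le [i : DecidableEq ι] (v : Valuation K Γ) (u : Matrix ι κ K) (c : Γ)
    (h : ∀ I : ι → κ, v (u.submatrix id I).det ≤ c) : Mx v u ≤ c := by
  obtain rfl : i = Classical.decEq ι := Subsingleton.elim _ _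
  unfold Mx
  exact Finset.sup_le fun I _ => h I

theorem exists_Mx [DecidableEq ι] (v : Valuation K Γ) (u : Matrix ι κ K) (h : Mx v u ≠ 0) :
    ∃ I : ι → κ, v (u.submatrix id I).det = Mx v u := by
  by_cases hne : (Finset.univ : Finset (ι → κ)).Nonempty
  · obtain ⟨I, -, hI⟩ := Finset.exists_max_image Finset.univ
      (fun I : ι → κ => v (u.submatrix id I).det) hne
    exact ⟨I, le_antisymm (le_Mx v u I) (Mx_le v u _ fun J => hI J (Finset.mem_univ _))⟩
  · exfalso
    apply h
    refine le_antisymm (Mx_le v u 0 fun I => ?_) zero_le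
    exact absurd ⟨I, Finset.mem_univ I⟩ hne

theorem Mx_congr {K' : Type} [Field K'] (v : Valuation K Γ) (v' : Valuation K' Γ)
    [DecidableEq ι] [DecidableEq ι'] (u : Matrix ι κ K) (u' : Matrix ι' κ' K') (c : Γ)
    (h : ∀ I : ι → κ, ∃ I' : ι' → κ',
      v (u.submatrix id I).det ≤ c * v' (u'.submatrix id I').det) :
    Mx v u ≤ c * Mx v' u' := by
  refine Mx_le v u _ fun I => ?_
  obtain ⟨I', h⟩ := h I
  exact h.trans (mul_le_mul_right (le_Mx v' u' I') c)

theorem mul_sub (A : Matrix ι' ι K) (u : Matrix ι κ K) (I : κ' → κ) :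
    (A * u).submatrix id I = A * u.submatrix id I := by
  ext i j
  simp [Matrix.mul_apply]

theorem Mx_mul [DecidableEq ι] (v : Valuation K Γ) (A : Matrix ι ι K) (u : Matrix ι κ K) :
    Mx v (A * u) = v A.det * Mx v u := by
  apply le_antisymm
  · refine Mx_congr v v _ _ _ fun I => ⟨I, ?_⟩
    rw [mul_sub, det_mul, map_mul]
  · by_cases h : Mx v u = 0
    · rw [h, mul_zero]; exact zero_le
    obtain ⟨I, hI⟩ := exists_Mx v u h
    rw [← hI, ← map_mul, ← det_mul, ← mul_sub]
    exact le_Mx v _ I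

theorem det_le_prod [DecidableEq ι] (v : Valuation K Γ) (A : Matrix ι ι K) (c : ι → Γ)
    (h : ∀ i j, v (A i j) ≤ c i) : v A.det ≤ ∏ i, c i := by
  rw [← det_transpose, det_apply']
  refine v.map_sum_le fun σ _ => ?_
  rw [map_mul, map_prod]
  have h1 : v ((Equiv.Perm.sign σ : ℤ) : K) ≤ 1 := by
    rcases Int.units_eq_one_or (Equiv.Perm.sign σ) with h | h <;> simp [h]
  refine (mul_le_of_le_one_left' h1).trans ?_
  exact Finset.prod_le_prod' fun i _ => h _ _

theorem Mx_le_prod (v : Valuation K Γ) (u : Matrix ι κ K) (c : ι → Γ)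
    (h : ∀ i j, v (u i j) ≤ c i) : Mx v u ≤ ∏ i, c i := by
  classical
  exact Mx_le v u _ fun I => det_le_prod v _ c fun i j => h i (I j)

theorem Mx_le_one (v : Valuation K Γ) (u : Matrix ι κ K) (h : ∀ i j, v (u i j) ≤ 1) :
    Mx v u ≤ 1 := by
  simpa using Mx_le_prod v u (fun _ => 1) h

theorem indep_of_det [DecidableEq ι] (u : Matrix ι κ K) (I : ι → κ)
    (h : (u.submatrix id I).det ≠ 0) : LinearIndependent K u := by
  have h1 : LinearIndependent K (u.submatrix id I).row :=
    linearIndependent_rows_iff_isUnit.2 ((isUnit_iff_isUnit_det _).2 (Ne.isUnit h))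
  exact LinearIndependent.of_comp (LinearMap.funLeft K K I) h1

theorem exists_det [DecidableEq ι] (u : Matrix ι κ K) (h : LinearIndependent K u) :
    ∃ I : ι → κ, (u.submatrix id I).det ≠ 0 := by
  classical
  obtain ⟨τ, a, ha, hsp, hli⟩ := exists_linearIndependent' K u.col
  haveI : Finite τ := Finite.of_injective a ha
  letI := Fintype.ofFinite τ
  have h1 : Fintype.card τ = Fintype.card ι := by
    rw [← finrank_span_eq_card hli, hsp, ← rank_eq_finrank_span_cols]
    exact LinearIndependent.rank_matrix h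
  let e : ι ≃ τ := Fintype.equivOfCardEq h1.symm
  refine ⟨a ∘ e, ?_⟩
  have h2 : LinearIndependent K (u.submatrix id (a ∘ e)).col := hli.comp e e.injective
  exact ((isUnit_iff_isUnit_det _).1 (linearIndependent_cols_iff_isUnit.1 h2)).ne_zero

theorem Mx_ne_zero_iff (v : Valuation K Γ) (u : Matrix ι κ K) :
    Mx v u ≠ 0 ↔ LinearIndependent K u := by
  classical
  constructor
  · intro h
    obtain ⟨I, hI⟩ := exists_Mx v u h
    refine indep_of_det u I fun h0 => h ?_
    rw [← hI, h0, map_zero]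
  · intro h
    obtain ⟨I, hI⟩ := exists_det u h
    intro h0
    have := le_Mx v u I
    rw [h0, le_zero_iff, map_eq_zero] at this
    exact hI this

/-- normal form -/
theorem exists_norm [DecidableEq ι] (v : Valuation K Γ) (u : Matrix ι κ K) (h : Mx v u ≠ 0) :
    ∃ (A : Matrix ι ι K) (I : ι → κ), A.det ≠ 0 ∧ (∀ i j, v ((A * u) i j) ≤ 1) ∧
      (A * u).submatrix id I = 1 := by
  obtain ⟨I, hI⟩ := exists_Mx v u h
  have hd : (u.submatrix id I).det ≠ 0 := fun h0 => h (by rw [← hI, h0, map_zero])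
  have hu : IsUnit (u.submatrix id I).det := Ne.isUnit hd
  have h1 : ((u.submatrix id I)⁻¹ * u).submatrix id I = 1 := by
    rw [mul_sub, nonsing_inv_mul _ hu]
  have hM : Mx v ((u.submatrix id I)⁻¹ * u) = 1 := by
    rw [Mx_mul, ← hI, ← map_mul, ← det_mul, nonsing_inv_mul _ hu, det_one, map_one]
  refine ⟨(u.submatrix id I)⁻¹, I, (isUnit_nonsing_inv_det _ hu).ne_zero, fun i j => ?_, h1⟩
  set w := (u.submatrix id I)⁻¹ * u
  have h2 : w.submatrix id (Function.update I i j) =
      (1 : Matrix ι ι K).updateCol i (fun k => w k j) := by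
    ext a b
    by_cases hb : b = i
    · subst hb; simp
    · rw [updateCol_ne hb, ← h1]; simp [Function.update_of_ne hb]
  have h3 := le_Mx v w (Function.update I i j)
  rw [h2, hM, ← cramer_apply, cramer_one] at h3
  exact h3

theorem one_le_Mx [DecidableEq ι] (v : Valuation K Γ) (u : Matrix ι κ K) (I : ι → κ)
    (h : (u.submatrix id I).det = 1) : 1 ≤ Mx v u := by
  have := le_Mx v u I
  rwa [h, map_one] at this

/-- the basic inequality -/
theorem Mx_ineq {α β γ : Type} [Fintype α] [Fintype β] [Fintype γ] (v : Valuation K Γ)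
    (a : Matrix α κ K) (w w' : Matrix β κ K) (b : Matrix γ κ K)
    (haw : LinearIndependent K (fromRows a w)) (hb : LinearIndependent K b)
    (H : ∀ (c₀ : α → K) (c : β → K), (∀ j, v ((c₀ ᵥ* a + c ᵥ* w) j) ≤ 1) →
      ∃ d : γ → K, ∀ j, v ((d ᵥ* b + c ᵥ* w') j) ≤ 1) :
    Mx v (fromRows b w') * Mx v a ≤ Mx v b * Mx v (fromRows a w) := by
  classical
  have ha : LinearIndependent K a := haw.comp Sum.inl Sum.inl_injective
  obtain ⟨A, I, hA, hAi, hAI⟩ := exists_norm v a ((Mx_ne_zero_iff v a).2 ha)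
  obtain ⟨E, J, hE, hEi, hEJ⟩ := exists_norm v b ((Mx_ne_zero_iff v b).2 hb)
  set w1 : Matrix β κ K := -(w.submatrix id I * A) * a + w with hw1
  have hw1I : w1.submatrix id I = 0 := by
    have : w1.submatrix id I = -(w.submatrix id I) * ((A * a).submatrix id I) +
        w.submatrix id I := by
      rw [← mul_sub, hw1, Matrix.neg_mul, Matrix.neg_mul, Matrix.mul_assoc]; rfl
    rw [this, hAI, Matrix.mul_one, neg_add_cancel]
  have h1 : LinearIndependent K w1 := by
    have e1 : fromBlocks (1 : Matrix α α K) (0 : Matrix α β K) (-(w.submatrix id I * A))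
        (1 : Matrix β β K) * fromRows a w = fromRows a w1 := by
      rw [fromBlocks_mul_fromRows]; simp [hw1]
    have e2 : Mx v (fromRows a w1) ≠ 0 := by
      rw [← e1, Mx_mul, det_fromBlocks_zero₁₂]
      simpa using (Mx_ne_zero_iff v _).2 haw
    exact ((Mx_ne_zero_iff v _).1 e2).comp Sum.inr Sum.inr_injective
  obtain ⟨D, I', hD, hDi, hDI⟩ := exists_norm v w1 ((Mx_ne_zero_iff v w1).2 h1)
  have e1 : fromBlocks A 0 (D * -(w.submatrix id I * A)) D * fromRows a w =
      fromRows (A * a) (D * w1) := by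
    rw [fromBlocks_mul_fromRows, hw1, Matrix.mul_add D, ← Matrix.mul_assoc D]; simp
  have i1 : 1 ≤ v A.det * v D.det * Mx v (fromRows a w) := by
    rw [← map_mul, ← det_fromBlocks_zero₁₂ A (D * -(w.submatrix id I * A)) D, ← Mx_mul, e1]
    refine one_le_Mx v _ (Sum.elim I I') ?_
    have : (fromRows (A * a) (D * w1)).submatrix id (Sum.elim I I') =
        fromBlocks ((A * a).submatrix id I) ((A * a).submatrix id I')
          ((D * w1).submatrix id I) ((D * w1).submatrix id I') := by
      ext (i | i) (j | j) <;> rfl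
    rw [this, hAI, hDI, mul_sub D w1 I, hw1I, Matrix.mul_zero, det_fromBlocks_zero₂₁]
    simp
  have i2 : v A.det * Mx v a ≤ 1 := by
    rw [← Mx_mul]; exact Mx_le_one v _ hAi
  have i3 : 1 ≤ v E.det * Mx v b := by
    rw [← Mx_mul]; exact one_le_Mx v _ J (by rw [hEJ, det_one])
  have h2 : ∀ i, ∃ d : γ → K, ∀ j, v ((d ᵥ* b + D i ᵥ* w') j) ≤ 1 := by
    intro i
    refine H ((D * -(w.submatrix id I * A)) i) (D i) fun j => ?_
    convert hDi i j using 2
    rw [hw1, Matrix.mul_add D, ← Matrix.mul_assoc D]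
    rfl
  choose d hd using h2
  have i4 : v E.det * v D.det * Mx v (fromRows b w') ≤ 1 := by
    rw [← map_mul, ← det_fromBlocks_zero₁₂ E (Matrix.of d) D, ← Mx_mul, fromBlocks_mul_fromRows]
    refine Mx_le_one v _ ?_
    rintro (i | i) j
    · simpa using hEi i j
    · exact hd i j
  have hpos : 0 < v A.det * v D.det * v E.det := by
    rw [← map_mul, ← map_mul]
    exact zero_lt_iff.2 ((map_ne_zero v).2 (mul_ne_zero (mul_ne_zero hA hD) hE))
  refine le_of_mul_le_mul_left ?_ hpos
  calc v A.det * v D.det * v E.det * (Mx v (fromRows b w') * Mx v a)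
      = (v E.det * v D.det * Mx v (fromRows b w')) * (v A.det * Mx v a) := by ac_rfl
    _ ≤ 1 * 1 := mul_le_mul' i4 i2
    _ ≤ (v A.det * v D.det * Mx v (fromRows a w)) * (v E.det * Mx v b) := mul_le_mul' i1 i3
    _ = _ := by ac_rfl

theorem Mx_rows (v : Valuation K Γ) (u : Matrix ι κ K) (e : ι' ≃ ι) :
    Mx v (u.submatrix e id) = Mx v u := by
  classical
  apply le_antisymm
  · refine Mx_le v _ _ fun I => ?_
    have := le_Mx v u (I ∘ e.symm)
    rw [← det_submatrix_equiv_self e] at this
    convert this using 3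
    ext i j; simp
  · refine Mx_le v _ _ fun I => ?_
    have := le_Mx v (u.submatrix e id) (I ∘ e)
    rw [← det_submatrix_equiv_self e]
    exact this

theorem det_diag [DecidableEq ι] [DecidableEq κ] (u : Matrix ι κ K) (t : κ → K) (I : ι → κ) :
    ((u * diagonal t).submatrix id I).det = (u.submatrix id I).det * ∏ k, t (I k) := by
  have : (u * diagonal t).submatrix id I = u.submatrix id I * diagonal (t ∘ I) := by
    ext i j; simp
  rw [this, det_mul, det_diagonal]; rfl

/-- two bases of the same space -/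
theorem exists_change (u : Matrix ι κ K) (u' : Matrix ι' κ K) (hu : LinearIndependent K u)
    (hu' : LinearIndependent K u') (hc : Fintype.card ι' = Fintype.card ι)
    (h : ∀ i, u' i ∈ Submodule.span K (Set.range u)) :
    ∃ f : K, f ≠ 0 ∧ ∀ (Γ : Type) [LinearOrderedCommGroupWithZero Γ] (v : Valuation K Γ)
      (T : Matrix κ κ K), Mx v (u' * T) = v f * Mx v (u * T) := by
  classical
  let e : ι ≃ ι' := Fintype.equivOfCardEq hc.symm
  have h1 : ∀ i, ∃ c : ι → K, ∑ k, c k • u k = u' (e i) := fun i =>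
    (Submodule.mem_span_range_iff_exists_fun K).1 (h (e i))
  choose A hA using h1
  have h2 : u'.submatrix e id = Matrix.of A * u := by
    ext i j
    have := congrFun (hA i) j
    simp only [Finset.sum_apply, Pi.smul_apply, smul_eq_mul] at this
    simp [Matrix.mul_apply, this]
  refine ⟨(Matrix.of A).det, fun h0 => ?_, fun Γ _ v T => ?_⟩
  · have h3 := (Mx_ne_zero_iff (1 : Valuation K (WithZero (Multiplicative ℤ))) u').2 hu'
    rw [← Mx_rows _ u' e, h2, Mx_mul, h0] at h3
    simp at h3
  · rw [← Mx_mul, ← Matrix.mul_assoc, ← h2, ← Mx_rows v _ e]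
    rfl

end P179W.NV
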