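import Vale.Agent.P179W.OrdA

/-!
# P179W : ordinary elliptic curves (B5)
-/

set_option linter.all false

open scoped Classical
open Polynomial WeierstrassCurve WeierstrassCurve.Affine

noncomputable section

namespace P179W

namespace OrdH

/-- the cubic -/
def cub {R : Type} [CommRing R] (a b : R) : R[X] := X ^ 3 + C a * X ^ 2 + C b * X

theorem coeff_cub {R S : Type} [CommRing R] [CommRing S] (φ : R →+* S) (a b : R) (m k : ℕ) :
    (cub (φ a) (φ b) ^ m).coeff k = φ ((cub a b ^ m).coeff k) := by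
  rw [← coeff_map, Polynomial.map_pow]
  simp [cub]

variable {K : Type} [Field K]

theorem deg_cub (a b : K) : (cub a b).natDegree ≤ 3 := by
  rw [cub]
  compute_degree

theorem coeff_twist (b : K) {d : K} (hd : d ≠ 0) (m : ℕ) :
    (cub d (d ^ 2 * b) ^ m).coeff (2 * m) = d ^ m * (cub 1 b ^ m).coeff (2 * m) := by
  have h : (cub d (d ^ 2 * b)).comp (C d * X) = C (d ^ 3) * cub 1 b := by
    simp [cub]
    ring
  have h1 := comp_C_mul_X_coeff (p := cub d (d ^ 2 * b) ^ m) (r := d) (n := 2 * m)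
  rw [pow_comp, h, mul_pow, ← C_pow, coeff_C_mul] at h1
  refine mul_right_cancel₀ (pow_ne_zero (2 * m) hd) (h1.symm.trans ?_)
  ring

theorem coeff_mul_expand {g h : K[X]} {Q i : ℕ} (j : ℕ) (hi : i < Q) (hg : g.natDegree < i + Q) :
    (g * expand K Q h).coeff (i + j * Q) = g.coeff i * h.coeff j := by
  have Q0 : 0 < Q := by omega
  rw [coeff_mul, ← coeff_expand_mul Q0 h j]
  refine Finset.sum_eq_single (i, j * Q) ?_ (by simp)
  rintro ⟨u, v⟩ h1 h2
  simp only [coeff_expand Q0]
  split_ifs with k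
  · obtain ⟨c, rfl⟩ := k
    have h3 : u + Q * c = i + j * Q := Finset.HasAntidiagonal.mem_antidiagonal.1 h1
    refine mul_eq_zero_of_left (coeff_eq_zero_of_natDegree_lt (hg.trans_le ?_)) _
    rcases lt_trichotomy c j with k | rfl | k
    · nlinarith
    · exact (h2 (Prod.ext (by nlinarith) (mul_comm _ _))).elim
    · nlinarith
  · exact mul_zero _

theorem hasse {p m : ℕ} [Fact p.Prime] [CharP K p] (hm : p = 2 * m + 1) {f : K[X]}
    (hf : f.natDegree ≤ 3) (h : (f ^ m).coeff (2 * m) = 1) (k : ℕ) :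
    ∃ e, p ^ k = 2 * e + 1 ∧ (f ^ e).coeff (2 * e) = 1 := by
  induction k with
  | zero => exact ⟨0, by simp⟩
  | succ k ih =>
    obtain ⟨e, h1, h2⟩ := ih
    refine ⟨e + m * p ^ k, by rw [pow_succ, h1, hm]; ring, ?_⟩
    have := natDegree_pow_le_of_le e hf
    rw [pow_add, pow_mul, ← map_iterateFrobenius_expand, map_expand, mul_add, ← mul_assoc,
      coeff_mul_expand _ (by omega) (by omega), coeff_map, h, h2, map_one, mul_one]

theorem sum_eval [Fintype K] {g : K[X]} {n : ℕ} (hn : Fintype.card K = n + 1)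
    (hg : g.natDegree < 2 * n) : ∑ x, g.eval x = -g.coeff n := by
  have h : ∀ i < 2 * n, ∑ x : K, x ^ i = if i = n then -1 else 0 := fun i hi => by
    rcases lt_trichotomy i n with k | rfl | k
    · rw [if_neg k.ne, FiniteField.sum_pow_lt_card_sub_one K i (by omega)]
    · have : ∀ x : K, x ^ i = 1 - if x = 0 then 1 else 0 := fun x => by
        split_ifs with e
        · rw [e, zero_pow (by omega), sub_self]
        · simpa [hn] using FiniteField.pow_card_sub_one_eq_one x e
      simp [this]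
    · obtain ⟨j, rfl⟩ : ∃ j, i = j + (n + 1) := ⟨i - (n + 1), by omega⟩
      rw [if_neg k.ne', ← FiniteField.sum_pow_lt_card_sub_one K (j + 1) (by omega)]
      exact Finset.sum_congr rfl fun x _ => by rw [pow_add, ← hn, FiniteField.pow_card, pow_succ]
  simp only [eval_eq_sum_range' hg]
  rw [Finset.sum_comm, Finset.sum_congr rfl fun i hi => by
    rw [← Finset.mul_sum, h i (Finset.mem_range.1 hi)]]
  simp [show n < 2 * n by omega]

/-- the curve `y² = x³ + a x² + b x` -/
def crv (a b : K) : WeierstrassCurve K := ⟨0, a, 0, b, 0⟩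

theorem crv_eqn (a b x y : K) : (crv a b).toAffine.Equation x y ↔ y ^ 2 = (cub a b).eval x := by
  simp [equation_iff, crv, cub]

theorem crv_Δ (a b : K) : (crv a b).Δ = 16 * b ^ 2 * (a ^ 2 - 4 * b) := by
  simp only [crv, Δ, b₂, b₄, b₆, b₈]
  ring

theorem count [Finite K] {p m : ℕ} [Fact p.Prime] [CharP K p] (hm : p = 2 * m + 1) {a b : K}
    (hΔ : (crv a b).Δ ≠ 0) (h : (cub a b ^ m).coeff (2 * m) = 1) :
    ∃ τ : (crv a b).toAffine.Point, addOrderOf τ = p := by
  have := Fintype.ofFinite K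
  obtain ⟨k, -, hk⟩ := FiniteField.card K p
  obtain ⟨e, h1, h2⟩ := hasse hm (deg_cub a b) h k
  have h3 : ringChar K ≠ 2 := by rw [ringChar.eq K p]; omega
  have h4 : Fintype.card K = 2 * e + 1 := hk.trans h1
  have h5 := Fintype.one_lt_card (α := K)
  have := Finite.of_equiv (Option _) (nonsingularPointEquiv (crv a b).toAffine).symm
  refine exists_prime_addOrderOf_dvd_card' p ((CharP.cast_eq_zero_iff K p _).1 ?_)
  have h6 : ∀ x, (Nat.card {y // (crv a b).toAffine.Nonsingular x y} : K) =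
      (cub a b ^ e).eval x + 1 := fun x => by
    have := congrArg (Int.cast : ℤ → K) (quadraticChar_card_sqrts h3 ((cub a b).eval x))
    rw [Int.cast_add, quadraticChar_eq_pow_of_char_ne_two' h3, h4,
      show (2 * e + 1) / 2 = e by omega, Int.cast_natCast, Int.cast_one] at this
    rw [eval_pow, ← this, ← Set.ncard_eq_toFinset_card', ← Nat.card_coe_set_eq]
    exact congrArg _ (Nat.card_congr (Equiv.subtypeEquivRight fun y => by
      rw [← equation_iff_nonsingular_of_Δ_ne_zero hΔ, crv_eqn]; rfl))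
  have h7 := natDegree_pow_le_of_le e (deg_cub a b)
  rw [Nat.card_congr (nonsingularPointEquiv (crv a b).toAffine), WithZero, Finite.card_option,
    Nat.card_congr (Equiv.subtypeProdEquivSigmaSubtype _), Nat.card_sigma]
  push_cast
  simp only [h6, Finset.sum_add_distrib, sum_eval h4 (show (cub a b ^ e).natDegree < _ by omega), h2]
  simp

theorem exists_crv {p m : ℕ} [Fact p.Prime] (hm : p = 2 * m + 1) [CharP K p] [IsAlgClosed K] :
    ∃ a b : K, (crv a b).Δ ≠ 0 ∧ (cub a b ^ m).coeff (2 * m) = 1 := by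
  have m0 : 0 < m := by
    have := (Fact.out : p.Prime).one_lt
    omega
  have h2 : (2 : K) ≠ 0 := Ring.two_ne_zero (by rw [ringChar.eq K p]; omega)
  have e : ∀ b : K, ((cub 1 X ^ m).coeff (2 * m)).eval b = (cub 1 b ^ m).coeff (2 * m) :=
    fun b => by simpa using (coeff_cub (evalRingHom b) 1 X m (2 * m)).symm
  obtain ⟨b, hb⟩ : ∃ b : K, eval b ((cub 1 X ^ m).coeff (2 * m) * X * (1 - 4 * X)) ≠ 0 := by
    by_contra! H
    have := mul_eq_zero.1 (Polynomial.funext (q := 0) (by simpa only [eval_zero] using H))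
    rcases this with k | k
    · have := e 0
      rw [(mul_eq_zero.1 k).resolve_right X_ne_zero, show cub (1 : K) 0 = (X + 1) * X ^ 2 by
        simp [cub]; ring, mul_pow, ← pow_mul, coeff_mul_X_pow'] at this
      simp [coeff_zero_eq_eval_zero] at this
    · simpa using congrArg (eval 0) k
  simp only [eval_mul, e, eval_X, eval_sub, eval_one, eval_ofNat, mul_ne_zero_iff] at hb
  obtain ⟨d, hd⟩ := IsAlgClosed.exists_pow_nat_eq ((cub 1 b ^ m).coeff (2 * m))⁻¹ m0
  have d0 : d ≠ 0 := fun h => by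
    rw [h, zero_pow m0.ne'] at hd
    exact inv_ne_zero hb.1.1 hd.symm
  refine ⟨d, d ^ 2 * b, ?_, by rw [coeff_twist b d0, hd, inv_mul_cancel₀ hb.1.1]⟩
  rw [crv_Δ, show 16 * (d ^ 2 * b) ^ 2 * (d ^ 2 - 4 * (d ^ 2 * b)) =
    2 ^ 4 * d ^ 6 * b ^ 2 * (1 - 4 * b) by ring]
  exact mul_ne_zero (mul_ne_zero (mul_ne_zero (pow_ne_zero _ h2) (pow_ne_zero _ d0))
    (pow_ne_zero _ hb.1.2)) hb.2

theorem odd [Finite K] {F : Type} [Field F] [IsAlgClosed F] (j : K →+* F) {p m : ℕ} [Fact p.Prime]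
    [CharP K p] (hm : p = 2 * m + 1) {a b : K} (hΔ : (crv a b).Δ ≠ 0)
    (h : (cub a b ^ m).coeff (2 * m) = 1) : ∃ E : WeierstrassCurve F, E.Δ ≠ 0 ∧
      ∀ M : ℕ, ∃ τ : E.toAffine.Point, addOrderOf τ = p ^ M := by
  obtain ⟨τ, hτ⟩ := count hm hΔ h
  have hΔ' := map_Δ_ne hΔ j
  have k : ((crv a b).map j).toAffine.Nonsingular 0 0 :=
    nonsing_of_Δ hΔ' (by simp [equation_iff, crv])
  refine ⟨_, hΔ', tower hΔ' (Q₀ := .some _ _ k) (τ := mp _ j τ) ?_
    (fun h => ?_) (by rw [← map_nsmul, ← hτ, addOrderOf_nsmul_eq_zero, map_zero])⟩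
  · rw [hm, succ_nsmul, mul_nsmul, two_nsmul,
      Point.add_self_of_Y_eq (by simp [negY, crv]), nsmul_zero, zero_add]
    exact Point.some_ne_zero k
  · rw [mp_inj j (h.trans (map_zero _).symm), addOrderOf_zero] at hτ
    exact (Fact.out : p.Prime).one_lt.ne hτ

end OrdH

open OrdH in
theorem ordinary_holds : OrdinaryStmt := by
  intro p hp F _ _ _
  rcases hp.out.eq_two_or_odd' with rfl | ⟨m, hm⟩
  · have h2 : (2 : F) = 0 := CharP.cast_eq_zero F 2
    let E : WeierstrassCurve F := ⟨1, 0, 0, 0, 1⟩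
    have hΔ : E.Δ ≠ 0 := by
      rw [show E.Δ = 1 by simp only [E, Δ, b₂, b₄, b₆, b₈]; linear_combination -217 * h2]
      exact one_ne_zero
    have k1 : E.toAffine.Nonsingular 0 1 := nonsing_of_Δ hΔ (by simp [equation_iff, E])
    have k2 : E.toAffine.Nonsingular 1 0 := nonsing_of_Δ hΔ (by
      simp only [equation_iff, E]; linear_combination -h2)
    refine ⟨E, hΔ, tower hΔ (Q₀ := .some _ _ k2) (fun h => ?_) (Point.some_ne_zero k1) ?_⟩
    · rw [two_nsmul, add_eq_zero_iff_eq_neg, Point.neg_some] at h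
      simpa [negY, E] using h
    · rw [two_nsmul]
      exact Point.add_self_of_Y_eq (by simp only [negY, E]; linear_combination h2)
  · obtain ⟨a, b, h1, h2⟩ := exists_crv (K := AlgebraicClosure (ZMod p)) hm
    let K₀ := IntermediateField.adjoin (ZMod p) {a, b}
    have : FiniteDimensional (ZMod p) K₀ :=
      IntermediateField.finiteDimensional_adjoin fun x _ => Algebra.IsIntegral.isIntegral x
    have : Finite K₀ := Module.finite_of_finite (ZMod p)
    have : CharP K₀ p := charP_of_injective_algebraMap (algebraMap (ZMod p) K₀).injective p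
    let a₀ : K₀ := ⟨a, IntermediateField.subset_adjoin _ _ (by simp)⟩
    let b₀ : K₀ := ⟨b, IntermediateField.subset_adjoin _ _ (by simp)⟩
    have e : ∀ {L : Type} [Field L] (j : K₀ →+* L), (crv a₀ b₀).map j = crv (j a₀) (j b₀) :=
      fun j => by simp [crv, WeierstrassCurve.map]
    have hΔ : (crv a₀ b₀).Δ ≠ 0 := fun h => h1 (by
      have := map_Δ (crv a₀ b₀) K₀.subtype
      rwa [h, map_zero, e] at this)
    let := ZMod.algebra F p
    exact odd (IsAlgClosed.lift : K₀ →ₐ[ZMod p] F).toRingHom hm hΔ (K₀.subtype.injective (by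
      rw [← coeff_cub, map_one]; exact h2))

end P179W
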