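import Vale.Agent.P179W.PtRed
import Vale.Agent.P179W.AmbVal

/-!
# P179W : the group of points over an algebraically closed field is divisible
-/

set_option linter.all false

open scoped Classical
open Polynomial WeierstrassCurve WeierstrassCurve.Affine

noncomputable section

namespace P179W.OrdH

variable {F U : Type} [Field F] [Field U] {E : WeierstrassCurve F}

/-- the map on the points -/
def mp (E : WeierstrassCurve F) (j : F →+* U) : E.toAffine.Point →+ (E.map j).toAffine.Point :=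
  AddMonoidHom.mk' (ptFun j (E.map j)) (ptMap_holds F U j E _ rfl).1

theorem mp_inj (j : F →+* U) : Function.Injective (mp E j) := (ptMap_holds F U j E _ rfl).2.2

theorem map_Δ_ne (hΔ : E.Δ ≠ 0) (j : F →+* U) : (E.map j).Δ ≠ 0 := by
  rw [map_Δ]
  exact (_root_.map_ne_zero j).2 hΔ

theorem mp_some (hΔ : E.Δ ≠ 0) (j : F →+* U) {a b : F} (h : E.toAffine.Nonsingular a b) :
    mp E j (.some a b h) = .some (j a) (j b) (nonsing_of_Δ (map_Δ_ne hΔ j) (h.1.map j)) :=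
  pt_of _

theorem exists_y [IsAlgClosed F] (E : WeierstrassCurve F) (x : F) :
    ∃ y, E.toAffine.Equation x y := by
  obtain ⟨y, hy⟩ := IsAlgClosed.exists_root (X ^ 2 + C (E.a₁ * x + E.a₃) * X -
    C (x ^ 3 + E.a₂ * x ^ 2 + E.a₄ * x + E.a₆)) (by
      rw [show degree _ = 2 by compute_degree!]
      decide)
  refine ⟨y, (equation_iff _ _).2 ?_⟩
  simp only [IsRoot, eval_sub, eval_add, eval_mul, eval_pow, eval_X, eval_C] at hy
  linear_combination hy

theorem pm (hΔ : E.Δ ≠ 0) (j : F →+* U) {a b : F} (h : E.toAffine.Nonsingular a b) {y : U}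
    (h' : (E.map j).toAffine.Nonsingular (j a) y) :
    ∃ Q, (Q = .some a b h ∨ Q = -.some a b h) ∧ Point.some (j a) y h' = mp E j Q := by
  rcases (Point.X_eq_iff (h₁ := h') (h₂ := nonsing_of_Δ (map_Δ_ne hΔ j) (h.1.map j))).1 rfl with
    k | k
  · exact ⟨_, .inl rfl, by rw [k, mp_some hΔ]⟩
  · exact ⟨_, .inr rfl, by rw [k, map_neg, mp_some hΔ]⟩

variable [IsAlgClosed F]

theorem rat (hΔ : E.Δ ≠ 0) (j : F →+* U) {a : F} {y : U}
    (h' : (E.map j).toAffine.Nonsingular (j a) y) : ∃ Q, Point.some (j a) y h' = mp E j Q := by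
  obtain ⟨b, hb⟩ := exists_y E a
  obtain ⟨Q, -, h⟩ := pm hΔ j (nonsing_of_Δ hΔ hb) h'
  exact ⟨Q, h⟩

/-- specialisation -/
theorem spec (hΔ : E.Δ ≠ 0) (j : F →+* U) {s : U} (hs : s ∉ j.fieldRange) :
    ∃ (R : Type) (_ : Field R) (j' : F →+* R)
      (ρ : (E.map j).toAffine.Point →+ (E.map j').toAffine.Point),
      (∀ Q, ρ (mp E j Q) = mp E j' Q) ∧ ∀ x y h,
        (∀ a, s = x - j a → ∃ y' h', ρ (.some x y h) = .some (j' a) y' h') ∧
          (s * x = 1 → ρ (.some x y h) = 0) := by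
  obtain ⟨V, hV⟩ := valExt_holds.2 F[X] U (eval₂RingHom j s) (RingHom.ker (evalRingHom 0))
    (RingHom.ker_isPrime _) fun f hf => by
      by_cases h : f = 0
      · rw [h]; exact zero_mem _
      · exact (hs ((IsAlgClosed.splits f).mem_range_of_isRoot h
          (by rwa [IsRoot, ← eval₂_eq_eval_map]))).elim
  have h1 : ∀ c, V.valuation (j c) ≤ 1 := fun c => by
    simpa using (V.valuation_le_one_iff _).2 (hV (C c)).1
  have h2 : V.valuation s < 1 := by simpa using (hV X).2.2 (by simp [RingHom.mem_ker])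
  have h3 : V.valuation (E.map j).Δ = 1 := by
    rw [map_Δ]
    refine (h1 _).eq_of_not_lt fun h => hΔ ?_
    simpa [RingHom.mem_ker] using (hV (C E.Δ)).2.1 (by simpa using h)
  obtain ⟨R, _, r, r1, ra, rm, r0, -⟩ := exists_red V.valuation
  let j' : F →+* R :=
    { toFun := fun c => r (j c)
      map_one' := by rw [map_one, r1]
      map_mul' := fun a b => by rw [map_mul, rm _ _ (h1 a) (h1 b)]
      map_zero' := by rw [map_zero, r0 0 (by simp)]; simp
      map_add' := fun a b => by rw [map_add, ra _ _ (h1 a) (h1 b)] }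
  obtain ⟨-, ns, add⟩ := (ptRed_holds U _ V.valuation (E.map j) ⟨h1 _, h1 _, h1 _, h1 _, h1 _⟩
    h3).2.1 R r (E.map j') r1 ra rm r0 rfl rfl rfl rfl rfl
  refine ⟨R, inferInstance, j', AddMonoidHom.mk' _ add, fun Q => ?_, fun x y h =>
    ⟨fun a e => ?_, fun e => if_neg fun k => ?_⟩⟩
  · rcases Q with _ | ⟨a, b, h⟩
    · rfl
    · rw [mp_some hΔ]
      exact if_pos (h1 a)
  · obtain rfl : x = s + j a := by rw [e, sub_add_cancel]
    have k := V.valuation.map_add_le h2.le (h1 a)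
    have k1 : r (s + j a) = j' a := by rw [ra _ _ h2.le (h1 a), (r0 s h2.le).2 h2, zero_add]; rfl
    have k2 : (E.map j').toAffine.Nonsingular (j' a) (r y) := k1 ▸ ns _ y h.1 k
    refine ⟨r y, k2, (if_pos k).trans ?_⟩
    rw [k1]
    exact pt_of _
  · have := congrArg V.valuation e
    rw [map_mul, map_one] at this
    exact (mul_lt_one_of_nonneg_of_lt_one_left zero_le' h2 k).ne this

/-- descent -/
theorem desc (hΔ : E.Δ ≠ 0) (j : F →+* U) {n : ℕ} {P : (E.map j).toAffine.Point}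
    {T : E.toAffine.Point} (h : n • P = mp E j T) : ∃ Q, n • Q = T := by
  rcases P with _ | ⟨x, y, k⟩
  · exact ⟨0, mp_inj j (by rw [← h, map_nsmul]; rfl)⟩
  by_cases hx : x ∈ j.fieldRange
  · obtain ⟨a, rfl⟩ := hx
    obtain ⟨Q, hQ⟩ := rat hΔ j k
    exact ⟨Q, mp_inj j (by rw [← h, map_nsmul, ← hQ])⟩
  · obtain ⟨R, _, j', ρ, h1, h2⟩ := spec hΔ j hx
    obtain ⟨y', k', e⟩ := (h2 x y k).1 0 (by simp)
    obtain ⟨Q, hQ⟩ := rat hΔ j' k'
    exact ⟨Q, mp_inj j' (by rw [← h1 T, ← h, map_nsmul, map_nsmul, e, hQ])⟩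

/-- divisibility -/
theorem divis (hΔ : E.Δ ≠ 0) {n : ℕ} {Q₀ : E.toAffine.Point} (h₀ : n • Q₀ ≠ 0)
    (T : E.toAffine.Point) : ∃ Q, n • Q = T := by
  let i := algebraMap (RatFunc F) (AlgebraicClosure (RatFunc F))
  let j := i.comp (algebraMap F (RatFunc F))
  have hx : i RatFunc.X ∉ j.fieldRange := fun ⟨c, hc⟩ => RatFunc.transcendental_X (K := F)
    (i.injective hc ▸ isAlgebraic_algebraMap c)
  have sub : ∀ z ∉ j.fieldRange, ∀ a, z - j a ∉ j.fieldRange := fun z hz a h =>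
    hz (by simpa using add_mem h (j.mem_fieldRange_self a))
  obtain ⟨y, hy⟩ := exists_y (E.map j) (i RatFunc.X)
  have k := nonsing_of_Δ (map_Δ_ne hΔ j) hy
  by_cases H : ∃ T', n • Point.some _ y k = mp E j T'
  · obtain ⟨T', hT⟩ := H
    obtain ⟨R, _, j', ρ, h1, h2⟩ := spec hΔ j fun h => hx (inv_mem_iff.1 h)
    obtain rfl : T' = 0 := mp_inj j' (by
      rw [← h1 T', ← hT, map_nsmul, (h2 _ y k).2 (inv_mul_cancel₀ fun h => hx (h ▸ zero_mem _)),
        nsmul_zero, map_zero])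
    rcases Q₀ with _ | ⟨a, b, h⟩
    · exact (h₀ (nsmul_zero n)).elim
    obtain ⟨R, _, j', ρ, h1, h2⟩ := spec hΔ j (sub _ hx a)
    obtain ⟨y', k', e⟩ := (h2 _ y k).1 a rfl
    obtain ⟨Q, hQ, e'⟩ := pm hΔ j' h k'
    have : n • Q = 0 := mp_inj j' (by rw [map_nsmul, ← e', ← e, ← map_nsmul, hT, h1])
    rcases hQ with rfl | rfl
    · exact (h₀ this).elim
    · exact (h₀ (neg_eq_zero.1 (by rwa [← neg_nsmul]))).elim
  rcases T with _ | ⟨a, b, h⟩
  · exact ⟨0, nsmul_zero n⟩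
  rcases hP : n • Point.some _ y k with _ | ⟨X, Y, k₁⟩
  · exact (H ⟨0, hP⟩).elim
  have hX : X ∉ j.fieldRange := by
    rintro ⟨c, rfl⟩
    exact H (hP ▸ rat hΔ j k₁)
  obtain ⟨R, _, j', ρ, h1, h2⟩ := spec hΔ j (sub _ hX a)
  obtain ⟨y', k', e⟩ := (h2 _ Y k₁).1 a rfl
  obtain ⟨T', hT, e'⟩ := pm hΔ j' h k'
  obtain ⟨Q, hQ⟩ := desc hΔ j' (n := n) (P := ρ (.some _ y k)) (T := T')
    (by rw [← map_nsmul, hP, e, e'])
  rcases hT with rfl | rfl
  · exact ⟨Q, hQ⟩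
  · exact ⟨-Q, by rw [neg_nsmul, hQ, neg_neg]⟩

/-- points of order `p ^ M` -/
theorem tower (hΔ : E.Δ ≠ 0) {p : ℕ} [Fact p.Prime] {Q₀ τ : E.toAffine.Point} (h₀ : p • Q₀ ≠ 0)
    (h₁ : τ ≠ 0) (h₂ : p • τ = 0) (M : ℕ) : ∃ τ : E.toAffine.Point, addOrderOf τ = p ^ M := by
  have : ∀ M, ∃ τ : E.toAffine.Point, p ^ M • τ ≠ 0 ∧ p ^ (M + 1) • τ = 0 := fun M => by
    induction M with
    | zero => exact ⟨τ, by simpa using h₁, by simpa using h₂⟩
    | succ M ih =>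
      obtain ⟨σ, k1, k2⟩ := ih
      obtain ⟨Q, rfl⟩ := divis hΔ h₀ σ
      exact ⟨Q, by rwa [pow_succ, mul_nsmul'], by rwa [pow_succ, mul_nsmul']⟩
  rcases M with _ | M
  · exact ⟨0, by simp⟩
  · obtain ⟨σ, k1, k2⟩ := this M
    exact ⟨σ, addOrderOf_eq_prime_pow k1 k2⟩

end P179W.OrdH
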