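import Vale.Agent.P179W.Stmts

/-!
# P179W : toolbox on power series over a valued field
-/

set_option linter.all false

open scoped NNReal Classical
open Filter Topology

noncomputable section

namespace P179W

/-! ## the Taylor series is a ring homomorphism -/

section Tau

variable {L : Type} [Field L]

theorem der_iter_zero (δ : Derivation ℤ L L) (k : ℕ) : (δ : L → L)^[k] 0 = 0 :=
  Function.iterate_fixed (map_zero δ) k

theorem der_iter_add (δ : Derivation ℤ L L) (k : ℕ) (a b : L) :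
    (δ : L → L)^[k] (a + b) = (δ : L → L)^[k] a + (δ : L → L)^[k] b := by
  induction k with
  | zero => rfl
  | succ k ih => simp only [Function.iterate_succ_apply', ih, map_add]

theorem der_natCast_mul (δ : Derivation ℤ L L) (m : ℕ) (a : L) : δ ((m : L) * a) = m * δ a := by
  rw [← nsmul_eq_mul, map_nsmul, nsmul_eq_mul]

theorem der_const_mul (δ : Derivation ℤ L L) {c : L} (hc : δ c = 0) (a : L) :
    δ (c * a) = c * δ a := by
  rw [Derivation.leibniz, hc]; simp

theorem der_iter_const_mul (δ : Derivation ℤ L L) {c : L} (hc : δ c = 0) (k : ℕ) (a : L) :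
    (δ : L → L)^[k] (c * a) = c * (δ : L → L)^[k] a := by
  induction k with
  | zero => rfl
  | succ k ih => simp only [Function.iterate_succ_apply', ih, der_const_mul δ hc]

theorem der_iter_mul (δ : Derivation ℤ L L) (k : ℕ) (a b : L) :
    (δ : L → L)^[k] (a * b) = ∑ ij ∈ Finset.HasAntidiagonal.antidiagonal k,
      (k.choose ij.1 : L) * ((δ : L → L)^[ij.1] a * (δ : L → L)^[ij.2] b) := by
  induction k with
  | zero => simp
  | succ k ih =>
    rw [Finset.sum_antidiagonal_choose_succ_mul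
      (fun i j => (δ : L → L)^[i] a * (δ : L → L)^[j] b) k, Function.iterate_succ_apply', ih,
      map_sum, ← Finset.sum_add_distrib]
    refine Finset.sum_congr rfl fun ij hij => ?_
    have h : k.choose ij.2 = k.choose ij.1 :=
      Nat.choose_symm_of_eq_add (by rw [add_comm]; exact (Finset.HasAntidiagonal.mem_antidiagonal.1 hij).symm)
    rw [der_natCast_mul, Derivation.leibniz, h]
    simp only [Function.iterate_succ_apply', smul_eq_mul]
    ring

theorem dE_zero (δ : Derivation ℤ L L) (π0 z : L) : dE δ π0 0 z = z := by simp [dE]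

theorem dE_add (δ : Derivation ℤ L L) (π0 : L) (k : ℕ) (a b : L) :
    dE δ π0 k (a + b) = dE δ π0 k a + dE δ π0 k b := by
  simp only [dE, der_iter_add, mul_add]

theorem dE_zero' (δ : Derivation ℤ L L) (π0 : L) (k : ℕ) : dE δ π0 k 0 = 0 := by
  simp [dE, der_iter_zero]

theorem dE_const_mul (δ : Derivation ℤ L L) (π0 : L) {c : L} (hc : δ c = 0) (k : ℕ) (a : L) :
    dE δ π0 k (c * a) = c * dE δ π0 k a := by
  simp only [dE, der_iter_const_mul δ hc]; ring

theorem dE_const (δ : Derivation ℤ L L) (π0 : L) {c : L} (hc : δ c = 0) {k : ℕ} (hk : k ≠ 0) :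
    dE δ π0 k c = 0 := by
  obtain ⟨k, rfl⟩ := Nat.exists_eq_succ_of_ne_zero hk
  simp [dE, Function.iterate_succ_apply, hc, der_iter_zero]

theorem dE_mul [CharZero L] (δ : Derivation ℤ L L) (π0 : L) (k : ℕ) (a b : L) :
    dE δ π0 k (a * b) = ∑ ij ∈ Finset.HasAntidiagonal.antidiagonal k, dE δ π0 ij.1 a * dE δ π0 ij.2 b := by
  simp only [dE, der_iter_mul, Finset.mul_sum]
  refine Finset.sum_congr rfl fun ij hij => ?_
  have h := Finset.HasAntidiagonal.mem_antidiagonal.1 hij
  have h1 : ((ij.1 + ij.2).choose ij.1 : L) * ij.1.factorial * ij.2.factorial =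
      (ij.1 + ij.2).factorial := by
    have := Nat.add_choose_mul_factorial_mul_factorial ij.2 ij.1
    rw [add_comm ij.2 ij.1] at this
    rw [← this]; push_cast; ring
  rw [← h, ← h1, pow_add]
  have h2 : (ij.1.factorial : L) ≠ 0 := Nat.cast_ne_zero.2 (Nat.factorial_ne_zero _)
  have h3 : (ij.2.factorial : L) ≠ 0 := Nat.cast_ne_zero.2 (Nat.factorial_ne_zero _)
  have h4 : ((ij.1 + ij.2).choose ij.1 : L) ≠ 0 :=
    Nat.cast_ne_zero.2 (Nat.choose_pos (Nat.le_add_right _ _)).ne'
  field_simp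

@[simp] theorem coeff_tau (δ : Derivation ℤ L L) (π0 z : L) (k : ℕ) :
    PowerSeries.coeff k (tau δ π0 z) = dE δ π0 k z := by
  simp [tau]

theorem tau_const (δ : Derivation ℤ L L) (π0 : L) {c : L} (hc : δ c = 0) :
    tau δ π0 c = PowerSeries.C c := by
  ext k
  rw [coeff_tau, PowerSeries.coeff_C]
  split_ifs with h
  · rw [h, dE_zero]
  · exact dE_const δ π0 hc h

/-- the Taylor series as a ring homomorphism -/
def tauHom [CharZero L] (δ : Derivation ℤ L L) (π0 : L) : L →+* PowerSeries L where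
  toFun := tau δ π0
  map_one' := by rw [tau_const δ π0 (Derivation.map_one_eq_zero δ), map_one]
  map_zero' := by rw [tau_const δ π0 (map_zero δ), map_zero]
  map_add' a b := by ext k; simp [dE_add]
  map_mul' a b := by ext k; simp [dE_mul, PowerSeries.coeff_mul]

@[simp] theorem tauHom_apply [CharZero L] (δ : Derivation ℤ L L) (π0 z : L) :
    tauHom δ π0 z = tau δ π0 z := rfl

theorem tau_add [CharZero L] (δ : Derivation ℤ L L) (π0 a b : L) :
    tau δ π0 (a + b) = tau δ π0 a + tau δ π0 b := map_add (tauHom δ π0) a b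

theorem tau_sub [CharZero L] (δ : Derivation ℤ L L) (π0 a b : L) :
    tau δ π0 (a - b) = tau δ π0 a - tau δ π0 b := map_sub (tauHom δ π0) a b

theorem tau_mul [CharZero L] (δ : Derivation ℤ L L) (π0 a b : L) :
    tau δ π0 (a * b) = tau δ π0 a * tau δ π0 b := map_mul (tauHom δ π0) a b

theorem tau_pow [CharZero L] (δ : Derivation ℤ L L) (π0 a : L) (m : ℕ) :
    tau δ π0 (a ^ m) = tau δ π0 a ^ m := map_pow (tauHom δ π0) a m

theorem tau_one [CharZero L] (δ : Derivation ℤ L L) (π0 : L) : tau δ π0 1 = 1 :=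
  map_one (tauHom δ π0)

theorem tau_zero [CharZero L] (δ : Derivation ℤ L L) (π0 : L) : tau δ π0 0 = 0 :=
  map_zero (tauHom δ π0)

theorem constantCoeff_tau (δ : Derivation ℤ L L) (π0 z : L) :
    PowerSeries.constantCoeff (tau δ π0 z) = z := by
  rw [← PowerSeries.coeff_zero_eq_constantCoeff_apply, coeff_tau, dE_zero]

/-- iterativity -/
theorem dE_dE [CharZero L] (δ : Derivation ℤ L L) {π0 : L} (h : δ π0 = 0) (j k : ℕ) (z : L) :
    dE δ π0 j (dE δ π0 k z) = ((j + k).choose j : L) * dE δ π0 (j + k) z := by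
  have hc : δ (π0 ^ k / (k.factorial : L)) = 0 := by
    rw [div_eq_mul_inv, Derivation.leibniz, Derivation.leibniz_pow, h, Derivation.leibniz_inv,
      Derivation.map_natCast]
    simp
  have h1 : ((j + k).choose j : L) * j.factorial * k.factorial = (j + k).factorial := by
    have := Nat.add_choose_mul_factorial_mul_factorial k j
    rw [add_comm k j] at this
    rw [← this]; push_cast; ring
  rw [dE, dE, der_iter_const_mul δ hc, ← Function.iterate_add_apply, dE, ← h1, pow_add]
  have h2 : (j.factorial : L) ≠ 0 := Nat.cast_ne_zero.2 (Nat.factorial_ne_zero _)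
  have h3 : (k.factorial : L) ≠ 0 := Nat.cast_ne_zero.2 (Nat.factorial_ne_zero _)
  have h4 : ((j + k).choose j : L) ≠ 0 :=
    Nat.cast_ne_zero.2 (Nat.choose_pos (Nat.le_add_right _ _)).ne'
  field_simp

/-- compatibility with a ring homomorphism intertwining two derivations -/
theorem dE_map {L' : Type} [Field L'] (f : L →+* L') (δ : Derivation ℤ L L)
    (δ' : Derivation ℤ L' L') (h : ∀ z, f (δ z) = δ' (f z)) (π0 : L) (k : ℕ) (z : L) :
    f (dE δ π0 k z) = dE δ' (f π0) k (f z) := by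
  have : ∀ k z, f ((δ : L → L)^[k] z) = (δ' : L' → L')^[k] (f z) := by
    intro k
    induction k with
    | zero => intro z; rfl
    | succ k ih => intro z; simp only [Function.iterate_succ_apply', h, ih]
  simp [dE, this]

theorem dE_smul {G : Type} [Group G] [MulSemiringAction G L] (δ : Derivation ℤ L L) {π0 : L}
    {g : G} (h : ∀ z : L, δ (g • z) = g • δ z) (hπ : g • π0 = π0) (k : ℕ) (z : L) :
    dE δ π0 k (g • z) = g • dE δ π0 k z := by
  have := dE_map (MulSemiringAction.toRingHom G L g) δ δ (fun z => (h z).symm) π0 k z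
  simp only [MulSemiringAction.toRingHom_apply, hπ] at this
  exact this.symm

end Tau

/-! ## integral, bounded and null series -/

section Val

variable {L : Type} [Field L] (w : Valuation L ℝ≥0)

theorem val_coeff_mul_le {f g : PowerSeries L} {a b : ℝ≥0}
    (hf : ∀ k, w (PowerSeries.coeff k f) ≤ a) (hg : ∀ k, w (PowerSeries.coeff k g) ≤ b) (k : ℕ) :
    w (PowerSeries.coeff k (f * g)) ≤ a * b := by
  rw [PowerSeries.coeff_mul]
  refine Valuation.map_sum_le _ fun ij _ => ?_
  rw [map_mul]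
  exact mul_le_mul' (hf _) (hg _)

/-- series with integral coefficients -/
def IntPS : Subring (PowerSeries L) where
  carrier := {f | ∀ k, w (PowerSeries.coeff k f) ≤ 1}
  one_mem' k := by rw [PowerSeries.coeff_one]; split_ifs <;> simp
  zero_mem' k := by simp
  add_mem' {f g} hf hg k := by rw [map_add]; exact w.map_add_le (hf k) (hg k)
  neg_mem' {f} hf k := by rw [map_neg, Valuation.map_neg]; exact hf k
  mul_mem' {f g} hf hg k := by simpa using val_coeff_mul_le w hf hg k

theorem mem_IntPS {f : PowerSeries L} :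
    f ∈ IntPS w ↔ ∀ k, w (PowerSeries.coeff k f) ≤ 1 := Iff.rfl

/-- series with bounded coefficients -/
def BddPS : Subring (PowerSeries L) where
  carrier := {f | ∃ C : ℝ≥0, ∀ k, w (PowerSeries.coeff k f) ≤ C}
  one_mem' := ⟨1, (IntPS w).one_mem⟩
  zero_mem' := ⟨1, (IntPS w).zero_mem⟩
  add_mem' := by
    rintro f g ⟨a, hf⟩ ⟨b, hg⟩
    refine ⟨max a b, fun k => ?_⟩
    rw [map_add]
    exact w.map_add_le ((hf k).trans (le_max_left _ _)) ((hg k).trans (le_max_right _ _))
  neg_mem' := by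
    rintro f ⟨a, hf⟩
    exact ⟨a, fun k => by rw [map_neg, Valuation.map_neg]; exact hf k⟩
  mul_mem' := by
    rintro f g ⟨a, hf⟩ ⟨b, hg⟩
    exact ⟨a * b, val_coeff_mul_le w hf hg⟩

theorem mem_BddPS {f : PowerSeries L} :
    f ∈ BddPS w ↔ ∃ C : ℝ≥0, ∀ k, w (PowerSeries.coeff k f) ≤ C := Iff.rfl

theorem IntPS_le_BddPS : IntPS w ≤ BddPS w := fun _ hf => ⟨1, hf⟩

theorem null_iff {u : ℕ → ℝ≥0} :
    Tendsto u atTop (𝓝 0) ↔ ∀ ε : ℝ≥0, 0 < ε → ∃ N, ∀ k, N ≤ k → u k < ε := by
  constructor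
  · intro h ε hε
    exact eventually_atTop.1 (h.eventually (gt_mem_nhds hε))
  · intro h
    refine tendsto_order.2 ⟨fun a ha => absurd ha (not_lt.2 zero_le), fun ε hε => ?_⟩
    exact eventually_atTop.2 (h ε hε)

theorem bdd_of_null {u : ℕ → ℝ≥0} (h : Tendsto u atTop (𝓝 0)) : ∃ C, ∀ k, u k ≤ C := by
  obtain ⟨C, hC⟩ := h.bddAbove_range
  exact ⟨C, fun k => hC ⟨k, rfl⟩⟩

/-- series whose coefficients tend to zero -/
def NullPS : Subring (PowerSeries L) where
  carrier := {f | Tendsto (fun k => w (PowerSeries.coeff k f)) atTop (𝓝 0)}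
  one_mem' := null_iff.2 fun ε hε => ⟨1, fun k hk => by
    rw [PowerSeries.coeff_one, if_neg (by omega)]; simpa using hε⟩
  zero_mem' := by simp
  add_mem' := by
    intro f g hf hg
    refine null_iff.2 fun ε hε => ?_
    obtain ⟨a, ha⟩ := null_iff.1 hf ε hε
    obtain ⟨b, hb⟩ := null_iff.1 hg ε hε
    refine ⟨max a b, fun k hk => ?_⟩
    rw [map_add]
    exact w.map_add_lt (ha k ((le_max_left _ _).trans hk)) (hb k ((le_max_right _ _).trans hk))
  neg_mem' := by
    intro f hf
    simpa only [Set.mem_setOf_eq, map_neg, Valuation.map_neg] using hf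
  mul_mem' := by
    intro f g hf hg
    obtain ⟨A, hA⟩ := bdd_of_null hf
    obtain ⟨B, hB⟩ := bdd_of_null hg
    refine null_iff.2 fun ε hε => ?_
    obtain ⟨a, ha⟩ := null_iff.1 hf (ε / (B + 1)) (by positivity)
    obtain ⟨b, hb⟩ := null_iff.1 hg (ε / (A + 1)) (by positivity)
    refine ⟨a + b, fun k hk => ?_⟩
    rw [PowerSeries.coeff_mul]
    refine Valuation.map_sum_lt _ hε.ne' fun ij hij => ?_
    have h := Finset.HasAntidiagonal.mem_antidiagonal.1 hij
    rw [map_mul]
    by_cases hi : a ≤ ij.1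
    · have h1 := (lt_div_iff₀ (by positivity)).1 (ha _ hi)
      exact lt_of_le_of_lt (mul_le_mul' le_rfl ((hB _).trans le_self_add)) h1
    · have h1 := (lt_div_iff₀ (by positivity)).1 (hb ij.2 (by omega))
      rw [mul_comm]
      exact lt_of_le_of_lt (mul_le_mul' le_rfl ((hA _).trans le_self_add)) h1

theorem mem_NullPS {f : PowerSeries L} :
    f ∈ NullPS w ↔ Tendsto (fun k => w (PowerSeries.coeff k f)) atTop (𝓝 0) := Iff.rfl

theorem NullPS_le_BddPS : NullPS w ≤ BddPS w := fun _ hf => bdd_of_null hf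

theorem poly_mem_NullPS (ρ : Polynomial L) : (ρ : PowerSeries L) ∈ NullPS w :=
  null_iff.2 fun ε hε => ⟨ρ.natDegree + 1, fun k hk => by
    rw [Polynomial.coeff_coe, Polynomial.coeff_eq_zero_of_natDegree_lt (by omega)]
    simpa using hε⟩

theorem C_mem_NullPS (c : L) : PowerSeries.C c ∈ NullPS w := by
  simpa using poly_mem_NullPS w (Polynomial.C c)

theorem C_mem_IntPS {c : L} (hc : w c ≤ 1) : PowerSeries.C c ∈ IntPS w := fun k => by
  rw [PowerSeries.coeff_C]; split_ifs <;> simp [hc]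

theorem X_mem_IntPS : (PowerSeries.X : PowerSeries L) ∈ IntPS w := fun k => by
  rw [PowerSeries.coeff_X]; split_ifs <;> simp

theorem mem_M0_iff {δ : Derivation ℤ L L} {π0 z : L} : z ∈ M0 w δ π0 ↔ tau δ π0 z ∈ NullPS w := by
  simp [M0, mem_NullPS]

/-- `M0` is a subring -/
def M0ring [CharZero L] (δ : Derivation ℤ L L) (π0 : L) : Subring L :=
  (NullPS w).comap (tauHom δ π0)

theorem mem_M0ring [CharZero L] {δ : Derivation ℤ L L} {π0 z : L} :
    z ∈ M0ring w δ π0 ↔ z ∈ M0 w δ π0 := (mem_M0_iff w).symm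

/-! ## reduction -/

theorem exists_isRed : ∃ (R : Type) (_ : Field R) (rd : L → R), IsRed w rd ∧
    ∀ r, ∃ a, w a ≤ 1 ∧ rd a = r := by
  refine ⟨IsLocalRing.ResidueField w.valuationSubring, inferInstance,
    fun a => if h : w a ≤ 1 then IsLocalRing.residue w.valuationSubring ⟨a, h⟩ else 0,
    ⟨?_, ?_, ?_, ?_⟩, ?_⟩
  · rw [dif_pos (by simp)]; exact map_one _
  · intro a b ha hb
    rw [dif_pos (w.map_add_le ha hb), dif_pos ha, dif_pos hb, ← map_add]; rfl
  · intro a b ha hb
    have hab : w (a * b) ≤ 1 := by rw [map_mul]; exact mul_le_one' ha hb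
    rw [dif_pos hab, dif_pos ha, dif_pos hb]
    exact map_mul (IsLocalRing.residue w.valuationSubring) ⟨a, ha⟩ ⟨b, hb⟩
  · intro a ha
    rw [dif_pos ha, IsLocalRing.residue_eq_zero_iff, Valuation.mem_maximalIdeal_iff]
  · intro r
    obtain ⟨⟨a, ha⟩, rfl⟩ := IsLocalRing.residue_surjective r
    exact ⟨a, ha, dif_pos ha⟩

variable {w} {R : Type} [Field R] {rd : L → R}

namespace IsRed

variable (h : IsRed w rd)
include h

theorem zero : rd 0 = 0 := (h.eq_zero 0 (by simp)).2 (by simp)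

/-- the reduction as a ring homomorphism -/
def hom : w.valuationSubring →+* R where
  toFun a := rd a
  map_one' := h.one
  map_zero' := h.zero
  map_add' a b := h.add a b a.2 b.2
  map_mul' a b := h.mul a b a.2 b.2

theorem hom_apply (a : w.valuationSubring) : h.hom a = rd a := rfl

theorem neg {a : L} (ha : w a ≤ 1) : rd (-a) = -rd a := map_neg h.hom ⟨a, ha⟩

theorem sub {a b : L} (ha : w a ≤ 1) (hb : w b ≤ 1) : rd (a - b) = rd a - rd b :=
  map_sub h.hom ⟨a, ha⟩ ⟨b, hb⟩

theorem pow {a : L} (ha : w a ≤ 1) (m : ℕ) : rd (a ^ m) = rd a ^ m := map_pow h.hom ⟨a, ha⟩ m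

theorem natCast (m : ℕ) : rd (m : L) = m := map_natCast h.hom m

theorem sum {ι : Type*} (s : Finset ι) {f : ι → L} (hf : ∀ i ∈ s, w (f i) ≤ 1) :
    rd (∑ i ∈ s, f i) = ∑ i ∈ s, rd (f i) := by
  induction s using Finset.induction_on with
  | empty => simpa using h.zero
  | insert i s hi ih =>
    have h1 : ∀ j ∈ s, w (f j) ≤ 1 := fun j hj => hf j (Finset.mem_insert_of_mem hj)
    rw [Finset.sum_insert hi, Finset.sum_insert hi, h.add _ _ (hf i (Finset.mem_insert_self _ _))
      (Valuation.map_sum_le _ h1), ih h1]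

theorem prod {ι : Type*} (s : Finset ι) {f : ι → L} (hf : ∀ i ∈ s, w (f i) ≤ 1) :
    rd (∏ i ∈ s, f i) = ∏ i ∈ s, rd (f i) := by
  induction s using Finset.induction_on with
  | empty => simpa using h.one
  | insert i s hi ih =>
    have h1 : ∀ j ∈ s, w (f j) ≤ 1 := fun j hj => hf j (Finset.mem_insert_of_mem hj)
    rw [Finset.prod_insert hi, Finset.prod_insert hi, h.mul _ _ (hf i (Finset.mem_insert_self _ _))
      (by rw [map_prod]; exact Finset.prod_le_one' h1), ih h1]

theorem eq_iff {a b : L} (ha : w a ≤ 1) (hb : w b ≤ 1) : rd a = rd b ↔ w (a - b) < 1 := by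
  rw [← h.eq_zero _ (w.map_sub_le ha hb), h.sub ha hb, sub_eq_zero]

theorem ne_zero_iff {a : L} (ha : w a ≤ 1) : rd a ≠ 0 ↔ w a = 1 := by
  rw [Ne, h.eq_zero a ha, not_lt]
  exact ⟨fun h1 => le_antisymm ha h1, fun h1 => h1.ge⟩

theorem inv {a : L} (ha : w a = 1) : rd a⁻¹ = (rd a)⁻¹ := by
  have h0 : a ≠ 0 := by rintro rfl; simp at ha
  have h1 : w a⁻¹ ≤ 1 := by rw [map_inv₀, ha, inv_one]
  refine eq_inv_of_mul_eq_one_left ?_
  rw [← h.mul _ _ h1 ha.le, inv_mul_cancel₀ h0, h.one]

theorem div {a b : L} (ha : w a ≤ 1) (hb : w b = 1) : rd (a / b) = rd a / rd b := by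
  rw [div_eq_mul_inv, h.mul _ _ ha (by rw [map_inv₀, hb, inv_one]), h.inv hb, div_eq_mul_inv]

theorem charP {p : ℕ} [Fact p.Prime] (hp : w (p : L) < 1) : CharP R p := by
  have : (p : R) = 0 := by rw [← h.natCast, h.eq_zero _ hp.le]; exact hp
  exact (CharP.charP_iff_prime_eq_zero Fact.out).2 this

/-- the residue field -/
def range : Subfield R where
  carrier := {r | ∃ a, w a ≤ 1 ∧ rd a = r}
  one_mem' := ⟨1, by simp, h.one⟩
  zero_mem' := ⟨0, by simp, h.zero⟩
  add_mem' := by
    rintro _ _ ⟨a, ha, rfl⟩ ⟨b, hb, rfl⟩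
    exact ⟨a + b, w.map_add_le ha hb, h.add a b ha hb⟩
  mul_mem' := by
    rintro _ _ ⟨a, ha, rfl⟩ ⟨b, hb, rfl⟩
    exact ⟨a * b, by rw [map_mul]; exact mul_le_one' ha hb, h.mul a b ha hb⟩
  neg_mem' := by
    rintro _ ⟨a, ha, rfl⟩
    exact ⟨-a, by rwa [Valuation.map_neg], h.neg ha⟩
  inv_mem' := by
    rintro _ ⟨a, ha, rfl⟩
    by_cases h0 : rd a = 0
    · exact ⟨0, by simp, by rw [h0, h.zero, inv_zero]⟩
    · have h1 := (h.ne_zero_iff ha).1 h0
      exact ⟨a⁻¹, by rw [map_inv₀, h1, inv_one], h.inv h1⟩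

end IsRed

/-- coefficientwise reduction -/
def rdPS (rd : L → R) (f : PowerSeries L) : PowerSeries R :=
  PowerSeries.mk fun k => rd (PowerSeries.coeff k f)

@[simp] theorem coeff_rdPS (rd : L → R) (f : PowerSeries L) (k : ℕ) :
    PowerSeries.coeff k (rdPS rd f) = rd (PowerSeries.coeff k f) := by simp [rdPS]

namespace IsRed

variable (h : IsRed w rd)
include h

theorem ps_C (c : L) : rdPS rd (PowerSeries.C c) = PowerSeries.C (rd c) := by
  ext k
  simp only [coeff_rdPS, PowerSeries.coeff_C]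
  split_ifs <;> simp [h.zero]

theorem ps_X : rdPS rd (PowerSeries.X : PowerSeries L) = PowerSeries.X := by
  ext k
  simp only [coeff_rdPS, PowerSeries.coeff_X]
  split_ifs <;> simp [h.zero, h.one]

/-- the reduction of integral series as a ring homomorphism -/
def psHom : IntPS w →+* PowerSeries R where
  toFun f := rdPS rd f
  map_one' := by
    have := h.ps_C 1
    rwa [map_one, h.one, map_one] at this
  map_zero' := by ext k; simp [h.zero]
  map_add' f g := by ext k; simp [h.add _ _ (f.2 k) (g.2 k)]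
  map_mul' f g := by
    ext k
    simp only [Subring.coe_mul, coeff_rdPS, PowerSeries.coeff_mul]
    rw [h.sum _ fun ij _ => by rw [map_mul]; exact mul_le_one' (f.2 _) (g.2 _)]
    exact Finset.sum_congr rfl fun ij _ => h.mul _ _ (f.2 _) (g.2 _)

theorem psHom_apply (f : IntPS w) : h.psHom f = rdPS rd f := rfl

theorem ps_one : rdPS rd (1 : PowerSeries L) = 1 := map_one h.psHom

theorem ps_zero : rdPS rd (0 : PowerSeries L) = 0 := map_zero h.psHom

theorem ps_add {f g : PowerSeries L} (hf : f ∈ IntPS w) (hg : g ∈ IntPS w) :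
    rdPS rd (f + g) = rdPS rd f + rdPS rd g := map_add h.psHom ⟨f, hf⟩ ⟨g, hg⟩

theorem ps_sub {f g : PowerSeries L} (hf : f ∈ IntPS w) (hg : g ∈ IntPS w) :
    rdPS rd (f - g) = rdPS rd f - rdPS rd g := map_sub h.psHom ⟨f, hf⟩ ⟨g, hg⟩

theorem ps_neg {f : PowerSeries L} (hf : f ∈ IntPS w) :
    rdPS rd (-f) = -rdPS rd f := map_neg h.psHom ⟨f, hf⟩

theorem ps_mul {f g : PowerSeries L} (hf : f ∈ IntPS w) (hg : g ∈ IntPS w) :
    rdPS rd (f * g) = rdPS rd f * rdPS rd g := map_mul h.psHom ⟨f, hf⟩ ⟨g, hg⟩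

theorem ps_pow {f : PowerSeries L} (hf : f ∈ IntPS w) (m : ℕ) :
    rdPS rd (f ^ m) = rdPS rd f ^ m := map_pow h.psHom ⟨f, hf⟩ m

theorem ps_sum {ι : Type*} (s : Finset ι) {f : ι → PowerSeries L} (hf : ∀ i ∈ s, f i ∈ IntPS w) :
    rdPS rd (∑ i ∈ s, f i) = ∑ i ∈ s, rdPS rd (f i) := by
  induction s using Finset.induction_on with
  | empty => simpa using h.ps_zero
  | insert i s hi ih =>
    have h1 : ∀ j ∈ s, f j ∈ IntPS w := fun j hj => hf j (Finset.mem_insert_of_mem hj)
    rw [Finset.sum_insert hi, Finset.sum_insert hi, h.ps_add (hf i (Finset.mem_insert_self _ _))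
      (sum_mem h1), ih h1]

theorem ps_prod {ι : Type*} (s : Finset ι) {f : ι → PowerSeries L}
    (hf : ∀ i ∈ s, f i ∈ IntPS w) : rdPS rd (∏ i ∈ s, f i) = ∏ i ∈ s, rdPS rd (f i) := by
  induction s using Finset.induction_on with
  | empty => simpa using h.ps_one
  | insert i s hi ih =>
    have h1 : ∀ j ∈ s, f j ∈ IntPS w := fun j hj => hf j (Finset.mem_insert_of_mem hj)
    rw [Finset.prod_insert hi, Finset.prod_insert hi, h.ps_mul (hf i (Finset.mem_insert_self _ _))
      (prod_mem h1), ih h1]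

theorem ps_eq_zero_iff {f : PowerSeries L} (hf : f ∈ IntPS w) :
    rdPS rd f = 0 ↔ ∀ k, w (PowerSeries.coeff k f) < 1 := by
  rw [PowerSeries.ext_iff]
  exact forall_congr' fun k => by rw [coeff_rdPS, map_zero, h.eq_zero _ (hf k)]

/-- the reduction of an integral null series is a polynomial -/
theorem ps_poly {f : PowerSeries L} (hf : f ∈ NullPS w) :
    ∃ ρ : Polynomial R, rdPS rd f = (ρ : PowerSeries R) := by
  obtain ⟨N, hN⟩ := null_iff.1 hf 1 one_pos
  refine ⟨PowerSeries.trunc N (rdPS rd f), ?_⟩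
  ext k
  rw [Polynomial.coeff_coe, PowerSeries.coeff_trunc]
  split_ifs with hk
  · rfl
  · rw [coeff_rdPS]
    exact (h.eq_zero _ (hN k (not_lt.1 hk)).le).2 (hN k (not_lt.1 hk))

end IsRed

end Val

end P179W
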