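import Vale.Agent.P179W.ResidueA

/-!
# P179W : the reduction of the set-up modulo `w`
-/

set_option linter.all false

open scoped NNReal Classical
open Polynomial WeierstrassCurve WeierstrassCurve.Affine

noncomputable section

namespace P179W

namespace Res

variable {U : Type} [Field U]

theorem range_closed (i : ℂ →+* U) (f : U[X]) (hf : ∀ k, f.coeff k ∈ i.fieldRange)
    (hd : 0 < f.natDegree) : ∃ z ∈ i.fieldRange, f.eval z = 0 := by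
  obtain ⟨g, rfl⟩ : ∃ g : ℂ[X], g.map i = f := by
    rw [← mem_lifts, lifts_iff_coeff_lifts]
    exact hf
  rw [natDegree_map] at hd
  obtain ⟨z, hz⟩ := IsAlgClosed.exists_root g (natDegree_pos_iff_degree_pos.1 hd).ne'
  exact ⟨i z, ⟨z, rfl⟩, by rw [eval_map_apply, hz.eq_zero, map_zero]⟩

theorem range_alg (i : ℂ →+* U) {z : U} (h : Alg i.fieldRange z) : z ∈ i.fieldRange := by
  have : IsAlgClosed i.fieldRange := IsAlgClosed.of_ringEquiv ℂ _ i.rangeRestrictFieldEquiv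
  obtain ⟨c, hc⟩ := minpoly.mem_range_of_degree_eq_one i.fieldRange z
    (IsAlgClosed.degree_eq_one_of_irreducible _ (minpoly.irreducible (alg_iff.1 h).isIntegral))
  exact hc ▸ c.2

theorem alg_map {K : Subfield U} (g : U →+* U) (hg : ∀ z ∈ K, g z ∈ K) {z : U} (h : Alg K z) :
    Alg K (g z) := by
  obtain ⟨f, f0, hf, e⟩ := h
  exact ⟨f.map g, (Polynomial.map_ne_zero_iff g.injective).2 f0,
    fun k => by rw [coeff_map]; exact hg _ (hf k), by rw [eval_map_apply, e, map_zero]⟩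

theorem map_eq_of_fix {E : WeierstrassCurve U} (g : U →+* U) (h : CoeffIn E {z | g z = z}) :
    E.map g = E := by
  ext
  exacts [h.1, h.2.1, h.2.2.1, h.2.2.2.1, h.2.2.2.2]

theorem eqn_map {E : WeierstrassCurve U} (g : U →+* U) (h : CoeffIn E {z | g z = z}) {x y : U}
    (e : E.toAffine.Equation x y) : E.toAffine.Equation (g x) (g y) := by
  have := e.map g
  rwa [show E.toAffine.map g = E from map_eq_of_fix g h] at this

theorem ptFun_pt {E : WeierstrassCurve U} (g : U →+* U) (h : CoeffIn E {z | g z = z}) (x y : U) :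
    ptFun g E (pt E x y) = pt E (g x) (g y) :=
  (ptMap_holds U U g E E (map_eq_of_fix g h)).2.1 x y

/-- a point with given abscissa -/
theorem exists_y {K : Subfield U}
    (hK : ∀ f : U[X], (∀ k, f.coeff k ∈ K) → 0 < f.natDegree → ∃ z ∈ K, f.eval z = 0)
    {E : WeierstrassCurve U} (hE : CoeffIn E K) {x : U} (hx : x ∈ K) :
    ∃ y ∈ K, E.toAffine.Equation x y := by
  obtain ⟨y, hy, e⟩ := hK (X ^ 2 + C (E.a₁ * x + E.a₃) * X - C (x ^ 3 + E.a₂ * x ^ 2 + E.a₄ * x + E.a₆))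
    (mem_polyIn.1 (sub_mem (add_mem (pow_mem X_mem_polyIn 2) (mul_mem
      (C_mem_polyIn (add_mem (mul_mem hE.1 hx) hE.2.2.1)) X_mem_polyIn))
      (C_mem_polyIn (add_mem (add_mem (add_mem (pow_mem hx 3) (mul_mem hE.2.1 (pow_mem hx 2)))
        (mul_mem hE.2.2.2.1 hx)) hE.2.2.2.2))))
    (by
      have : (X ^ 2 + C (E.a₁ * x + E.a₃) * X -
        C (x ^ 3 + E.a₂ * x ^ 2 + E.a₄ * x + E.a₆) : U[X]).natDegree = 2 := by compute_degree!
      omega)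
  refine ⟨y, hy, ?_⟩
  rw [equation_iff]
  simp only [eval_sub, eval_add, eval_mul, eval_pow, eval_X, eval_C] at e
  linear_combination e

section Setup

variable {p n : ℕ} (S : Setup p n U)

theorem Om_eq : S.Fb = adj S.Om {S.x, S.y} := rfl

theorem k0_le_Kt : S.k0 ≤ S.Kt := le_adj _ _

theorem Kt_le_Ft : S.Kt ≤ S.Ft := adj_mono le_rfl Set.subset_union_left

theorem Kt_le_Om : S.Kt ≤ S.Om :=
  adj_le.2 ⟨S.k0_le, Set.union_subset (by rintro _ ⟨j, rfl⟩; exact (S.P_mem j).1)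
    (by rintro _ ⟨j, rfl⟩; exact (S.P_mem j).2)⟩

theorem coeff_Om : CoeffIn S.E S.Om :=
  ⟨S.k0_le _ S.coeff_k0.1, S.k0_le _ S.coeff_k0.2.1, S.k0_le _ S.coeff_k0.2.2.1,
    S.k0_le _ S.coeff_k0.2.2.2.1, S.k0_le _ S.coeff_k0.2.2.2.2⟩

theorem Δ_ne : S.E.Δ ≠ 0 := fun e => by simpa [e] using S.wΔ

theorem Δ_mem : S.E.Δ ∈ S.k0 := by
  obtain ⟨c1, c2, c3, c4, c6⟩ := S.coeff_k0
  let E₀ : WeierstrassCurve S.k0 := ⟨⟨_, c1⟩, ⟨_, c2⟩, ⟨_, c3⟩, ⟨_, c4⟩, ⟨_, c6⟩⟩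
  have : S.E = E₀.map S.k0.subtype := rfl
  rw [this, map_Δ]
  exact E₀.Δ.2

variable {S} {σ : RingAut U}

theorem σ_k0 (h : ∀ z ∈ S.Ft, σ z = S.θ z) {c : U} (hc : c ∈ S.k0) : σ c = c :=
  (h c (Kt_le_Ft S (k0_le_Kt S hc))).trans (S.θ_k0 c hc)

theorem σ_coeff (h : ∀ z ∈ S.Ft, σ z = S.θ z) : CoeffIn S.E {z | σ z = z} :=
  ⟨σ_k0 h S.coeff_k0.1, σ_k0 h S.coeff_k0.2.1, σ_k0 h S.coeff_k0.2.2.1,
    σ_k0 h S.coeff_k0.2.2.2.1, σ_k0 h S.coeff_k0.2.2.2.2⟩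

/-- a lift of `θ` preserves the constants -/
theorem σ_Om (h : ∀ z ∈ S.Ft, σ z = S.θ z) (z : U) : z ∈ S.Om ↔ σ z ∈ S.Om := by
  have h1 : ∀ z ∈ S.Kt, σ z ∈ S.Kt := fun z hz => by
    rw [h z (Kt_le_Ft S hz)]; exact (S.θ_Kt z).1 hz
  have h2 : ∀ z ∈ S.Kt, σ.symm z ∈ S.Kt := fun z hz => by
    have h3 : S.θ.symm z ∈ S.Kt := (S.θ_Kt _).2 (by rwa [RingEquiv.apply_symm_apply])
    have : σ.symm z = S.θ.symm z := by
      rw [RingEquiv.symm_apply_eq, h _ (Kt_le_Ft S h3), RingEquiv.apply_symm_apply]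
    rwa [this]
  constructor
  · intro hz
    exact range_alg S.i ((alg_map (σ : U →+* U) h1 (S.Om_alg z hz)).mono (Kt_le_Om S))
  · intro hz
    have := range_alg S.i ((alg_map (σ.symm : U →+* U) h2 (S.Om_alg _ hz)).mono (Kt_le_Om S))
    simpa using this

/-- `σ` acts trivially on the points over the constants modulo `Op` -/
theorem σ_cong (h : ∀ z ∈ S.Ft, σ z = S.θ z) (hO : ∀ z ∈ S.Om, z ∈ S.Op ↔ σ z ∈ S.Op) {z : U}
    (hz : z ∈ S.Om) (h1 : z ∈ S.Op) : S.Op.valuation (σ z - z) < 1 := by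
  obtain ⟨c, hc, -, e⟩ := S.Op_res z hz h1
  have hm : z - c ∈ S.Om := sub_mem hz (S.k0_le c hc)
  have e2 : S.Op.valuation (σ (z - c)) < 1 := by
    by_cases z0 : z - c = 0
    · simp [z0]
    have a1 : (z - c)⁻¹ ∉ S.Op := by
      rw [← S.Op.valuation_le_one_iff, map_inv₀, not_le]
      exact (one_lt_inv₀ (zero_lt_iff.2 (S.Op.valuation.ne_zero_iff.2 z0))).2 e
    rw [hO _ (inv_mem hm), ← S.Op.valuation_le_one_iff, map_inv₀, map_inv₀, not_le] at a1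
    exact (one_lt_inv₀ (zero_lt_iff.2 (S.Op.valuation.ne_zero_iff.2
      ((map_ne_zero σ).2 z0)))).1 a1
  rw [map_sub, σ_k0 h hc] at e2
  rw [show σ z - z = (σ z - c) - (z - c) by ring]
  exact S.Op.valuation.map_sub_lt e2 e

/-- the period of the class of `P₀ - P₁` -/
theorem period (h : ∀ z ∈ S.Ft, σ z = S.θ z) (hO : ∀ z ∈ S.Om, z ∈ S.Op ↔ σ z ∈ S.Op)
    {B : S.E.toAffine.Point} (hB : OnSet (S.Om : Set U) B) {d : ℕ} (d0 : 0 < d) (dn : d < n) :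
    ∃ x y, S.E.toAffine.Equation x y ∧ S.w x ≤ 1 ∧
      ptFun σ S.E B - B - d • (pt S.E (S.xP 0) (S.yP 0) - pt S.E (S.xP 1) (S.yP 1)) = pt S.E x y := by
  obtain ⟨R, _, r, a1, a2, a3, a4, -⟩ := exists_red S.Op.valuation
  have hr : Red S.Op.valuation r := ⟨a1, a2, a3, a4⟩
  have hc : CoeffIn S.E {z | S.Op.valuation z ≤ 1} := by
    obtain ⟨c1, c2, c3, c4, c6⟩ := S.coeff_k0
    obtain ⟨b1, b2, b3, b4, b6⟩ := S.coeff_int
    have k : ∀ c ∈ S.k0, S.w c ≤ 1 → S.Op.valuation c ≤ 1 := fun c hc h1 =>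
      (S.Op.valuation_le_one_iff c).2 (S.Op_k0 c hc h1)
    exact ⟨k _ c1 b1, k _ c2 b2, k _ c3 b3, k _ c4 b4, k _ c6 b6⟩
  obtain ⟨φ, f1, f2⟩ := exists_redHom hr hc (S.Op_k0' _ (Δ_mem S) S.wΔ)
  have hσ := σ_coeff h
  have e1 : φ (ptFun σ S.E B) = φ B ∧ OnSet (S.Om : Set U) (ptFun σ S.E B) := by
    rcases pt_cases B with rfl | ⟨X, Y, hn, rfl⟩
    · exact ⟨rfl, trivial⟩
    rw [onSet_pt_iff hn] at hB
    rw [show ptFun σ S.E (pt S.E X Y) = pt S.E (σ X) (σ Y) from ptFun_pt (σ : U →+* U) hσ X Y]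
    refine ⟨?_, onSet_pt ((σ_Om h X).1 hB.1) ((σ_Om h Y).1 hB.2)⟩
    by_cases hX : X ∈ S.Op
    · have x1 := (S.Op.valuation_le_one_iff X).2 hX
      have x2 := (S.Op.valuation_le_one_iff _).2 ((hO X hB.1).1 hX)
      have e := eqn_map (σ : U →+* U) hσ hn.1
      have y1 := y_int hc hn.1 x1
      rw [(f1 _ _ hn.1 x1).2, (f1 (σ X) (σ Y) e x2).2, (hr.eq_iff x2 x1).2 (σ_cong h hO hB.1 hX),
        (hr.eq_iff (a := σ Y) (y_int hc e x2) y1).2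
          (σ_cong h hO hB.2 ((S.Op.valuation_le_one_iff Y).1 y1))]
    · rw [f2 X _ (by rwa [S.Op.valuation_le_one_iff]),
        f2 (σ X) _ (by rwa [S.Op.valuation_le_one_iff, ← hO X hB.1])]
  obtain ⟨X, Y, hn, e2, hX⟩ := S.period d d0 dn
  have hQ : d • (pt S.E (S.xP 0) (S.yP 0) - pt S.E (S.xP 1) (S.yP 1)) ∈ onSub (coeff_Om S) :=
    nsmul_mem (sub_mem (onSet_pt (S.P_mem 0).1 (S.P_mem 0).2 : _ ∈ onSub (coeff_Om S))
      (onSet_pt (S.P_mem 1).1 (S.P_mem 1).2 : _ ∈ onSub (coeff_Om S))) d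
  have hZ : ptFun σ S.E B - B - d • (pt S.E (S.xP 0) (S.yP 0) - pt S.E (S.xP 1) (S.yP 1)) ∈
      onSub (coeff_Om S) := sub_mem (sub_mem e1.2 hB) hQ
  have e3 : φ (ptFun σ S.E B - B -
      d • (pt S.E (S.xP 0) (S.yP 0) - pt S.E (S.xP 1) (S.yP 1))) ≠ 0 := by
    obtain ⟨g1, g2⟩ := f1 X Y hn.1 ((S.Op.valuation_le_one_iff X).2 hX)
    rw [map_sub, map_sub, e1.1, sub_self, zero_sub, neg_ne_zero, e2, ← pt_of hn, g2, pt_of g1]
    exact Point.some_ne_zero _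
  rcases pt_cases (ptFun σ S.E B - B -
      d • (pt S.E (S.xP 0) (S.yP 0) - pt S.E (S.xP 1) (S.yP 1))) with e4 | ⟨x, y, hxy, e4⟩
  · rw [e4, map_zero] at e3
    exact absurd rfl e3
  · rw [e4] at e3 hZ
    refine ⟨x, y, hxy.1, S.Op_le x ((onSet_pt_iff hxy).1 hZ).1 ?_, e4⟩
    by_contra hx
    exact e3 (f2 _ _ (by rwa [S.Op.valuation_le_one_iff]))

end Setup

end Res

open Res

theorem residue_holds : ResidueStmt := by
  intro p hp n _ U _ S K' L σ hC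
  obtain ⟨R, _, r, a1, a2, a3, a4, hs⟩ := exists_red S.w
  have hr : Red S.w r := ⟨a1, a2, a3, a4⟩
  obtain ⟨σb, hσb⟩ := exists_resAut hr hs σ hC.σ_w
  obtain ⟨φ, f1, f2⟩ := exists_redHom hr S.coeff_int S.wΔ
  have hσ := σ_coeff hC.σ_θ
  have hEb : CoeffIn (redE r S.E) {z | σb z = z} := by
    obtain ⟨c1, c2, c3, c4, c6⟩ := hσ
    obtain ⟨b1, b2, b3, b4, b6⟩ := S.coeff_int
    have k : ∀ c, σ c = c → S.w c ≤ 1 → σb (r c) = r c := fun c hc h1 => by rw [hσb c h1, hc]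
    exact ⟨k _ c1 b1, k _ c2 b2, k _ c3 b3, k _ c4 b4, k _ c6 b6⟩
  have on : ∀ B, OnSet (S.Om : Set U) B → OnSet (resField hr S.Om : Set R) (φ B) := by
    intro B hB
    rcases pt_cases B with rfl | ⟨X, Y, hn, rfl⟩
    · rw [map_zero]; trivial
    rw [onSet_pt_iff hn] at hB
    by_cases hX : S.w X ≤ 1
    · rw [(f1 _ _ hn.1 hX).2]
      exact onSet_pt ⟨X, ⟨hB.1, hX⟩, rfl⟩ ⟨Y, ⟨hB.2, y_int S.coeff_int hn.1 hX⟩, rfl⟩
    · rw [f2 _ _ hX]; trivial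
  have shift : ∀ X Y, S.E.toAffine.Equation X Y → S.w X ≤ 1 →
      pt (redE r S.E) (σb (r X)) (σb (r Y)) = φ (pt S.E (σ X) (σ Y)) := by
    intro X Y e hX
    rw [hσb X hX, hσb Y (y_int S.coeff_int e hX),
      (f1 (σ X) (σ Y) (eqn_map (σ : U →+* U) hσ e) (by rwa [hC.σ_w])).2]
  have mx : S.x ∈ S.Ft := right_subset_adj _ _ (.inr (.inl rfl))
  have my : S.y ∈ S.Ft := right_subset_adj _ _ (.inr (.inr rfl))
  have mxP : ∀ j, S.xP j ∈ S.Ft := fun j => right_subset_adj _ _ (.inl (.inl ⟨j, rfl⟩))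
  have myP : ∀ j, S.yP j ∈ S.Ft := fun j => right_subset_adj _ _ (.inl (.inr ⟨j, rfl⟩))
  refine ⟨R, inferInstance, r, resField hr S.Om, redE r S.E, σb,
    φ (pt S.E (S.xP 0) (S.yP 0) - pt S.E (S.xP 1) (S.yP 1)), ⟨a1, a2, a3, a4⟩, ?_,
    resField_closed hr (range_closed S.i), fun c hc h1 => ⟨c, ⟨hc, h1⟩, rfl⟩, ?_,
    transc_red hr S.wx S.gauss, fun z => ?_, ⟨rfl, rfl, rfl, rfl, rfl⟩, hσb, fun z => ?_, hEb,
    on _ ?_, ?_, fun j => ?_, ?_⟩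
  · rw [CharP.charP_iff_prime_eq_zero hp.out, ← hr.natCast, a4 _ S.wp.le]
    exact S.wp
  · rintro K₁ hK _ ⟨c, hc, rfl⟩
    rw [closure_eq_resField hr]
    exact alg_red hr hc.2 (hK c hc.1)
  · obtain ⟨c, hc, rfl⟩ := hs z
    have h1 : Alg (adj (S.Om : Set U) {S.x, S.y}) c := by
      have := S.U_alg c
      rwa [← RingHom.coe_fieldRange] at this
    exact (alg_red hr hc h1).mono
      (red_adj2 (K := S.Om) hr (coeff_Om S) S.coeff_int S.eqn S.wx S.gauss)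
  · constructor
    · rintro ⟨c, hc, rfl⟩
      exact ⟨σ c, ⟨(σ_Om hC.σ_θ c).1 hc.1, by rw [hC.σ_w]; exact hc.2⟩, (hσb c hc.2).symm⟩
    · rintro ⟨c, hc, e⟩
      have c1 : S.w (σ.symm c) ≤ 1 := by rw [← hC.σ_w, σ.apply_symm_apply]; exact hc.2
      refine ⟨σ.symm c, ⟨(σ_Om hC.σ_θ _).2 (by rw [σ.apply_symm_apply]; exact hc.1), c1⟩,
        σb.injective ?_⟩
      rw [hσb _ c1, σ.apply_symm_apply, e]
  · exact (sub_mem (onSet_pt (S.P_mem 0).1 (S.P_mem 0).2 : _ ∈ onSub (coeff_Om S))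
      (onSet_pt (S.P_mem 1).1 (S.P_mem 1).2 : _ ∈ onSub (coeff_Om S)) : _ ∈ onSub (coeff_Om S))
  · rw [shift _ _ S.eqn S.wx, hC.σ_θ _ mx, hC.σ_θ _ my, S.θ_a, map_add, (f1 _ _ S.eqn S.wx).2]
  · rw [shift _ _ (S.eqnP j) (S.wP j), hC.σ_θ _ (mxP j), hC.σ_θ _ (myP j), S.θ_P, map_add,
      (f1 _ _ (S.eqnP _) (S.wP _)).2]
  · intro b hb d d0 dn e
    obtain ⟨B, hB, rfl, e1⟩ : ∃ B, OnSet (S.Om : Set U) B ∧ φ B = b ∧
        φ (ptFun σ S.E B) = ptFun σb (redE r S.E) b := by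
      rcases pt_cases b with rfl | ⟨xb, yb, hn, rfl⟩
      · exact ⟨0, trivial, map_zero _, map_zero φ⟩
      rw [onSet_pt_iff hn] at hb
      obtain ⟨X, hX, rfl⟩ := hb.1
      obtain ⟨Y, hY, eY, rfl⟩ : ∃ Y ∈ S.Om, S.E.toAffine.Equation X Y ∧ r Y = yb := by
        obtain ⟨Y, hY, eY⟩ := exists_y (range_closed S.i) (coeff_Om S) hX.1
        rcases Y_eq_of_X_eq hn.1 (f1 X Y eY hX.2).1.1 rfl with e | e
        · exact ⟨Y, hY, eY, e.symm⟩
        · have y1 := y_int S.coeff_int eY hX.2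
          have y2 : S.w (S.E.a₁ * X) ≤ 1 := val_mul_le_one S.coeff_int.1 hX.2
          have y3 : S.w (-Y) ≤ 1 := by rwa [Valuation.map_neg]
          refine ⟨S.E.toAffine.negY X Y, sub_mem (sub_mem (neg_mem hY) (mul_mem (coeff_Om S).1 hX.1))
            (coeff_Om S).2.2.1, (equation_neg _ _).2 eY, ?_⟩
          rw [e, negY, negY, hr.sub (S.w.map_sub_le y3 y2) S.coeff_int.2.2.1, hr.sub y3 y2,
            hr.neg y1, hr.mul _ _ S.coeff_int.1 hX.2]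
          rfl
      refine ⟨pt S.E X Y, onSet_pt hX.1 hY, (f1 X Y eY hX.2).2, ?_⟩
      rw [show ptFun σ S.E (pt S.E X Y) = pt S.E (σ X) (σ Y) from ptFun_pt (σ : U →+* U) hσ X Y,
        ← shift X Y eY hX.2]
      exact (ptFun_pt (σb : R →+* R) hEb _ _).symm
    obtain ⟨x, y, exy, hx, e2⟩ := period hC.σ_θ hC.σ_Op hB d0 dn
    have e3 := congrArg φ e2
    rw [map_sub, map_sub, e1, e, map_nsmul, sub_self, (f1 x y exy hx).2,
      pt_of (f1 x y exy hx).1] at e3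
    exact Point.some_ne_zero _ e3.symm

end P179W
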