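import Vale.Agent.P179W.PtRed
import Vale.Agent.P179W.PlaceA
import Vale.Agent.P179W.AmbBasic

/-!
# P179W : residue fields, toolbox
-/

set_option linter.all false

open scoped NNReal Classical
open Polynomial WeierstrassCurve WeierstrassCurve.Affine

noncomputable section

namespace P179W

namespace Res

variable {U : Type} [Field U] {Γ : Type} [LinearOrderedCommGroupWithZero Γ] {R : Type} [Field R]

/-- reduction modulo a valuation with arbitrary value group -/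
structure Red (v : Valuation U Γ) (r : U → R) : Prop where
  one : r 1 = 1
  add : ∀ a b, v a ≤ 1 → v b ≤ 1 → r (a + b) = r a + r b
  mul : ∀ a b, v a ≤ 1 → v b ≤ 1 → r (a * b) = r a * r b
  eq_zero : ∀ a, v a ≤ 1 → (r a = 0 ↔ v a < 1)

variable {v : Valuation U Γ} {r : U → R}

theorem Red.rho (h : Red v r) :
    ∃ ρ : v.integer →+* R, (∀ a : v.integer, r a = ρ a) ∧ ∀ c : v.integer, ρ c = 0 ↔ v c < 1 :=
  exists_rho h.one h.add h.mul h.eq_zero

theorem Red.zero (h : Red v r) : r 0 = 0 := (h.eq_zero 0 (by simp)).2 (by simp)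

theorem Red.neg (h : Red v r) {a : U} (ha : v a ≤ 1) : r (-a) = -r a := by
  have := h.add a (-a) ha (by rwa [v.map_neg])
  rw [add_neg_cancel, h.zero] at this
  exact (neg_eq_of_add_eq_zero_right this.symm).symm

theorem Red.sub (h : Red v r) {a b : U} (ha : v a ≤ 1) (hb : v b ≤ 1) : r (a - b) = r a - r b := by
  rw [sub_eq_add_neg, h.add _ _ ha (by rwa [v.map_neg]), h.neg hb, sub_eq_add_neg]

theorem Red.eq_iff (h : Red v r) {a b : U} (ha : v a ≤ 1) (hb : v b ≤ 1) :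
    r a = r b ↔ v (a - b) < 1 := by
  rw [← sub_eq_zero, ← h.sub ha hb, h.eq_zero _ (v.map_sub_le ha hb)]

theorem Red.ne_zero (h : Red v r) {a : U} (ha : v a = 1) : r a ≠ 0 := fun e =>
  ((h.eq_zero a ha.le).1 e).ne ha

theorem Red.eq_one (h : Red v r) {a : U} (ha : v a ≤ 1) (h0 : r a ≠ 0) : v a = 1 :=
  le_antisymm ha (not_lt.1 fun e => h0 ((h.eq_zero a ha).2 e))

theorem Red.inv (h : Red v r) {a : U} (ha : v a = 1) : r a⁻¹ = (r a)⁻¹ := by
  have a0 : a ≠ 0 := fun e => by simp [e] at ha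
  have := h.mul a a⁻¹ ha.le (by simp [ha])
  rw [mul_inv_cancel₀ a0, h.one] at this
  exact (eq_inv_of_mul_eq_one_right this.symm)

theorem Red.natCast (h : Red v r) (m : ℕ) : r m = m := by
  obtain ⟨ρ, hr, -⟩ := h.rho
  have := hr (m : v.integer)
  rwa [map_natCast, Subring.coe_natCast] at this

/-- the residue field of a subfield -/
def resField (h : Red v r) (K : Subfield U) : Subfield R where
  carrier := r '' {c | c ∈ K ∧ v c ≤ 1}
  one_mem' := ⟨1, ⟨one_mem _, by simp⟩, h.one⟩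
  zero_mem' := ⟨0, ⟨zero_mem _, by simp⟩, h.zero⟩
  mul_mem' := by
    rintro _ _ ⟨a, ha, rfl⟩ ⟨b, hb, rfl⟩
    exact ⟨a * b, ⟨mul_mem ha.1 hb.1, val_mul_le_one ha.2 hb.2⟩, h.mul _ _ ha.2 hb.2⟩
  add_mem' := by
    rintro _ _ ⟨a, ha, rfl⟩ ⟨b, hb, rfl⟩
    exact ⟨a + b, ⟨add_mem ha.1 hb.1, v.map_add_le ha.2 hb.2⟩, h.add _ _ ha.2 hb.2⟩
  neg_mem' := by
    rintro _ ⟨a, ha, rfl⟩
    exact ⟨-a, ⟨neg_mem ha.1, by rw [v.map_neg]; exact ha.2⟩, h.neg ha.2⟩
  inv_mem' := by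
    rintro _ ⟨a, ha, rfl⟩
    by_cases h0 : r a = 0
    · exact ⟨0, ⟨zero_mem _, by simp⟩, by rw [h0, inv_zero, h.zero]⟩
    · have h1 := h.eq_one ha.2 h0
      exact ⟨a⁻¹, ⟨inv_mem ha.1, by simp [h1]⟩, h.inv h1⟩

theorem mem_resField (h : Red v r) {K : Subfield U} {z : R} :
    z ∈ resField h K ↔ ∃ c, (c ∈ K ∧ v c ≤ 1) ∧ r c = z := Iff.rfl

theorem closure_eq_resField (h : Red v r) (K : Subfield U) :
    Subfield.closure (r '' {c | c ∈ K ∧ v c ≤ 1}) = resField h K :=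
  Subfield.closure_eq (resField h K)

/-- reduction of polynomials -/
theorem red_poly (h : Red v r) (f : U[X]) (hf : ∀ k, v (f.coeff k) ≤ 1) :
    ∃ fb : R[X], (∀ k, fb.coeff k = r (f.coeff k)) ∧
      ∀ z, v z ≤ 1 → v (f.eval z) ≤ 1 ∧ fb.eval (r z) = r (f.eval z) := by
  obtain ⟨ρ, hr, -⟩ := h.rho
  obtain ⟨g, rfl⟩ : ∃ g : v.integer[X], g.map v.integer.subtype = f := by
    rw [← mem_lifts, lifts_iff_coeff_lifts]
    exact fun n => ⟨⟨f.coeff n, hf n⟩, rfl⟩
  refine ⟨g.map ρ, fun k => by rw [coeff_map, coeff_map]; exact (hr _).symm, fun z hz => ?_⟩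
  lift z to v.integer using hz
  have e : (g.map v.integer.subtype).eval (z : U) = (g.eval z : v.integer) :=
    eval_map_apply v.integer.subtype z
  rw [e, hr, hr, eval_map_apply]
  exact ⟨(g.eval z).2, rfl⟩

/-- lifting of polynomials -/
theorem lift_poly (h : Red v r) {K : Subfield U} (fb : R[X]) (hf : ∀ k, fb.coeff k ∈ resField h K) :
    ∃ f : U[X], (∀ k, f.coeff k ∈ K ∧ v (f.coeff k) ≤ 1 ∧ r (f.coeff k) = fb.coeff k) ∧
      f.natDegree ≤ fb.natDegree ∧ ∀ z, v z ≤ 1 → fb.eval (r z) = r (f.eval z) := by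
  choose c hc e using hf
  have key : ∀ k, (∑ j ∈ Finset.range (fb.natDegree + 1), monomial j (c j)).coeff k =
      if k < fb.natDegree + 1 then c k else 0 := by
    intro k
    simp only [finset_sum_coeff, coeff_monomial, Finset.sum_ite_eq', Finset.mem_range]
  have h1 : ∀ k, (∑ j ∈ Finset.range (fb.natDegree + 1), monomial j (c j)).coeff k ∈ K ∧
      v ((∑ j ∈ Finset.range (fb.natDegree + 1), monomial j (c j)).coeff k) ≤ 1 ∧
      r ((∑ j ∈ Finset.range (fb.natDegree + 1), monomial j (c j)).coeff k) = fb.coeff k := by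
    intro k
    rw [key]
    split_ifs with hk
    · exact ⟨(hc k).1, (hc k).2, e k⟩
    · exact ⟨zero_mem _, by simp, by rw [h.zero, coeff_eq_zero_of_natDegree_lt (by omega)]⟩
  refine ⟨_, h1, ?_, fun z hz => ?_⟩
  · rw [natDegree_le_iff_coeff_eq_zero]
    intro k hk
    rw [key, if_neg (by omega)]
  · obtain ⟨fb', e1, e2⟩ := red_poly h _ fun k => (h1 k).2.1
    have : fb' = fb := Polynomial.ext fun k => (e1 k).trans (h1 k).2.2
    exact (congrArg (eval (r z)) this).symm.trans (e2 z hz).2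

/-- roots of integral polynomials with unit leading coefficient are integral -/
theorem root_int {f : U[X]} (hf : ∀ k, v (f.coeff k) ≤ 1) (hl : v (f.coeff f.natDegree) = 1) {z : U}
    (hz : f.eval z = 0) : v z ≤ 1 := by
  by_contra hc
  rw [not_le] at hc
  have p0 : (0 : Γ) < v z := lt_trans zero_lt_one hc
  rw [eval_eq_sum_range, Finset.sum_range_succ] at hz
  have h1 : v (∑ i ∈ Finset.range f.natDegree, f.coeff i * z ^ i) < v z ^ f.natDegree := by
    refine v.map_sum_lt (pow_ne_zero _ p0.ne') fun i hi => ?_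
    rw [map_mul, map_pow]
    exact lt_of_le_of_lt (mul_le_of_le_one_left' (hf i))
      (pow_lt_pow_right₀ hc (Finset.mem_range.1 hi))
  rw [eq_neg_of_add_eq_zero_left hz, v.map_neg, map_mul, hl, one_mul, map_pow] at h1
  exact lt_irrefl _ h1

/-- normalisation of a polynomial -/
theorem exists_norm (v : Valuation U Γ) {K : Subfield U} {f : U[X]} (f0 : f ≠ 0)
    (hf : ∀ k, f.coeff k ∈ K) : ∃ c ∈ K, c ≠ 0 ∧ (∀ k, v ((C c * f).coeff k) ≤ 1) ∧
      ∃ k, v ((C c * f).coeff k) = 1 := by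
  obtain ⟨k, hk, hm⟩ := f.support.exists_max_image (fun k => v (f.coeff k))
    (Polynomial.support_nonempty.2 f0)
  have k0 : f.coeff k ≠ 0 := mem_support_iff.1 hk
  have k1 : v (f.coeff k) ≠ 0 := v.ne_zero_iff.2 k0
  refine ⟨(f.coeff k)⁻¹, inv_mem (hf k), inv_ne_zero k0, fun j => ?_, k, ?_⟩
  · rw [coeff_C_mul, map_mul, map_inv₀]
    by_cases hj : j ∈ f.support
    · rw [inv_mul_le_iff₀ (zero_lt_iff.2 k1), mul_one]
      exact hm j hj
    · rw [notMem_support_iff.1 hj]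
      simp
  · rw [coeff_C_mul, inv_mul_cancel₀ k0, map_one]

/-- the residue field extension of an algebraic extension is algebraic -/
theorem alg_red (h : Red v r) {K : Subfield U} {z : U} (hz : v z ≤ 1) (ha : Alg K z) :
    Alg (resField h K) (r z) := by
  obtain ⟨f, f0, hf, e⟩ := ha
  obtain ⟨c, hc, c0, h1, k, hk⟩ := exists_norm v f0 hf
  obtain ⟨fb, e1, e2⟩ := red_poly h _ h1
  refine ⟨fb, fun e0 => h.ne_zero hk ?_, fun j => ?_, ?_⟩
  · rw [← e1, e0, coeff_zero]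
  · rw [e1]
    exact ⟨_, ⟨by rw [coeff_C_mul]; exact mul_mem hc (hf j), h1 j⟩, rfl⟩
  · rw [(e2 z hz).2, eval_mul, e, mul_zero, h.zero]

/-- the residue field of an algebraically closed field is algebraically closed -/
theorem resField_closed (h : Red v r) {K : Subfield U}
    (hK : ∀ f : U[X], (∀ k, f.coeff k ∈ K) → 0 < f.natDegree → ∃ z ∈ K, f.eval z = 0)
    (fb : R[X]) (hf : ∀ k, fb.coeff k ∈ resField h K) (hd : 0 < fb.natDegree) :
    ∃ z ∈ resField h K, fb.eval z = 0 := by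
  obtain ⟨f, h1, h2, h3⟩ := lift_poly h fb hf
  have f0 : fb ≠ 0 := fun e => by simp [e] at hd
  have l1 : v (f.coeff fb.natDegree) = 1 :=
    h.eq_one (h1 _).2.1 (by rw [(h1 _).2.2]; exact leadingCoeff_ne_zero.2 f0)
  have d : f.natDegree = fb.natDegree :=
    le_antisymm h2 (le_natDegree_of_ne_zero fun e => by simp [e] at l1)
  obtain ⟨z, hz, e⟩ := hK f (fun k => (h1 k).1) (d ▸ hd)
  have z1 : v z ≤ 1 := root_int (fun k => (h1 k).2.1) (d ▸ l1) e
  exact ⟨r z, ⟨z, ⟨hz, z1⟩, rfl⟩, by rw [h3 z z1, e, h.zero]⟩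

/-- a Gauss point has transcendental residue -/
theorem transc_red (h : Red v r) {K : Subfield U} {x : U} (hx : v x ≤ 1)
    (hG : ∀ f : U[X], (∀ k, f.coeff k ∈ K) → ∀ k, v (f.coeff k) ≤ v (f.eval x)) :
    Transc (resField h K) (r x) := by
  intro fb hf e
  obtain ⟨f, h1, -, h3⟩ := lift_poly h fb hf
  obtain ⟨_, -, h4⟩ := red_poly h f fun k => (h1 k).2.1
  rw [h3 x hx, h.eq_zero _ (h4 x hx).1] at e
  ext k
  rw [← (h1 k).2.2, coeff_zero, h.eq_zero _ (h1 k).2.1]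
  exact (hG f (fun k => (h1 k).1) k).trans_lt e

/-- the residue field of `K(x)` at a Gauss point -/
theorem red_adj1 (h : Red v r) {K : Subfield U} {x : U} (hx : v x ≤ 1)
    (hG : ∀ f : U[X], (∀ k, f.coeff k ∈ K) → ∀ k, v (f.coeff k) ≤ v (f.eval x)) {a : U}
    (ha : a ∈ adj K {x}) (h1 : v a ≤ 1) : r a ∈ adj (resField h K) {r x} := by
  obtain ⟨A, hA, B, hB, B0, e⟩ := mem_adj_one.1 ha
  have B1 : B ≠ 0 := fun e => by simp [e] at B0
  obtain ⟨c, hc, c0, h2, k, hk⟩ := exists_norm v B1 (mem_polyIn.1 hB)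
  have mB := mem_polyIn.1 (mul_mem (C_mem_polyIn hc) hB)
  have mA := mem_polyIn.1 (mul_mem (C_mem_polyIn hc) hA)
  obtain ⟨Bb, e1, e2⟩ := red_poly h _ h2
  have vB : v ((C c * B).eval x) = 1 := le_antisymm (e2 x hx).1 (hk ▸ hG _ mB k)
  have e' : a * (C c * B).eval x = (C c * A).eval x := by
    rw [eval_mul, eval_mul, ← e]; ring
  have h3 : ∀ k, v ((C c * A).coeff k) ≤ 1 := fun k =>
    (hG _ mA k).trans (by rw [← e', map_mul, vB, mul_one]; exact h1)
  obtain ⟨Ab, e3, e4⟩ := red_poly h _ h3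
  refine mem_adj_one.2 ⟨Ab, mem_polyIn.2 fun k => ?_, Bb, mem_polyIn.2 fun k => ?_, ?_, ?_⟩
  · rw [e3]; exact ⟨_, ⟨mA k, h3 k⟩, rfl⟩
  · rw [e1]; exact ⟨_, ⟨mB k, h2 k⟩, rfl⟩
  · rw [(e2 x hx).2]; exact h.ne_zero vB
  · rw [(e2 x hx).2, (e4 x hx).2, ← e', h.mul _ _ h1 vB.le]

/-- the residue field of `K(x, y)` at a Gauss point -/
theorem red_adj2 (h : Red v r) {K : Subfield U} {E : WeierstrassCurve U} {x y : U}
    (hK : CoeffIn E K) (hE : CoeffIn E {z | v z ≤ 1}) (e : E.toAffine.Equation x y) (hx : v x ≤ 1)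
    (hG : ∀ f : U[X], (∀ k, f.coeff k ∈ K) → ∀ k, v (f.coeff k) ≤ v (f.eval x)) :
    resField h (adj K {x, y}) ≤ adj (resField h K) {r x, r y} := by
  rintro _ ⟨z, ⟨hz, z1⟩, rfl⟩
  obtain ⟨a, ha, b, hb, rfl⟩ := Pl.mem_adj2 hK e hz
  rw [Pl.Gauss.max hG hK hE e hx ha hb, max_le_iff] at z1
  have hy := y_int hE e hx
  rw [h.add _ _ z1.1 (val_mul_le_one z1.2 hy), h.mul _ _ z1.2 hy]
  exact add_mem (Pl.adj1_le _ _ _ (red_adj1 h hx hG ha z1.1))
    (mul_mem (Pl.adj1_le _ _ _ (red_adj1 h hx hG hb z1.2)) (Pl.y_mem2 _ _ _))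

/-- an isometric automorphism acts on the residue field -/
theorem exists_resAut (h : Red v r) (hs : ∀ z, ∃ a, v a ≤ 1 ∧ r a = z) (g : U ≃+* U)
    (hg : ∀ z, v (g z) = v z) : ∃ gb : R ≃+* R, ∀ z, v z ≤ 1 → gb (r z) = r (g z) := by
  choose l hl e using hs
  have key : ∀ z, v z ≤ 1 → r (g (l (r z))) = r (g z) := by
    intro z hz
    rw [h.eq_iff (by rw [hg]; exact hl _) (by rw [hg]; exact hz), ← map_sub, hg,
      ← h.eq_iff (hl _) hz, e]
  let f : R →+* R :=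
    { toFun := fun z => r (g (l z))
      map_one' := by rw [← h.one, key 1 (by simp), map_one]
      map_zero' := by rw [← h.zero, key 0 (by simp), map_zero]
      map_mul' := fun a b => by
        rw [← h.mul _ _ (by rw [hg]; exact hl _) (by rw [hg]; exact hl _), ← map_mul,
          ← key _ (val_mul_le_one (hl _) (hl _)), h.mul _ _ (hl _) (hl _), e, e]
      map_add' := fun a b => by
        rw [← h.add _ _ (by rw [hg]; exact hl _) (by rw [hg]; exact hl _), ← map_add,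
          ← key _ (v.map_add_le (hl _) (hl _)), h.add _ _ (hl _) (hl _), e, e] }
  refine ⟨RingEquiv.ofBijective f ⟨f.injective, fun z => ⟨r (g.symm (l z)), ?_⟩⟩, key⟩
  have : v (g.symm (l z)) ≤ 1 := by rw [← hg, g.apply_symm_apply]; exact hl _
  show r (g (l _)) = z
  rw [key _ this, g.apply_symm_apply, e]

/-! ### points -/

theorem pt_cases {E : WeierstrassCurve U} (P : E.toAffine.Point) :
    P = 0 ∨ ∃ x y, E.toAffine.Nonsingular x y ∧ P = pt E x y := by
  rcases P with _ | ⟨x, y, h⟩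
  · exact .inl rfl
  · exact .inr ⟨x, y, h, (pt_of h).symm⟩

theorem onSet_pt {E : WeierstrassCurve U} {S : Set U} {x y : U} (hx : x ∈ S) (hy : y ∈ S) :
    OnSet S (pt E x y) := by
  by_cases h : E.toAffine.Nonsingular x y
  · rw [pt_of h]; exact ⟨hx, hy⟩
  · rw [pt_of_not h]; trivial

theorem onSet_pt_iff {E : WeierstrassCurve U} {S : Set U} {x y : U}
    (h : E.toAffine.Nonsingular x y) : OnSet S (pt E x y) ↔ x ∈ S ∧ y ∈ S := by
  rw [pt_of h]; rfl

/-- the points with coordinates in a subfield -/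
def onSub {E : WeierstrassCurve U} {k : Subfield U} (hE : CoeffIn E k) :
    AddSubgroup E.toAffine.Point where
  carrier := {P | OnSet (k : Set U) P}
  zero_mem' := trivial
  neg_mem' := by
    rintro (_ | ⟨x, y, h⟩) hP
    · trivial
    · exact ⟨hP.1, sub_mem (sub_mem (neg_mem hP.2) (mul_mem hE.1 hP.1)) hE.2.2.1⟩
  add_mem' := by
    obtain ⟨c1, c2, c3, c4, c6⟩ := hE
    have ny : ∀ x y : U, x ∈ k → y ∈ k → E.toAffine.negY x y ∈ k := fun x y hx hy =>
      sub_mem (sub_mem (neg_mem hy) (mul_mem c1 hx)) c3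
    rintro (_ | ⟨x₁, y₁, h₁⟩) (_ | ⟨x₂, y₂, h₂⟩) hP hQ
    · trivial
    · exact (zero_add (Point.some x₂ y₂ h₂)).symm ▸ hQ
    · exact hP
    by_cases hxy : x₁ = x₂ ∧ y₁ = E.toAffine.negY x₂ y₂
    · rw [Point.add_of_Y_eq hxy.1 hxy.2]; trivial
    · rw [Point.add_some hxy]
      have hl : E.toAffine.slope x₁ x₂ y₁ y₂ ∈ k := by
        unfold Affine.slope
        split_ifs
        · exact zero_mem _
        · exact div_mem (sub_mem (add_mem (add_mem (mul_mem (ofNat_mem _ 3) (pow_mem hP.1 2))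
            (mul_mem (mul_mem (ofNat_mem _ 2) c2) hP.1)) c4) (mul_mem c1 hP.2))
            (sub_mem hP.2 (ny _ _ hP.1 hP.2))
        · exact div_mem (sub_mem hP.2 hQ.2) (sub_mem hP.1 hQ.1)
      have hX : E.toAffine.addX x₁ x₂ (E.toAffine.slope x₁ x₂ y₁ y₂) ∈ k :=
        sub_mem (sub_mem (sub_mem (add_mem (pow_mem hl 2) (mul_mem c1 hl)) c2) hP.1) hQ.1
      exact ⟨hX, ny _ _ hX (add_mem (mul_mem hl (sub_mem hX hP.1)) hP.2)⟩

theorem mem_onSub {E : WeierstrassCurve U} {k : Subfield U} (hE : CoeffIn E k)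
    {P : E.toAffine.Point} : P ∈ onSub hE ↔ OnSet (k : Set U) P := Iff.rfl

/-- the reduced curve -/
def redE (r : U → R) (E : WeierstrassCurve U) : WeierstrassCurve R :=
  ⟨r E.a₁, r E.a₂, r E.a₃, r E.a₄, r E.a₆⟩

/-- the reduction homomorphism on points -/
theorem exists_redHom (h : Red v r) {E : WeierstrassCurve U} (hc : CoeffIn E {z | v z ≤ 1})
    (hΔ : v E.Δ = 1) : ∃ φ : E.toAffine.Point →+ (redE r E).toAffine.Point,
      (∀ x y, E.toAffine.Equation x y → v x ≤ 1 → (redE r E).toAffine.Nonsingular (r x) (r y) ∧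
        φ (pt E x y) = pt (redE r E) (r x) (r y)) ∧
      ∀ x y, ¬ v x ≤ 1 → φ (pt E x y) = 0 := by
  obtain ⟨-, h2, -⟩ := ptRed_holds U Γ v E hc hΔ
  obtain ⟨-, h3, h4⟩ := h2 R r (redE r E) h.one h.add h.mul h.eq_zero rfl rfl rfl rfl rfl
  have Δ0 : E.Δ ≠ 0 := fun e => by simp [e] at hΔ
  refine ⟨AddMonoidHom.mk' _ h4, fun x y e hx => ⟨h3 x y e hx, ?_⟩, fun x y hx => ?_⟩
  · rw [pt_of (nonsing_of_Δ Δ0 e)]
    exact if_pos hx
  · by_cases hn : E.toAffine.Nonsingular x y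
    · rw [pt_of hn]
      exact if_neg hx
    · rw [pt_of_not hn, map_zero]

end Res

end P179W
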