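import Vale.Agent.P179W.RetDefs
import Vale.Agent.P179W.AmbBasic

/-!
# P179W : canonical generators of inertia
-/

open scoped Classical
open Polynomial

noncomputable section

namespace P179W

namespace RetH

variable {U : Type} [Field U] {V V' : ValuationSubring U} {M M' : Set U} {ζ : ℚ → U}
  {t τ x : U} {γ γ' g : RingAut U} {i : ℂ →+* U}

theorem equiv_of {L : Type} [Field L] {Γ : Type} [LinearOrderedCommGroupWithZero Γ]
    {w : Valuation L Γ} {f : L →+* U} (h : ∀ z, w z ≤ 1 ↔ f z ∈ V) :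
    (V.valuation.comap f).IsEquiv w :=
  Valuation.isEquiv_iff_val_le_one.2 fun {z} => by
    rw [Valuation.comap_apply, V.valuation_le_one_iff, h]

theorem conj_equiv (h : ∀ z, z ∈ V ↔ g z ∈ V') :
    (V'.valuation.comap (g : U →+* U)).IsEquiv V.valuation :=
  equiv_of fun z => by rw [V.valuation_le_one_iff, h]; rfl

theorem conj_lt (h : ∀ z, z ∈ V ↔ g z ∈ V') (a b : U) :
    V'.valuation (g a) < V'.valuation (g b) ↔ V.valuation a < V.valuation b :=
  (conj_equiv h).lt_iff_lt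

theorem conj_lt_one (h : ∀ z, z ∈ V ↔ g z ∈ V') (a : U) :
    V'.valuation (g a) < 1 ↔ V.valuation a < 1 := by
  simpa using conj_lt h a 1

theorem conj_eq (h : ∀ z, z ∈ V ↔ g z ∈ V') (a b : U) :
    V'.valuation (g a) = V'.valuation (g b) ↔ V.valuation a = V.valuation b :=
  (conj_equiv h).eq_iff

theorem can_mono (h : IsCan ζ M V t γ) (k : M' ⊆ M) : IsCan ζ M' V t γ := fun z hz => h z (k hz)

theorem can_congr (h : IsCan ζ M V t γ) (k : ∀ z ∈ M, γ' z = γ z) : IsCan ζ M V t γ' :=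
  fun z hz z0 m l m0 e => by rw [k z hz]; exact h z hz z0 m l m0 e

theorem can_val (h : IsCan ζ M V t γ) (k : V.valuation τ = V.valuation t) : IsCan ζ M V τ γ :=
  fun z hz z0 m l m0 e => h z hz z0 m l m0 (by rw [e, map_zpow₀, map_zpow₀, k])

theorem can_conj (c : IsCan ζ M V t γ) (h : ∀ z, z ∈ V ↔ g z ∈ V') (hM : ∀ z ∈ M, g⁻¹ z ∈ M)
    (ht : g t = t) (hζ : ∀ r, g (ζ r) = ζ r) : IsCan ζ M V' t (g * γ * g⁻¹) := by
  intro z hz z0 m k m0 e
  have e0 : g (g⁻¹ z) = z := g.apply_symm_apply z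
  have k1 := c _ (hM z hz) ((map_ne_zero_iff _ (RingEquiv.injective _)).2 z0) m k m0 ((conj_eq h _ _).1 (by
    rw [map_pow g, map_zpow₀ g, e0, ht, e]))
  rwa [← conj_lt h, map_sub, map_mul, hζ, e0] at k1

/-- the image of a valuation ring -/
def mapV (g : RingAut U) (V : ValuationSubring U) : ValuationSubring U :=
  V.comap (g⁻¹ : RingAut U).toRingHom

theorem mem_mapV (g : RingAut U) (V : ValuationSubring U) (z : U) : z ∈ V ↔ g z ∈ mapV g V := by
  change _ ↔ g.symm (g z) ∈ V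
  rw [g.symm_apply_apply]

theorem val_unit (hV : ∀ c, i c ∈ V) {c : ℂ} (hc : c ≠ 0) : V.valuation (i c) = 1 := by
  refine le_antisymm ((V.valuation_le_one_iff _).2 (hV c)) ?_
  have h := (V.valuation_le_one_iff _).2 (hV c⁻¹)
  rwa [map_inv₀, map_inv₀, inv_le_one₀ ((Valuation.pos_iff _).2 ((map_ne_zero i).2 hc))] at h

theorem val_unit' {K : Subfield U} (hV : ∀ c ∈ K, c ∈ V) {c : U} (h : c ∈ K) (hc : c ≠ 0) :
    V.valuation c = 1 := by
  refine le_antisymm ((V.valuation_le_one_iff _).2 (hV c h)) ?_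
  have h := (V.valuation_le_one_iff _).2 (hV c⁻¹ (K.inv_mem h))
  rwa [map_inv₀, inv_le_one₀ ((Valuation.pos_iff _).2 hc)] at h

theorem zeta_ne (r : ℚ) : zeta r ≠ 0 := Complex.exp_ne_zero _

theorem zeta_add (r s : ℚ) : zeta (r + s) = zeta r * zeta s := by
  rw [zeta, zeta, zeta, ← Complex.exp_add]
  push_cast
  ring_nf

theorem zeta_int (k : ℤ) : zeta k = 1 := by
  rw [zeta, ← Complex.exp_int_mul_two_pi_mul_I k]
  push_cast
  ring_nf

theorem zeta_half : zeta (1 / 2) = -1 := by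
  rw [zeta, ← Complex.exp_pi_mul_I]
  push_cast
  ring_nf

theorem val_of_close {a b : U} (h : V.valuation (a - b) < V.valuation b) :
    V.valuation a = V.valuation b := by
  rw [← sub_add_cancel a b]
  exact V.valuation.map_add_eq_of_lt_right h

theorem can_val_eq (hV : ∀ c, i c ∈ V) (c : IsCan (fun r => i (zeta r)) M V t γ) {z : U}
    (hz : z ∈ M) (z0 : z ≠ 0) {m : ℕ} {k : ℤ} (m0 : 0 < m)
    (e : V.valuation (z ^ m) = V.valuation (t ^ k)) : V.valuation (γ z) = V.valuation z := by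
  have h := c z hz z0 m k m0 e
  have e1 : V.valuation (i (zeta (k / m)) * z) = V.valuation z := by
    rw [map_mul, val_unit hV (zeta_ne _), one_mul]
  rw [← e1] at h ⊢
  exact val_of_close h

/-- the canonical generator of a ramified quadratic extension -/
theorem can_sq (hV : ∀ c, i c ∈ V) (c : IsCan (fun r => i (zeta r)) M V τ γ)
    (e : V.valuation τ = V.valuation (t ^ 2)) (hM : ∀ z ∈ M, γ z ∈ M) :
    IsCan (fun r => i (zeta r)) M V t (γ ^ 2) := by
  intro z hz z0 m k m0 h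
  have h1 : V.valuation (z ^ (2 * m)) = V.valuation (τ ^ k) := by
    rw [mul_comm, pow_mul, map_pow, h, map_zpow₀, map_zpow₀, e, map_pow, ← zpow_natCast,
      ← zpow_natCast, ← zpow_mul, ← zpow_mul, mul_comm]
  have m1 : 0 < 2 * m := by omega
  have h2 := can_val_eq hV c hz z0 m1 h1
  have h3 := c z hz z0 _ k m1 h1
  have h4 := c _ (hM z hz) ((map_ne_zero_iff _ (RingEquiv.injective _)).2 z0) _ k m1 (by rw [map_pow, h2, ← map_pow, h1])
  have h5 : zeta (k / m) = zeta (k / (2 * m : ℕ)) * zeta (k / (2 * m : ℕ)) := by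
    rw [← zeta_add]
    congr 1
    push_cast
    field_simp
    ring
  rw [h2] at h4
  have h6 : (γ ^ 2) z - i (zeta (k / m)) * z = (γ (γ z) - i (zeta (k / (2 * m : ℕ))) * γ z) +
      i (zeta (k / (2 * m : ℕ))) * (γ z - i (zeta (k / (2 * m : ℕ))) * z) := by
    rw [h5, map_mul, sq]
    change γ (γ z) - _ = _
    ring
  beta_reduce
  rw [h6]
  refine V.valuation.map_add_lt h4 ?_
  rwa [map_mul, val_unit hV (zeta_ne _), one_mul]

theorem two_unit (hV : ∀ c, i c ∈ V) (z : U) : V.valuation (2 * z) = V.valuation z := by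
  rw [map_mul, ← map_ofNat i 2, val_unit hV two_ne_zero, one_mul]

/-- unramified places -/
theorem can_fix (hV : ∀ c, i c ∈ V) (c : IsCan (fun r => i (zeta r)) M V t γ) {z : U}
    (hz : z ∈ M) {k : ℤ} (e : V.valuation z = V.valuation (t ^ k)) (h : γ z ^ 2 = z ^ 2) :
    γ z = z := by
  rcases eq_or_ne z 0 with rfl | z0
  · exact map_zero γ
  refine (sq_eq_sq_iff_eq_or_eq_neg.1 h).resolve_right fun k1 => ?_
  have h1 := c z hz z0 1 k one_pos (by rw [pow_one, e])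
  simp only [Nat.cast_one, div_one, zeta_int, map_one, one_mul, k1] at h1
  rw [show -z - z = -(2 * z) by ring, Valuation.map_neg, two_unit hV] at h1
  exact lt_irrefl _ h1

/-- ramified places -/
theorem can_ne (hV : ∀ c, i c ∈ V) (c : IsCan (fun r => i (zeta r)) M V τ γ) (ht : t ∈ M)
    (t0 : t ≠ 0) (e : V.valuation τ = V.valuation (t ^ 2)) : γ t ≠ t := by
  intro k1
  have h1 := c t ht t0 2 1 two_pos (by rw [zpow_one, e])
  simp only [Int.cast_one, Nat.cast_ofNat, zeta_half, k1, map_neg, map_one] at h1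
  rw [show t - -1 * t = 2 * t by ring, two_unit hV] at h1
  exact lt_irrefl _ h1

/-- uniqueness -/
theorem can_uniq (hT : TameStmt) (hA : ArchStmt) (hV : ∀ c, i c ∈ V) {K M : Subfield U}
    (hK : ∀ z ∈ K, z ≠ 0 → ∃ k : ℤ, V.valuation z = V.valuation (t ^ k))
    (alg : ∀ z ∈ M, Alg K z) (s : ∀ z ∈ M, γ z ∈ M) (s' : ∀ z ∈ M, γ'⁻¹ z ∈ M) {m : ℕ}
    (m0 : 0 < m) (hm : (γ'⁻¹ * γ) ^ m ∈ Fix (M : Set U))
    (c : IsCan (fun r => i (zeta r)) M V t γ) (c' : IsCan (fun r => i (zeta r)) M V t γ') :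
    γ'⁻¹ * γ ∈ Fix (M : Set U) := by
  have ex : ∀ z ∈ M, z ≠ 0 → ∃ (m : ℕ) (k : ℤ), 0 < m ∧
      V.valuation (z ^ m) = V.valuation (t ^ k) := fun z hz z0 => by
    obtain ⟨m, m0, a, ha, a0, e⟩ := hA U _ V.valuation K z (alg z hz) z0
    obtain ⟨k, e'⟩ := hK a ha a0
    exact ⟨m, k, m0, e.trans e'⟩
  have st : ∀ z ∈ M, (γ'⁻¹ * γ) z ∈ M := fun z hz => s' _ (s z hz)
  refine (hT U _ V.valuation M (γ'⁻¹ * γ) st).1 m ?_ (fun z hz => ?_) fun z hz z0 => ?_
  · rw [← map_natCast i, val_unit hV (Nat.cast_ne_zero.2 m0.ne')]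
  · refine Eq.trans ?_ (hm z hz)
    clear hm m0
    induction m with
    | zero => rfl
    | succ m ih => rw [Function.iterate_succ_apply', ih, pow_succ']; rfl
  · obtain ⟨l, k, l0, e⟩ := ex z hz z0
    have h1 := V.valuation.map_sub_lt (c z hz z0 l k l0 e) (c' z hz z0 l k l0 e)
    have h2 : γ' ((γ'⁻¹ * γ) z - z) = γ z - γ' z := by
      rw [map_sub]
      exact congrArg (· - _) (γ'.apply_symm_apply _)
    rw [sub_sub_sub_cancel_right, ← h2] at h1
    rcases eq_or_ne ((γ'⁻¹ * γ) z - z) 0 with h | h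
    · rw [h, map_zero]
      exact (Valuation.pos_iff _).2 z0
    · obtain ⟨l', k', l0', e'⟩ := ex _ (M.sub_mem (st z hz) hz) h
      rwa [can_val_eq hV c' (M.sub_mem (st z hz) hz) h l0' e'] at h1

/-! ### the places of `K(x)` -/

theorem aeval_mem {K : Subfield U} (hV : ∀ c ∈ K, c ∈ V) (hx : x ∈ V) (p : K[X]) :
    aeval x p ∈ V := by
  rw [aeval_eq_sum_range]
  exact sum_mem fun k _ => mul_mem (hV _ (p.coeff k).2) (pow_mem hx k)

theorem val_poly {K : Subfield U} {p : K[X]} (hp : p ≠ 0) : ∃ k : ℕ, ∀ V : ValuationSubring U,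
    (∀ c ∈ K, c ∈ V) → V.valuation x < 1 → V.valuation (aeval x p) = V.valuation x ^ k := by
  obtain ⟨q, e, hq⟩ := exists_eq_pow_rootMultiplicity_mul_and_not_dvd p hp 0
  refine ⟨rootMultiplicity 0 p, fun V hV hx => ?_⟩
  rw [C_0, sub_zero] at e hq
  have h0 := val_unit' hV (q.coeff 0).2 fun h => hq (X_dvd_iff.2 (Subtype.ext h))
  conv_lhs => rw [e, map_mul, map_pow, aeval_X, map_mul, map_pow, ← divX_mul_X_add q]
  rw [map_add, map_mul, aeval_X, aeval_C, V.valuation.map_add_eq_of_lt_right]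
  · exact (congrArg _ h0).trans (mul_one _)
  · refine lt_of_lt_of_eq ?_ h0.symm
    rw [map_mul]
    exact mul_lt_one_of_nonneg_of_lt_one_right ((V.valuation_le_one_iff _).2
      (aeval_mem hV ((V.valuation_le_one_iff _).1 hx.le) _)) zero_le hx

theorem val_adj {K : Subfield U} {z : U} (hz : z ∈ adj K {x}) (z0 : z ≠ 0) :
    ∃ k : ℤ, ∀ V : ValuationSubring U, (∀ c ∈ K, c ∈ V) → V.valuation x < 1 → x ≠ 0 →
      V.valuation z = V.valuation (x ^ k) := by
  obtain ⟨_, ⟨A, rfl⟩, _, ⟨B, rfl⟩, h1, h2⟩ := mem_adj_one.1 hz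
  simp only [coe_mapRingHom, eval_map_sub] at h1 h2
  obtain ⟨a, ha⟩ := val_poly (x := x) (p := A) (by
    rintro rfl
    exact mul_ne_zero z0 h1 (h2.trans (map_zero _)))
  obtain ⟨b, hb⟩ := val_poly (x := x) (p := B) (by
    rintro rfl
    exact h1 (map_zero _))
  refine ⟨a - b, fun V hV hx x0 => ?_⟩
  rw [eq_div_of_mul_eq h1 h2, map_div₀, ha V hV hx, hb V hV hx, map_zpow₀,
    zpow_sub₀ ((Valuation.ne_zero_iff _).2 x0), zpow_natCast, zpow_natCast]

theorem over_mem (h : Over i V τ) : ∀ c ∈ i.fieldRange, c ∈ V := by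
  rintro _ ⟨c, rfl⟩
  exact h.1 c

theorem over_val (h : Over i V τ) (τ0 : τ ≠ 0) :
    ∀ z ∈ adj (Set.range i) {τ}, z ≠ 0 → ∃ k : ℤ, V.valuation z = V.valuation (τ ^ k) :=
  fun _ hz z0 => (val_adj (K := i.fieldRange) hz z0).imp fun _ k => k V (over_mem h) h.2 τ0

theorem over_iff (h : Over i V τ) (h' : Over i V' τ) (τ0 : τ ≠ 0) :
    ∀ z ∈ adj (Set.range i) {τ}, z ∈ V ↔ z ∈ V' := fun z hz => by
  rcases eq_or_ne z 0 with rfl | z0
  · exact iff_of_true V.zero_mem V'.zero_mem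
  obtain ⟨k, hk⟩ := val_adj (K := i.fieldRange) hz z0
  rw [← V.valuation_le_one_iff, ← V'.valuation_le_one_iff, hk V (over_mem h) h.2 τ0,
    hk V' (over_mem h') h'.2 τ0, map_zpow₀, map_zpow₀,
    zpow_le_one_iff_right_of_lt_one₀ ((Valuation.pos_iff _).2 τ0) h.2,
    zpow_le_one_iff_right_of_lt_one₀ ((Valuation.pos_iff _).2 τ0) h'.2]

theorem adj_sub (i : ℂ →+* U) (x : U) (c : ℂ) :
    adj (Set.range i) {x - i c} = adj (Set.range i) {x} := by
  refine le_antisymm (adj_le.2 ⟨left_subset_adj _ _, Set.singleton_subset_iff.2 ?_⟩)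
    (adj_le.2 ⟨left_subset_adj _ _, Set.singleton_subset_iff.2 ?_⟩)
  · exact sub_mem (right_subset_adj _ _ rfl) (left_subset_adj _ _ ⟨c, rfl⟩)
  · have h := add_mem (right_subset_adj (Set.range i) {x - i c} rfl)
      (left_subset_adj (Set.range i) {x - i c} ⟨c, rfl⟩)
    rwa [sub_add_cancel] at h

theorem adj_inv (K : Set U) (x : U) : adj K {x⁻¹} = adj K {x} := by
  have h : ∀ x : U, adj K {x⁻¹} ≤ adj K {x} := fun x => adj_le.2 ⟨left_subset_adj _ _,
    Set.singleton_subset_iff.2 (inv_mem (right_subset_adj _ _ rfl))⟩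
  exact le_antisymm (h x) (by simpa only [inv_inv] using h x⁻¹)

theorem transc_sub (h : Transc i.fieldRange x) (c : ℂ) : x - i c ≠ 0 := fun k =>
  transc_iff_not_alg.1 h (alg_of_mem ⟨c, (sub_eq_zero.1 k).symm⟩)

theorem transc_inv (h : Transc i.fieldRange x) : x⁻¹ ≠ 0 := by
  simpa using transc_sub h 0

theorem over_conj (h : Over i V τ) (e : ∀ z, z ∈ V ↔ g z ∈ V') (hi : ∀ c, g (i c) = i c)
    (hτ : g τ = τ) : Over i V' τ :=
  ⟨fun c => hi c ▸ (e _).1 (h.1 c), hτ ▸ (conj_lt_one e τ).2 h.2⟩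

end RetH

end P179W
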