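import Vale.Agent.P179W.RetDefs

/-!
# P179W : the count of the homomorphisms from the subgroup of index two
-/

set_option linter.all false

open scoped Classical

noncomputable section

namespace P179W

namespace CountH

/-- the wreath product with the group of order two -/
@[ext] structure W (G : Type) where
  f : Bool → G
  s : Bool

variable {G : Type} [Group G]

instance : Mul (W G) := ⟨fun v w => ⟨fun i => v.f i * w.f (xor v.s i), xor v.s w.s⟩⟩

instance : One (W G) := ⟨⟨fun _ => 1, false⟩⟩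

instance : Inv (W G) := ⟨fun v => ⟨fun i => (v.f (xor v.s i))⁻¹, v.s⟩⟩

@[simp] theorem mul_f (v w : W G) (i : Bool) : (v * w).f i = v.f i * w.f (xor v.s i) := rfl

@[simp] theorem mul_s (v w : W G) : (v * w).s = xor v.s w.s := rfl

@[simp] theorem one_f (i : Bool) : (1 : W G).f i = 1 := rfl

@[simp] theorem one_s : (1 : W G).s = false := rfl

@[simp] theorem inv_f (v : W G) (i : Bool) : v⁻¹.f i = (v.f (xor v.s i))⁻¹ := rfl

@[simp] theorem inv_s (v : W G) : v⁻¹.s = v.s := rfl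

instance : Group (W G) := Group.ofLeftAxioms
  (fun u v w => by
    ext i
    · simp only [mul_f, mul_s, mul_assoc, Bool.xor_assoc, Bool.xor_left_comm u.s]
    · simp only [mul_s, Bool.xor_assoc])
  (fun v => by ext <;> simp) (fun v => by ext <;> simp)

/-- the involutions over the nontrivial sign -/
def a (l : G) : W G := ⟨fun i => if i then l⁻¹ else l, true⟩

/-- the embeddings of `G` -/
def z (b : Bool) : G →* W G := MonoidHom.mk' (fun c => ⟨fun i => if i = b then c else 1, false⟩)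
  fun c d => by
    ext i
    · by_cases h : i = b <;> simp [h]
    · rfl

@[simp] theorem a_f (l : G) (i : Bool) : (a l).f i = if i then l⁻¹ else l := rfl

@[simp] theorem a_s (l : G) : (a l).s = true := rfl

@[simp] theorem z_f (b : Bool) (c : G) (i : Bool) : (z b c).f i = if i = b then c else 1 := rfl

@[simp] theorem z_s (b : Bool) (c : G) : (z b c).s = false := rfl

theorem a_inv (l : G) : (a l)⁻¹ = a l := by
  ext i
  · cases i <;> simp
  · rfl

theorem mem_a {v : W G} : v ∈ Set.range (a (G := G)) ↔ v.s = true ∧ v.f false * v.f true = 1 := by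
  refine ⟨by rintro ⟨l, rfl⟩; simp, fun ⟨h1, h2⟩ => ⟨v.f false, ?_⟩⟩
  ext i
  · cases i <;> simp [eq_inv_of_mul_eq_one_right h2]
  · exact h1.symm

theorem conj_f (w : W G) {v : W G} (h : v.s = false) :
    (w * v * w⁻¹).f false = w.f false * v.f w.s * (w.f false)⁻¹ := by
  simp [h]

theorem sign_prod {r : ℕ} {B : Finset (Fin r)} (hB : B.card = 3) (w : Fin r → W G)
    (h : ∀ k, (w k).s = true ↔ k ∈ B) : (List.ofFn w).prod.s = true := by
  let σ : W G →* ℤ :=
    { toFun := fun v => if v.s then -1 else 1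
      map_one' := by simp
      map_mul' := fun u v => by cases h1 : u.s <;> cases h2 : v.s <;> simp [h1, h2] }
  have : σ (List.ofFn w).prod = -1 := by
    rw [map_list_prod, List.map_ofFn, List.prod_ofFn,
      Finset.prod_congr rfl (g := fun k => if k ∈ B then -1 else 1) fun k _ => by simp [σ, h],
      Finset.prod_ite_mem, Finset.univ_inter, Finset.prod_const, hB]
    norm_num
  by_contra h'
  simp [σ, h'] at this

/-! ### the computation in the monoid algebra -/

section Alg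

variable {R : Type} [Semiring R]

theorem prod_sum {α : Type} [Fintype α] : ∀ (r : ℕ) (y : Fin r → α → R),
    (List.ofFn fun k => ∑ l, y k l).prod = ∑ l : Fin r → α, (List.ofFn fun k => y k (l k)).prod
  | 0, y => by simp
  | r + 1, y => by
    rw [List.ofFn_succ, List.prod_cons, prod_sum r, Finset.sum_mul_sum, ← Fintype.sum_prod_type']
    refine Fintype.sum_equiv (Fin.consEquiv fun _ => α) _ _ fun l => ?_
    simp [List.ofFn_succ, Fin.consEquiv]

theorem prod_ite {M : Type} [Monoid M] (o : M →* R) {r : ℕ} (p : Fin r → Prop) [DecidablePred p]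
    [Decidable (∀ k, p k)] (x : Fin r → M) :
    (List.ofFn fun k => if p k then o (x k) else 0).prod =
      if ∀ k, p k then o (List.ofFn x).prod else 0 := by
  split_ifs with h
  · simp only [h, if_true, map_list_prod, List.map_ofFn, Function.comp_def]
  · obtain ⟨k, hk⟩ := not_forall.1 h
    exact List.prod_eq_zero (List.mem_ofFn.2 ⟨k, if_neg hk⟩)

theorem prod_sort {A Z : R} (h : Commute A Z) : ∀ (r : ℕ) (p : Fin r → Prop) [DecidablePred p]
    (y : Fin r → R), (∀ k, y k * A = (if p k then A else Z) * A) → (List.ofFn y).prod * A =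
      Z ^ (∑ k, if p k then 0 else 1) * A ^ (∑ k, if p k then 1 else 0) * A
  | 0, p, _, y, _ => by simp
  | r + 1, p, _, y, H => by
    rw [List.ofFn_succ, List.prod_cons, mul_assoc, prod_sort h r _ _ fun k => H k.succ,
      ← ((h.pow_right _).mul_right (Commute.self_pow A _)).eq, ← mul_assoc, H 0, mul_assoc,
      ((h.pow_right _).mul_right (Commute.self_pow A _)).eq, Fin.sum_univ_succ, Fin.sum_univ_succ]
    split_ifs
    · rw [zero_add, pow_add, pow_one, ← mul_assoc, ← mul_assoc, (h.pow_right _).eq, ← mul_assoc]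
    · rw [zero_add, pow_add, pow_one, ← mul_assoc, ← mul_assoc]

end Alg

variable [Fintype G]

/-- the embedding into the monoid algebra -/
abbrev o : W G →* MonoidAlgebra ℕ (W G) := MonoidAlgebra.of ℕ (W G)

variable (G) in
/-- the sum of the involutions -/
def A : MonoidAlgebra ℕ (W G) := ∑ l : G, o (a l)

/-- the sum of the elements of `C` -/
def Z (C : Set G) (b : Bool) : MonoidAlgebra ℕ (W G) := ∑ c, if c ∈ C then o (z b c) else 0

theorem comm (C : Set G) : Commute (A G) (Z C false) := by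
  refine Commute.sum_right _ _ _ fun c _ => ?_
  split_ifs
  · simp only [Commute, SemiconjBy, A, Finset.sum_mul, Finset.mul_sum, ← map_mul]
    refine (Fintype.sum_equiv (Equiv.mulLeft c) _ _ fun l => congrArg o ?_).symm
    ext i
    · cases i <;> simp
    · rfl
  · exact Commute.zero_right _

theorem swap {C : Set G} (hC : ∀ g : G, ∀ c ∈ C, g * c * g⁻¹ ∈ C) (b : Bool) :
    Z C b * A G = Z C false * A G := by
  cases b
  · rfl
  rw [← (comm C).eq, A, Finset.sum_mul, Finset.mul_sum]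
  refine Finset.sum_congr rfl fun l _ => ?_
  simp only [Z, Finset.sum_mul, Finset.mul_sum, ite_mul, mul_ite, zero_mul, mul_zero, ← map_mul]
  refine Fintype.sum_equiv (MulAut.conj l).toEquiv _ _ fun c => if_congr
    ⟨hC l c, fun h => by simpa [mul_assoc] using hC l⁻¹ _ h⟩ (congrArg o ?_) rfl
  ext i
  · cases i <;> simp [mul_assoc]
  · rfl

theorem coeff_A (v : W G) : (o v * A G).coeff 1 = if v ∈ Set.range (a (G := G)) then 1 else 0 := by
  simp only [A, Finset.mul_sum, MonoidAlgebra.coeff_sum, Finsupp.finset_sum_apply,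
    MonoidAlgebra.of_apply, MonoidAlgebra.single_mul_single, MonoidAlgebra.coeff_single,
    Finsupp.single_apply, mul_eq_one_iff_eq_inv, a_inv, mul_one]
  split_ifs with h
  · obtain ⟨l, rfl⟩ := h
    rw [Finset.sum_eq_single l (fun m _ hm => if_neg fun e => hm (congrArg (fun v : W G => v.f false) e).symm)
      (by simp), if_pos rfl]
  · exact Finset.sum_eq_zero fun m _ => if_neg fun e => h ⟨m, e.symm⟩

theorem coeff_sum {α : Type} [Fintype α] (p : α → Prop) [DecidablePred p] (x : α → W G) :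
    ((∑ l, if p l then o (x l) else 0) * A G).coeff 1 =
      {l | p l ∧ x l ∈ Set.range (a (G := G))}.ncard := by
  simp only [Finset.sum_mul, MonoidAlgebra.coeff_sum, Finsupp.finset_sum_apply, ite_mul, zero_mul,
    apply_ite MonoidAlgebra.coeff, MonoidAlgebra.coeff_zero, Finsupp.coe_zero, DFunLike.ite_apply,
    Pi.zero_apply, coeff_A, ← ite_and]
  rw [Finset.sum_boole, Nat.cast_id, ← Set.ncard_coe_finset, Finset.coe_filter_univ]

/-- the local monodromies -/
def gen {r : ℕ} (B : Finset (Fin r)) (b : Fin r → Bool) (k : Fin r) (l : G) : W G :=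
  if k ∈ B then a l else z (b k) l

/-- the tuples -/
def X {r : ℕ} (B : Finset (Fin r)) (b : Fin r → Bool) (C : Set G) : Set (Fin r → G) :=
  {l | (∀ k, k ∉ B → l k ∈ C) ∧ (List.ofFn fun k => gen B b k (l k)).prod ∈ Set.range a}

/-- the tuples counted by `tupCount` -/
def Y (C : Set G) (n : ℕ) : Set (G × G × (Fin n → G)) :=
  {t | (∀ i, t.2.2 i ∈ C) ∧ t.1 * t.2.1 * t.1⁻¹ * t.2.1⁻¹ = (List.ofFn t.2.2).prod}

theorem card_X {r n : ℕ} {B : Finset (Fin r)} (hB : B.card = 3) (hr : r = n + 3) (b : Fin r → Bool)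
    {C : Set G} (hC : ∀ g : G, ∀ c ∈ C, g * c * g⁻¹ ∈ C) :
    (X B b C).ncard = (Y C n).ncard * Nat.card G := by
  have h1 := prod_sort (comm C) r (· ∈ B)
    (fun k => ∑ l : G, if k ∉ B → l ∈ C then o (gen B b k l) else 0) fun k => by
      by_cases h : k ∈ B
      · simp only [h, gen, not_true, false_imp_iff, if_true, A]
      · simp only [h, gen, not_false_iff, true_imp_iff, if_false]
        exact swap hC (b k)
  have h2 : ∑ k : Fin r, (if k ∈ B then 1 else 0) = 3 := by simp [hB]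
  have h3 : ∑ k : Fin r, (if k ∈ B then 0 else 1) = n := by
    have : ∑ k : Fin r, (if k ∈ B then 0 else 1) + ∑ k : Fin r, (if k ∈ B then 1 else 0) = r := by
      rw [← Finset.sum_add_distrib, Finset.sum_congr rfl (g := fun _ => 1) fun k _ => by
        split_ifs <;> rfl]
      simp
    omega
  have h4 : Z C false ^ n * A G ^ 3 = ∑ t : (Fin n → G) × G × G × G,
      if ∀ i, t.1 i ∈ C then o (z false (List.ofFn t.1).prod * (a t.2.1 * a t.2.2.1 * a t.2.2.2))
      else 0 := by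
    have k1 : A G ^ 3 = ∑ t : G × G × G, o (a t.1 * a t.2.1 * a t.2.2) := by
      rw [pow_three', A, Finset.sum_mul_sum, ← Fintype.sum_prod_type', Finset.sum_mul_sum]
      simp only [Fintype.sum_prod_type, map_mul]
    rw [k1, ← List.prod_replicate, ← List.ofFn_const, Z, prod_sum, Finset.sum_mul_sum,
      Fintype.sum_prod_type]
    simp only [prod_ite, ite_mul, zero_mul, map_mul, map_list_prod (z false), List.map_ofFn,
      Function.comp_def]
  rw [h2, h3, h4, prod_sum] at h1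
  simp only [prod_ite] at h1
  have h5 := congrArg (fun v => v.coeff 1) h1
  simp only [coeff_sum] at h5
  refine h5.trans ?_
  rw [← Set.ncard_univ, ← Set.ncard_prod]
  refine Set.ncard_congr
    (fun t _ => ((t.2.2.2 * t.2.1⁻¹, t.2.1 * t.2.2.1⁻¹, t.1), t.2.1)) ?_ ?_ ?_
  · rintro ⟨c, u, v, w⟩ ⟨k1, k2⟩
    refine ⟨⟨k1, ?_⟩, trivial⟩
    have := (mem_a.1 k2).2
    simp at this ⊢
    rw [mul_assoc, mul_eq_one_iff_eq_inv] at this
    rw [this]
    group
  · rintro ⟨c, u, v, w⟩ ⟨c', u', v', w'⟩ - - h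
    simp only [Prod.mk.injEq] at h ⊢
    obtain ⟨⟨k1, k2, k3⟩, rfl⟩ := h
    simpa [k3] using And.intro k2 k1
  · rintro ⟨⟨x, y, c⟩, u⟩ ⟨⟨k1, k2⟩, -⟩
    refine ⟨(c, u, y⁻¹ * u, x * u), ⟨k1, mem_a.2 ⟨rfl, ?_⟩⟩, by simp⟩
    simp at k2 ⊢
    rw [← k2]
    group

/-! ### homomorphisms over the sign -/

section Hom

variable {F : Type} [Group F] {H : Subgroup F}

/-- `ψ` lies over the sign -/
def Sg (H : Subgroup F) (ψ : F →* W G) : Prop := ∀ π, (ψ π).s = false ↔ π ∈ H

/-- the restriction -/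
def Sg.res {ψ : F →* W G} (h : Sg H ψ) : H →* G :=
  MonoidHom.mk' (fun u => (ψ u).f false) fun u v => by simp [(h u).2 u.2]

theorem Sg.res_apply {ψ : F →* W G} (h : Sg H ψ) (u : H) : h.res u = (ψ u).f false := rfl

theorem Sg.inj {ψ ψ' : F →* W G} (h : Sg H ψ) (h' : Sg H ψ') {t : F} (ht : t ∉ H)
    (e : h.res = h'.res) (e' : (ψ t).f false = (ψ' t).f false) : ψ = ψ' := by
  have s : ∀ π, (ψ π).s = (ψ' π).s := fun π => Bool.eq_iff_iff.2 (by
    rw [← Bool.not_eq_false, ← Bool.not_eq_false, h, h'])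
  have t1 : (ψ t).s = true := by rw [← Bool.not_eq_false, h]; exact ht
  have k1 : ∀ π, (ψ π).s = false → (ψ π).f false = (ψ' π).f false := fun π k =>
    DFunLike.congr_fun e ⟨π, (h π).1 k⟩
  have k2 : ∀ π, (ψ π).f false = (ψ' π).f false := fun π => by
    cases k : (ψ π).s
    · exact k1 π k
    · have := k1 (π * t⁻¹) (by simp [k, t1])
      simpa [← s, k, t1, e'] using this
  ext π i
  · cases i
    · exact k2 π
    · simpa [← s, t1, e'] using k2 (t * π)
  · exact s π

theorem exists_hom (hH : ∀ a b, a * b ∈ H ↔ (a ∈ H ↔ b ∈ H)) {t : F} (ht : t ∉ H) (h : H →* G)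
    (α : G) : ∃ (ψ : F →* W G) (k : Sg H ψ), k.res = h ∧ (ψ t).f false = α := by
  let T : Bool → F := fun i => if i then t else 1
  let β : Bool → G := fun i => if i then α else 1
  let s : F → Bool := fun π => decide (π ∉ H)
  have m : ∀ π i, T i * π * (T (xor (s π) i))⁻¹ ∈ H := fun π i => by
    by_cases k : π ∈ H <;> cases i <;> simp [T, s, k, hH, ht]
  have sm : ∀ π ρ, s (π * ρ) = xor (s π) (s ρ) := fun π ρ => by
    by_cases k : π ∈ H <;> by_cases k' : ρ ∈ H <;> simp [s, k, k', hH]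
  refine ⟨MonoidHom.mk' (fun π => ⟨fun i => (β i)⁻¹ * h ⟨_, m π i⟩ * β (xor (s π) i), s π⟩)
    fun π ρ => ?_, fun π => by simp [s], ?_, ?_⟩
  · ext i
    · have e : xor (s (π * ρ)) i = xor (s ρ) (xor (s π) i) := by
        rw [sm, Bool.xor_assoc, Bool.xor_left_comm]
      have : h ⟨_, m (π * ρ) i⟩ = h ⟨_, m π i⟩ * h ⟨_, m ρ (xor (s π) i)⟩ := by
        rw [← map_mul]
        refine congrArg h (Subtype.ext ?_)
        simp only [Subgroup.coe_mul, e]
        group
      simp only [mul_f]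
      rw [this, e]
      simp only [mul_assoc, mul_inv_cancel_left]
    · exact sm π ρ
  · ext u
    simp [Sg.res_apply, T, β, s]
  · have : h ⟨_, m t false⟩ = 1 := by
      rw [← map_one h]
      exact congrArg h (Subtype.ext (by simp [T, s, ht]))
    simp only [MonoidHom.mk'_apply, this]
    simp [β, s, ht]

theorem Sg.cond1 {ψ : F →* W G} (h : Sg H ψ) {γ : F} (hγ : (ψ γ).s = true) :
    (∀ (π : F) (u : H), u.1 = π * γ ^ 2 * π⁻¹ → h.res u = 1) ↔ ψ γ ∈ Set.range a := by
  constructor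
  · intro k
    have := k 1 ⟨γ ^ 2, (h _).1 (by simp [sq])⟩ (by simp)
    exact mem_a.2 ⟨hγ, by simpa [Sg.res_apply, sq, hγ] using this⟩
  · rintro ⟨l, hl⟩ π u e
    have : a l * a l = 1 := by rw [mul_eq_one_iff_eq_inv, a_inv]
    rw [Sg.res_apply, e, map_mul, map_mul, map_pow, ← hl, sq, this, mul_one, ← map_mul,
      mul_inv_cancel, map_one, one_f]

theorem Sg.cond3 {ψ : F →* W G} (h : Sg H ψ) {t : F} (ht : t ∉ H) {C : Set G}
    (hC : ∀ g : G, ∀ c ∈ C, g * c * g⁻¹ ∈ C) {γ : F} (hγ : γ ∈ H) (η : Prop) :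
    (∀ (π : F) (u : H), u.1 = π * γ * π⁻¹ →
      ((π ∈ H ↔ η) → h.res u ∈ C) ∧ (¬ (π ∈ H ↔ η) → h.res u = 1)) ↔
      ∃ c ∈ C, ψ γ = z (decide (¬ η)) c := by
  have s0 := (h γ).2 hγ
  have e1 : ∀ (π : F) (u : H), u.1 = π * γ * π⁻¹ →
      h.res u = (ψ π).f false * (ψ γ).f (ψ π).s * ((ψ π).f false)⁻¹ := fun π u e => by
    rw [Sg.res_apply, e, map_mul, map_mul, map_inv, conj_f _ s0]
  have e2 : ∀ π, (π ∈ H ↔ η) ↔ (ψ π).s = decide (¬ η) := fun π => by
    rw [← h]
    by_cases k : η <;> simp [k]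
  constructor
  · intro k
    have k1 : ∀ i, (i = decide (¬ η) → (ψ γ).f i ∈ C) ∧ (i ≠ decide (¬ η) → (ψ γ).f i = 1) :=
      fun i => by
        obtain ⟨π, rfl⟩ : ∃ π, (ψ π).s = i := by
          cases i
          · exact ⟨1, by simp⟩
          · exact ⟨t, by rw [← Bool.not_eq_false, h]; exact ht⟩
        have := k π ⟨π * γ * π⁻¹, (h _).1 (by simp [s0])⟩ rfl
        rw [e1 π _ rfl, e2] at this
        exact ⟨fun e => by simpa [mul_assoc] using hC ((ψ π).f false)⁻¹ _ (this.1 e),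
          fun e => conj_eq_one_iff.1 (this.2 e)⟩
    refine ⟨_, (k1 _).1 rfl, W.ext (funext fun i => ?_) s0⟩
    rw [z_f]
    split_ifs with e
    · rw [e]
    · exact (k1 i).2 e
  · rintro ⟨c, hc, e⟩ π u k
    rw [e1 π u k, e2, e, z_f]
    exact ⟨fun k => by rw [if_pos k]; exact hC _ c hc, fun k => by rw [if_neg k]; simp⟩

end Hom

theorem card_Psi {r : ℕ} {B : Finset (Fin r)} (hB : B.card = 3) {H : Subgroup (FreeGroup (Fin r))}
    (hH : ∀ a b, a * b ∈ H ↔ (a ∈ H ↔ b ∈ H)) (hk : ∀ k, FreeGroup.of k ∈ H ↔ k ∉ B)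
    (η : Fin r → Prop) {C : Set G} (hC : ∀ g : G, ∀ c ∈ C, g * c * g⁻¹ ∈ C) :
    (X B (fun k => decide (¬ η k)) C).ncard = (PsiSet B H η C).ncard * Nat.card G := by
  obtain ⟨k₀, h₀⟩ : B.Nonempty := Finset.card_pos.1 (by omega)
  have ht : FreeGroup.of k₀ ∉ H := fun h => (hk k₀).1 h h₀
  set b : Fin r → Bool := fun k => decide (¬ η k)
  have sg : ∀ l : Fin r → G, Sg H (FreeGroup.lift fun k => gen B b k (l k)) := fun l π => by
    induction π using FreeGroup.induction_on with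
    | C1 => simp
    | of k => by_cases h : k ∈ B <;> simp [gen, hk, h]
    | inv_of k h => rwa [map_inv, inv_s, inv_mem_iff]
    | mul π ρ h h' =>
      rw [map_mul, mul_s, hH, ← h, ← h']
      simp only [Bool.bne_eq_xor.symm, bne_eq_false_iff_eq]
      exact Bool.eq_iff_iff.trans (by simp only [← Bool.not_eq_false, not_iff_not])
  have key : ∀ (ψ : FreeGroup (Fin r) →* W G) (h : Sg H ψ), h.res ∈ PsiSet B H η C ↔
      ∃ l ∈ X B b C, ψ = FreeGroup.lift fun k => gen B b k (l k) := fun ψ h => by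
    have s1 : ∀ k, (ψ (.of k)).s = true ↔ k ∈ B := fun k => by
      rw [← Bool.not_eq_false, h, hk, not_not]
    have s2 : ψ (ginf r) = (List.ofFn fun k => ψ (.of k)).prod⁻¹ := by
      rw [ginf, map_inv, map_list_prod, List.map_ofFn]
      rfl
    have s3 : ψ (ginf r) ∈ Set.range a ↔ (List.ofFn fun k => ψ (.of k)).prod ∈ Set.range a := by
      rw [s2]
      exact ⟨fun ⟨l, e⟩ => ⟨l, by rw [← a_inv, e, inv_inv]⟩, fun ⟨l, e⟩ => ⟨l, by rw [← e, a_inv]⟩⟩
    have s4 := (h.cond1 (γ := ginf r) (by rw [s2, inv_s]; exact sign_prod hB _ s1)).trans s3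
    constructor
    · rintro ⟨k1, k2, k3⟩
      have : ∀ k, ∃ l, (k ∉ B → l ∈ C) ∧ ψ (.of k) = gen B b k l := fun k => by
        by_cases e : k ∈ B
        · obtain ⟨l, hl⟩ := (h.cond1 ((s1 k).2 e)).1 (k1 k e)
          exact ⟨l, fun e' => (e' e).elim, by rw [gen, if_pos e, hl]⟩
        · obtain ⟨l, h1, hl⟩ := (h.cond3 ht hC ((hk k).2 e) (η k)).1 (k3 k e)
          exact ⟨l, fun _ => h1, by rw [gen, if_neg e, hl]⟩
      choose l l1 l2 using this
      exact ⟨l, ⟨l1, by simpa only [l2] using s4.1 k2⟩,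
        FreeGroup.ext_hom _ _ fun k => by rw [l2, FreeGroup.lift_apply_of]⟩
    · rintro ⟨l, ⟨l1, l2⟩, e⟩
      have l3 : ∀ k, ψ (.of k) = gen B b k (l k) := fun k => by rw [e, FreeGroup.lift_apply_of]
      exact ⟨fun k e => (h.cond1 ((s1 k).2 e)).2 ⟨l k, by rw [l3, gen, if_pos e]⟩,
        s4.2 (by simpa only [l3] using l2), fun k e => (h.cond3 ht hC ((hk k).2 e) (η k)).2
          ⟨l k, l1 k e, by rw [l3, gen, if_neg e]⟩⟩
  rw [← Set.ncard_univ, ← Set.ncard_prod]
  refine Set.ncard_congr (fun l _ => ((sg l).res,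
    (FreeGroup.lift (fun k => gen B b k (l k)) (.of k₀)).f false))
    (fun l hl => ⟨(key _ (sg l)).2 ⟨l, hl, rfl⟩, trivial⟩) (fun l l' _ _ e => funext fun k => ?_) ?_
  · have := DFunLike.congr_fun
      ((sg l).inj (sg l') ht (congrArg Prod.fst e) (congrArg Prod.snd e)) (.of k)
    simp only [FreeGroup.lift_apply_of, gen] at this
    split_ifs at this
    · exact congrArg (fun v : W G => v.f false) this
    · simpa using congrArg (fun v : W G => v.f (b k)) this
  · rintro ⟨h, α⟩ ⟨k1, -⟩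
    obtain ⟨ψ, k, rfl, rfl⟩ := exists_hom hH ht h α
    obtain ⟨l, l1, rfl⟩ := (key ψ k).1 k1
    exact ⟨l, l1, rfl⟩

end CountH

open CountH in
theorem count_holds : CountStmt := by
  intro r n B hB hr H hH hk η G _ _ C hC L
  have := Fintype.ofFinite L
  have hC' : ∀ g : L, ∀ c ∈ L.subtype ⁻¹' C, g * c * g⁻¹ ∈ L.subtype ⁻¹' C :=
    fun g c hc => hC g c hc
  have h1 := Nat.eq_of_mul_eq_mul_right Nat.card_pos
    ((card_Psi hB hH hk η hC').symm.trans (card_X hB hr _ hC'))
  have inj := L.subtype_injective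
  refine Eq.trans (Eq.symm ?_) (h1.trans ?_)
  · refine Set.ncard_congr (fun h _ => L.subtype.comp h) (fun h ⟨k1, k2, k3⟩ =>
      ⟨⟨fun k e π u e' => congrArg L.subtype (k1 k e π u e'),
        fun π u e' => congrArg L.subtype (k2 π u e'), fun k e π u e' =>
          ⟨(k3 k e π u e').1, fun m => congrArg L.subtype ((k3 k e π u e').2 m)⟩⟩, ?_⟩)
      (fun h h' _ _ e => MonoidHom.ext fun u => inj (DFunLike.congr_fun e u)) ?_
    · rintro _ ⟨u, rfl⟩
      exact (h u).2
    · rintro h ⟨⟨k1, k2, k3⟩, k4⟩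
      exact ⟨h.codRestrict L fun u => k4 ⟨u, rfl⟩, ⟨fun k e π u e' => inj (k1 k e π u e'),
        fun π u e' => inj (k2 π u e'), fun k e π u e' =>
          ⟨(k3 k e π u e').1, fun m => inj ((k3 k e π u e').2 m)⟩⟩, rfl⟩
  · have e : ∀ c : Fin n → L, ((List.ofFn c).prod : G) = (List.ofFn fun i => (c i : G)).prod :=
      fun c => by rw [← L.subtype_apply, map_list_prod, List.map_ofFn]; rfl
    refine Set.ncard_congr (t := {t : G × G × (Fin n → G) | t.1 ∈ L ∧ t.2.1 ∈ L ∧
      (∀ i, t.2.2 i ∈ L ∧ t.2.2 i ∈ C) ∧ t.1 * t.2.1 * t.1⁻¹ * t.2.1⁻¹ = (List.ofFn t.2.2).prod})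
      (fun t _ => (t.1, t.2.1, fun i => t.2.2 i)) (fun t ⟨k1, k2⟩ => ⟨t.1.2, t.2.1.2,
        fun i => ⟨(t.2.2 i).2, k1 i⟩, (congrArg L.subtype k2).trans (e _)⟩) ?_ ?_
    · rintro ⟨x, y, c⟩ ⟨x', y', c'⟩ - - h
      simp only [Prod.mk.injEq] at h ⊢
      exact ⟨inj h.1, inj h.2.1, funext fun i => inj (congrFun h.2.2 i)⟩
    · rintro ⟨x, y, c⟩ ⟨k1, k2, k3, k4⟩
      exact ⟨(⟨x, k1⟩, ⟨y, k2⟩, fun i => ⟨c i, (k3 i).1⟩),
        ⟨fun i => (k3 i).2, inj (k4.trans (e fun i => ⟨c i, (k3 i).1⟩).symm)⟩, rfl⟩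

end P179W
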