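import Vale.Agent.P179W.Stmts

/-!
# P179W : the statements inside the block `RetE`
-/

open scoped Classical

noncomputable section

namespace P179W

/-- the loop around `∞` -/
def ginf (r : ℕ) : FreeGroup (Fin r) :=
  (List.ofFn (FreeGroup.of : Fin r → FreeGroup (Fin r))).prod⁻¹

/-- The homomorphisms from the subgroup `H` of index two of the free group with the local
conditions: trivial at the branch points `B` and `∞`; above the other points one of the two local
monodromies (which one is told by `η`) lies in `C`, the other one is trivial. -/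
def PsiSet {r : ℕ} (B : Finset (Fin r)) (H : Subgroup (FreeGroup (Fin r))) (η : Fin r → Prop)
    {G : Type} [Group G] (C : Set G) : Set (H →* G) :=
  {h | (∀ k ∈ B, ∀ (π : FreeGroup (Fin r)) (u : H), u.1 = π * FreeGroup.of k ^ 2 * π⁻¹ → h u = 1) ∧
    (∀ (π : FreeGroup (Fin r)) (u : H), u.1 = π * ginf r ^ 2 * π⁻¹ → h u = 1) ∧
    ∀ k ∉ B, ∀ (π : FreeGroup (Fin r)) (u : H), u.1 = π * FreeGroup.of k * π⁻¹ →
      ((π ∈ H ↔ η k) → h u ∈ C) ∧ (¬ (π ∈ H ↔ η k) → h u = 1)}

/-- the count (pure group theory) -/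
def CountStmt : Prop :=
  ∀ (r n : ℕ) (B : Finset (Fin r)), B.card = 3 → r = n + 3 →
    ∀ H : Subgroup (FreeGroup (Fin r)), (∀ a b, a * b ∈ H ↔ (a ∈ H ↔ b ∈ H)) →
    (∀ k, FreeGroup.of k ∈ H ↔ k ∉ B) → ∀ (η : Fin r → Prop) (G : Type) [Group G] [Finite G]
    (C : Set G), (∀ g : G, ∀ c ∈ C, g * c * g⁻¹ ∈ C) → ∀ L : Subgroup G,
      {h | h ∈ PsiSet B H η C ∧ h.range ≤ L}.ncard = tupCount L C n

variable {U : Type} [Field U]

/-- `V` is a place over `ℂ` at which `τ` vanishes -/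
def Over (i : ℂ →+* U) (V : ValuationSubring U) (τ : U) : Prop :=
  (∀ c, i c ∈ V) ∧ V.valuation τ < 1

/-- the canonical generators of inertia above the points outside `S` act trivially on `M` -/
def Un (i : ℂ →+* U) (x : U) (S : Set ℂ) (M : Subfield U) : Prop :=
  ∀ c ∉ S, ∀ V, Over i V (x - i c) → ∀ γ ∈ Fix (adj (Set.range i) {x} : Set U),
    IsCan (fun r => i (zeta r)) M V (x - i c) γ → γ ∈ Fix (M : Set U)

/-- the Riemann existence theorem in the ambient field -/
def RetUStmt : Prop :=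
  ∀ (U : Type) [Field U] [IsAlgClosed U] (i : ℂ →+* U) (x : U), Transc i.fieldRange x →
    (∀ z, Alg (adj (Set.range i) {x}) z) → ∀ S : Set ℂ, S.Finite →
    ∃ (r : ℕ) (a : Fin r → ℂ) (Γ : FreeGroup (Fin r) →* RingAut U), Function.Injective a ∧
      Set.range a = S ∧ (∀ π, Γ π ∈ Fix (adj (Set.range i) {x} : Set U)) ∧
      (∀ M : Subfield U, adj (Set.range i) {x} ≤ M → FinNormal (adj (Set.range i) {x}) M →
        Un i x S M →
        (∀ g ∈ Fix (adj (Set.range i) {x} : Set U), ∃ π, ∀ z ∈ M, g z = Γ π z) ∧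
        (∀ k, ∃ V, Over i V (x - i (a k)) ∧
          IsCan (fun r => i (zeta r)) M V (x - i (a k)) (Γ (FreeGroup.of k))) ∧
        (∃ V, Over i V x⁻¹ ∧ IsCan (fun r => i (zeta r)) M V x⁻¹ (Γ (ginf r))) ∧
        ∀ c ∉ S, ∃ V, Over i V (x - i c) ∧ IsCan (fun r => i (zeta r)) M V (x - i c) 1) ∧
      ∀ (W : Type) [Group W] [Finite W] (g : FreeGroup (Fin r) →* W), ∃ M : Subfield U,
        FinNormal (adj (Set.range i) {x}) M ∧ Un i x S M ∧
          ∀ π, Γ π ∈ Fix (M : Set U) ↔ g π = 1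

end P179W
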