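import Mathlib

/-!
# P179W : group theory for the block `RetE`
-/

open scoped Classical

noncomputable section

namespace P179W

namespace RetH

variable {A B G : Type} [Group A] [Group B] [Group G]

theorem fin_hom [h : Group.FG A] [Finite G] : Finite (A →* G) := by
  obtain ⟨T, hT⟩ := h.1
  exact Finite.of_injective (fun (f : A →* G) (t : T) => f t) fun f g e =>
    MonoidHom.eq_of_eqOn_dense hT fun t ht => congrFun e ⟨t, ht⟩

theorem fin_index {H : Subgroup A} (h : ∀ a b, a * b ∈ H ↔ (a ∈ H ↔ b ∈ H)) : H.FiniteIndex := by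
  by_cases k : ∀ a, a ∈ H
  · rw [(Subgroup.eq_top_iff' H).2 k]
    infer_instance
  · obtain ⟨a, ha⟩ := not_forall.1 k
    exact ⟨by rw [Subgroup.index_eq_two_iff.2 ⟨a, fun b => by rw [h]; tauto⟩]; decide⟩

theorem ex_N [Group.FG A] [Finite G] (H : Subgroup A) [H.FiniteIndex] :
    ∃ (W : Type) (_ : Group W) (_ : Finite W) (g : A →* W), ∀ π, g π = 1 →
      ∃ k : π ∈ H, ∀ h : H →* G, h ⟨π, k⟩ = 1 := by
  have : Finite (H →* G) := fin_hom
  have : (⨅ h : H →* G, h.ker).FiniteIndex := Subgroup.finiteIndex_iInf fun _ => inferInstance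
  have : ((⨅ h : H →* G, h.ker).map H.subtype).FiniteIndex := ⟨by
    rw [Subgroup.index_map_subtype]
    exact mul_ne_zero Subgroup.FiniteIndex.index_ne_zero Subgroup.FiniteIndex.index_ne_zero⟩
  refine ⟨A ⧸ ((⨅ h : H →* G, h.ker).map H.subtype).normalCore, inferInstance, inferInstance,
    QuotientGroup.mk' _, fun π hπ => ?_⟩
  obtain ⟨u, hu, rfl⟩ := Subgroup.normalCore_le _ ((QuotientGroup.eq_one_iff π).1 hπ)
  exact ⟨u.2, fun h => Subgroup.mem_iInf.1 hu h⟩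

theorem bij [Finite (A →* G)] (f : A →* B) (N : Subgroup B) [N.Normal]
    (hs : ∀ b, ∃ a, (f a)⁻¹ * b ∈ N) (Φ : Set (B →* G)) (Ψ : Set (A →* G))
    (h1 : ∀ φ ∈ Φ, ∀ b ∈ N, φ b = 1) (h2 : ∀ (h : A →* G) a, f a ∈ N → h a = 1)
    (h3 : ∀ φ : B →* G, (∀ b ∈ N, φ b = 1) → (φ ∈ Φ ↔ φ.comp f ∈ Ψ)) :
    Φ.Finite ∧ ∀ L : Subgroup G, {φ | φ ∈ Φ ∧ φ.range ≤ L}.ncard =
      {h | h ∈ Ψ ∧ h.range ≤ L}.ncard := by
  choose s hs using hs
  have v : ∀ φ : B →* G, (∀ b ∈ N, φ b = 1) → ∀ b, φ b = φ.comp f (s b) := fun φ k b => by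
    have := k _ (hs b)
    rw [map_mul, map_inv, inv_mul_eq_one] at this
    exact this.symm
  have inj : Set.InjOn (fun φ : B →* G => φ.comp f) Φ := fun φ k φ' k' e => MonoidHom.ext fun b =>
    by rw [v φ (h1 φ k), v φ' (h1 φ' k'), show φ.comp f = φ'.comp f from e]
  have rg : ∀ φ : B →* G, (∀ b ∈ N, φ b = 1) → (φ.comp f).range = φ.range := fun φ k =>
    le_antisymm (fun _ ⟨a, e⟩ => ⟨f a, e⟩) fun _ ⟨b, e⟩ => ⟨s b, (v φ k b).symm.trans e⟩
  refine ⟨Set.Finite.of_finite_image (Set.toFinite _) inj, fun L => Set.ncard_congr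
    (fun φ _ => φ.comp f) (fun φ k => ⟨(h3 φ (h1 φ k.1)).1 k.1, (rg φ (h1 φ k.1)).trans_le k.2⟩)
    (fun φ φ' k k' e => inj k.1 k'.1 e) fun h k => ?_⟩
  have sj : Function.Surjective ((QuotientGroup.mk' N).comp f) := fun q => by
    obtain ⟨b, rfl⟩ := QuotientGroup.mk'_surjective N q
    exact ⟨s b, QuotientGroup.eq.2 (hs b)⟩
  let ψ := MonoidHom.liftOfSurjective _ sj
    ⟨h, fun a ha => h2 h a ((QuotientGroup.eq_one_iff _).1 ha)⟩
  have e : (ψ.comp (QuotientGroup.mk' N)).comp f = h := MonoidHom.ext fun a =>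
    MonoidHom.liftOfRightInverse_comp_apply _ _ (Function.rightInverse_surjInv sj) _ a
  have n : ∀ b ∈ N, ψ.comp (QuotientGroup.mk' N) b = 1 := fun b hb => by
    rw [MonoidHom.comp_apply, QuotientGroup.mk'_apply, (QuotientGroup.eq_one_iff b).2 hb, map_one]
  exact ⟨_, ⟨(h3 _ n).2 (e ▸ k.1), (rg _ n).symm.trans_le (e ▸ k.2)⟩, e⟩

end RetH

end P179W
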