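import Vale.Agent.P179W.RetE3
import Vale.Agent.P179W.RetG

/-!
# P179W : the number of covers of a punctured elliptic curve (C3)
-/

open scoped Classical
open Polynomial

noncomputable section

namespace P179W

namespace RetH

variable {U : Type} [Field U] {i : ℂ →+* U} {E : WeierstrassCurve U} {x y τ : U}
  {V V' W' : ValuationSubring U} {g : RingAut U} {c : ℂ} {ι : Type} {xP yP : ι → U}
  {G : Type} [Group G] {K M : Subfield U} {C : Set G} {r : ℕ} {a : Fin r → ℂ}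
  {Γ : FreeGroup (Fin r) →* RingAut U} {B : Finset (Fin r)} {W : Fin r → ValuationSubring U}
  {k : Fin r} {π u : FreeGroup (Fin r)}

/-- the data given by the Riemann existence theorem -/
structure Dat (i : ℂ →+* U) (E : WeierstrassCurve U) (x y : U) (xP yP : ι → U) (a : Fin r → ℂ)
    (Γ : FreeGroup (Fin r) →* RingAut U) (M : Subfield U) (B : Finset (Fin r))
    (W : Fin r → ValuationSubring U) (W' : ValuationSubring U) : Prop where
  ell : Ell i E x y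
  pts : Pts i E xP yP
  mem : ∀ π, Γ π ∈ Fix (F0 i x : Set U)
  hS : ∀ c, c ∈ Set.range a ↔ (∃ j, xP j = i c) ∨ fc E (i c) = 0
  hB : ∀ k, k ∈ B ↔ fc E (i (a k)) = 0
  fn : FinNormal (F0 i x) M
  le : F1 i x y ≤ M
  gen : ∀ g ∈ Fix (F0 i x : Set U), ∃ π, ∀ z ∈ M, g z = Γ π z
  fin : ∀ k, Over i (W k) (x - i (a k)) ∧
    IsCan (fun r => i (zeta r)) M (W k) (x - i (a k)) (Γ (FreeGroup.of k))
  inf : Over i W' x⁻¹ ∧ IsCan (fun r => i (zeta r)) M W' x⁻¹ (Γ (ginf r))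
  unr : ∀ c ∉ Set.range a, ∃ V, Over i V (x - i c) ∧
    IsCan (fun r => i (zeta r)) M V (x - i c) 1

/-- `V'` is the image of `V` under an automorphism which agrees with `g` on `M` -/
def Tr (K M : Subfield U) (g : RingAut U) (V V' : ValuationSubring U) : Prop :=
  ∃ s ∈ Fix (K : Set U), (∀ z ∈ M, s z = g z) ∧ ∀ z, z ∈ V ↔ s z ∈ V'

theorem tr_self (hg : g ∈ Fix (K : Set U)) : Tr K M g V (mapV g V) :=
  ⟨g, hg, fun _ _ => rfl, mem_mapV g V⟩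

/-- `g` is a canonical generator of inertia at the place `V` of `ℂ(x, y)` -/
def Cn (i : ℂ →+* U) (x y : U) (M : Subfield U) (V : ValuationSubring U) (g : RingAut U) : Prop :=
  ∃ t, Good i x y V t ∧ IsCan (fun r => i (zeta r)) M V t g

namespace Dat

variable (D : Dat i E x y xP yP a Γ M B W W')
include D

theorem sq {t : U} (g : Good i x y V t) (e : V.valuation τ = V.valuation (t ^ 2))
    (c : IsCan (fun r => i (zeta r)) M V τ (Γ π * Γ u * (Γ π)⁻¹)) :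
    Cn i x y M V (Γ (π * u ^ 2 * π⁻¹)) := by
  have := can_sq g.c c e (D.fn.stab _ (mul_mem (mul_mem (D.mem _) (D.mem _)) (inv_mem (D.mem _))))
  rw [conj_pow, ← map_pow, ← map_inv, ← map_mul, ← map_mul] at this
  exact ⟨t, g, this⟩

theorem c1 (hk : k ∈ B) (T : Tr (F0 i x) M (Γ π) (W k) V) :
    Cn i x y M V (Γ (π * FreeGroup.of k ^ 2 * π⁻¹)) ∧ ¬ ∃ j, Above V x y (xP j) (yP j) := by
  obtain ⟨s, hs, h1, h2⟩ := T
  obtain ⟨o, c⟩ := step D.fn hs (D.mem _) h1 h2 (sub_mem0 _) (D.fin k).1 (D.fin k).2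
  obtain ⟨t, g, e⟩ := D.ell.ram o ((D.hB k).1 hk)
  exact ⟨D.sq g e c, fun l => let ⟨j, e⟩ := D.pts.ab o l; D.pts.fc_ne j (e ▸ (D.hB k).1 hk)⟩

theorem c2 (T : Tr (F0 i x) M (Γ π) W' V) :
    Cn i x y M V (Γ (π * ginf r ^ 2 * π⁻¹)) ∧ ¬ ∃ j, Above V x y (xP j) (yP j) := by
  obtain ⟨s, hs, h1, h2⟩ := T
  obtain ⟨o, c⟩ := step D.fn hs (D.mem _) h1 h2 (inv_mem (Pl.x_mem1 _ x)) D.inf.1 D.inf.2
  obtain ⟨t, g, n, e⟩ := D.ell.place_inf o
  exact ⟨D.sq g e c, fun ⟨j, l⟩ => n (mem_of_close o.1 (D.pts.mem j).1 l.1)⟩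

theorem c3 (hk : k ∉ B) (T : Tr (F0 i x) M (Γ π) (W k) V) :
    Cn i x y M V (Γ (π * FreeGroup.of k * π⁻¹)) ∧ ((∃ j, Above V x y (xP j) (yP j)) ↔
      (Γ π ∈ Fix (F1 i x y : Set U) ↔ ∃ j, Above (W k) x y (xP j) (yP j))) := by
  obtain ⟨s, hs, h1, h2⟩ := T
  obtain ⟨o, c⟩ := step D.fn hs (D.mem _) h1 h2 (sub_mem0 _) (D.fin k).1 (D.fin k).2
  have n := mt (D.hB k).2 hk
  obtain ⟨j, e⟩ := ((D.hS _).1 ⟨k, rfl⟩).resolve_right n
  rw [← map_inv, ← map_mul, ← map_mul] at c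
  refine ⟨⟨_, D.ell.good o n, c⟩, ?_⟩
  rw [D.pts.flip D.ell e (D.fin k).1 hs h2, D.ell.mem1 hs, D.ell.mem1 (D.mem π),
    h1 _ (D.le D.ell.psi_mem)]

theorem gens (k : Fin r) : Γ (FreeGroup.of k) ∈ Fix (F1 i x y : Set U) ↔ k ∉ B := by
  refine ⟨fun h hk => ?_, fun hk => (D.ell.good (D.fin k).1 (mt (D.hB k).2 hk)).fix D.ell
    (D.mem _) (can_mono (D.fin k).2 D.le)⟩
  obtain ⟨t, g, e⟩ := D.ell.ram (D.fin k).1 ((D.hB k).1 hk)
  exact can_ne g.c (D.fin k).2 (D.le g.mem) g.ne e (h t g.mem)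

variable [IsAlgClosed U]

theorem tr (h : Over i V τ) (h' : Over i V' τ) (τ0 : τ ≠ 0)
    (e : adj (Set.range i) {τ} = F0 i x) : ∃ π, Tr (F0 i x) M (Γ π) V V' := by
  have := cz i
  obtain ⟨s, hs, k⟩ := trans_holds U _ D.ell.alg0 V V' (e ▸ over_iff h h' τ0)
  exact (D.gen s hs).imp fun π l => ⟨s, hs, l, k⟩

theorem c4 (hc : c ∉ Set.range a) (o : Over i V (x - i c)) :
    Cn i x y M V (Γ 1) ∧ ¬ ∃ j, Above V x y (xP j) (yP j) := by
  obtain ⟨V₀, o₀, c₀⟩ := D.unr c hc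
  obtain ⟨π, s, hs, h1, h2⟩ := D.tr o₀ o (transc_sub D.ell.tr c) (adj_sub i x c)
  have k := (step D.fn hs (one_mem _) h1 h2 (sub_mem0 _) o₀ c₀).2
  rw [mul_one, mul_inv_cancel, ← map_one Γ] at k
  rw [D.hS, not_or] at hc
  exact ⟨⟨_, D.ell.good o hc.2, k⟩, fun l => hc.1 (D.pts.ab o l)⟩

theorem all (hV : ∀ c, i c ∈ V) (nt : ∃ z ∈ F1 i x y, z ∉ V) :
    ∃ u, Cn i x y M V (Γ u) ∧ ∀ (hu : u ∈ (Fix (F1 i x y : Set U)).comap Γ),
      ∀ h ∈ PsiSet B ((Fix (F1 i x y : Set U)).comap Γ)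
        (fun k => ∃ j, Above (W k) x y (xP j) (yP j)) C,
      ((∃ j, Above V x y (xP j) (yP j)) → h ⟨u, hu⟩ ∈ C) ∧
        ((¬ ∃ j, Above V x y (xP j) (yP j)) → h ⟨u, hu⟩ = 1) := by
  obtain ⟨t, g, ⟨-, e⟩ | ⟨c, b, -, -, o, -⟩⟩ := D.ell.place hV nt
  · obtain ⟨π, T⟩ := D.tr D.inf.1
      ⟨hV, by rw [e, map_pow]; exact pow_lt_one₀ zero_le g.lt two_ne_zero⟩
      (transc_inv D.ell.tr) (adj_inv _ x)
    exact ⟨_, (D.c2 T).1, fun hu h l => ⟨fun n => absurd n (D.c2 T).2, fun _ => l.2.1 π _ rfl⟩⟩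
  by_cases hc : c ∈ Set.range a
  · obtain ⟨k, rfl⟩ := hc
    obtain ⟨π, T⟩ := D.tr (D.fin k).1 ⟨hV, o.1⟩ (transc_sub D.ell.tr _) (adj_sub i x _)
    by_cases hk : k ∈ B
    · exact ⟨_, (D.c1 hk T).1, fun hu h l =>
        ⟨fun n => absurd n (D.c1 hk T).2, fun _ => l.1 k hk π _ rfl⟩⟩
    · exact ⟨_, (D.c3 hk T).1, fun hu h l => by
        rw [(D.c3 hk T).2]
        exact l.2.2 k hk π ⟨_, hu⟩ rfl⟩
  · exact ⟨1, (D.c4 hc ⟨hV, o.1⟩).1, fun hu h _ =>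
      ⟨fun n => absurd n (D.c4 hc ⟨hV, o.1⟩).2, fun _ => map_one h⟩⟩

theorem geo [Finite G] (φ : Fix (F1 i x y : Set U) →* G)
    (hφ : ∀ g ∈ (Fix (M : Set U)).subgroupOf (Fix (F1 i x y : Set U)), φ g = 1) :
    φ ∈ PhiSet i x y xP yP C ↔ φ.comp (Γ.subgroupComap _) ∈ PsiSet B
      ((Fix (F1 i x y : Set U)).comap Γ) (fun k => ∃ j, Above (W k) x y (xP j) (yP j)) C := by
  have := cz i
  have le : kerField φ ≤ M := le_of_le_of_eq (fixedOf_anti fun g hg => ⟨Fix_anti D.le hg, hφ _ hg⟩)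
    (fixedFix_holds U M fun z => (D.ell.alg0 z).mono (fn_le D.fn))
  refine ⟨fun h => ?_, fun h => ⟨?_, fun V hV nt => ?_⟩⟩
  · have q : ∀ (u : (Fix (F1 i x y : Set U)).comap Γ) V, Cn i x y M V (Γ u) →
        ((∃ j, Above V x y (xP j) (yP j)) → φ.comp (Γ.subgroupComap _) u ∈ C) ∧
        ((¬ ∃ j, Above V x y (xP j) (yP j)) → φ.comp (Γ.subgroupComap _) u = 1) :=
      fun u V ⟨t, g, c⟩ => phi_can D.ell h g ⟨_, u.2⟩ (can_mono c le)
    refine ⟨fun k hk π u e => ?_, fun π u e => ?_, fun k hk π u e => ?_⟩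
    · have l := D.c1 hk (tr_self (D.mem π))
      exact (q u _ (e ▸ l.1)).2 l.2
    · have l := D.c2 (tr_self (D.mem π))
      exact (q u _ (e ▸ l.1)).2 l.2
    · have l := D.c3 hk (tr_self (D.mem π))
      have l' := q u _ (e ▸ l.1)
      rwa [l.2] at l'
  · obtain ⟨T, e⟩ := D.fn.fin
    exact ⟨T, fun γ hγ => hφ γ (show γ.1 ∈ Fix (M : Set U) from
      e ▸ mem_Fix_adj.2 ⟨Fix_anti le01 γ.2, hγ⟩)⟩
  · obtain ⟨u, ⟨t, g, c⟩, l⟩ := D.all (C := C) hV nt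
    have hu := g.fix D.ell (D.mem u) (can_mono c D.le)
    exact ⟨t, ⟨_, hu⟩, g.unif, can_mono c le, l hu _ h⟩

end Dat

theorem ex_S [Fintype ι] (h : Ell i E x y) (P : Pts i E xP yP) : ∃ S R : Finset ℂ, R.card = 3 ∧
    S.card = Fintype.card ι + 3 ∧ (∀ c, c ∈ R ↔ fc E (i c) = 0) ∧
    ∀ c, c ∈ S ↔ (∃ j, xP j = i c) ∨ fc E (i c) = 0 := by
  obtain ⟨p, p0, p3, e⟩ := h.roots
  choose q hq using fun j => (P.mem j).1
  have hr : ∀ c, c ∈ p.roots.toFinset ↔ fc E (i c) = 0 := fun c => by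
    rw [Multiset.mem_toFinset, mem_roots p0, ← e, eval_map, eval₂_hom, map_eq_zero, IsRoot]
  refine ⟨Finset.univ.image q ∪ p.roots.toFinset, _, p3, ?_, hr, fun c => ?_⟩
  · rw [Finset.card_union_of_disjoint (Finset.disjoint_left.2 fun c k l => ?_), p3,
      Finset.card_image_of_injective _ fun j l k => P.inj (by rw [← hq, ← hq, k]),
      Finset.card_univ]
    obtain ⟨j, -, rfl⟩ := Finset.mem_image.1 k
    exact P.fc_ne j (hq j ▸ (hr _).1 l)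
  · simp only [Finset.mem_union, hr, Finset.mem_image, Finset.mem_univ, true_and, ← hq,
      i.injective.eq_iff]

end RetH

open RetH in
theorem retE_of (hR : RetUStmt) (hC : CountStmt) : RetEStmt := by
  intro U _ _ i E x y co hΔ eqn tr alg ι _ xP yP pm pe pi pp G _ _ C hCc
  have := cz i
  have h : Ell i E x y := ⟨co, hΔ, eqn, tr, alg⟩
  have P : Pts i E xP yP := ⟨pm, pe, pi, pp⟩
  obtain ⟨S, R, cR, cS, hr, hS⟩ := ex_S h P
  obtain ⟨r, a, Γ, a1, a2, hΓ, HA, HB⟩ := hR U i x tr h.alg0 S S.finite_toSet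
  have cr : r = Fintype.card ι + 3 := by
    rw [← cS, ← Set.ncard_coe_finset, ← a2, ← Set.image_univ, Set.ncard_image_of_injective _ a1,
      Set.ncard_univ, Nat.card_eq_fintype_card, Fintype.card_fin]
  have cB : (Finset.univ.filter fun k => fc E (i (a k)) = 0).card = 3 := by
    rw [← cR, ← Finset.card_image_of_injective _ a1]
    refine congrArg _ (Finset.ext fun c => ?_)
    simp only [Finset.mem_image, Finset.mem_filter, Finset.mem_univ, true_and, hr]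
    refine ⟨fun ⟨k, l, e⟩ => e ▸ l, fun l => ?_⟩
    obtain ⟨k, rfl⟩ : c ∈ Set.range a := a2 ▸ (hS c).2 (.inr l)
    exact ⟨k, l, rfl⟩
  have m2 : ∀ a b, a * b ∈ (Fix (F1 i x y : Set U)).comap Γ ↔
      (a ∈ (Fix (F1 i x y : Set U)).comap Γ ↔ b ∈ (Fix (F1 i x y : Set U)).comap Γ) :=
    fun a b => by
      rw [Subgroup.mem_comap, map_mul]
      exact h.mul1 (hΓ a) (hΓ b)
  have := fin_index m2
  have : Finite ((Fix (F1 i x y : Set U)).comap Γ →* G) := fin_hom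
  obtain ⟨Q, _, _, g, hg⟩ := ex_N (G := G) ((Fix (F1 i x y : Set U)).comap Γ)
  obtain ⟨M, fn, un, hM⟩ := HB Q g
  have hS' : ∀ c ∉ (S : Set ℂ), fc E (i c) ≠ 0 ∧ ¬ ∃ j, xP j = i c := fun c hc =>
    (not_or.1 (mt (hS c).2 hc)).symm
  have univ : ∀ M', FinNormal (F0 i x) M' → Un i x S M' → ∀ s ∈ Fix (M : Set U),
      ∃ π, g π = 1 ∧ (Γ π)⁻¹ * s ∈ Fix (M' : Set U) := fun M' fn' un' s hs => by
    obtain ⟨π, e⟩ := (HA _ (fn_le (fn_sup fn fn')) (fn_sup fn fn') (un_sup un un')).1 s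
      (Fix_anti (fn_le fn) hs)
    exact ⟨π, (hM π).1 fun z hz => (e z (left_subset_adj _ _ hz)).symm.trans (hs z hz),
      fun z hz => (Γ π).symm_apply_eq.2 (e z (right_subset_adj _ _ hz))⟩
  have l1 : Fix (M : Set U) ≤ Fix (F1 i x y : Set U) := fun s hs => by
    obtain ⟨π, e, k⟩ := univ _ h.fn1
      (fun c hc V hV γ hγ can => (h.good hV (hS' c hc).1).fix h hγ can) s hs
    exact (mul_mem_cancel_left (inv_mem (Subgroup.mem_comap.1 (hg π e).1))).1 k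
  obtain ⟨gen, fin, ⟨W', inf⟩, unr⟩ := HA M (fn_le fn) fn un
  choose W fin using fin
  have D : Dat i E x y xP yP a Γ M _ W W' := ⟨h, P, hΓ, fun c => a2 ▸ hS c,
    fun k => Finset.mem_filter_univ k, fn, fun z hz => (fixedFix_holds U M fun z =>
      (h.alg0 z).mono (fn_le fn)).le (fixedOf_anti l1 (subset_fixedOf_Fix _ hz)), gen, fin, inf,
    a2 ▸ unr⟩
  have : ((Fix (M : Set U)).subgroupOf (Fix (F1 i x y : Set U))).Normal :=
    ⟨fun n hn s => fix_conj (fn.stab _ (inv_mem (Fix_anti le01 s.2))) hn⟩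
  obtain ⟨k1, k2⟩ := bij (Γ.subgroupComap _) ((Fix (M : Set U)).subgroupOf _) (fun b => by
    obtain ⟨π, e⟩ := gen b.1 (Fix_anti le01 b.2)
    have k : (Γ π)⁻¹ * b.1 ∈ Fix (M : Set U) := fun z hz => (Γ π).symm_apply_eq.2 (e z hz)
    exact ⟨⟨π, Subgroup.mem_comap.2 <| inv_mem_iff.1 ((mul_mem_cancel_right b.2).1 (l1 k))⟩, k⟩)
    (PhiSet i x y xP yP C) _ (fun φ hφ b hb => by
      obtain ⟨M', fn', un', l⟩ := ex_core h P hφ hS'
      obtain ⟨π, e, k⟩ := univ M' fn' un' b.1 hb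
      obtain ⟨k1, k2⟩ := hg π e
      obtain ⟨_, k3⟩ := mem_kerS.1 (l k)
      have k4 : φ ((Γ.subgroupComap _ ⟨π, k1⟩)⁻¹ * b) = 1 := k3
      rw [map_mul, map_inv, inv_mul_eq_one] at k4
      exact k4.symm.trans (k2 (φ.comp (Γ.subgroupComap _))))
    (fun f u hu => (hg u.1 ((hM _).1 hu)).2 f) D.geo
  exact ⟨k1, fun L => (k2 L).trans (hC r _ _ cB cr _ m2 D.gens _ G C hCc L)⟩

end P179W
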