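import Vale.Agent.P179W.RetCan
import Vale.Agent.P179W.PlaceB

/-!
# P179W : the elliptic function field as a quadratic extension of `ℂ(x)`
-/

open scoped Classical
open Polynomial

noncomputable section

namespace P179W

namespace RetH

variable {U : Type} [Field U] {i : ℂ →+* U} {E : WeierstrassCurve U} {x y z t τ a b : U}
  {V V' : ValuationSubring U} {s γ : RingAut U} {c : ℂ}

theorem cz (i : ℂ →+* U) : CharZero U := (i.charZero_iff i.injective).1 inferInstance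

/-- the square of `psi` -/
def fc (E : WeierstrassCurve U) (z : U) : U :=
  (E.a₁ * z + E.a₃) ^ 2 + 4 * (z ^ 3 + E.a₂ * z ^ 2 + E.a₄ * z + E.a₆)

theorem psi_sq (h : E.toAffine.Equation a b) : psi E a b ^ 2 = fc E a := by
  rw [psi, fc]
  linear_combination 4 * Pl.eqn h

/-- `ℂ(x)` -/
abbrev F0 (i : ℂ →+* U) (x : U) : Subfield U := adj (Set.range i) {x}

/-- `ℂ(x, y)` -/
abbrev F1 (i : ℂ →+* U) (x y : U) : Subfield U := adj (Set.range i) {x, y}

/-- the generic point of an elliptic curve over `ℂ` -/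
structure Ell (i : ℂ →+* U) (E : WeierstrassCurve U) (x y : U) : Prop where
  co : CoeffIn E i.fieldRange
  Δ : E.Δ ≠ 0
  eqn : E.toAffine.Equation x y
  tr : Transc i.fieldRange x
  alg : ∀ z, Alg (F1 i x y) z

theorem le01 : F0 i x ≤ F1 i x y := Pl.adj1_le i.fieldRange x y

theorem fix_c (h : s ∈ Fix (F0 i x : Set U)) {a : U} (ha : a ∈ i.fieldRange) : s a = a :=
  h a (left_subset_adj _ _ ha)

theorem sub_mem0 (c : ℂ) : x - i c ∈ F0 i x :=
  sub_mem (Pl.x_mem1 _ x) (left_subset_adj _ _ ⟨c, rfl⟩)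

theorem card3 (P : Cubic ℂ) (ha : P.a ≠ 0) (hd : P.discr ≠ 0) :
    P.toPoly.roots.toFinset.card = 3 :=
  Cubic.card_roots_of_discr_ne_zero (φ := RingHom.id ℂ) ha (IsAlgClosed.splits _) hd

namespace Ell

theorem roots (h : Ell i E x y) : ∃ P : ℂ[X], P ≠ 0 ∧ P.roots.toFinset.card = 3 ∧
    ∀ z, (P.map i).eval z = fc E z := by
  obtain ⟨⟨c1, h1⟩, ⟨c2, h2⟩, ⟨c3, h3⟩, ⟨c4, h4⟩, ⟨c6, h6⟩⟩ := h.co
  obtain ⟨E, rfl⟩ : ∃ E₀ : WeierstrassCurve ℂ, E₀.map i = E :=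
    ⟨⟨c1, c2, c3, c4, c6⟩, WeierstrassCurve.ext h1 h2 h3 h4 h6⟩
  have ha : E.twoTorsionPolynomial.a ≠ 0 := (by norm_num : (4 : ℂ) ≠ 0)
  refine ⟨E.twoTorsionPolynomial.toPoly, Cubic.ne_zero_of_a_ne_zero ha,
    card3 _ ha ?_, fun z => ?_⟩
  · rw [WeierstrassCurve.twoTorsionPolynomial_discr]
    exact mul_ne_zero (by norm_num) fun k => h.Δ (by rw [WeierstrassCurve.map_Δ, k, map_zero])
  · simp only [Cubic.toPoly, WeierstrassCurve.twoTorsionPolynomial, fc, WeierstrassCurve.b₂,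
      WeierstrassCurve.b₄, WeierstrassCurve.b₆, Polynomial.map_add, Polynomial.map_mul,
      Polynomial.map_pow, map_C, map_X, eval_add, eval_mul, eval_pow, eval_C, eval_X,
      WeierstrassCurve.map_a₁, WeierstrassCurve.map_a₂, WeierstrassCurve.map_a₃,
      WeierstrassCurve.map_a₄, WeierstrassCurve.map_a₆, map_add i, map_mul i, map_pow i,
      map_ofNat i]
    ring

theorem psi_ne (h : Ell i E x y) : psi E x y ≠ 0 := fun k => by
  obtain ⟨P, p0, -, e⟩ := h.roots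
  exact p0 ((Polynomial.map_eq_zero i).1 (h.tr _ (fun k => ⟨_, (coeff_map i k).symm⟩)
    (by rw [e, ← psi_sq h.eqn, k, sq, zero_mul])))

theorem psi_mem (h : Ell i E x y) : psi E x y ∈ F1 i x y := by
  rw [psi, add_assoc]
  exact add_mem (mul_mem (ofNat_mem _ 2) (Pl.y_mem2 _ x y)) (le01 (Pl.lin_mem h.co x))

theorem sq_mem (h : Ell i E x y) : psi E x y ^ 2 ∈ F0 i x := by
  rw [psi_sq h.eqn]
  exact add_mem (pow_mem (Pl.lin_mem h.co x) 2) (mul_mem (ofNat_mem _ 4) (Pl.cub_mem h.co x))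

theorem e1 (h : Ell i E x y) : F1 i x y = adj (F0 i x : Set U) {psi E x y} := by
  have := cz i
  refine le_antisymm (adj_le.2 ⟨(left_subset_adj _ _).trans (left_subset_adj _ _),
    Set.pair_subset (left_subset_adj _ _ (Pl.x_mem1 _ x)) ?_⟩)
    (adj_le.2 ⟨le01, Set.singleton_subset_iff.2 h.psi_mem⟩)
  have e : (psi E x y - (E.a₁ * x + E.a₃)) / 2 = y := by
    rw [psi]
    ring
  have k := div_mem (sub_mem (Pl.x_mem1 _ (psi E x y))
    (left_subset_adj (F0 i x : Set U) _ (Pl.lin_mem h.co x))) (ofNat_mem _ 2)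
  rwa [e] at k

theorem mem1 (h : Ell i E x y) (hs : s ∈ Fix (F0 i x : Set U)) :
    s ∈ Fix (F1 i x y : Set U) ↔ s (psi E x y) = psi E x y := by
  rw [h.e1, mem_Fix_adj]
  exact ⟨fun k => k.2 _ rfl, fun k => ⟨hs, fun _ e => e ▸ k⟩⟩

theorem fix_sq (h : Ell i E x y) (hs : s ∈ Fix (F0 i x : Set U)) :
    s (psi E x y) ^ 2 = psi E x y ^ 2 := by
  rw [← map_pow, hs _ h.sq_mem]

theorem pm (h : Ell i E x y) (hs : s ∈ Fix (F0 i x : Set U)) :
    s (psi E x y) = psi E x y ∨ s (psi E x y) = -psi E x y :=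
  sq_eq_sq_iff_eq_or_eq_neg.1 (h.fix_sq hs)

theorem fn1 (h : Ell i E x y) : FinNormal (F0 i x) (F1 i x y) := by
  refine ⟨⟨{psi E x y}, by rw [Finset.coe_singleton, ← h.e1]⟩, fun g hg z hz => ?_⟩
  rw [h.e1] at hz
  refine map_adj (g : U →+* U) (fun z hz => le01 ((hg z hz).symm ▸ hz)) (fun z e => ?_) z hz
  rw [e, RingHom.coe_coe]
  rcases h.pm hg with k | k <;> rw [k]
  exacts [h.psi_mem, neg_mem h.psi_mem]

theorem alg0 (h : Ell i E x y) (z : U) : Alg (F0 i x) z :=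
  (h.alg z).trans (h.e1 ▸ alg_adj fun _ e => e ▸ alg_iff.2
    (IsAlgebraic.of_pow two_pos (alg_iff.1 (alg_of_mem h.sq_mem))))

theorem mul1 (h : Ell i E x y) (hs : s ∈ Fix (F0 i x : Set U)) (hγ : γ ∈ Fix (F0 i x : Set U)) :
    s * γ ∈ Fix (F1 i x y : Set U) ↔ (s ∈ Fix (F1 i x y : Set U) ↔ γ ∈ Fix (F1 i x y : Set U)) := by
  have := cz i
  have n : -psi E x y ≠ psi E x y := fun k => h.psi_ne (neg_eq_self.1 k)
  rw [h.mem1 (mul_mem hs hγ), h.mem1 hs, h.mem1 hγ]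
  change s (γ _) = _ ↔ _
  rcases h.pm hs with k | k <;> rcases h.pm hγ with l | l <;> simp [k, l, n]

end Ell

end RetH

end P179W
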