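import Vale.Agent.P179W.RetE1

/-!
# P179W : the places of the elliptic function field above the places of `ℂ(x)`
-/

open scoped Classical
open Polynomial

noncomputable section

namespace P179W

namespace RetH

variable {U : Type} [Field U] {i : ℂ →+* U} {E : WeierstrassCurve U} {x y z t τ a a' b : U}
  {V V' : ValuationSubring U} {s γ : RingAut U} {c : ℂ} {ι : Type} {xP yP : ι → U}

/-- `t` generates the value group of the place `V` of `ℂ(x, y)` -/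
structure Good (i : ℂ →+* U) (x y : U) (V : ValuationSubring U) (t : U) : Prop where
  c : ∀ c, i c ∈ V
  mem : t ∈ F1 i x y
  ne : t ≠ 0
  lt : V.valuation t < 1
  gen : ∀ z ∈ F1 i x y, z ≠ 0 → ∃ m : ℤ, V.valuation z = V.valuation (t ^ m)

theorem nt_of {K : Subfield U} (h : τ ∈ K) (h0 : τ ≠ 0) (lt : V.valuation τ < 1) :
    ∃ z ∈ K, z ∉ V := ⟨τ⁻¹, inv_mem h, fun k => by
  rw [← V.valuation_le_one_iff, map_inv₀, inv_le_one₀ ((Valuation.pos_iff _).2 h0)] at k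
  exact lt.not_ge k⟩

theorem Good.unif (h : Good i x y V t) : IsUnif (F1 i x y : Set U) V t := by
  refine ⟨h.mem, h.ne, h.lt, fun s hs lt => ?_⟩
  rcases eq_or_ne s 0 with rfl | s0
  · rw [map_zero]
    exact zero_le
  obtain ⟨m, e⟩ := h.gen s hs s0
  have p := (Valuation.pos_iff V.valuation).2 h.ne
  rw [e, map_zpow₀] at lt ⊢
  exact (zpow_le_zpow_right_of_le_one₀ p h.lt.le
    ((zpow_lt_one_iff_right_of_lt_one₀ p h.lt).1 lt : (1 : ℤ) ≤ m)).trans_eq (zpow_one _)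

theorem Good.fix (h : Good i x y V t) (e : Ell i E x y) (hs : s ∈ Fix (F0 i x : Set U))
    (k : IsCan (fun r => i (zeta r)) (F1 i x y) V t s) : s ∈ Fix (F1 i x y : Set U) :=
  let ⟨_, l⟩ := h.gen _ e.psi_mem e.psi_ne
  (e.mem1 hs).2 (can_fix h.c k e.psi_mem l (e.fix_sq hs))

theorem ctr (hV : ∀ c, i c ∈ V) (ha : a ∈ i.fieldRange) (ha' : a' ∈ i.fieldRange)
    (h : V.valuation (z - a) < 1) (h' : V.valuation (z - a') < 1) : a = a' := by
  by_contra n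
  have k := V.valuation.map_sub_lt h' h
  rw [sub_sub_sub_cancel_left, val_unit' (K := i.fieldRange) (by rintro _ ⟨c, rfl⟩; exact hV c)
    (sub_mem ha ha') (sub_ne_zero.2 n)] at k
  exact lt_irrefl _ k

theorem mem_of_close (hV : ∀ c, i c ∈ V) (ha : a ∈ i.fieldRange) (h : V.valuation (z - a) < 1) :
    z ∈ V := by
  obtain ⟨c, rfl⟩ := ha
  exact sub_add_cancel z (i c) ▸ add_mem ((V.valuation_le_one_iff _).1 h.le) (hV c)

theorem Ell.place (h : Ell i E x y) (hV : ∀ c, i c ∈ V) (nt : ∃ z ∈ F1 i x y, z ∉ V) :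
    ∃ t, Good i x y V t ∧ ((x ∉ V ∧ V.valuation x⁻¹ = V.valuation (t ^ 2)) ∨
      ∃ c, ∃ b ∈ i.fieldRange, E.toAffine.Equation (i c) b ∧ Above V x y (i c) b ∧
        ((fc E (i c) ≠ 0 ∧ t = x - i c) ∨
          (fc E (i c) = 0 ∧ V.valuation (x - i c) = V.valuation (t ^ 2)))) := by
  obtain ⟨t, t1, t2, t3, t4, -, k⟩ := place_holds U i.fieldRange E x y (fun f hf d => by
    obtain ⟨p, rfl⟩ := (mem_lifts f).1 ((lifts_iff_coeff_lifts (f := i) f).2 hf)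
    rw [natDegree_map] at d
    obtain ⟨c, hc⟩ := IsAlgClosed.exists_root p (natDegree_pos_iff_degree_pos.1 d).ne'
    exact ⟨i c, ⟨c, rfl⟩, by rw [eval_map, eval₂_hom, hc.eq_zero, map_zero]⟩)
    h.co h.Δ h.eqn h.tr V (by rintro _ ⟨c, rfl⟩; exact hV c) nt
  refine ⟨t, ⟨hV, t1, t2, t3, t4⟩, k.imp (fun k => ⟨k.1, ?_⟩) ?_⟩
  · rw [map_inv₀, k.2.2.1, zpow_neg, map_inv₀, inv_inv, zpow_ofNat]
  · rintro ⟨_, ⟨c, rfl⟩, b, hb, k1, k2, k3⟩
    refine ⟨c, b, hb, k1, k2, ?_⟩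
    rw [← psi_sq k1]
    exact k3.imp (fun l => ⟨pow_ne_zero 2 l.1, l.2⟩) fun l => ⟨by rw [l.1, sq, zero_mul], l.2.2⟩

theorem not_mem_of_over (hV : Over i V x⁻¹) (h : x⁻¹ ≠ 0) : x ∉ V := fun k => by
  have l := hV.2
  rw [map_inv₀, inv_lt_one₀ ((Valuation.pos_iff _).2 (inv_ne_zero h ∘ (inv_inv x).trans))] at l
  exact l.not_ge ((V.valuation_le_one_iff _).2 k)

theorem Ell.place_inf (h : Ell i E x y) (hV : Over i V x⁻¹) :
    ∃ t, Good i x y V t ∧ x ∉ V ∧ V.valuation x⁻¹ = V.valuation (t ^ 2) := by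
  obtain ⟨t, g, k | ⟨c, b, -, -, k, -⟩⟩ := h.place hV.1
    (nt_of (inv_mem (Pl.x_mem2 _ x y)) (transc_inv h.tr) hV.2)
  · exact ⟨t, g, k⟩
  · exact absurd (mem_of_close hV.1 ⟨c, rfl⟩ k.1) (not_mem_of_over hV (transc_inv h.tr))

theorem Ell.place_fin (h : Ell i E x y) (hV : Over i V (x - i c)) :
    ∃ t, Good i x y V t ∧ ∃ b ∈ i.fieldRange, E.toAffine.Equation (i c) b ∧ Above V x y (i c) b ∧
      ((fc E (i c) ≠ 0 ∧ t = x - i c) ∨
        (fc E (i c) = 0 ∧ V.valuation (x - i c) = V.valuation (t ^ 2))) := by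
  obtain ⟨t, g, k | ⟨c', b, k1, k2, k3, k4⟩⟩ := h.place hV.1
    (nt_of (le01 (sub_mem0 c)) (transc_sub h.tr c) hV.2)
  · exact absurd (mem_of_close hV.1 ⟨c, rfl⟩ hV.2) k.1
  · have e := ctr hV.1 ⟨c', rfl⟩ ⟨c, rfl⟩ k3.1 hV.2
    rw [e] at k2 k3 k4
    exact ⟨t, g, b, k1, k2, k3, k4⟩

theorem Ell.good (h : Ell i E x y) (hV : Over i V (x - i c)) (hc : fc E (i c) ≠ 0) :
    Good i x y V (x - i c) := by
  obtain ⟨t, g, b, -, -, -, ⟨-, rfl⟩ | ⟨k, -⟩⟩ := h.place_fin hV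
  exacts [g, absurd k hc]

theorem Ell.ram (h : Ell i E x y) (hV : Over i V (x - i c)) (hc : fc E (i c) = 0) :
    ∃ t, Good i x y V t ∧ V.valuation (x - i c) = V.valuation (t ^ 2) := by
  obtain ⟨t, g, b, -, -, -, ⟨k, -⟩ | ⟨-, k⟩⟩ := h.place_fin hV
  exacts [absurd hc k, ⟨t, g, k⟩]

/-- the punctures -/
structure Pts (i : ℂ →+* U) (E : WeierstrassCurve U) (xP yP : ι → U) : Prop where
  mem : ∀ j, xP j ∈ i.fieldRange ∧ yP j ∈ i.fieldRange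
  eqn : ∀ j, E.toAffine.Equation (xP j) (yP j)
  inj : Function.Injective xP
  ps : ∀ j, psi E (xP j) (yP j) ≠ 0

theorem Pts.fc_ne (P : Pts i E xP yP) (j : ι) : fc E (xP j) ≠ 0 :=
  psi_sq (P.eqn j) ▸ pow_ne_zero 2 (P.ps j)

theorem Pts.ab (P : Pts i E xP yP) (hV : Over i V (x - i c))
    (h : ∃ j, Above V x y (xP j) (yP j)) : ∃ j, xP j = i c :=
  h.imp fun j k => ctr hV.1 (P.mem j).1 ⟨c, rfl⟩ k.1 hV.2

theorem Pts.ab_iff (P : Pts i E xP yP) (hV : ∀ c, i c ∈ V) {j : ι} (hb : b ∈ i.fieldRange)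
    (h : Above V x y (xP j) b) : (∃ l, Above V x y (xP l) (yP l)) ↔ yP j = b := by
  refine ⟨fun ⟨l, k⟩ => ?_, fun k => ⟨j, k ▸ h⟩⟩
  obtain rfl := P.inj (ctr hV (P.mem l).1 (P.mem j).1 k.1 h.1)
  exact ctr hV (P.mem l).2 hb k.2 h.2

theorem Pts.flip (P : Pts i E xP yP) (h : Ell i E x y) {j : ι} (hj : xP j = i c)
    (hV : Over i V (x - i c)) (hs : s ∈ Fix (F0 i x : Set U)) (e : ∀ z, z ∈ V ↔ s z ∈ V') :
    (∃ l, Above V' x y (xP l) (yP l)) ↔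
      (s ∈ Fix (F1 i x y : Set U) ↔ ∃ l, Above V x y (xP l) (yP l)) := by
  have := cz i
  obtain ⟨t, -, b, hb, k1, k2, -⟩ := h.place_fin hV
  have hV' := over_conj hV e (fun c => fix_c hs ⟨c, rfl⟩) (hs _ (sub_mem0 c))
  have k3 := (conj_lt_one e _).2 k2.2
  rw [map_sub, fix_c hs hb] at k3
  have k4 := hV'.2
  rw [← hj] at k1 k2 k4
  rw [P.ab_iff hV.1 hb k2]
  by_cases n : s ∈ Fix (F1 i x y : Set U)
  · rw [n _ (Pl.y_mem2 _ x y)] at k3
    rw [P.ab_iff hV'.1 hb ⟨k4, k3⟩, iff_true_left n]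
  have k5 := (h.pm hs).resolve_left (mt (h.mem1 hs).2 n)
  rw [psi, add_assoc, map_add, hs _ (Pl.lin_mem h.co x), map_mul, map_ofNat] at k5
  have k6 : y - (-b - E.a₁ * xP j - E.a₃) = -(s y - b) - E.a₁ * (x - xP j) := by
    linear_combination k5 / 2
  have k7 : V'.valuation (y - (-b - E.a₁ * xP j - E.a₃)) < 1 := by
    rw [k6]
    exact V'.valuation.map_sub_lt (by rwa [Valuation.map_neg]) (Pl.vmul_lt _
      ((V'.valuation_le_one_iff _).2 (over_mem hV' _ h.co.1)) k4)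
  rw [P.ab_iff hV'.1 (sub_mem (sub_mem (neg_mem hb) (mul_mem h.co.1 (P.mem j).1)) h.co.2.2.1)
    ⟨k4, k7⟩, iff_false_left n]
  refine ⟨fun l l' => P.ps j (by rw [psi]; linear_combination l + l'), fun l => ?_⟩
  refine sub_eq_zero.1 ((mul_eq_zero.1 ?_).resolve_left (sub_ne_zero.2 l))
  linear_combination Pl.eqn (P.eqn j) - Pl.eqn k1

end RetH

end P179W
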