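import Vale.Agent.P179W.RetE2
import Vale.Agent.P179W.AmbGal
import Vale.Agent.P179W.AmbVal2

/-!
# P179W : the covers of the punctured elliptic curve and their Galois closures over `ℂ(x)`
-/

open scoped Classical

noncomputable section

namespace P179W

namespace RetH

variable {U : Type} [Field U] {i : ℂ →+* U} {E : WeierstrassCurve U} {x y t τ : U}
  {V V' : ValuationSubring U} {s s' g γ : RingAut U} {c : ℂ} {ι : Type} {xP yP : ι → U}
  {G : Type} [Group G] {K M M' : Subfield U} {C : Set G} {S : Set ℂ}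

theorem fix_conj (hM : ∀ z ∈ M, s⁻¹ z ∈ M) (hg : g ∈ Fix (M : Set U)) :
    s * g * s⁻¹ ∈ Fix (M : Set U) := fun z hz =>
  (congrArg s (hg _ (hM z hz))).trans (s.apply_symm_apply z)

theorem stab_fixedOf {H : Set (RingAut U)} (h : ∀ g ∈ H, s⁻¹ * g * s ∈ H) :
    ∀ z ∈ fixedOf H, s z ∈ fixedOf H := fun _ hz g hg => s.symm_apply_eq.1 (hz _ (h g hg))

theorem fn_le (h : FinNormal K M) : K ≤ M := let ⟨_, e⟩ := h.fin; e ▸ le_adj K _

theorem fn_sup (h : FinNormal K M) (h' : FinNormal K M') :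
    FinNormal K (adj (M : Set U) (M' : Set U)) := by
  obtain ⟨⟨T, rfl⟩, st⟩ := h
  obtain ⟨⟨T', rfl⟩, st'⟩ := h'
  refine ⟨⟨T ∪ T', le_antisymm (adj_le.2 ⟨adj_mono le_rfl ?_, adj_mono le_rfl ?_⟩) (adj_le.2
    ⟨(left_subset_adj _ _).trans (left_subset_adj _ _), ?_⟩)⟩, fun g hg => map_adj (g : U →+* U)
      (fun z hz => left_subset_adj _ _ (st g hg z hz)) fun z hz =>
        right_subset_adj _ _ (st' g hg z hz)⟩ <;> rw [Finset.coe_union]
  exacts [Set.subset_union_left, Set.subset_union_right, Set.union_subset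
    ((right_subset_adj _ _).trans (left_subset_adj _ _))
    ((right_subset_adj _ _).trans (right_subset_adj _ _))]

theorem un_sup (h : Un i x S M) (h' : Un i x S M') : Un i x S (adj (M : Set U) (M' : Set U)) :=
  fun c hc V hV γ hγ k => mem_Fix_adj.2 ⟨h c hc V hV γ hγ (can_mono k (left_subset_adj _ _)),
    h' c hc V hV γ hγ (can_mono k (right_subset_adj _ _))⟩

theorem step (fn : FinNormal (F0 i x) M) (hs : s ∈ Fix (F0 i x : Set U))
    (hγ : γ ∈ Fix (F0 i x : Set U)) (h : ∀ z ∈ M, s z = s' z) (e : ∀ z, z ∈ V ↔ s z ∈ V')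
    (hτ : τ ∈ F0 i x) (hV : Over i V τ) (c : IsCan (fun r => i (zeta r)) M V τ γ) :
    Over i V' τ ∧ IsCan (fun r => i (zeta r)) M V' τ (s' * γ * s'⁻¹) := by
  refine ⟨over_conj hV e (fun c => fix_c hs ⟨c, rfl⟩) (hs _ hτ), can_congr (can_conj c e
    (fn.stab _ (inv_mem hs)) (hs _ hτ) fun r => fix_c hs ⟨_, rfl⟩) fun z hz => ?_⟩
  have k := fn.stab _ (inv_mem hs) z hz
  have k1 : s'⁻¹ z = s⁻¹ z := s'.symm_apply_eq.2 ((s.apply_symm_apply z).symm.trans (h _ k))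
  change s' (γ (s'⁻¹ z)) = s (γ (s⁻¹ z))
  rw [k1, h _ (fn.stab _ hγ _ k)]

/-- the kernel, as a group of automorphisms -/
def kerS {H : Subgroup (RingAut U)} (φ : H →* G) : Subgroup (RingAut U) := φ.ker.map H.subtype

theorem mem_kerS {H : Subgroup (RingAut U)} {φ : H →* G} :
    g ∈ kerS φ ↔ ∃ h : g ∈ H, φ ⟨g, h⟩ = 1 :=
  ⟨fun ⟨a, ha, e⟩ => e ▸ ⟨a.2, ha⟩, fun ⟨h, e⟩ => ⟨⟨g, h⟩, e, rfl⟩⟩

theorem kerField_eq {H : Subgroup (RingAut U)} (φ : H →* G) :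
    kerField φ = fixedOf (kerS φ : Set (RingAut U)) :=
  congrArg fixedOf (Set.ext fun _ => mem_kerS.symm)

/-- the core of `B` with respect to `A` -/
def coreS (A B : Subgroup G) : Subgroup G where
  carrier := {g | ∀ s ∈ A, s * g * s⁻¹ ∈ B}
  one_mem' s _ := by simp
  mul_mem' ha hb s hs := conj_mul (b := s) ▸ mul_mem (ha s hs) (hb s hs)
  inv_mem' ha s hs := conj_inv (b := s) ▸ inv_mem (ha s hs)

variable [IsAlgClosed U] [Finite G] {φ : Fix (F1 i x y : Set U) →* G}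

theorem phi_can (h : Ell i E x y) (hφ : φ ∈ PhiSet i x y xP yP C) (g : Good i x y V t)
    (δ : Fix (F1 i x y : Set U)) (c : IsCan (fun r => i (zeta r)) (kerField φ) V t δ.1) :
    ((∃ j, Above V x y (xP j) (yP j)) → φ δ ∈ C) ∧
      ((¬ ∃ j, Above V x y (xP j) (yP j)) → φ δ = 1) := by
  have := cz i
  obtain ⟨⟨T, hT⟩, hφ⟩ := hφ
  obtain ⟨t', γ, u, c', k⟩ := hφ V g.c (nt_of g.mem g.ne g.lt)
  replace c' := can_val c' (le_antisymm (u.2.2.2 t g.mem g.lt) (g.unif.2.2.2 t' u.1 u.2.2.1))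
  rw [kerField_eq] at c c'
  have st : ∀ a : Fix (F1 i x y : Set U), ∀ z ∈ fixedOf (kerS φ : Set (RingAut U)),
      a.1 z ∈ fixedOf (kerS φ : Set (RingAut U)) := fun a => stab_fixedOf (by
    rintro _ ⟨b, hb, rfl⟩
    exact ⟨_, φ.normal_ker.conj_mem' b hb a, rfl⟩)
  have l := can_uniq tame_holds arch_holds g.c g.gen (fun z _ => h.alg z) (st δ) (st γ⁻¹)
    (Nat.card_pos (α := G)) (le_Fix_fixedOf (kerS φ) ⟨(γ⁻¹ * δ) ^ Nat.card G,
      (map_pow φ _ _).trans pow_card_eq_one', rfl⟩) c c'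
  rw [((openGal_holds U _ h.alg T).2.2 (kerS φ) (fun g hg => mem_kerS.2
    ⟨(mem_Fix_adj.1 hg).1, hT _ (mem_Fix_adj.1 hg).2⟩) (Subgroup.map_subtype_le _)).1] at l
  obtain ⟨_, l⟩ := mem_kerS.1 l
  have e : φ (γ⁻¹ * δ) = 1 := l
  rw [map_mul, map_inv, inv_mul_eq_one] at e
  exact e ▸ k

theorem ex_core (h : Ell i E x y) (P : Pts i E xP yP) (hφ : φ ∈ PhiSet i x y xP yP C)
    (hS : ∀ c ∉ S, fc E (i c) ≠ 0 ∧ ¬ ∃ j, xP j = i c) :
    ∃ M, FinNormal (F0 i x) M ∧ Un i x S M ∧ Fix (M : Set U) ≤ kerS φ := by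
  have := cz i
  obtain ⟨T, hT⟩ := hφ.1
  obtain ⟨T', sub, fn⟩ := (openGal_holds U _ h.alg0 (insert (psi E x y) T)).2.1
  rw [Finset.coe_insert, Set.insert_subset_iff] at sub
  have l2 : coreS (Fix (F0 i x : Set U)) (kerS φ) ≤ kerS φ := fun g hg => by
    simpa using hg 1 (one_mem _)
  have l3 := l2.trans (Subgroup.map_subtype_le _)
  obtain ⟨e1, e2⟩ := (openGal_holds U _ h.alg0 T').2.2
    (coreS (Fix (F0 i x : Set U)) (kerS φ)) (fun g hg s hs => by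
    have k := mem_Fix_adj.1 (fix_conj (fn.stab _ (inv_mem hs)) hg)
    exact mem_kerS.2 ⟨(h.mem1 k.1).2 (k.2 _ sub.1), hT _ (Fix_anti sub.2 k.2)⟩)
    (l3.trans (Fix_anti le01))
  have st : ∀ s ∈ Fix (F0 i x : Set U), ∀ z ∈ fixedOf (coreS (Fix (F0 i x : Set U)) (kerS φ) :
      Set (RingAut U)), s z ∈ fixedOf (coreS (Fix (F0 i x : Set U)) (kerS φ) : Set (RingAut U)) :=
    fun s hs => stab_fixedOf fun g hg a ha => by
      have k := hg _ (mul_mem ha (inv_mem hs))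
      rwa [show a * s⁻¹ * g * (a * s⁻¹)⁻¹ = a * (s⁻¹ * g * s) * a⁻¹ by group] at k
  refine ⟨_, ⟨e2, st⟩, fun c hc V hV γ hγ can => e1.ge fun s hs => ?_, e1.le.trans l2⟩
  obtain ⟨hV', c1⟩ := step ⟨e2, st⟩ hs hγ (fun _ _ => rfl) (mem_mapV s V) (sub_mem0 c) hV can
  have g := h.good hV' (hS c hc).1
  have m := g.fix h (mul_mem (mul_mem hs hγ) (inv_mem hs))
    (can_mono c1 ((subset_fixedOf_Fix _).trans (fixedOf_anti l3)))
  exact mem_kerS.2 ⟨m, (phi_can h hφ g ⟨_, m⟩ (can_mono c1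
    ((kerField_eq φ).le.trans (fixedOf_anti l2)))).2 fun a => (hS c hc).2 (P.ab hV' a)⟩

end RetH

end P179W
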