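import Vale.Agent.P179W.RetCan
import Vale.Agent.P179R.Loc0
import Vale.Agent.P179R.Alg

/-!
# P179W : the Riemann existence theorem in the ambient field
-/

open scoped Classical
open Polynomial IntermediateField
open Vale.Agent.P179R (F Fb Loc Unram RET)

noncomputable section

namespace P179W

namespace RetH

open Vale.Agent.P179R.AlgH (inj_F res_coe pow_fix)

/-- every finite extension is unramified outside a finite set -/
theorem gen (L : IntermediateField F Fb) [FiniteDimensional F L] :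
    ∃ S : Set ℂ, S.Finite ∧ Unram S L := by
  obtain ⟨α, hα⟩ := Field.exists_primitive_element F L
  obtain ⟨d, d0, hd⟩ :=
    (Algebra.IsAlgebraic.isAlgebraic (R := ℂ[X]) (α : Fb)).exists_integral_multiple
  have e := minpoly.isIntegrallyClosed_eq_field_fractions' F hd
  let β : L := algebraMap ℂ[X] F d • α
  have hβ : (β : Fb) = d • (α : Fb) := algebraMap_smul F d (α : Fb)
  have e2 : minpoly F (d • (α : Fb)) = minpoly F β := by
    rw [← hβ]
    exact minpoly.algebraMap_eq (algebraMap L Fb).injective β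
  have top : F⟮β⟯ = ⊤ := by
    rw [eq_top_iff, ← hα, adjoin_simple_le_iff,
      ← inv_smul_smul₀ (RatFunc.algebraMap_ne_zero d0) α]
    exact smul_mem _ (mem_adjoin_simple_self F β)
  have mon := minpoly.monic hd
  generalize minpoly ℂ[X] (d • (α : Fb)) = P at e mon
  have int : IsIntegral F β := Algebra.IsIntegral.isIntegral β
  rw [e2] at e
  refine ⟨_, (Vale.Agent.P179R.loc0 P mon).2 (e ▸ (minpoly.irreducible int).separable),
    fun z hz => ?_⟩
  have hz : (P.map (evalRingHom z)).Separable := not_not.1 hz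
  have dg : (P.map (evalRingHom z)).degree ≠ 0 := by
    rw [mon.degree_map, ← mon.degree_map (algebraMap ℂ[X] F), ← e]
    exact (minpoly.degree_pos int).ne'
  obtain ⟨a₀, h₀⟩ := IsAlgClosed.exists_root _ dg
  let s₀ : ℂ[X] →+* PowerSeries ℂ := eval₂RingHom PowerSeries.C (PowerSeries.C z + PowerSeries.X)
  have c₀ : PowerSeries.constantCoeff.comp s₀ = evalRingHom z :=
    Polynomial.ringHom_ext (fun c => by simp [s₀]) (by simp [s₀])
  have c₁ : ∀ Q : ℂ[X][X], PowerSeries.constantCoeff ((Q.map s₀).eval (PowerSeries.C a₀)) =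
      (Q.map (evalRingHom z)).eval a₀ := fun Q => by
    rw [← eval₂_hom, ← eval_map, Polynomial.map_map, c₀, PowerSeries.constantCoeff_C]
  obtain ⟨a, ha, -⟩ := HenselianRing.is_henselian (I := Ideal.span {PowerSeries.X}) (P.map s₀)
    (mon.map _) (PowerSeries.C a₀)
    (Ideal.mem_span_singleton.2 (PowerSeries.X_dvd_iff.2 ((c₁ P).trans h₀))) (IsUnit.map _ (by
      rw [PowerSeries.isUnit_iff_constantCoeff, derivative_map, c₁, ← derivative_map]
      exact (hz.eval₂_derivative_ne_zero (RingHom.id ℂ) h₀).isUnit))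
  let s := (HahnSeries.ofPowerSeries ℤ ℂ).comp s₀
  have inj : Function.Injective s := by
    have : s₀ = Polynomial.coeToPowerSeries.ringHom.comp (compRingHom (X + C z)) :=
      Polynomial.ringHom_ext (fun c => by simp [s₀]) (by simp [s₀, add_comm])
    refine HahnSeries.ofPowerSeries_injective.comp ?_
    have i2 : Function.Injective (compRingHom (X + C z)) := (injective_iff_map_eq_zero _).2
      fun q hq => comp_X_add_C_eq_zero_iff.1 hq
    rw [this]
    exact (Polynomial.coe_injective ℂ).comp i2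
  let j : F →+* LaurentSeries ℂ := IsFractionRing.lift inj
  have hj : ∀ Q, j (algebraMap _ _ Q) = s Q := IsFractionRing.lift_algebraMap inj
  have hb : eval₂ j (HahnSeries.ofPowerSeries ℤ ℂ a) (minpoly F β) = 0 := by
    rw [e, eval₂_map, show j.comp (algebraMap ℂ[X] F) = s from RingHom.ext hj, ← eval₂_map,
      eval₂_hom, ha.eq_zero, map_zero]
  let ε : L ≃ₐ[F] AdjoinRoot (minpoly F β) :=
    (topEquiv.symm.trans (equivOfEq top.symm)).trans (adjoinRootEquivAdjoin F int).symm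
  have hφ : ∀ f, (AdjoinRoot.lift j _ hb).comp (ε : L →+* _) (algebraMap F L f) = j f := fun f => by
    rw [RingHom.comp_apply, RingHom.coe_coe, ε.commutes]
    exact AdjoinRoot.lift_of hb
  refine ⟨_, fun c => (hφ _).trans ?_, (hφ _).trans ?_, fun x n => ?_⟩
  · simpa [s, s₀] using hj (C c)
  · have k := hj (X - C z)
    rw [map_sub, map_sub] at k
    simpa [s, s₀] using k
  · simp [Vale.Agent.P179R.zeta, Complex.exp_two_pi_mul_I]

variable {U : Type} [Field U] {i : ℂ →+* U} {x : U}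

open WithZero LaurentSeries in
theorem can_of_loc (hE : ValExtStmt) {L : Type} [Field L] [Algebra F L] (f : L →+* U)
    (hf : ∀ c, f (algebraMap F L (RatFunc.C c)) = i c) {τ : F} {N : ℕ} (N0 : 0 < N) {σ : L → L}
    (h : Loc τ L N σ) {γ : RingAut U} (hγ : ∀ z, γ (f z) = f (σ z)) {M : Set U}
    (hM : ∀ z ∈ M, ∃ u, f u = z) : ∃ V, Over i V (f (algebraMap F L τ)) ∧
      IsCan (fun r => i (zeta r)) M V (f (algebraMap F L τ)) γ := by
  obtain ⟨φ, h1, h2, h3⟩ := h
  let w := (Valued.v : Valuation (LaurentSeries ℂ) ℤᵐ⁰).comap φ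
  obtain ⟨V, hV⟩ := hE.1 L U f w.valuationSubring
  have q : (V.valuation.comap f).IsEquiv w := equiv_of hV
  have wτ : w (algebraMap F L τ) = exp (-(N : ℤ)) := by
    rw [Valuation.comap_apply, h2, valuation_single_zpow]
  refine ⟨V, ⟨fun c => ?_, q.lt_one_iff_lt_one.2 ?_⟩, fun z hz z0 m k m0 e => ?_⟩
  · rw [← hf, ← hV]
    change Valued.v (φ _) ≤ exp (-(0 : ℤ))
    rw [h1, valuation_le_iff_coeff_lt_eq_zero]
    exact fun n hn => HahnSeries.coeff_single_of_ne hn.ne
  · rw [wτ, ← exp_zero, exp_lt_exp]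
    omega
  obtain ⟨u, rfl⟩ := hM z hz
  have u0 : w u ≠ 0 := (Valuation.ne_zero_iff _).2 fun k => z0 (by rw [k, map_zero])
  obtain ⟨D, hD⟩ : ∃ D : ℤ, w u = exp (-D) := ⟨-log (w u), by rw [neg_neg, exp_log u0]⟩
  rw [← map_pow f, ← map_zpow₀ f] at e
  have e1 := q.eq_iff.1 e
  rw [map_pow, map_zpow₀, hD, wτ, ← exp_nsmul, ← exp_zsmul, exp_inj] at e1
  have e2 : Vale.Agent.P179R.zeta N ^ D = zeta (k / m) := by
    rw [Vale.Agent.P179R.zeta, zeta, ← Complex.exp_int_mul]
    have e3 : (m : ℂ) * D = k * N := by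
      have : (m : ℤ) * D = k * N := by simpa using e1
      exact_mod_cast this
    have a1 : (m : ℂ) ≠ 0 := Nat.cast_ne_zero.2 m0.ne'
    have a2 : (N : ℂ) ≠ 0 := Nat.cast_ne_zero.2 N0.ne'
    congr 1
    push_cast
    field_simp
    linear_combination e3
  beta_reduce
  rw [hγ, ← hf, ← map_mul, ← map_sub]
  refine q.lt_iff_lt.2 (lt_of_le_of_lt (b := exp (-(D + 1))) ?_ (by rw [hD, exp_lt_exp]; omega))
  rw [Valuation.comap_apply, valuation_le_iff_coeff_lt_eq_zero]
  intro n hn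
  rw [map_sub, map_mul, h1, HahnSeries.coeff_sub, h3, HahnSeries.C_mul_eq_smul,
    HahnSeries.coeff_smul, smul_eq_mul]
  rcases (Int.lt_add_one_iff.1 hn).eq_or_lt with rfl | hn
  · rw [e2, sub_self]
  · rw [coeff_zero_of_lt_valuation ℂ hD.le hn, mul_zero, mul_zero, sub_self]

theorem ex_iso [IsAlgClosed U] (h1 : Transc i.fieldRange x)
    (h2 : ∀ z, Alg (adj (Set.range i) {x}) z) : ∃ e : Fb ≃+* U,
      (∀ c, e (algebraMap F Fb (RatFunc.C c)) = i c) ∧ e (algebraMap F Fb RatFunc.X) = x ∧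
      ∀ z, z ∈ adj (Set.range i) {x} ↔ ∃ f : F, e (algebraMap F Fb f) = z := by
  have inj : Function.Injective (eval₂RingHom i x) := (injective_iff_map_eq_zero _).2 fun p hp =>
    (Polynomial.map_eq_zero i).1 (h1 _ (fun k => ⟨_, (coeff_map i k).symm⟩) (by
      rw [eval_map]; exact hp))
  let j : F →+* U := IsFractionRing.lift inj
  have hj : ∀ Q, j (algebraMap _ _ Q) = eval₂ i x Q := IsFractionRing.lift_algebraMap inj
  have jc : ∀ c, j (RatFunc.C c) = i c := fun c => by simpa using hj (C c)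
  have jx : j RatFunc.X = x := by simpa using hj X
  have hr : adj (Set.range i) {x} = j.fieldRange := by
    refine le_antisymm (adj_le.2 ⟨Set.range_subset_iff.2 fun c => ⟨_, jc c⟩,
      Set.singleton_subset_iff.2 ⟨_, jx⟩⟩) ?_
    rintro _ ⟨f, rfl⟩
    have k : ∀ Q : ℂ[X], eval₂ i x Q ∈ adj (Set.range i) {x} := fun Q => by
      rw [eval₂_eq_sum_range]
      exact sum_mem fun k _ => mul_mem (left_subset_adj _ _ ⟨_, rfl⟩)
        (pow_mem (right_subset_adj _ {x} (Set.mem_singleton x)) k)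
    rw [← f.num_div_denom, map_div₀, hj, hj]
    exact div_mem (k _) (k _)
  let : Algebra F U := j.toAlgebra
  have : IsAlgClosure F U := ⟨inferInstance, ⟨fun z => by
    obtain ⟨q, q0, q1, q2⟩ := h2 z
    rw [hr] at q1
    obtain ⟨p, rfl⟩ := (mem_lifts q).1 ((lifts_iff_coeff_lifts (f := j) q).2 q1)
    exact ⟨p, fun k => q0 (by rw [k, Polynomial.map_zero]), by rwa [eval_map] at q2⟩⟩⟩
  let e := IsAlgClosure.equiv F Fb U
  have he : ∀ f, e.toRingEquiv (algebraMap F Fb f) = j f := e.commutes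
  exact ⟨e.toRingEquiv, fun c => (he _).trans (jc c), (he _).trans jx, fun z => by
    simp only [he, hr, RingHom.mem_fieldRange]⟩

/-- transport of automorphisms -/
def tr (e : Fb ≃+* U) : (Fb ≃ₐ[F] Fb) →* RingAut U where
  toFun σ := e.symm.trans (σ.toRingEquiv.trans e)
  map_one' := RingEquiv.ext fun z => e.apply_symm_apply z
  map_mul' σ σ' := RingEquiv.ext fun z =>
    congrArg (fun y => e (σ y)) (e.symm_apply_apply (σ' (e.symm z))).symm

theorem tr_apply (e : Fb ≃+* U) (σ : Fb ≃ₐ[F] Fb) (z : Fb) : tr e σ (e z) = e (σ z) :=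
  congrArg (fun y => e (σ y)) (e.symm_apply_apply z)

variable {e : Fb ≃+* U} {K M : Subfield U} {L : IntermediateField F Fb}

theorem tr_mem (h : ∀ z, z ∈ K ↔ ∃ f : F, e (algebraMap F Fb f) = z) (σ : Fb ≃ₐ[F] Fb) :
    tr e σ ∈ Fix (K : Set U) := fun z hz => by
  obtain ⟨f, rfl⟩ := (h z).1 hz
  rw [tr_apply, σ.commutes]

theorem tr_surj (h : ∀ z, z ∈ K ↔ ∃ f : F, e (algebraMap F Fb f) = z) {g : RingAut U}
    (hg : g ∈ Fix (K : Set U)) : ∃ σ, tr e σ = g :=
  ⟨AlgEquiv.ofRingEquiv (f := e.trans (g.trans e.symm)) fun f => e.symm_apply_eq.2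
    (hg _ ((h _).2 ⟨f, rfl⟩)), RingEquiv.ext fun z => (e.apply_symm_apply _).trans
      (congrArg g (e.apply_symm_apply z))⟩

theorem fix_iff [Normal F L] (r : ∀ z, z ∈ L ↔ e z ∈ M) (σ : Fb ≃ₐ[F] Fb) :
    tr e σ ∈ Fix (M : Set U) ↔ σ.restrictNormal L = 1 := by
  refine ⟨fun h => AlgEquiv.ext fun z => Subtype.ext ((res_coe L σ z).trans (e.injective ?_)),
    fun h z hz => ?_⟩
  · rw [← tr_apply]
    exact h _ ((r _).1 z.2)
  · obtain ⟨u, rfl⟩ := e.surjective z
    rw [tr_apply, ← res_coe L σ ⟨u, (r u).2 hz⟩, h, AlgEquiv.one_apply]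

theorem can_tr (hE : ValExtStmt) [Normal F L] (r : ∀ z, z ∈ L ↔ e z ∈ M)
    (hc : ∀ c, e (algebraMap F Fb (RatFunc.C c)) = i c) {τ : F} {N : ℕ} (N0 : 0 < N)
    {σ : Fb ≃ₐ[F] Fb} (h : Loc τ L N (σ.restrictNormal L)) :
    ∃ V, Over i V (e (algebraMap F Fb τ)) ∧
      IsCan (fun r => i (zeta r)) M V (e (algebraMap F Fb τ)) (tr e σ) :=
  can_of_loc hE ((e : Fb →+* U).comp (algebraMap L Fb)) hc N0 h
    (fun z => (tr_apply e σ z).trans (congrArg e (res_coe L σ z).symm)) fun z hz =>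
      ⟨⟨e.symm z, (r _).2 (by rwa [e.apply_symm_apply])⟩, e.apply_symm_apply z⟩

theorem ex_L (h : ∀ z, z ∈ K ↔ ∃ f : F, e (algebraMap F Fb f) = z) (hM : FinNormal K M) :
    ∃ L : IntermediateField F Fb, (∀ z, z ∈ L ↔ e z ∈ M) ∧ FiniteDimensional F L ∧ Normal F L := by
  obtain ⟨⟨T, hT⟩, st⟩ := hM
  let L : IntermediateField F Fb := (M.comap (e : Fb →+* U)).toIntermediateField fun f =>
    (hT ▸ le_adj K _ : K ≤ M) ((h _).2 ⟨f, rfl⟩)
  refine ⟨L, fun _ => Iff.rfl, ?_, normal_iff_forall_map_le'.2 fun σ => ?_⟩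
  · have : Finite (e.symm '' T) := (T.finite_toSet.image _).to_subtype
    have : FiniteDimensional F (adjoin F (e.symm '' T)) :=
      finiteDimensional_adjoin fun y _ => Algebra.IsIntegral.isIntegral y
    have le : L ≤ adjoin F (e.symm '' T) := fun z hz => by
      have k : e.symm (e z) ∈ adjoin F (e.symm '' T) := (adj_le (L := (adjoin F
        (e.symm '' T)).toSubfield.comap (e.symm : U →+* Fb))).2 ⟨fun y hy => by
          obtain ⟨f, rfl⟩ := (h y).1 hy
          change e.symm _ ∈ adjoin F _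
          rw [e.symm_apply_apply]
          exact IntermediateField.algebraMap_mem _ f, fun y hy => subset_adjoin _ _ ⟨y, hy, rfl⟩⟩ (hT.le hz)
      rwa [e.symm_apply_apply] at k
    exact Module.Finite.of_injective (inclusion le).toLinearMap (inclusion_injective le)
  · rintro _ ⟨z, hz, rfl⟩
    change e (σ z) ∈ M
    rw [← tr_apply]
    exact st _ (tr_mem h σ) _ hz

theorem ex_M (h : ∀ z, z ∈ K ↔ ∃ f : F, e (algebraMap F Fb f) = z) (L : IntermediateField F Fb)
    [FiniteDimensional F L] [Normal F L] :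
    ∃ M : Subfield U, (∀ z, z ∈ L ↔ e z ∈ M) ∧ FinNormal K M := by
  have r : ∀ z, z ∈ L ↔ e z ∈ L.toSubfield.map (e : Fb →+* U) := fun z =>
    ⟨fun hz => ⟨z, hz, rfl⟩, fun ⟨y, hy, k⟩ => e.injective k ▸ hy⟩
  obtain ⟨α, hα⟩ := Field.exists_primitive_element F L
  have e3 : L = F⟮(α : Fb)⟯ := by rw [← lift_adjoin_simple, hα, lift_top]
  refine ⟨_, r, ⟨{e α}, le_antisymm ?_ (adj_le.2 ⟨fun z hz => ?_, ?_⟩)⟩, fun g hg => ?_⟩
  · rintro _ ⟨z, hz, rfl⟩
    have h1 : e α ∈ adj (K : Set U) (({e α} : Finset U) : Set U) :=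
      right_subset_adj _ _ (Finset.mem_coe.2 (Finset.mem_singleton_self _))
    have h2 := le_adj K (({e α} : Finset U) : Set U)
    generalize adj (K : Set U) (({e α} : Finset U) : Set U) = A at h1 h2
    let L' : IntermediateField F Fb := (A.comap (e : Fb →+* U)).toIntermediateField
      fun f => show e (algebraMap F Fb f) ∈ A from h2 ((h _).2 ⟨f, rfl⟩)
    have : L ≤ L' := e3.le.trans (adjoin_simple_le_iff.2 h1)
    exact this hz
  · obtain ⟨f, rfl⟩ := (h z).1 hz
    exact (r _).1 (IntermediateField.algebraMap_mem L f)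
  · simpa using (r _).1 α.2
  · obtain ⟨σ, rfl⟩ := tr_surj h hg
    rintro _ ⟨z, hz, rfl⟩
    rw [RingHom.coe_coe, tr_apply, ← r, ← res_coe L σ ⟨z, hz⟩]
    exact Subtype.property _

theorem res_pow [FiniteDimensional F L] [Normal F L] (σ : Fb ≃ₐ[F] Fb) :
    σ.restrictNormal L ^ Nat.card (L ≃ₐ[F] L) = 1 := pow_card_eq_one'

end RetH

open RetH in
theorem retU_of (hR : RET) (hE : ValExtStmt) (hT : TameStmt) (hA : ArchStmt) (h4 : TransStmt) :
    RetUStmt := by
  intro U _ _ i x h1 h2 S hS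
  have : CharZero U := i.charZero_iff i.injective |>.1 inferInstance
  obtain ⟨e, hc, hx, hK⟩ := ex_iso h1 h2
  have eτ : ∀ c, e (algebraMap F Fb (RatFunc.X - RatFunc.C c)) = x - i c := fun c => by
    rw [map_sub, map_sub, hc, hx]
  obtain ⟨r, a, γ, a1, a2, HA, HB⟩ := hR S hS
  have lo : ∀ k, FreeGroup.lift γ (FreeGroup.of k) = γ k := fun k => FreeGroup.lift_apply_of
  refine ⟨r, a, (tr e).comp (FreeGroup.lift γ), a1, a2, fun π => tr_mem hK _,
    fun M _ hM hU => ?_, fun W _ _ g => ?_⟩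
  · obtain ⟨L, rel, _, _⟩ := ex_L hK hM
    have un : Unram S L := fun z hz => by
      obtain ⟨S', hS', h'⟩ := gen L
      obtain ⟨r', a', γ', -, b2, HA', -⟩ := hR _ (hS'.insert z)
      obtain ⟨k, rfl⟩ : z ∈ Set.range a' := b2 ▸ Set.mem_insert _ _
      have k1 := (HA' L fun y hy => h' y fun k => hy (Set.mem_insert_of_mem _ k)).2.1 k
      obtain ⟨V, v1, v2⟩ := can_tr hE rel hc Nat.card_pos (k1 _ Nat.card_pos (res_pow _))
      rw [eτ] at v1 v2
      have k2 := (fix_iff rel _).1 (hU _ hz V v1 _ (tr_mem hK _) v2)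
      have k3 := k1 1 one_pos (by rw [k2, one_pow])
      rwa [k2] at k3
    obtain ⟨b1, b2, b3⟩ := HA L un
    refine ⟨fun g hg => ?_, fun k => ?_, ?_, fun c hc' => ?_⟩
    · obtain ⟨σ, rfl⟩ := tr_surj hK hg
      have k : σ.restrictNormal L ∈ ((AlgEquiv.restrictNormalHom L).comp
          (FreeGroup.lift γ)).range := by
        refine (Subgroup.closure_le (MonoidHom.range _)).2
          (Set.range_subset_iff.2 fun k => ⟨FreeGroup.of k, ?_⟩) (b1.ge (Subgroup.mem_top _))
        exact congrArg (AlgEquiv.restrictNormalHom L) (lo k)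
      obtain ⟨π, hπ⟩ := k
      refine ⟨π, fun z hz => ?_⟩
      have k2 : tr e (σ⁻¹ * FreeGroup.lift γ π) ∈ Fix (M : Set U) := (fix_iff rel _).2 (by
        change AlgEquiv.restrictNormalHom L _ = 1
        rw [map_mul, map_inv, inv_mul_eq_one]
        exact hπ.symm)
      have k3 := k2 z hz
      rw [map_mul, map_inv] at k3
      exact ((tr e σ).symm_apply_eq.1 k3).symm
    · have k := can_tr hE rel hc Nat.card_pos (b2 k _ Nat.card_pos (res_pow _))
      rwa [eτ, ← lo] at k
    · have k := can_tr hE rel hc Nat.card_pos (b3 _ Nat.card_pos (res_pow _))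
      rw [map_inv₀, map_inv₀, hx] at k
      have e1 : FreeGroup.lift γ (ginf r) = (List.ofFn γ).prod⁻¹ := by
        rw [ginf, map_inv, map_list_prod, List.map_ofFn]
        exact congrArg (fun f => (List.ofFn f).prod⁻¹) (funext lo)
      rwa [← e1] at k
    · have k := can_tr (σ := 1) hE rel hc one_pos (by
        rw [show (1 : Fb ≃ₐ[F] Fb).restrictNormal L = 1 from
          map_one (AlgEquiv.restrictNormalHom L)]
        exact un c hc')
      rwa [eτ, map_one] at k
  · obtain ⟨L, _, _, un, ψ, ψ1, ψ2⟩ := HB W fun k => g (FreeGroup.of k)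
    obtain ⟨M, rel, hM⟩ := ex_M hK L
    refine ⟨M, hM, fun c hc' V hV δ hδ can => ?_, fun π => ?_⟩
    · obtain ⟨V₀, v1, v2⟩ := can_tr (σ := 1) hE rel hc one_pos (by
        rw [show (1 : Fb ≃ₐ[F] Fb).restrictNormal L = 1 from
          map_one (AlgEquiv.restrictNormalHom L)]
        exact un c hc')
      rw [eτ] at v1 v2
      obtain ⟨s, hs, hs'⟩ := h4 U _ h2 V₀ V (adj_sub i x c ▸ over_iff v1 hV (transc_sub h1 c))
      have v3 := can_conj v2 hs' (hM.stab _ (inv_mem hs))
        (hs _ (adj_sub i x c ▸ right_subset_adj _ _ rfl))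
        fun r => hs _ (left_subset_adj _ _ ⟨_, rfl⟩)
      rw [map_one, mul_one, mul_inv_cancel] at v3
      have k := can_uniq hT hA hV.1 (adj_sub i x c ▸ over_val hV (transc_sub h1 c))
        (fun z _ => h2 z) (hM.stab _ hδ) (fun z hz => hz) (m := Nat.card (L ≃ₐ[F] L))
        Nat.card_pos (by
          obtain ⟨σ, rfl⟩ := tr_surj hK hδ
          rw [inv_one, one_mul, ← map_pow, fix_iff rel]
          exact (map_pow (AlgEquiv.restrictNormalHom L) σ _).trans (res_pow σ)) can v3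
      rwa [inv_one, one_mul] at k
    · have k : ψ.comp ((AlgEquiv.restrictNormalHom L).comp (FreeGroup.lift γ)) = g :=
        FreeGroup.ext_hom _ _ fun k => (congrArg (fun s => ψ (s.restrictNormal L)) (lo k)).trans
          (ψ2 k)
      rw [MonoidHom.comp_apply, fix_iff rel, ← k, MonoidHom.comp_apply, map_eq_one_iff ψ ψ1]
      rfl

end P179W
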