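import Vale.Agent.P179W.RetE
import Vale.Agent.P179W.RetU
import Vale.Agent.P179W.RetCount
import Vale.Agent.P179R.Ana

/-!
# P179W : C3, unconditionally
-/

namespace P179W

theorem retU_holds : RetUStmt :=
  retU_of Vale.Agent.P179R.ret valExt_holds tame_holds arch_holds trans_holds

theorem retE_holds : RetEStmt := retE_of retU_holds count_holds

end P179W
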