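import Vale.Agent.P179W.SetupD

/-!
# P179W : the geometric set-up exists
-/

set_option linter.all false

open scoped NNReal Classical
open Polynomial

noncomputable section

namespace P179W

namespace St

theorem val_eq_one {K : Type} [Field K] {V : ValuationSubring K} {c : K} (c0 : c ≠ 0) (h : c ∈ V)
    (h' : c⁻¹ ∈ V) : V.valuation c = 1 :=
  ((V.valuation_le_one_iff c).2 h).antisymm (not_lt.1 fun e => (val_lt_one.1 e).elim c0 fun k => k h')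

/-- the invariant valuation on the special fibre -/
theorem res_ex (h2 : PtRedStmt) (h7 : GenMapStmt) (h8 : IndepStmt) (h12 : InvValStmt) {p M : ℕ}
    [Fact p.Prime] [Fact (1 < p ^ M)] {R : Type} [Field R] [IsAlgClosed R] [CharP R p]
    {k : Subfield R} [IsAlgClosed k] {E : WeierstrassCurve R} (hE : CoeffIn E k) (hΔ : E.Δ ≠ 0)
    {u v : ZMod (p ^ M) → R} (hg : Gen k E u v)
    (hR : ∀ z, Alg (adj k (Set.range u ∪ Set.range v)) z) {a b : R} (ha : a ∈ k) (hb : b ∈ k)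
    (e : E.toAffine.Equation a b) (h0 : psi E a b ≠ 0) {τ : E.toAffine.Point}
    (t1 : OnSet (k : Set R) τ) (t2 : addOrderOf τ = p ^ M) :
    ∃ (V : ValuationSubring R) (s : RingAut R), s ∈ Fix (k : Set R) ∧
      (∀ j, pt E (s (u j)) (s (v j)) = pt E (u (j + 1)) (v (j + 1)) - τ) ∧ (∀ c ∈ k, c ∈ V) ∧
      (∀ z ∈ adj k (Set.range u ∪ Set.range v), z ∈ V ↔ s z ∈ V) ∧
      (∀ z ∈ V, ∃ c ∈ k, V.valuation (z - c) < 1) ∧ ∀ m : ℕ, 0 < m → m < p ^ M →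
        ∃ x y h, m • (pt E (u 1) (v 1) - pt E (u 0) (v 0)) = .some x y h ∧ x ∈ V := by
  have mτ : ∀ m : ℕ, OnSet (k : Set R) (m • τ) := fun m =>
    mem_grp.1 (nsmul_mem ((mem_grp (h8 := h8) (hE := hE) (hΔ := hΔ)).2 t1) m)
  obtain ⟨Z, W, z1, z2, z3⟩ := chg2 h8 hE hΔ hg (A := fun j => j.val • τ) fun j => mτ _
  rw [← z3] at hR ⊢
  obtain ⟨s, s1, s2⟩ := perm_aut h7 hE z2 hR (Equiv.addRight 1)
  obtain ⟨V, v1, v2, v3, v4⟩ := h12 p M R k E hE hΔ Z W z2 a ha b hb e h0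
  have v1' := fun c hc => (V.valuation_le_one_iff c).2 (v1 c hc)
  refine ⟨V, s, s1, fun j => ?_, v1, fun z hz => v4 ((s : R →+* R).comp (Subfield.subtype _))
    (fun z hz => s1 _ hz) (fun j z => ⟨fun c => (congrArg s c).trans (s2 j).1,
      fun c => (congrArg s c).trans (s2 j).2⟩) ⟨z, hz⟩, fun z hz => res_alg v1'
      (fun z hz h => v3 z hz ((V.valuation_le_one_iff z).1 h)) (hR z)
      ((V.valuation_le_one_iff z).2 hz), fun m m0 m1 => ?_⟩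
  · have sE : CoeffIn E {z | (s : R →+* R) z = z} := AmbGal.cmono hE s1
    refine (autHom_pt _ sE _ _).symm.trans ?_
    rw [sub_eq_iff_eq_add.1 (z1 j), sub_eq_iff_eq_add.1 (z1 (j + 1)), map_add, autHom_pt,
      autHom_fix _ sE (OnSet.le s1 (mτ _)), ZMod.val_add, ZMod.val_one,
      show ((j.val + 1) % p ^ M) • τ = _ from t2 ▸ mod_addOrderOf_nsmul τ _, succ_nsmul, ← add_assoc, add_sub_cancel_right]
    exact congrArg (· + _) (congrArg₂ (pt E) (s2 j).1 (s2 j).2)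
  · obtain ⟨R', _, r, h, -⟩ := exists_red V.valuation
    have g : Good V.valuation r E := ⟨h, AmbGal.cmono hE v1',
      val_eq_one hΔ (v1 _ (Δ_mem hE)) (v1 _ (inv_mem (Δ_mem hE)))⟩
    have wa := v1' a ha
    have k1 : ∀ j, g.ρ h2 (pt E (Z j) (W j)) = pt (rE r E) (r a) (r b) := fun j => by
      have w1 : V.valuation (Z j) ≤ 1 :=
        sub_add_cancel (Z j) a ▸ V.valuation.map_add_le (v2 j).1.le wa
      rw [g.ρ_pt h2 (z2.1 j) w1, (h.eq_iff w1 wa).2 (v2 j).1,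
        (h.eq_iff (g.y_le h2 (z2.1 j) w1) (v1' b hb)).2 (v2 j).2]
    obtain ⟨x, y, hn, e1, e2⟩ := g.of_ρ h2 (P := m • (pt E (u 1) (v 1) - pt E (u 0) (v 0))) (by
      rw [sub_eq_iff_eq_add.1 (z1 1), sub_eq_iff_eq_add.1 (z1 0), map_nsmul, map_sub, map_add,
        map_add, k1, k1, ZMod.val_one, ZMod.val_zero, zero_nsmul, one_nsmul, map_zero, add_zero,
        add_sub_cancel_left, ← map_nsmul]
      have t3 := nsmul_ne_zero_of_lt_addOrderOf m0.ne' (t2 ▸ m1)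
      have t4 := mτ m
      generalize m • τ = Q at t3 t4
      cases Q with
      | zero => exact (t3 rfl).elim
      | some x y hn =>
        rw [← pt_of hn, g.ρ_pt h2 hn.1 (v1' x t4.1), pt_of ((g.all h2).2.1 x y hn.1 (v1' x t4.1))]
        exact WeierstrassCurve.Affine.Point.some_ne_zero _)
    exact ⟨x, y, hn, e1, (V.valuation_le_one_iff x).1 e2⟩

namespace Dat

variable {n : ℕ} {U R : Type} [Field U] [Field R] (d : Dat n U R)

/-- the elements on which `θ` reduces to `s` -/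
def cmpR (s : RingAut R) : Subring U where
  carrier := {a | d.w a ≤ 1 ∧ d.w (d.θ a) ≤ 1 ∧ d.r (d.θ a) = s (d.r a)}
  one_mem' := by simp [d.g.red.one]
  zero_mem' := by simp [d.g.red.zero]
  add_mem' {a b} ha hb := ⟨d.w.map_add_le ha.1 hb.1, by
    rw [map_add, d.g.red.add _ _ ha.2.1 hb.2.1, d.g.red.add _ _ ha.1 hb.1, map_add s, ha.2.2,
      hb.2.2]
    exact ⟨d.w.map_add_le ha.2.1 hb.2.1, rfl⟩⟩
  neg_mem' {a} ha := ⟨(d.w.map_neg a).trans_le ha.1, by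
    rw [map_neg, d.g.red.neg ha.2.1, d.g.red.neg ha.1, map_neg s, ha.2.2, d.w.map_neg]
    exact ⟨ha.2.1, rfl⟩⟩
  mul_mem' {a b} ha hb := ⟨(d.w.map_mul a b).trans_le (mul_le_one' ha.1 hb.1), by
    rw [map_mul, d.g.red.mul _ _ ha.2.1 hb.2.1, d.g.red.mul _ _ ha.1 hb.1, map_mul s, ha.2.2,
      hb.2.2, map_mul]
    exact ⟨mul_le_one' ha.2.1 hb.2.1, rfl⟩⟩

variable [NeZero n] (h2 : PtRedStmt) (h8 : IndepStmt) (h11 : GaussTowerStmt)
include h2 h8 h11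

theorem red_θ {s : RingAut R} (s1 : s ∈ Fix (d.kb : Set R)) {τ : d.Eb.toAffine.Point}
    (s2 : ∀ j, pt d.Eb (s (d.r (d.u j))) (s (d.r (d.v j))) =
      pt d.Eb (d.r (d.u (j + 1))) (d.r (d.v (j + 1))) - τ) {z : U} (hz : z ∈ d.Kt)
    (wz : d.w z ≤ 1) : d.r (d.θ z) = s (d.r z) := by
  have sE : CoeffIn d.Eb {z | (s : R →+* R) z = z} := AmbGal.cmono d.hEb s1
  have ry : ∀ j, d.g.ρ h2 (d.yy j) = _ := fun j => d.g.ρ_pt h2 (d.euv j) (d.wu j)
  have m : ∀ j, d.xP j ∈ d.cmpR s ∧ d.yP j ∈ d.cmpR s := fun j => by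
    have e1 := d.wP h2 h8 j
    have e2 := d.g.y_le h2 (d.eP j) e1
    have e3 := eqn_aut _ d.θE (d.eP j)
    obtain ⟨k1, k2, k3⟩ := d.g.of_ρ_pt h2 e3
      (eqn_aut _ sE ((d.g.all h2).2.1 _ _ (d.eP j) e1).1) (by
        refine (congrArg _ (d.θ_P' j)).trans (.trans ?_ (autHom_pt _ sE _ _))
        rw [← d.g.ρ_pt h2 (d.eP j) e1, show pt d.E (d.xP j) (d.yP j) = _ from d.PP_eq j]
        simp only [map_sub, map_add, ry, d.g.ρ_pt h2 d.eab d.wa, autHom_pt, RingHom.coe_coe, s2,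
          s1 _ (d.mkb d.ha d.wa), s1 _ (d.mkb d.hb (d.wb h2)), zero_add]
        abel)
    exact ⟨⟨e1, k1, k2⟩, e2, d.g.y_le h2 e3 k1, k3⟩
  obtain ⟨a, ha, b, hb, k1, k2⟩ := tower_ind (u := d.X') (v := d.Y') h11 d.g d.hE
    (fun j => d.eXY j.1) (fun j => (d.redX h2 h8).1 j.1) (d.gX' h2 h8) (d.cmpR s)
    (fun c hc wc => ⟨wc, (congrArg d.w (d.θk c hc)).trans_le wc,
      (congrArg d.r (d.θk c hc)).trans (s1 _ (d.mkb hc wc)).symm⟩)
    (fun j => ⟨Set.mem_of_eq_of_mem (d.xPj j.2).symm (m j).1,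
      Set.mem_of_eq_of_mem (d.yPj j.2).symm (m j).2⟩) (d.Kt_eq.le hz) wz
  refine mul_right_cancel₀ (s.map_ne_zero_iff.2 (d.g.red.ne_zero k1)) ?_
  rw [← map_mul, ← d.g.red.mul _ _ wz k1.le, k2, ← ha.2.2, ← hb.2.2, ← d.g.red.mul _ _
    ((d.θ_w h11 z (d.Kt_le hz)).trans_le wz) hb.2.1, ← map_mul, k2]

end Dat

theorem exists_Op (h2 : PtRedStmt) (h7 : GenMapStmt) (h8 : IndepStmt) (h11 : GaussTowerStmt)
    (h12 : InvValStmt) {p M : ℕ} [Fact p.Prime] [Fact (1 < p ^ M)] {U R : Type} [Field U] [Field R]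
    (d : Dat (p ^ M) U R) [IsAlgClosed U] [IsAlgClosed d.k] (hs : ∀ z, ∃ a, d.w a ≤ 1 ∧ d.r a = z)
    (wp : d.w (p : U) < 1) {τ : d.Eb.toAffine.Point} (t1 : OnSet (d.kb : Set R) τ)
    (t2 : addOrderOf τ = p ^ M) : ∃ Op : ValuationSubring U, (∀ z ∈ Op, d.w z ≤ 1) ∧
      (∀ c ∈ d.k, d.w c ≤ 1 → c ∈ Op) ∧ (∀ z ∈ d.Kt, z ∈ Op ↔ d.θ z ∈ Op) ∧
      (∀ z ∈ Op, ∃ c ∈ d.k, c ∈ Op ∧ Op.valuation (z - c) < 1) ∧ ∀ m : ℕ, 0 < m → m < p ^ M →
        ∃ X Y h, m • (d.PP 0 - d.PP 1) = .some X Y h ∧ X ∈ Op := by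
  have h := d.g.red
  have := h.closed_top hs
  have := h.closed (k := d.k)
  have := h.charP wp
  have ra := red_adj h2 h11 d.g d.hE d.euv d.wu d.gu
  obtain ⟨V, s, s1, s2, v1, v2, v3, v4⟩ := res_ex h2 h7 h8 h12 d.hEb (d.g.all h2).1 (d.genb h2)
    (fun z => by
      obtain ⟨a, wa, rfl⟩ := hs z
      exact (h.alg (d.algF a) wa).mono ra) (d.mkb d.ha d.wa) (d.mkb d.hb (d.wb h2)) (d.eabb h2)
    (d.ψb h2) t1 t2
  have m : ∀ c ∈ d.k, d.w c ≤ 1 → c ∈ h.cmp V := fun c hc wc =>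
    h.mem_cmp.2 ⟨wc, v1 _ (d.mkb hc wc)⟩
  refine ⟨h.cmp V, fun z hz => (h.mem_cmp.1 hz).1, m, fun z hz => ?_, fun z hz => ?_,
    fun m m0 m1 => ?_⟩
  · rw [h.mem_cmp, h.mem_cmp, d.θ_w h11 z (d.Kt_le hz)]
    refine and_congr_right fun wz => ?_
    rw [d.red_θ h2 h8 h11 s1 s2 hz wz]
    exact v2 _ (ra (h.mem_img.2 ⟨z, d.Kt_le hz, wz, rfl⟩))
  · obtain ⟨wz, hz⟩ := h.mem_cmp.1 hz
    obtain ⟨_, c1, c2⟩ := v3 _ hz
    obtain ⟨c, hc, wc, rfl⟩ := h.mem_img.1 c1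
    exact ⟨c, hc, m c hc wc, h.cmp_lt (d.w.map_sub_le wz wc) (h.sub wz wc ▸ c2)⟩
  · obtain ⟨x, y, hn, e1, e2⟩ := v4 m m0 m1
    have e3 : d.g.ρ h2 (m • (d.PP 0 - d.PP 1)) = .some x y hn := by
      rw [d.PP_sub, map_nsmul, map_sub, d.g.ρ_pt h2 (d.euv _) (d.wu _),
        d.g.ρ_pt h2 (d.euv _) (d.wu _), e1]
    obtain ⟨X, Y, hN, e4, e5⟩ := d.g.of_ρ h2
      (e3.trans_ne (WeierstrassCurve.Affine.Point.some_ne_zero _))
    rw [e4, ← pt_of hN, ← pt_of hn] at e3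
    exact ⟨X, Y, hN, e4, h.mem_cmp.2 ⟨e5, (d.g.of_ρ_pt h2 hN.1 hn.1 e3).2.1 ▸ e2⟩⟩

end St

open St in
theorem setup_of (h2 : PtRedStmt) (h5 : OrdinaryStmt) (h7 : GenMapStmt) (h8 : IndepStmt)
    (h9 : ArchStmt) (h10 : GaussExStmt) (h11 : GaussTowerStmt) (h12 : InvValStmt)
    (hD : DerExtStmt) (hC : DiscExtStmt) : SetupStmt := by
  intro p hp M hM
  have : Fact (1 < p ^ M) := ⟨Nat.one_lt_pow hM.ne' hp.out.one_lt⟩
  obtain ⟨U, _, _, _, k, _, u, w, wp, disc, wu, gu, alg, hi⟩ := base_ex h10 hC p (ZMod (p ^ M))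
  obtain ⟨R, _, r, h, hs⟩ := exists_red w
  obtain ⟨E, a, b, τ, g, hE, ha, hb, eab, wa, wψ, t1, t2⟩ := curve_ex (k := k) h5 h2 h wp M
  choose v euv using fun j => exists_y E (u j)
  have hg : Gen k E u v := ⟨euv, gu.ind⟩
  obtain ⟨X, Y, X0, Xj, gen, hadj⟩ := chg1 h8 hE g.Δ_ne hg (onSet_pt ha hb) 0
  obtain ⟨θ, θk, θu⟩ := perm_aut h7 hE hg
    (fun z => (alg z).mono (adj_mono le_rfl Set.subset_union_left)) (Equiv.addRight 1)
  obtain ⟨D, lam, d1, d2, d3, d4, d5, d6⟩ := ders hD hE g.Δ_ne hg alg ha eab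
    fun e => by simpa [e] using wψ
  let d : Dat (p ^ M) U R := ⟨k, E, w, r, u, v, X, Y, a, b, θ, g, hE, ha, hb, eab, wa, wψ, euv, wu,
    gu, alg, X0, Xj, gen.1, hadj, θk, θu⟩
  have : IsAlgClosed d.k := ‹IsAlgClosed k›
  obtain ⟨Op, o1, o2, o3, o4, o5⟩ := exists_Op h2 h7 h8 h11 h12 d hs wp t1 t2
  have mO : ∀ z, z ∈ (algebraicClosure d.Kt U).toSubfield ↔ Alg d.Kt z := fun z =>
    mem_algebraicClosure_iff.trans alg_iff.symm
  generalize (algebraicClosure d.Kt U).toSubfield = Om at mO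
  have kO : d.Kt ≤ Om := fun z hz => (mO z).2 (alg_of_mem hz)
  obtain ⟨i, rfl⟩ := hi Om ((le_adj _ _).trans kO)
    (AmbGal.isAlgClosed_sub fun z hz => (mO z).2 (hz.trans fun c => (mO c).1))
  have ga := d.gauss h2 h8 h11 fun z => (mO z).1
  have l0 : ∀ j, lam j (pt E (X 0) (Y 0)) = if j = 0 then 1 else 0 := fun j => by
    rw [X0, map_add, d3, d4, add_zero]
    congr
  have l1 : ∀ j l, lam j (d.PP l) = (if j = 0 then 1 else 0) - if j = l then 1 else 0 :=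
    fun j l => by
      rw [d.PP_eq, map_sub, map_add, d3, d3, d4, add_zero]
      congr
  have l2 := fun j l => d2 j _ _ (d.eP l)
  exact ⟨U, inferInstance, ⟨{
    i := i, k0 := k, E := E, x := X 0, y := Y 0, xP := d.xP, yP := d.yP, w := w, D := D, θ := θ
    Op := Op
    algClosed := inferInstance
    k0_le := fun c hc => kO (le_adj _ _ hc)
    k0_alg := fun z => mem_of_alg
    val_k0 := d.val_k0 h9 h11
    wp := wp
    disc := disc
    coeff_k0 := hE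
    coeff_int := g.int
    wΔ := g.vΔ
    eqn := gen.1 0
    eqnP := d.eP
    P0 := ⟨d.xP0 ▸ ha, d.yP0 ▸ hb⟩
    P_mem := fun j => ⟨kO (d.mKt j).1, kO (d.mKt j).2⟩
    Om_alg := fun z => (mO z).1
    transc := fun f hf e => Polynomial.ext fun m => by
      simpa [show f.eval (d.X 0) = 0 from e] using ga f hf m
    U_alg := fun z => (d.algF z).mono (d.Ft_eq.ge.trans (adj_le.2
      ⟨fun c hc => left_subset_adj _ _ (kO (le_adj _ _ hc)), Set.union_subset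
        (fun c hc => left_subset_adj _ _ (kO (right_subset_adj _ _ hc))) (right_subset_adj _ _)⟩))
    wx := (d.redX h2 h8).1 0
    wP := d.wP h2 h8
    wP_sub := d.wP_sub h2 h8
    wP_psi := d.wP_psi h2 h8
    gauss := ga
    gaussAll := by
      rw [show (fun j => if j = 0 then X 0 else d.xP j) = X from funext fun j => by
        split_ifs with c
        exacts [congrArg X c.symm, d.xPj c]]
      exact d.gX h2 h8
    D_k0 := d1
    D_comm := d5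
    D_x := fun j => by rw [(d2 j _ _ (gen.1 0)).1, l0, ite_mul, one_mul, zero_mul]
    D_y := fun j => by rw [(d2 j _ _ (gen.1 0)).2, l0, ite_mul, one_mul, zero_mul]
    D_xP := fun j l => l1 j l ▸ (l2 j l).1
    D_yP := fun j l => l1 j l ▸ (l2 j l).2
    D_w := fun j => d.D_w h2 h8 h11 (d1 j) (fun l => by
      rw [l1]
      refine d.w.map_sub_le ?_ ?_ <;> split_ifs <;> simp) (l2 j)
    θ_k0 := θk
    θ_Kt := d.θ_Kt h8
    θ_Ft := d.Ft_eq.symm ▸ d.θ_Ft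
    θ_pow := d.Ft_eq.symm ▸ d.θ_pow
    θ_a := d.θ_a
    θ_P := d.θ_P
    θ_w := d.Ft_eq.symm ▸ d.θ_w h11
    θ_D := d6 θ _ θk θu
    Op_le := fun z _ => o1 z
    Op_k0 := o2
    Op_k0' := fun c hc e => val_eq_one (fun c0 => by simpa [c0] using e) (o2 c hc e.le)
      (o2 _ (inv_mem hc) (by simp [show d.w c = 1 from e]))
    Op_θ := o3
    Op_res := fun z _ => o4 z
    period := o5 }⟩⟩

end P179W
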