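import Vale.Agent.P179W.AmbGal

/-!
# P179W : reduction modulo a valuation
-/

set_option linter.all false

open scoped NNReal Classical
open Polynomial

noncomputable section

namespace P179W

namespace St

variable {K R Γ : Type} [Field K] [Field R] [LinearOrderedCommGroupWithZero Γ]
  {v : Valuation K Γ} {r : K → R}

/-- `r` is a reduction map for `v` -/
structure Red (v : Valuation K Γ) (r : K → R) : Prop where
  one : r 1 = 1
  add : ∀ a b, v a ≤ 1 → v b ≤ 1 → r (a + b) = r a + r b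
  mul : ∀ a b, v a ≤ 1 → v b ≤ 1 → r (a * b) = r a * r b
  eq_zero : ∀ a, v a ≤ 1 → (r a = 0 ↔ v a < 1)

theorem exists_red (v : Valuation K Γ) : ∃ (R : Type) (_ : Field R) (r : K → R), Red v r ∧
    ∀ z, ∃ a, v a ≤ 1 ∧ r a = z := by
  let ρ := IsLocalRing.residue v.valuationSubring
  let r : K → IsLocalRing.ResidueField v.valuationSubring := fun a =>
    if h : v a ≤ 1 then ρ ⟨a, h⟩ else 0
  have e : ∀ a : v.valuationSubring, r a = ρ a := fun a => dif_pos a.2
  refine ⟨_, inferInstance, r, ⟨(e 1).trans (map_one _), fun a b ha hb => ?_, fun a b ha hb => ?_,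
    fun a ha => ?_⟩, fun z => ?_⟩
  · exact (e (⟨a, ha⟩ + ⟨b, hb⟩)).trans ((map_add _ _ _).trans
      (congrArg₂ (· + ·) (e ⟨a, ha⟩).symm (e ⟨b, hb⟩).symm))
  · exact (e (⟨a, ha⟩ * ⟨b, hb⟩)).trans ((map_mul _ _ _).trans
      (congrArg₂ (· * ·) (e ⟨a, ha⟩).symm (e ⟨b, hb⟩).symm))
  · rw [show r a = ρ ⟨a, ha⟩ from e ⟨a, ha⟩, IsLocalRing.residue_eq_zero_iff,
      Valuation.mem_maximalIdeal_iff]
  · obtain ⟨a, rfl⟩ := IsLocalRing.residue_surjective z
    exact ⟨a, a.2, e a⟩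

/-- the integers of a subfield -/
def Oi (k : Subfield K) (v : Valuation K Γ) : Subring K := k.toSubring ⊓ v.integer

/-- the inclusion -/
def inc (k : Subfield K) (v : Valuation K Γ) : Oi k v →+* v.integer :=
  Subring.inclusion inf_le_right

namespace Red

variable (h : Red v r)
include h

theorem zero : r 0 = 0 := (h.eq_zero 0 (by simp)).2 (by simp)

/-- the reduction as a ring homomorphism -/
def hom : v.integer →+* R where
  toFun a := r a
  map_one' := h.one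
  map_mul' a b := h.mul _ _ a.2 b.2
  map_zero' := h.zero
  map_add' a b := h.add _ _ a.2 b.2

theorem neg {a : K} (ha : v a ≤ 1) : r (-a) = -r a := map_neg h.hom ⟨a, ha⟩

theorem sub {a b : K} (ha : v a ≤ 1) (hb : v b ≤ 1) : r (a - b) = r a - r b :=
  map_sub h.hom ⟨a, ha⟩ ⟨b, hb⟩

theorem natCast (n : ℕ) : r n = n := map_natCast h.hom n

theorem ne_zero {a : K} (ha : v a = 1) : r a ≠ 0 := fun e =>
  ((h.eq_zero a ha.le).1 e).ne ha

theorem val_one {a : K} (ha : v a ≤ 1) (h0 : r a ≠ 0) : v a = 1 :=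
  ha.antisymm (not_lt.1 fun e => h0 ((h.eq_zero a ha).2 e))

theorem inv {a : K} (ha : v a = 1) : r a⁻¹ = (r a)⁻¹ := by
  have a0 : a ≠ 0 := fun e => by simp [e] at ha
  refine eq_inv_of_mul_eq_one_left ?_
  rw [← h.mul _ _ (by simp [ha]) ha.le, inv_mul_cancel₀ a0, h.one]

theorem eq_iff {a b : K} (ha : v a ≤ 1) (hb : v b ≤ 1) : r a = r b ↔ v (a - b) < 1 := by
  rw [← h.eq_zero _ (v.map_sub_le ha hb), h.sub ha hb, sub_eq_zero]

/-- the reduction on the integers of a subfield -/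
def homk (k : Subfield K) : Oi k v →+* R := h.hom.comp (inc k v)

/-- the residue field of a subfield -/
def img (k : Subfield K) : Subfield R where
  toSubring := (h.homk k).range
  inv_mem' := by
    rintro _ ⟨a, rfl⟩
    by_cases e : r a = 0
    · exact ⟨0, by simp [show h.homk k a = 0 from e]⟩
    · have h1 := h.val_one a.2.2 e
      exact ⟨⟨(a : K)⁻¹, k.inv_mem a.2.1, show v _ ≤ 1 by simp [h1]⟩, h.inv h1⟩

theorem mem_img {k : Subfield K} {z : R} : z ∈ h.img k ↔ ∃ c ∈ k, v c ≤ 1 ∧ r c = z :=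
  ⟨fun ⟨c, e⟩ => ⟨c, c.2.1, c.2.2, e⟩, fun ⟨c, h1, h2, e⟩ => ⟨⟨c, h1, h2⟩, e⟩⟩

theorem mv {k : Subfield K} {ι : Type} (q : MvPolynomial ι (Oi k v)) {X : ι → K}
    (hX : ∀ j, v (X j) ≤ 1) :
    v (MvPolynomial.eval X (q.map (Oi k v).subtype)) ≤ 1 ∧
      r (MvPolynomial.eval X (q.map (Oi k v).subtype)) =
        MvPolynomial.eval (fun j => r (X j)) (q.map (h.homk k)) := by
  let a : v.integer := MvPolynomial.eval₂Hom (inc k v)
    (fun j => (⟨X j, hX j⟩ : v.integer)) q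
  have e : MvPolynomial.eval X (q.map (Oi k v).subtype) = a := by
    rw [MvPolynomial.eval_map]
    exact (MvPolynomial.map_eval₂Hom (inc k v) (fun j => (⟨X j, hX j⟩ : v.integer))
      v.integer.subtype q).symm
  rw [e, MvPolynomial.eval_map]
  exact ⟨a.2, MvPolynomial.map_eval₂Hom _ _ h.hom q⟩

theorem pl {k : Subfield K} (q : (Oi k v)[X]) {x : K} (hx : v x ≤ 1) :
    r ((q.map (Oi k v).subtype).eval x) = (q.map (h.homk k)).eval (r x) := by
  let a : v.integer := q.eval₂ (inc k v) ⟨x, hx⟩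
  have e : (q.map (Oi k v).subtype).eval x = a := by
    rw [eval_map]
    exact (hom_eval₂ q (inc k v) v.integer.subtype ⟨x, hx⟩).symm
  rw [e, eval_map]
  exact hom_eval₂ q _ h.hom _

end Red

theorem mv_lift {A B ι : Type} [CommRing A] [CommRing B] (φ : A →+* B) {f : MvPolynomial ι B}
    (hf : ∀ m, ∃ a, φ a = f.coeff m) : ∃ q : MvPolynomial ι A, q.map φ = f :=
  MvPolynomial.mem_range_map_iff_coeffs_subset.2 fun c hc => by
    obtain ⟨m, -, rfl⟩ := MvPolynomial.mem_coeffs_iff.1 hc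
    exact hf m

theorem norm_fam {α : Type} {c : α → K} (s : Finset α) (hs : ∀ a, a ∉ s → c a = 0)
    (h0 : ∃ a, c a ≠ 0) (hv : ∀ a : K, v a = 0 → a = 0) :
    ∃ m, c m ≠ 0 ∧ ∀ a, v (c a) ≤ v (c m) := by
  obtain ⟨a₀, h0⟩ := h0
  obtain ⟨m, -, hm⟩ := s.exists_max_image (fun a => v (c a)) ⟨a₀, by_contra fun e => h0 (hs _ e)⟩
  have k : ∀ a, v (c a) ≤ v (c m) := fun a => by
    by_cases e : a ∈ s
    · exact hm a e
    · simp [hs a e]
  exact ⟨m, fun e => h0 (hv _ (le_zero_iff.1 (by simpa [e] using k a₀))), k⟩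

theorem le_one_of {a c : K} (h : v a ≤ v c) (hc : c ≠ 0) : v (c⁻¹ * a) ≤ 1 := by
  rw [map_mul, map_inv₀]
  exact inv_mul_le_one_of_le₀ h zero_le'

/-- the Gauss property -/
def Gauss {ι : Type} (k : Subfield K) (v : Valuation K Γ) (X : ι → K) : Prop :=
  ∀ f : MvPolynomial ι K, (∀ m, f.coeff m ∈ k) → ∀ m, v (f.coeff m) ≤ v (MvPolynomial.eval X f)

/-- algebraic independence -/
def Ind {ι : Type} (k : Subfield K) (X : ι → K) : Prop :=
  ∀ f : MvPolynomial ι K, (∀ m, f.coeff m ∈ k) → MvPolynomial.eval X f = 0 → f = 0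

theorem Gauss.ind {ι : Type} {k : Subfield K} {X : ι → K} (h : Gauss k v X) : Ind k X :=
  fun f hf e => MvPolynomial.ext _ _ fun m => by simpa [e] using h f hf m

theorem Gauss.comp {ι ι' : Type} {k : Subfield K} {X : ι → K} (h : Gauss k v X) {e : ι' → ι}
    (he : Function.Injective e) : Gauss k v fun j => X (e j) := fun f hf m => by
  have := h (MvPolynomial.rename e f) (fun d => by
    by_cases c : (MvPolynomial.rename e f).coeff d = 0
    · exact c ▸ zero_mem _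
    · obtain ⟨u, rfl, -⟩ := MvPolynomial.coeff_rename_ne_zero e f d c
      rw [MvPolynomial.coeff_rename_mapDomain e he]
      exact hf u) (m.mapDomain e)
  rwa [MvPolynomial.coeff_rename_mapDomain e he, MvPolynomial.eval_rename] at this

namespace Red

variable (h : Red v r) {k : Subfield K} {ι : Type} {X : ι → K}
include h

theorem ind_of (hX : ∀ j, v (X j) ≤ 1) (g : Gauss k v X) : Ind (h.img k) fun j => r (X j) :=
  fun f hf e => by
  obtain ⟨q, rfl⟩ := mv_lift (h.homk k) hf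
  obtain ⟨e1, e2⟩ := h.mv q hX
  refine MvPolynomial.ext _ _ fun m => ?_
  have := (g _ (fun m => by rw [MvPolynomial.coeff_map]; exact (q.coeff m).2.1) m).trans_lt
    ((h.eq_zero _ e1).1 (e2.trans e))
  rw [MvPolynomial.coeff_map] at this ⊢
  exact (h.eq_zero _ (q.coeff m).2.2).2 this

theorem gauss_of (hX : ∀ j, v (X j) ≤ 1) (g : Ind (h.img k) fun j => r (X j)) : Gauss k v X :=
  fun f hf m => by
  by_cases f0 : f = 0
  · simp [f0]
  obtain ⟨m₀, c0, hm⟩ := norm_fam (v := v) (c := f.coeff) f.support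
    (fun a => MvPolynomial.notMem_support_iff.1) (by
      by_contra! c
      exact f0 (MvPolynomial.ext _ _ c)) fun a => v.zero_iff.1
  obtain ⟨q, hq⟩ := mv_lift (Oi k v).subtype (f := MvPolynomial.C (f.coeff m₀)⁻¹ * f) fun a =>
    ⟨⟨(f.coeff m₀)⁻¹ * f.coeff a, k.mul_mem (k.inv_mem (hf _)) (hf _), le_one_of (hm a) c0⟩,
      (MvPolynomial.coeff_C_mul _ _ _).symm⟩
  obtain ⟨e1, e2⟩ := h.mv q hX
  have e3 := h.val_one e1 fun e => by
    have e4 := congrArg (MvPolynomial.coeff m₀) (g _ (fun m => by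
      rw [MvPolynomial.coeff_map]; exact ⟨_, rfl⟩) (e2.symm.trans e))
    have e5 := congrArg (MvPolynomial.coeff m₀) hq
    rw [MvPolynomial.coeff_map] at e4 e5
    rw [MvPolynomial.coeff_C_mul, inv_mul_cancel₀ c0] at e5
    exact one_ne_zero (h.one.symm.trans ((congrArg r e5).symm.trans e4))
  rw [hq, map_mul, MvPolynomial.eval_C, map_mul, map_inv₀,
    inv_mul_eq_one₀ (v.ne_zero_iff.2 c0)] at e3
  exact e3 ▸ hm m

theorem alg {z : K} (hz : Alg k z) (h1 : v z ≤ 1) : Alg (h.img k) (r z) := by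
  obtain ⟨f, f0, hf, e⟩ := hz
  obtain ⟨m₀, c0, hm⟩ := norm_fam (v := v) (c := f.coeff) f.support
    (fun a => notMem_support_iff.1) (by
      by_contra! c
      exact f0 (Polynomial.ext c)) fun a => v.zero_iff.1
  obtain ⟨q, hq⟩ : C (f.coeff m₀)⁻¹ * f ∈ lifts (Oi k v).subtype :=
    (lifts_iff_coeff_lifts _).2 fun a =>
      ⟨⟨(f.coeff m₀)⁻¹ * f.coeff a, k.mul_mem (k.inv_mem (hf _)) (hf _), le_one_of (hm a) c0⟩,
        (coeff_C_mul _).symm⟩
  rw [coe_mapRingHom] at hq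
  refine ⟨q.map (h.homk k), fun e4 => ?_, fun m => by rw [coeff_map]; exact ⟨_, rfl⟩, by
    rw [← h.pl q h1, hq, eval_mul, e, mul_zero, h.zero]⟩
  have e5 := congrArg (coeff · m₀) hq
  have e6 := congrArg (coeff · m₀) e4
  simp only [coeff_map, coeff_C_mul, inv_mul_cancel₀ c0] at e5 e6
  exact one_ne_zero (h.one.symm.trans ((congrArg r e5).symm.trans e6))

theorem closed [IsAlgClosed k] : IsAlgClosed (h.img k) := by
  refine IsAlgClosed.of_exists_root _ fun p hp hi => ?_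
  obtain ⟨q, q1, q2, q3⟩ := lifts_and_degree_eq_and_monic (f := h.homk k)
    (p := p.map (h.img k).subtype) ((lifts_iff_coeff_lifts _).2 fun a => by
      rw [coeff_map]; exact (p.coeff a).2) (hp.map _)
  let φ : Oi k v →+* k := Subring.inclusion inf_le_left
  obtain ⟨z, hz⟩ := IsAlgClosed.exists_root (q.map φ) (by
    rw [q3.degree_map, q2, degree_map]
    exact (degree_pos_of_irreducible hi).ne')
  have e : (q.map (Oi k v).subtype).eval (z : K) = 0 := by
    have := congrArg k.subtype hz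
    rw [eval_map, hom_eval₂, map_zero] at this
    rw [eval_map]
    exact this
  have hv : v z ≤ 1 := (Valuation.integer.integers v).mem_of_integral
    ⟨q.map (inc k v), q3.map _, by
      rw [eval₂_map]
      rwa [eval_map] at e⟩
  refine ⟨⟨r z, h.mem_img.2 ⟨z, z.2, hv, rfl⟩⟩, (h.img k).subtype.injective ?_⟩
  rw [map_zero, ← eval₂_at_apply, ← eval_map, ← q1]
  exact (h.pl q hv).symm.trans (e.symm ▸ h.zero)

theorem charP {p : ℕ} [Fact p.Prime] (hp : v (p : K) < 1) : CharP R p :=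
  (CharP.charP_iff_prime_eq_zero Fact.out).2
    ((h.natCast p).symm.trans ((h.eq_zero _ hp.le).2 hp))

end Red

theorem mem_of_alg {k : Subfield K} [IsAlgClosed k] {z : K} (h : Alg k z) : z ∈ k := by
  have hi := (alg_iff.1 h).isIntegral
  obtain ⟨c, rfl⟩ := minpoly.mem_range_of_degree_eq_one k z
    (IsAlgClosed.degree_eq_one_of_irreducible k (minpoly.irreducible hi))
  exact c.2

theorem Red.closed_top (h : Red v r) [IsAlgClosed K] (hs : ∀ z, ∃ a, v a ≤ 1 ∧ r a = z) :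
    IsAlgClosed R := by
  have : IsAlgClosed (⊤ : Subfield K) := IsAlgClosed.of_ringEquiv K _ Subfield.topEquiv.symm
  have := h.closed (k := ⊤)
  have e : h.img ⊤ = ⊤ := eq_top_iff.2 fun z _ =>
    let ⟨a, h1, h2⟩ := hs z
    h.mem_img.2 ⟨a, trivial, h1, h2⟩
  rw [e] at this
  exact IsAlgClosed.of_ringEquiv _ R Subfield.topEquiv

/-- residues of algebraic elements -/
theorem res_alg {k L : Subfield K} [IsAlgClosed k] (hk : ∀ c ∈ k, v c ≤ 1)
    (hL : ∀ z ∈ L, v z ≤ 1 → ∃ c ∈ k, v (z - c) < 1) {z : K} (hz : Alg L z) (h1 : v z ≤ 1) :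
    ∃ c ∈ k, v (z - c) < 1 := by
  obtain ⟨R, _, r, h, -⟩ := exists_red v
  have := h.closed (k := k)
  obtain ⟨c, c1, c2, c3⟩ := h.mem_img.1 (mem_of_alg (k := h.img k) ((h.alg hz h1).mono fun a ha => by
    obtain ⟨b, b1, b2, rfl⟩ := h.mem_img.1 ha
    obtain ⟨c, c1, c2⟩ := hL b b1 b2
    exact h.mem_img.2 ⟨c, c1, hk c c1, ((h.eq_iff b2 (hk c c1)).2 c2).symm⟩))
  exact ⟨c, c1, (h.eq_iff h1 c2).1 c3.symm⟩

/-- the composite valuation ring -/
def Red.cmp (h : Red v r) (V : ValuationSubring R) : ValuationSubring K where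
  toSubring := (V.toSubring.comap h.hom).map v.integer.subtype
  mem_or_inv_mem' x := by
    rcases lt_trichotomy (v x) 1 with c | c | c
    · exact .inl ⟨⟨x, c.le⟩, show r x ∈ V from ((h.eq_zero x c.le).2 c).symm ▸ V.zero_mem, rfl⟩
    · exact (V.mem_or_inv_mem (r x)).imp (fun k => ⟨⟨x, c.le⟩, k, rfl⟩) fun k =>
        ⟨⟨x⁻¹, show v _ ≤ 1 by simp [c]⟩, show r x⁻¹ ∈ V from (h.inv c).symm ▸ k, rfl⟩
    · have c' : v x⁻¹ < 1 := by
        rw [map_inv₀]
        exact inv_lt_one_of_one_lt₀ c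
      exact .inr ⟨⟨x⁻¹, c'.le⟩,
        show r x⁻¹ ∈ V from ((h.eq_zero _ c'.le).2 c').symm ▸ V.zero_mem, rfl⟩

theorem Red.mem_cmp (h : Red v r) {V : ValuationSubring R} {z : K} :
    z ∈ h.cmp V ↔ v z ≤ 1 ∧ r z ∈ V :=
  ⟨fun ⟨a, h1, h2⟩ => h2 ▸ ⟨a.2, h1⟩, fun k => ⟨⟨z, k.1⟩, k.2, rfl⟩⟩

theorem val_lt_one {V : ValuationSubring K} {z : K} :
    V.valuation z < 1 ↔ z = 0 ∨ z⁻¹ ∉ V := by
  rw [← V.valuation_le_one_iff, map_inv₀]
  by_cases h : z = 0
  · simp [h]
  · rw [or_iff_right h, not_le, one_lt_inv₀ (zero_lt_iff.2 ((V.valuation.ne_zero_iff).2 h))]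

theorem Red.cmp_lt (h : Red v r) {V : ValuationSubring R} {z : K} (h1 : v z ≤ 1)
    (h2 : V.valuation (r z) < 1) : (h.cmp V).valuation z < 1 := by
  refine val_lt_one.2 (or_iff_not_imp_left.2 fun z0 k => ?_)
  obtain ⟨k1, k2⟩ := h.mem_cmp.1 k
  have e : v z = 1 := h1.antisymm (by
    rwa [map_inv₀, inv_le_one₀ (zero_lt_iff.2 (v.ne_zero_iff.2 z0))] at k1)
  exact (val_lt_one.1 h2).elim (h.ne_zero e) fun c => c (h.inv e ▸ k2)

end St

end P179W
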