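import Vale.Agent.P179W.SetupA
import Vale.Agent.P179W.PtMap

/-!
# P179W : the base field, automorphisms, derivations, reduction of points
-/

set_option linter.all false

open scoped NNReal Classical
open Polynomial Cardinal

noncomputable section

namespace P179W

namespace St

theorem mk_padic (p : ℕ) [Fact p.Prime] : #ℚ_[p] = 𝔠 := by
  refine le_antisymm ?_ (continuum_le_cardinal_of_nontriviallyNormedField _)
  refine (mk_quotient_le (s := CauSeq.equiv (abv := padicNorm p))).trans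
    ((mk_subtype_le _).trans ?_)
  simp

theorem base_ex (h10 : GaussExStmt) (h12 : DiscExtStmt) (p : ℕ) [Fact p.Prime] (ι : Type)
    [Fintype ι] : ∃ (U : Type) (_ : Field U) (_ : IsAlgClosed U) (_ : CharZero U)
    (k0 : Subfield U) (_ : IsAlgClosed k0) (u : ι → U) (w : Valuation U ℝ≥0), w (p : U) < 1 ∧
    (∀ T : Finset U, (T : Set U) ⊆ k0 → ∃ k1 : Subfield U, k1 ≤ k0 ∧ (T : Set U) ⊆ k1 ∧
      (∀ c ∈ k0, Alg k1 c) ∧
      ∃ ϖ ∈ k1, ϖ ≠ 0 ∧ w ϖ < 1 ∧ ∀ c ∈ k1, c ≠ 0 → ∃ m : ℤ, w c = w ϖ ^ m) ∧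
    (∀ j, w (u j) ≤ 1) ∧ Gauss k0 w u ∧ (∀ z, Alg (adj k0 (Set.range u)) z) ∧
    ∀ Om : Subfield U, k0 ≤ Om → IsAlgClosed Om → ∃ i : ℂ →+* U, i.fieldRange = Om := by
  let k := PadicAlgCl p
  let A := MvPolynomial ι k
  let F := FractionRing A
  let U := AlgebraicClosure F
  let g : A →+* U := algebraMap A U
  have hg : Function.Injective g := by
    rw [show g = (algebraMap F U).comp (algebraMap A F) from IsScalarTower.algebraMap_eq A F U]
    exact (algebraMap F U).injective.comp (IsFractionRing.injective A F)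
  let f : k →+* U := g.comp MvPolynomial.C
  let e : k ≃+* f.fieldRange :=
    RingEquiv.ofBijective f.rangeRestrictField f.rangeRestrictField_bijective
  let u : ι → U := fun j => g (MvPolynomial.X j)
  have ev : ∀ q : A, MvPolynomial.eval u (q.map f) = g q := fun q => by
    rw [MvPolynomial.eval_map]
    exact congrArg (fun φ : A →+* U => φ q) (show MvPolynomial.eval₂Hom f u = g from
      MvPolynomial.ringHom_ext (fun c => by simp [f]) fun j => by simp [u])
  have hA : ∀ z, Alg (adj f.fieldRange (Set.range u)) z := fun z => by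
    have m : ∀ q : A, g q ∈ adj f.fieldRange (Set.range u) := fun q => by
      induction q using MvPolynomial.induction_on with
      | C c => exact le_adj _ _ ⟨c, rfl⟩
      | add a b ha hb => exact map_add g a b ▸ add_mem ha hb
      | mul_X a j ha => exact map_mul g a _ ▸ mul_mem ha (right_subset_adj _ _ ⟨j, rfl⟩)
    obtain ⟨q, q0, q1⟩ := (IsFractionRing.isAlgebraic_iff A F U).2
      (Algebra.IsAlgebraic.isAlgebraic z)
    exact ⟨q.map g, (Polynomial.map_ne_zero_iff hg).2 q0, fun j => coeff_map g j ▸ m _,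
      (eval_map g z).trans q1⟩
  obtain ⟨w, w0, w1, w2⟩ := h10 U f.fieldRange
    ((Valued.v : Valuation k ℝ≥0).comap e.symm.toRingHom) ι u (fun q hq h0 => by
      obtain ⟨q, rfl⟩ := mv_lift f hq
      rw [hg ((ev q).symm.trans (h0.trans (map_zero g).symm)), map_zero]) hA
  have wf : ∀ c : k, w (f c) = ‖c‖₊ := fun c =>
    (w0 (e c)).trans (congrArg (fun z : k => ‖z‖₊) (e.symm_apply_apply c))
  have : CharZero U := (RingHom.charZero_iff f.injective).1 inferInstance
  have p1 : (1 : ℝ) < p := Nat.one_lt_cast.2 (Fact.out : p.Prime).one_lt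
  have np : ‖(p : k)‖ = (p : ℝ)⁻¹ := by
    rw [← map_natCast (algebraMap ℚ_[p] k)]
    exact (PadicAlgCl.norm_extends p _).trans Padic.norm_p
  have wp : w (p : U) < 1 := by
    rw [← map_natCast f, wf, ← NNReal.coe_lt_coe, coe_nnnorm, np]
    exact inv_lt_one_of_one_lt₀ p1
  refine ⟨U, inferInstance, inferInstance, this, f.fieldRange, IsAlgClosed.of_ringEquiv k _ e, u,
    w, wp, fun T hT => ?_, w1, w2, hA, fun Om h1 h2 => ?_⟩
  · let f₀ : ℚ_[p] →+* U := f.comp (algebraMap _ k)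
    have al : ∀ c ∈ f.fieldRange, Alg f₀.fieldRange c := by
      rintro _ ⟨c, rfl⟩
      obtain ⟨q, q0, q1⟩ := Algebra.IsAlgebraic.isAlgebraic (R := ℚ_[p]) c
      refine ⟨q.map f₀, (Polynomial.map_ne_zero_iff f₀.injective).2 q0,
        fun j => coeff_map f₀ j ▸ ⟨_, rfl⟩, ?_⟩
      rw [eval_map, ← hom_eval₂, ← aeval_def, q1, map_zero]
    obtain ⟨t, t1, t2, t3, t4⟩ := h12 U ℝ≥0 w f₀.fieldRange T (fun z hz => al z (hT hz))
      ⟨p, natCast_mem _ p, Nat.cast_ne_zero.2 (Fact.out : p.Prime).ne_zero, wp, by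
        rintro _ ⟨c, rfl⟩ hc
        refine ⟨c.valuation, ?_⟩
        rw [map_zpow₀, ← map_natCast f, wf, show f₀ c = f _ from rfl, wf, ← NNReal.coe_inj,
          NNReal.coe_zpow, coe_nnnorm, coe_nnnorm, np, inv_zpow', ← Padic.norm_eq_zpow_neg_valuation
            fun e => hc (by rw [e, map_zero])]
        exact PadicAlgCl.norm_extends p c⟩
    exact ⟨adj f₀.fieldRange T, adj_le.2 ⟨by rintro _ ⟨c, rfl⟩; exact ⟨_, rfl⟩, hT⟩,
      right_subset_adj _ _, fun c hc => (al c hc).mono (le_adj _ _), t, t1, t2, t3,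
      fun c hc c0 => (t4 c hc c0).imp fun m hm => hm.trans (map_zpow₀ w t m)⟩
  · have c1 : #k ≤ 𝔠 := (Algebra.IsAlgebraic.cardinalMk_le_max ℚ_[p] k).trans
      (max_le (mk_padic p).le aleph0_le_continuum)
    have c2 : #U ≤ 𝔠 := (Algebra.IsAlgebraic.cardinalMk_le_max F U).trans (max_le (by
      rw [FractionRing.cardinalMk]
      exact MvPolynomial.cardinalMk_le_max.trans (sup_le (sup_le c1
        ((mk_le_aleph0 (α := ι)).trans aleph0_le_continuum)) aleph0_le_continuum))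
      aleph0_le_continuum)
    have c3 : 𝔠 ≤ #Om := (mk_padic p).ge.trans (mk_le_of_injective
      ((f.comp (algebraMap ℚ_[p] k)).codRestrict Om fun c => h1 ⟨_, rfl⟩).injective)
    obtain ⟨ε⟩ := IsAlgClosed.ringEquiv_of_equiv_of_charZero (K := ℂ) (L := Om)
      (mk_complex ▸ aleph0_lt_continuum) (Cardinal.eq.1 (mk_complex.trans
        (c3.antisymm ((mk_subtype_le _).trans c2))))
    refine ⟨Om.subtype.comp ε.toRingHom, Subfield.ext fun z => ⟨?_, fun hz => ?_⟩⟩
    · rintro ⟨c, rfl⟩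
      exact (ε c).2
    · exact ⟨ε.symm ⟨z, hz⟩, congrArg Subtype.val (ε.apply_symm_apply _)⟩

variable {U : Type} [Field U] {k : Subfield U} {E : WeierstrassCurve U} {ι : Type}

theorem Ind.comp {ι' : Type} {X : ι → U} (h : Ind k X) {e : ι' → ι} (he : Function.Injective e) :
    Ind k fun j => X (e j) := fun f hf h0 =>
  MvPolynomial.rename_injective e he ((h _ (fun d => by
    by_cases c : (MvPolynomial.rename e f).coeff d = 0
    · exact c ▸ zero_mem _
    · obtain ⟨u, rfl, -⟩ := MvPolynomial.coeff_rename_ne_zero e f d c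
      rw [MvPolynomial.coeff_rename_mapDomain e he]
      exact hf u) ((MvPolynomial.eval_rename _ _ _).trans h0)).trans (map_zero _).symm)

/-- the automorphism which permutes a generic tuple -/
theorem perm_aut (h7 : GenMapStmt) [IsAlgClosed U] [Fintype ι] (hE : CoeffIn E k) {X Y : ι → U}
    (h : Gen k E X Y) (hU : ∀ z, Alg (adj k (Set.range X ∪ Set.range Y)) z) (e : ι ≃ ι) :
    ∃ θ : RingAut U, θ ∈ Fix (k : Set U) ∧ ∀ j, θ (X j) = X (e j) ∧ θ (Y j) = Y (e j) := by
  have r : k.subtype.fieldRange = k := Subfield.ext fun z =>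
    ⟨fun ⟨c, h⟩ => h ▸ c.2, fun h => ⟨⟨z, h⟩, rfl⟩⟩
  obtain ⟨f, f1, f2⟩ := h7 U U ι k E E k.subtype hE rfl rfl rfl rfl rfl X Y (fun j => X (e j))
    (fun j => Y (e j)) h (r.symm ▸ ⟨fun j => h.1 _, Ind.comp h.2 e.injective⟩)
  have mX : ∀ j, X j ∈ adj k (Set.range X ∪ Set.range Y) := fun j =>
    right_subset_adj _ _ (.inl ⟨j, rfl⟩)
  have mY : ∀ j, Y j ∈ adj k (Set.range X ∪ Set.range Y) := fun j =>
    right_subset_adj _ _ (.inr ⟨j, rfl⟩)
  obtain ⟨g, hg⟩ := extAut_holds U _ f hU fun z => (hU z).mono (adj_le.2 ⟨fun c hc =>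
    ⟨⟨c, le_adj _ _ hc⟩, f1 ⟨c, hc⟩ _ rfl⟩, by
      rintro _ (⟨j, rfl⟩ | ⟨j, rfl⟩)
      · exact ⟨⟨_, mX (e.symm j)⟩, ((f2 _ _).1 rfl).trans (by simp)⟩
      · exact ⟨⟨_, mY (e.symm j)⟩, ((f2 _ _).2 rfl).trans (by simp)⟩⟩)
  exact ⟨g, fun c hc => (hg ⟨c, le_adj _ _ hc⟩).trans (f1 ⟨c, hc⟩ _ rfl), fun j =>
    ⟨(hg ⟨_, mX j⟩).trans ((f2 _ _).1 rfl), (hg ⟨_, mY j⟩).trans ((f2 _ _).2 rfl)⟩⟩

theorem onSet_pt {S : Set U} {x y : U} (hx : x ∈ S) (hy : y ∈ S) : OnSet S (pt E x y) := by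
  by_cases h : E.toAffine.Nonsingular x y
  · rw [pt_of h]
    exact ⟨hx, hy⟩
  · rw [pt_of_not h]
    trivial

theorem of_onSet {S : Set U} {x y : U} (hΔ : E.Δ ≠ 0) (h : E.toAffine.Equation x y)
    (k : OnSet S (pt E x y)) : x ∈ S ∧ y ∈ S := by
  rwa [pt_of (nonsing_of_Δ hΔ h)] at k

theorem OnSet.le {S S' : Set U} (h : S ⊆ S') {P : E.toAffine.Point} (k : OnSet S P) :
    OnSet S' P := by
  cases P
  · trivial
  · exact ⟨h k.1, h k.2⟩

theorem pt_inj (hΔ : E.Δ ≠ 0) {x y x' y' : U} (h : E.toAffine.Equation x y)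
    (h' : E.toAffine.Equation x' y') (e : pt E x y = pt E x' y') : x = x' ∧ y = y' := by
  rw [pt_of (nonsing_of_Δ hΔ h), pt_of (nonsing_of_Δ hΔ h')] at e
  exact WeierstrassCurve.Affine.Point.some.inj e

/-- the points with coordinates in a subfield -/
def grp (h8 : IndepStmt) (hE : CoeffIn E k) (hΔ : E.Δ ≠ 0) : AddSubgroup E.toAffine.Point :=
  (h8 U k E hE hΔ).1.choose

theorem mem_grp {h8 : IndepStmt} {hE : CoeffIn E k} {hΔ : E.Δ ≠ 0} {P : E.toAffine.Point} :
    P ∈ grp h8 hE hΔ ↔ OnSet (k : Set U) P := (h8 U k E hE hΔ).1.choose_spec P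

/-- first change of the generic tuple -/
theorem chg1 (h8 : IndepStmt) [Fintype ι] (hE : CoeffIn E k) (hΔ : E.Δ ≠ 0) {u v : ι → U}
    (hg : Gen k E u v) {A : E.toAffine.Point} (hA : OnSet (k : Set U) A) (o : ι) :
    ∃ X Y : ι → U, pt E (X o) (Y o) = pt E (u o) (v o) + A ∧
      (∀ j, j ≠ o → pt E (X j) (Y j) = pt E (u o) (v o) + A - pt E (u j) (v j)) ∧ Gen k E X Y ∧
      adj k (Set.range X ∪ Set.range Y) = adj k (Set.range u ∪ Set.range v) := by
  have hF := AmbGal.cmono hE (left_subset_adj (k : Set U) (Set.range u ∪ Set.range v))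
  have m : ∀ j, pt E (u j) (v j) ∈ grp h8 hF hΔ := fun j => mem_grp.2
    (onSet_pt (right_subset_adj _ _ (.inl ⟨j, rfl⟩)) (right_subset_adj _ _ (.inr ⟨j, rfl⟩)))
  have mA : A ∈ grp h8 hF hΔ := mem_grp.2 (OnSet.le (left_subset_adj _ _) hA)
  obtain ⟨X, Y, h1, h2, h3⟩ := (h8 U k E hE hΔ).2 ι u v hg (fun j => if j = o then
      pt E (u o) (v o) + A else pt E (u o) (v o) + A - pt E (u j) (v j)) (fun j => by
    split_ifs
    exacts [mem_grp.1 (add_mem (m o) mA), mem_grp.1 (sub_mem (add_mem (m o) mA) (m j))]) fun j => by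
      by_cases c : j = o
      · exact Set.mem_of_eq_of_mem (c ▸ (add_sub_cancel_right (pt E (u o) (v o)) A).symm)
          (sub_mem (AddSubgroup.subset_closure (.inl ⟨o, if_pos rfl⟩))
            (AddSubgroup.subset_closure (.inr hA)))
      · exact Set.mem_of_eq_of_mem (sub_sub_cancel (pt E (u o) (v o) + A) (pt E (u j) (v j))).symm
          (sub_mem (AddSubgroup.subset_closure (.inl ⟨o, if_pos rfl⟩))
            (AddSubgroup.subset_closure (.inl ⟨j, if_neg c⟩)))
  exact ⟨X, Y, (h1 o).symm.trans (if_pos rfl), fun j c => (h1 j).symm.trans (if_neg c), h2, h3⟩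

/-- second change of the generic tuple -/
theorem chg2 (h8 : IndepStmt) [Fintype ι] (hE : CoeffIn E k) (hΔ : E.Δ ≠ 0) {u v : ι → U}
    (hg : Gen k E u v) {A : ι → E.toAffine.Point} (hA : ∀ j, OnSet (k : Set U) (A j)) :
    ∃ X Y : ι → U, (∀ j, pt E (u j) (v j) - A j = pt E (X j) (Y j)) ∧ Gen k E X Y ∧
      adj k (Set.range X ∪ Set.range Y) = adj k (Set.range u ∪ Set.range v) := by
  have hF := AmbGal.cmono hE (left_subset_adj (k : Set U) (Set.range u ∪ Set.range v))
  refine (h8 U k E hE hΔ).2 ι u v hg _ (fun j => (mem_grp (h8 := h8) (hE := hF) (hΔ := hΔ)).1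
    (sub_mem (mem_grp.2 (onSet_pt (right_subset_adj _ _ (.inl ⟨j, rfl⟩))
      (right_subset_adj _ _ (.inr ⟨j, rfl⟩)))) (mem_grp.2 (OnSet.le (left_subset_adj _ _) (hA j)))))
    fun j => ?_
  exact Set.mem_of_eq_of_mem (sub_add_cancel (pt E (u j) (v j)) (A j)).symm
    (add_mem (AddSubgroup.subset_closure (.inl ⟨j, rfl⟩))
      (AddSubgroup.subset_closure (.inr (hA j))))

/-- the action of an automorphism on the points -/
def autHom (g : U →+* U) (h : CoeffIn E {z | g z = z}) : E.toAffine.Point →+ E.toAffine.Point :=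
  AddMonoidHom.mk' (ptFun g E) (ptMap_holds U U g E E
    (WeierstrassCurve.ext h.1 h.2.1 h.2.2.1 h.2.2.2.1 h.2.2.2.2)).1

theorem autHom_pt (g : U →+* U) (h : CoeffIn E {z | g z = z}) (x y : U) :
    autHom g h (pt E x y) = pt E (g x) (g y) := (ptMap_holds U U g E E
    (WeierstrassCurve.ext h.1 h.2.1 h.2.2.1 h.2.2.2.1 h.2.2.2.2)).2.1 x y

theorem eqn_aut (g : U →+* U) (h : CoeffIn E {z | g z = z}) {x y : U}
    (e : E.toAffine.Equation x y) : E.toAffine.Equation (g x) (g y) := by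
  have := congrArg g (AmbGal.eqn e)
  simp only [map_add, map_mul, map_pow] at this
  rw [h.1, h.2.1, h.2.2.1, h.2.2.2.1, h.2.2.2.2] at this
  exact (E.toAffine.equation_iff _ _).2 this

theorem autHom_fix (g : U →+* U) (h : CoeffIn E {z | g z = z}) {P : E.toAffine.Point}
    (hP : OnSet {z | g z = z} P) : autHom g h P = P := by
  cases P with
  | zero => rfl
  | some x y hn => rw [← pt_of hn, autHom_pt, hP.1, hP.2]

/-! ### derivations -/

/-- the equaliser of two derivations -/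
def eqF (δ δ' : Derivation ℤ U U) : Subfield U where
  carrier := {z | δ z = δ' z}
  one_mem' := by simp
  zero_mem' := by simp
  mul_mem' {a b} (ha : _ = _) (hb : _ = _) := show _ = _ by
    rw [δ.leibniz, δ'.leibniz, ha, hb]
  add_mem' {a b} (ha : _ = _) (hb : _ = _) := show _ = _ by rw [map_add, map_add, ha, hb]
  neg_mem' {a} (ha : _ = _) := show _ = _ by rw [map_neg, map_neg, ha]
  inv_mem' a (ha : _ = _) := show _ = _ by rw [δ.leibniz_inv, δ'.leibniz_inv, ha]

theorem der_ext (h11 : DerExtStmt) [CharZero U] {u : ι → U}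
    (hU : ∀ z, Alg (adj k (Set.range u)) z) {δ δ' : Derivation ℤ U U} (h : ∀ c ∈ k, δ c = δ' c)
    (h' : ∀ j, δ (u j) = δ' (u j)) : δ = δ' :=
  (h11 U _ hU).1 δ δ' ((adj_le (L := eqF δ δ')).2 ⟨h, by rintro _ ⟨j, rfl⟩; exact h' j⟩)

theorem der_ex (h11 : DerExtStmt) [CharZero U] {u : ι → U} (hu : Ind k u)
    (hU : ∀ z, Alg (adj k (Set.range u)) z) (c : ι → U) :
    ∃ δ : Derivation ℤ U U, (∀ a ∈ k, δ a = 0) ∧ ∀ j, δ (u j) = c j := by
  have ev : ∀ q : MvPolynomial ι k, MvPolynomial.eval u (q.map k.subtype) =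
      MvPolynomial.aeval u q := fun q => MvPolynomial.eval_map _ _ _
  have hi : AlgebraicIndependent k u := (injective_iff_map_eq_zero _).2 fun q hq =>
    MvPolynomial.map_injective k.subtype k.subtype.injective ((hu _ (fun m => by
      rw [MvPolynomial.coeff_map]; exact (q.coeff m).2) ((ev q).trans hq)).trans (map_zero _).symm)
  let φ : MvPolynomial ι k →ₐ[k] DualNumber U :=
    MvPolynomial.aeval fun j => TrivSqZeroExt.inl (u j) + TrivSqZeroExt.inr (c j)
  have f1 : ∀ q, (φ q).fst = MvPolynomial.aeval u q := fun q =>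
    congrArg (fun ψ : MvPolynomial ι k →ₐ[k] U => ψ q)
      (show (TrivSqZeroExt.fstHom k U U).comp φ = MvPolynomial.aeval u from
        MvPolynomial.algHom_ext fun j => by simp [φ])
  let ψ : FractionRing (MvPolynomial ι k) →+* DualNumber U :=
    IsLocalization.lift (M := nonZeroDivisors (MvPolynomial ι k)) (g := φ.toRingHom) fun q =>
      TrivSqZeroExt.isUnit_iff_isUnit_fst.2 (isUnit_iff_ne_zero.2 fun e =>
        nonZeroDivisors.coe_ne_zero q (hi (((f1 q).symm.trans e).trans (map_zero _).symm)))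
  have p1 : ∀ q, ψ (algebraMap _ _ q) = φ q := fun q => IsLocalization.lift_eq _ q
  have p2 : ∀ a, (ψ a).fst = hi.aevalEquivField a := fun a =>
    congrArg (fun χ : FractionRing (MvPolynomial ι k) →+* U => χ a)
      (show (TrivSqZeroExt.fstHom k U U).toRingHom.comp ψ =
        (IntermediateField.adjoin k (Set.range u)).val.toRingHom.comp
          hi.aevalEquivField.toRingEquiv.toRingHom from
        IsLocalization.ringHom_ext (nonZeroDivisors (MvPolynomial ι k)) (RingHom.ext fun q =>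
          ((congrArg TrivSqZeroExt.fst (p1 q)).trans (f1 q)).trans
            (hi.aevalEquivField_algebraMap_apply_coe q).symm))
  let χ : IntermediateField.adjoin k (Set.range u) →+* DualNumber U :=
    ψ.comp hi.aevalEquivField.symm.toRingEquiv.toRingHom
  have c1 : ∀ z, (χ z).fst = z := fun z => (p2 _).trans
    (congrArg Subtype.val (hi.aevalEquivField.apply_symm_apply z))
  have c2 : ∀ q z, z.1 = MvPolynomial.aeval u q → χ z = φ q := fun q z e => by
    rw [← p1, show z = hi.aevalEquivField (algebraMap _ _ q) from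
      Subtype.ext (e.trans (hi.aevalEquivField_algebraMap_apply_coe q).symm)]
    exact congrArg ψ (hi.aevalEquivField.symm_apply_apply _)
  rw [adj_eq_adjoin] at hU
  obtain ⟨δ, hδ⟩ := (h11 U _ hU).2.1 (fun z => (χ z).snd)
    (fun a b => (congrArg TrivSqZeroExt.snd (map_add χ a b)).trans (TrivSqZeroExt.snd_add _ _))
    fun a b => (congrArg TrivSqZeroExt.snd (map_mul χ a b)).trans (by
      rw [DualNumber.snd_mul, c1, c1, mul_comm (χ a).snd])
  refine ⟨δ, fun a ha => ?_, fun j => ?_⟩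
  · refine (hδ ⟨a, (IntermediateField.adjoin k _).algebraMap_mem ⟨a, ha⟩⟩).trans ?_
    rw [c2 (MvPolynomial.C ⟨a, ha⟩) _ (by simp; rfl)]
    simp [φ, TrivSqZeroExt.algebraMap_eq_inl']
  · refine (hδ ⟨u j, IntermediateField.subset_adjoin _ _ ⟨j, rfl⟩⟩).trans ?_
    rw [c2 (MvPolynomial.X j) _ (by simp)]
    simp [φ]

/-- the conjugate of a derivation -/
def cj (θ : RingAut U) (δ : Derivation ℤ U U) : Derivation ℤ U U :=
  Derivation.mk' (AddMonoidHom.mk' (fun z => θ (δ (θ.symm z))) fun a b => by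
    rw [map_add, map_add, map_add]).toIntLinearMap fun a b => by
      show θ (δ (θ.symm (a * b))) = a • θ (δ (θ.symm b)) + b • θ (δ (θ.symm a))
      simp

theorem cj_apply (θ : RingAut U) (δ : Derivation ℤ U U) (z : U) : cj θ δ (θ z) = θ (δ z) :=
  congrArg (fun a => θ (δ a)) (θ.symm_apply_apply z)

/-! ### reduction of points -/

variable {R Γ : Type} [Field R] [LinearOrderedCommGroupWithZero Γ] {v : Valuation U Γ} {r : U → R}

/-- good reduction -/
structure Good (v : Valuation U Γ) (r : U → R) (E : WeierstrassCurve U) : Prop where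
  red : Red v r
  int : CoeffIn E {z | v z ≤ 1}
  vΔ : v E.Δ = 1

/-- the reduced curve -/
def rE (r : U → R) (E : WeierstrassCurve U) : WeierstrassCurve R :=
  ⟨r E.a₁, r E.a₂, r E.a₃, r E.a₄, r E.a₆⟩

namespace Good

variable (h2 : PtRedStmt) (h : Good v r E)
include h

theorem Δ_ne : E.Δ ≠ 0 := fun e => by simpa [e] using h.vΔ

theorem psi_le {x y : U} (hx : v x ≤ 1) (hy : v y ≤ 1) : v (psi E x y) ≤ 1 := by
  have : psi E x y ∈ v.integer := add_mem (add_mem (mul_mem (natCast_mem _ 2) hy)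
    (mul_mem h.int.1 hx)) h.int.2.2.1
  exact this

theorem phi_le {x y : U} (hx : v x ≤ 1) (hy : v y ≤ 1) : v (phi E x y) ≤ 1 := by
  have : phi E x y ∈ v.integer := sub_mem (add_mem (add_mem
    (mul_mem (natCast_mem _ 3) (pow_mem hx 2)) (mul_mem (mul_mem (natCast_mem _ 2) h.int.2.1) hx))
    h.int.2.2.2.1) (mul_mem h.int.1 hy)
  exact this

theorem r_psi {x y : U} (hx : v x ≤ 1) (hy : v y ≤ 1) :
    r (psi E x y) = psi (rE r E) (r x) (r y) := by
  have := map_add h.red.hom (2 * ⟨y, hy⟩ + ⟨_, h.int.1⟩ * ⟨x, hx⟩) ⟨_, h.int.2.2.1⟩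
  rw [map_add _ (2 * _), map_mul, map_mul, map_ofNat] at this
  exact this

include h2

theorem y_le {x y : U} (e : E.toAffine.Equation x y) (hx : v x ≤ 1) : v y ≤ 1 :=
  (h2 U Γ v E h.int h.vΔ).1 x y e hx

theorem all : (rE r E).Δ ≠ 0 ∧ (∀ x y, E.toAffine.Equation x y → v x ≤ 1 →
    (rE r E).toAffine.Nonsingular (r x) (r y)) ∧ ∀ P Q : E.toAffine.Point,
      ptRed {z | v z ≤ 1} r (rE r E) (P + Q) =
        ptRed {z | v z ≤ 1} r (rE r E) P + ptRed {z | v z ≤ 1} r (rE r E) Q :=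
  (h2 U Γ v E h.int h.vΔ).2.1 R r _ h.red.one h.red.add h.red.mul h.red.eq_zero rfl rfl rfl rfl rfl

/-- the reduction of points -/
def ρ : E.toAffine.Point →+ (rE r E).toAffine.Point :=
  AddMonoidHom.mk' (ptRed {z | v z ≤ 1} r (rE r E)) (h.all h2).2.2

theorem ρ_pt {x y : U} (e : E.toAffine.Equation x y) (hx : v x ≤ 1) :
    h.ρ h2 (pt E x y) = pt (rE r E) (r x) (r y) := by
  rw [pt_of (nonsing_of_Δ h.Δ_ne e)]
  exact if_pos hx

theorem of_ρ {P : E.toAffine.Point} (h0 : h.ρ h2 P ≠ 0) :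
    ∃ x y hn, P = .some x y hn ∧ v x ≤ 1 := by
  cases P with
  | zero => exact (h0 rfl).elim
  | some x y hn => exact ⟨x, y, hn, rfl, by_contra fun c => h0 (if_neg c)⟩

theorem of_ρ_pt {x y : U} (e : E.toAffine.Equation x y) {a b : R}
    (e' : (rE r E).toAffine.Equation a b) (k : h.ρ h2 (pt E x y) = pt (rE r E) a b) :
    v x ≤ 1 ∧ r x = a ∧ r y = b := by
  have hx : v x ≤ 1 := by
    obtain ⟨x', y', hn, e1, e2⟩ := h.of_ρ h2 (P := pt E x y) (by
      rw [k, pt_of (nonsing_of_Δ (h.all h2).1 e')]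
      exact WeierstrassCurve.Affine.Point.some_ne_zero _)
    rw [pt_of (nonsing_of_Δ h.Δ_ne e)] at e1
    exact (WeierstrassCurve.Affine.Point.some.inj e1).1 ▸ e2
  exact ⟨hx, pt_inj (h.all h2).1 ((h.all h2).2.1 x y e hx).1 e' ((h.ρ_pt h2 e hx).symm.trans k)⟩

end Good

end St

end P179W
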