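import Vale.Agent.P179W.SetupB

/-!
# P179W : the curve, the derivations
-/

set_option linter.all false

open scoped NNReal Classical
open Polynomial

noncomputable section

namespace P179W

namespace St

variable {U : Type} [Field U] {k : Subfield U} {E : WeierstrassCurve U} {ι : Type}

theorem exists_y [IsAlgClosed U] (E : WeierstrassCurve U) (x : U) :
    ∃ y, E.toAffine.Equation x y := by
  obtain ⟨y, hy⟩ := IsAlgClosed.exists_root (X ^ 2 + (C (E.a₁ * x + E.a₃) * X +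
    C (-(x ^ 3 + E.a₂ * x ^ 2 + E.a₄ * x + E.a₆)))) (by
      rw [degree_add_eq_left_of_degree_lt, degree_X_pow]
      · decide
      · rw [degree_X_pow]
        exact degree_linear_le.trans_lt (by decide))
  refine ⟨y, (E.toAffine.equation_iff _ _).2 ?_⟩
  simp only [IsRoot, eval_add, eval_pow, eval_mul, eval_C, eval_X] at hy
  linear_combination hy

theorem psi_sq {x y : U} (h : E.toAffine.Equation x y) : psi E x y ^ 2 =
    (E.a₁ * x + E.a₃) ^ 2 + 4 * (x ^ 3 + E.a₂ * x ^ 2 + E.a₄ * x + E.a₆) := by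
  unfold psi
  linear_combination 4 * AmbGal.eqn h

theorem Δ_mem (hE : CoeffIn E k) : E.Δ ∈ k := by
  let E' : WeierstrassCurve k :=
    ⟨⟨_, hE.1⟩, ⟨_, hE.2.1⟩, ⟨_, hE.2.2.1⟩, ⟨_, hE.2.2.2.1⟩, ⟨_, hE.2.2.2.2⟩⟩
  rw [show E = E'.map k.subtype from rfl, WeierstrassCurve.map_Δ]
  exact E'.Δ.2

/-- the polynomials with coefficients in `k` -/
def mvIn (k : Subfield U) (ι : Type) : Subring (MvPolynomial ι U) :=
  (MvPolynomial.map k.subtype).range

theorem mvIn_coeff {f : MvPolynomial ι U} (h : f ∈ mvIn k ι) (m : ι →₀ ℕ) : f.coeff m ∈ k := by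
  obtain ⟨q, rfl⟩ := h
  rw [MvPolynomial.coeff_map]
  exact (q.coeff m).2

theorem mvIn_C {c : U} (h : c ∈ k) : MvPolynomial.C c ∈ mvIn k ι :=
  ⟨MvPolynomial.C ⟨c, h⟩, MvPolynomial.map_C _ _⟩

theorem mvIn_X (j : ι) : MvPolynomial.X j ∈ mvIn k ι := ⟨MvPolynomial.X j, MvPolynomial.map_X _ _⟩

variable {X : ι → U}

theorem Ind.ne (h : Ind k X) {j l : ι} (e : j ≠ l) : X j ≠ X l := fun c =>
  e (MvPolynomial.X_injective (sub_eq_zero.1 (h _ (mvIn_coeff (sub_mem (mvIn_X j) (mvIn_X l)))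
    (by simp [c]))))

theorem Ind.ne' (h : Ind k X) (j : ι) {c : U} (hc : c ∈ k) : X j ≠ c := fun e => by
  have := congrArg (MvPolynomial.eval fun _ => c + 1)
    (h _ (mvIn_coeff (sub_mem (mvIn_X j) (mvIn_C hc))) (by simp [e]))
  simp at this

theorem Ind.psi_ne (h : Ind k X) (hE : CoeffIn E k) {j : ι} {y a b : U}
    (e : E.toAffine.Equation (X j) y) (e' : E.toAffine.Equation a b) (h0 : psi E a b ≠ 0) :
    psi E (X j) y ≠ 0 := fun c => by
  obtain ⟨a1, a2, a3, a4, a6⟩ := hE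
  have hX := mvIn_X (k := k) j
  have := congrArg (MvPolynomial.eval fun _ => a) (h _ (mvIn_coeff (add_mem (pow_mem (add_mem
    (mul_mem (mvIn_C a1) hX) (mvIn_C a3)) 2) (mul_mem (mvIn_C (natCast_mem k 4)) (add_mem (add_mem
      (add_mem (pow_mem hX 3) (mul_mem (mvIn_C a2) (pow_mem hX 2))) (mul_mem (mvIn_C a4) hX))
      (mvIn_C a6))))) (by
    simp only [map_add, map_mul, map_pow, MvPolynomial.eval_C, MvPolynomial.eval_X, Nat.cast_ofNat]
    rw [← psi_sq e, c, zero_pow two_ne_zero]))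
  simp only [map_add, map_mul, map_pow, MvPolynomial.eval_C, MvPolynomial.eval_X, Nat.cast_ofNat,
    map_zero] at this
  exact pow_ne_zero 2 h0 ((psi_sq e').trans this)

variable {R : Type} [Field R] {w : Valuation U ℝ≥0} {r : U → R}

theorem ord_push (h5 : OrdinaryStmt) [IsAlgClosed U] (φ : U →+* R) (p : ℕ) [hp : Fact p.Prime]
    [CharP U p] (M : ℕ) : ∃ E₀ : WeierstrassCurve U, E₀.Δ ≠ 0 ∧
      (∃ α β, E₀.toAffine.Equation α β ∧ psi E₀ α β ≠ 0) ∧ ∀ E', E₀.map φ = E' →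
      ∃ τ : E'.toAffine.Point, OnSet (Set.range φ) τ ∧ addOrderOf τ = p ^ M := by
  obtain ⟨E₀, d0, hτ⟩ := h5 p U
  obtain ⟨τ, t1⟩ := hτ M
  obtain ⟨τ₂, t2⟩ := hτ 2
  have p4 : 2 < p ^ 2 := by nlinarith [hp.out.two_le]
  refine ⟨E₀, d0, ?_, fun E' e1 => ?_⟩
  · cases τ₂ with
    | zero =>
      rw [show (WeierstrassCurve.Affine.Point.zero : E₀.toAffine.Point) = 0 from rfl,
        addOrderOf_zero] at t2
      omega
    | some α β hn =>
      refine ⟨α, β, hn.1, fun c => ?_⟩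
      have := addOrderOf_dvd_of_nsmul_eq_zero (n := 2) ((two_nsmul _).trans
        (WeierstrassCurve.Affine.Point.add_self_of_Y_eq (h₁ := hn) (by
          unfold psi at c
          rw [WeierstrassCurve.Affine.negY]
          linear_combination c)))
      exact (Nat.le_of_dvd two_pos (t2 ▸ this)).not_gt p4
  · obtain ⟨m1, -, m3⟩ := ptMap_holds _ _ φ E₀ _ e1
    refine ⟨AddMonoidHom.mk' (ptFun φ E') m1 τ, ?_, (addOrderOf_injective _ m3 τ).trans t1⟩
    cases τ with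
    | zero => trivial
    | some x y hn => exact onSet_pt ⟨x, rfl⟩ ⟨y, rfl⟩

theorem curve_ex (h5 : OrdinaryStmt) (h2 : PtRedStmt) [IsAlgClosed U] [IsAlgClosed k]
    (h : Red w r) {p : ℕ} [hp : Fact p.Prime] (wp : w (p : U) < 1) (M : ℕ) :
    ∃ (E : WeierstrassCurve U) (a b : U) (τ : (rE r E).toAffine.Point), Good w r E ∧ CoeffIn E k ∧
      a ∈ k ∧ b ∈ k ∧ E.toAffine.Equation a b ∧ w a ≤ 1 ∧ w (psi E a b) = 1 ∧
      OnSet (h.img k : Set R) τ ∧ addOrderOf τ = p ^ M := by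
  have := h.closed (k := k)
  have := h.charP wp
  have : CharP (h.img k) p := (h.img k).subtype.charP (h.img k).subtype.injective p
  obtain ⟨E₀, d0, ⟨α, β, e2, e3⟩, hτ⟩ := ord_push h5 (h.img k).subtype p M
  choose l hl using fun c : h.img k => (c.2 : ∃ q, h.homk k q = c)
  let E₁ : WeierstrassCurve (Oi k w) := ⟨l E₀.a₁, l E₀.a₂, l E₀.a₃, l E₀.a₄, l E₀.a₆⟩
  have e1 : E₀.map (h.img k).subtype = rE r (E₁.map (Oi k w).subtype) :=
    WeierstrassCurve.ext (hl _).symm (hl _).symm (hl _).symm (hl _).symm (hl _).symm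
  have g : Good w r (E₁.map (Oi k w).subtype) := ⟨h,
    ⟨(l _).2.2, (l _).2.2, (l _).2.2, (l _).2.2, (l _).2.2⟩, by
      rw [WeierstrassCurve.map_Δ]
      refine h.val_one E₁.Δ.2.2 fun c => d0 ((h.img k).subtype.injective ?_)
      rw [← WeierstrassCurve.map_Δ, e1, map_zero, ← c]
      exact E₁.map_Δ (h.homk k)⟩
  have hE : CoeffIn (E₁.map (Oi k w).subtype) k :=
    ⟨(l _).2.1, (l _).2.1, (l _).2.1, (l _).2.1, (l _).2.1⟩
  obtain ⟨τ, t1, t2⟩ := hτ _ e1
  obtain ⟨b, hb⟩ := exists_y (E₁.map (Oi k w).subtype) (l α)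
  have wb := g.y_le h2 hb (l α).2.2
  refine ⟨_, l α, b, τ, g, hE, (l α).2.1,
    mem_of_alg (AmbGal.alg_y hE hb (l α).2.1), hb, (l α).2.2,
    h.val_one (g.psi_le (l α).2.2 wb) fun c => e3 ?_,
    OnSet.le (Set.range_subset_iff.2 fun c => c.2) t1, t2⟩
  · have e4 := psi_sq ((g.all h2).2.1 _ _ hb (l α).2.2).1
    rw [← g.r_psi (l α).2.2 wb, c, show r (l α) = α from hl α, ← e1] at e4
    refine pow_eq_zero_iff two_ne_zero |>.1 ((psi_sq e2).trans ((h.img k).subtype.injective ?_))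
    rw [map_zero, ← zero_pow two_ne_zero, e4]
    simp only [map_add, map_mul, map_pow, map_ofNat]
    rfl

variable [Fintype ι] {u v : ι → U}

/-- integral elements of the function field -/
theorem tower_ind (h11 : GaussTowerStmt) (g : Good w r E) (hE : CoeffIn E k)
    (e : ∀ j, E.toAffine.Equation (u j) (v j)) (wu : ∀ j, w (u j) ≤ 1) (hg : Gauss k w u)
    (P : Subring U) (h1 : ∀ c ∈ k, w c ≤ 1 → c ∈ P) (h2 : ∀ j, u j ∈ P ∧ v j ∈ P) {z : U}
    (hz : z ∈ adj k (Set.range u ∪ Set.range v)) (wz : w z ≤ 1) :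
    ∃ a ∈ P, ∃ b ∈ P, w b = 1 ∧ z * b = a := by
  obtain ⟨a, ha, b, hb, k1⟩ := (h11 U k E ι u v w hE g.int g.vΔ e wu hg).2.1 z hz wz
  have : Subring.closure ({c | c ∈ k ∧ w c ≤ 1} ∪ (Set.range u ∪ Set.range v)) ≤ P :=
    Subring.closure_le.2 (Set.union_subset (fun c hc => h1 c hc.1 hc.2) (Set.union_subset (Set.range_subset_iff.2 fun j => (h2 j).1)
      (Set.range_subset_iff.2 fun j => (h2 j).2)))
  exact ⟨a, this ha, b, this hb, k1⟩

/-- the preimage of a subring of the residue field -/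
def Red.pre (h : Red w r) (S : Subring R) : Subring U := (S.comap h.hom).map w.integer.subtype

theorem Red.mem_pre (h : Red w r) {S : Subring R} {z : U} : z ∈ h.pre S ↔ w z ≤ 1 ∧ r z ∈ S :=
  ⟨fun ⟨a, h1, h2⟩ => h2 ▸ ⟨a.2, h1⟩, fun k => ⟨⟨z, k.1⟩, k.2, rfl⟩⟩

theorem red_adj (h2 : PtRedStmt) (h11 : GaussTowerStmt) (g : Good w r E) (hE : CoeffIn E k)
    (e : ∀ j, E.toAffine.Equation (u j) (v j)) (wu : ∀ j, w (u j) ≤ 1) (hg : Gauss k w u) :
    g.red.img (adj k (Set.range u ∪ Set.range v)) ≤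
      adj (g.red.img k) (Set.range (fun j => r (u j)) ∪ Set.range fun j => r (v j)) := by
  generalize hF : adj _ (Set.range (fun j => r (u j)) ∪ Set.range fun j => r (v j)) = F
  obtain ⟨f1, f2⟩ := adj_le.1 hF.le
  intro _ h0
  obtain ⟨z, hz, wz, rfl⟩ := g.red.mem_img.1 h0
  obtain ⟨a, ha, b, hb, k1, k2⟩ := tower_ind h11 g hE e wu hg (g.red.pre F.toSubring)
    (fun c hc wc => g.red.mem_pre.2 ⟨wc, f1 (g.red.mem_img.2 ⟨c, hc, wc, rfl⟩)⟩)
    (fun j => ⟨g.red.mem_pre.2 ⟨wu j, f2 (.inl ⟨j, rfl⟩)⟩, g.red.mem_pre.2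
      ⟨g.y_le h2 (e j) (wu j), f2 (.inr ⟨j, rfl⟩)⟩⟩) hz wz
  have e1 : r z * r b = r a := (g.red.mul _ _ wz k1.le).symm.trans (congrArg r k2)
  rw [eq_div_of_mul_eq (g.red.ne_zero k1) e1]
  exact F.div_mem (g.red.mem_pre.1 ha).2 (g.red.mem_pre.1 hb).2

/-- the elements which are integral together with their derivatives -/
def derInt (w : Valuation U ℝ≥0) (δ : Derivation ℤ U U) : Subring U where
  carrier := {a | a ∈ w.integer ∧ δ a ∈ w.integer}
  one_mem' := ⟨one_mem _, δ.map_one_eq_zero ▸ zero_mem _⟩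
  zero_mem' := ⟨zero_mem _, (map_zero δ).symm ▸ zero_mem _⟩
  add_mem' ha hb := ⟨add_mem ha.1 hb.1, map_add δ _ _ ▸ add_mem ha.2 hb.2⟩
  neg_mem' ha := ⟨neg_mem ha.1, map_neg δ _ ▸ neg_mem ha.2⟩
  mul_mem' ha hb := ⟨mul_mem ha.1 hb.1,
    δ.leibniz _ _ ▸ add_mem (mul_mem ha.1 hb.2) (mul_mem hb.1 ha.2)⟩

theorem der_w (h2 : PtRedStmt) (h11 : GaussTowerStmt) (g : Good w r E) (hE : CoeffIn E k)
    (e : ∀ j, E.toAffine.Equation (u j) (v j)) (wu : ∀ j, w (u j) ≤ 1) (hg : Gauss k w u)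
    {δ : Derivation ℤ U U} (h0 : ∀ c ∈ k, δ c = 0) (h1 : ∀ j, w (δ (u j)) ≤ 1 ∧ w (δ (v j)) ≤ 1)
    {z : U} (hz : z ∈ adj k (Set.range u ∪ Set.range v)) : w (δ z) ≤ w z := by
  by_cases z0 : z = 0
  · simp [z0]
  obtain ⟨c, hc, e1⟩ := (h11 U k E ι u v w hE g.int g.vΔ e wu hg).1 z hz
  have c0 : c ≠ 0 := fun h => z0 (by simpa [h] using e1)
  have wz := le_one_of e1.le c0
  obtain ⟨a, ha, b, hb, k1, k2⟩ := tower_ind h11 g hE e wu hg (derInt w δ)
    (fun c hc wc => ⟨wc, h0 c hc ▸ zero_mem _⟩) (fun j => ⟨⟨wu j, (h1 j).1⟩,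
      g.y_le h2 (e j) (wu j), (h1 j).2⟩) (mul_mem (inv_mem (le_adj _ _ hc)) hz) wz
  have e2 : b * (c⁻¹ * δ z) = δ a - c⁻¹ * z * δ b := by
    rw [← k2, δ.leibniz, δ.leibniz, h0 _ (inv_mem hc)]
    simp
  have e3 : w (b * (c⁻¹ * δ z)) ≤ 1 := e2 ▸ (sub_mem ha.2 (mul_mem wz hb.2) : _ ∈ w.integer)
  rwa [map_mul, k1, one_mul, map_mul, map_inv₀,
    inv_mul_le_iff₀ (zero_lt_iff.2 (w.ne_zero_iff.2 c0)), mul_one, ← e1] at e3

theorem aut_w (h11 : GaussTowerStmt) (g : Good w r E) (hE : CoeffIn E k)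
    (e : ∀ j, E.toAffine.Equation (u j) (v j)) (wu : ∀ j, w (u j) ≤ 1) (hg : Gauss k w u)
    {θ : RingAut U} (h0 : θ ∈ Fix (k : Set U)) (s : ι ≃ ι) (h1 : ∀ j, θ (u j) = u (s j)) :
    ∀ z ∈ adj k (Set.range u ∪ Set.range v), w (θ z) = w z :=
  (h11 U k E ι u v w hE g.int g.vΔ e wu hg).2.2.2 (w.comap (θ : U →+* U))
    (fun c hc => congrArg w (h0 c hc)) (fun j => (congrArg w (h1 j)).trans_le (wu _))
    fun f hf m => by
      have e1 : f.map (θ : U →+* U) = f := MvPolynomial.ext _ _ fun m =>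
        (MvPolynomial.coeff_map _ _ _).trans (h0 _ (hf m))
      refine (congrArg w (h0 _ (hf m))).trans_le ((hg.comp s.injective f hf m).trans_eq
        (congrArg w ?_))
      rw [MvPolynomial.map_eval, e1]
      exact congrArg (MvPolynomial.eval · f) (funext fun j => (h1 j).symm)

/-- the invariant derivations -/
theorem ders (h11 : DerExtStmt) [CharZero U] (hE : CoeffIn E k) (hΔ : E.Δ ≠ 0) (hg : Gen k E u v)
    (hU : ∀ z, Alg (adj k (Set.range u)) z) {a b : U} (ha : a ∈ k)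
    (e : E.toAffine.Equation a b) (h0 : psi E a b ≠ 0) :
    ∃ (D : ι → Derivation ℤ U U) (lam : ι → E.toAffine.Point →+ U), (∀ j, ∀ c ∈ k, D j c = 0) ∧
      (∀ j x y, E.toAffine.Equation x y → D j x = lam j (pt E x y) * psi E x y ∧
        D j y = lam j (pt E x y) * phi E x y) ∧
      (∀ j l, lam j (pt E (u l) (v l)) = if j = l then 1 else 0) ∧
      (∀ j, lam j (pt E a b) = 0) ∧ (∀ j l z, D j (D l z) = D l (D j z)) ∧
      ∀ (θ : RingAut U) (s : ι ≃ ι), θ ∈ Fix (k : Set U) →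
        (∀ j, θ (u j) = u (s j) ∧ θ (v j) = v (s j)) → ∀ j z, θ (D j z) = D (s j) (θ z) := by
  choose D d1 d2 using fun j =>
    der_ex h11 hg.2 hU fun l => if j = l then psi E (u l) (v l) else 0
  choose lam hl using fun j => lambda_holds U E (D j) hΔ
    (AmbGal.cmono hE (S' := {z | D j z = 0}) (d1 j))
  have l1 : ∀ j l, lam j (pt E (u l) (v l)) = if j = l then 1 else 0 := fun j l =>
    mul_right_cancel₀ (Ind.psi_ne hg.2 hE (hg.1 l) e h0) (by
      rw [← (hl j _ _ (hg.1 l)).1, d2, ite_mul, one_mul, zero_mul])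
  refine ⟨D, lam, d1, hl, l1, fun j => (mul_eq_zero.1 ((hl j _ _ e).1.symm.trans
    (d1 j a ha))).resolve_right h0, fun j l z => ?_, fun θ s t1 t2 j z => ?_⟩
  · have dp : ∀ j l, j ≠ l → D j (psi E (u l) (v l)) = 0 := fun j l c => by
      rw [psi, map_add, map_add, (D j).leibniz, (D j).leibniz, der_two, d1 j _ hE.1,
        d1 j _ hE.2.2.1, (hl j _ _ (hg.1 l)).1, (hl j _ _ (hg.1 l)).2, l1, if_neg c]
      simp
    have k1 : ∀ j l m, j ≠ l → D j (D l (u m)) = 0 := fun j l m c => by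
      rw [d2]
      split_ifs with c'
      exacts [dp j m (c' ▸ c), map_zero _]
    by_cases c : j = l
    · rw [c]
    refine sub_eq_zero.1 (DFunLike.congr_fun (der_ext h11 hU (δ := ⁅D j, D l⁆) (δ' := 0)
      (fun a ha => ?_) fun m => ?_) z)
    · rw [Derivation.commutator_apply, d1 j a ha, d1 l a ha, map_zero, map_zero, sub_self,
        Derivation.zero_apply]
    · rw [Derivation.commutator_apply, k1 j l m c, k1 l j m (Ne.symm c), sub_self,
        Derivation.zero_apply]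
  · rw [← cj_apply, der_ext h11 hU (δ := cj θ (D j)) (δ' := D (s j)) (fun a ha => ?_) fun m => ?_]
    · rw [← t1 a ha, cj_apply, t1 a ha, d1 _ a ha, d1 _ a ha, map_zero]
    · obtain ⟨m, rfl⟩ := s.surjective m
      rw [← (t2 m).1, cj_apply, (t2 m).1, d2, d2]
      simp only [s.injective.eq_iff]
      split_ifs
      · rw [psi, psi, map_add, map_add, map_mul, map_mul, map_ofNat, (t2 m).1, (t2 m).2,
          t1 _ hE.1, t1 _ hE.2.2.1]
      · exact map_zero _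

end St

end P179W
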