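import Vale.Agent.P179W.SetupC

/-!
# P179W : the generic pointed curve
-/

set_option linter.all false

open scoped NNReal Classical
open Polynomial

noncomputable section

namespace P179W

namespace St

theorem iff_of_pow {U : Type} [Field U] {K : Subfield U} {θ : RingAut U} {n : ℕ} (hn : n ≠ 0)
    (h1 : ∀ z ∈ K, θ z ∈ K) (h2 : θ ^ n ∈ Fix (K : Set U)) (z : U) : z ∈ K ↔ θ z ∈ K := by
  refine ⟨h1 z, fun h => ?_⟩
  have k : ∀ m : ℕ, ∀ z ∈ K, (θ ^ m) z ∈ K := fun m => by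
    induction m with
    | zero => exact fun z hz => hz
    | succ m ih => exact fun z hz => pow_succ θ m ▸ ih _ (h1 z hz)
  obtain ⟨m, rfl⟩ := Nat.exists_eq_add_one_of_ne_zero hn
  have e := h2 _ h
  rw [pow_succ'] at e
  exact θ.injective e ▸ k m _ h

/-- the data of the generic tuple -/
structure Dat (n : ℕ) (U R : Type) [Field U] [Field R] where
  k : Subfield U
  E : WeierstrassCurve U
  w : Valuation U ℝ≥0
  r : U → R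
  u : ZMod n → U
  v : ZMod n → U
  X : ZMod n → U
  Y : ZMod n → U
  a : U
  b : U
  θ : RingAut U
  g : Good w r E
  hE : CoeffIn E k
  ha : a ∈ k
  hb : b ∈ k
  eab : E.toAffine.Equation a b
  wa : w a ≤ 1
  wψ : w (psi E a b) = 1
  euv : ∀ j, E.toAffine.Equation (u j) (v j)
  wu : ∀ j, w (u j) ≤ 1
  gu : Gauss k w u
  alg : ∀ z, Alg (adj k (Set.range u)) z
  X0 : pt E (X 0) (Y 0) = pt E (u 0) (v 0) + pt E a b
  Xj : ∀ j, j ≠ 0 → pt E (X j) (Y j) = pt E (u 0) (v 0) + pt E a b - pt E (u j) (v j)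
  eXY : ∀ j, E.toAffine.Equation (X j) (Y j)
  hadj : adj k (Set.range X ∪ Set.range Y) = adj k (Set.range u ∪ Set.range v)
  θk : θ ∈ Fix (k : Set U)
  θu : ∀ j, θ (u j) = u (j + 1) ∧ θ (v j) = v (j + 1)

namespace Dat

variable {n : ℕ} {U R : Type} [Field U] [Field R] (d : Dat n U R)

def xP (j : ZMod n) : U := if j = 0 then d.a else d.X j

def yP (j : ZMod n) : U := if j = 0 then d.b else d.Y j

def X' (j : {j : ZMod n // j ≠ 0}) : U := d.X j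

def Y' (j : {j : ZMod n // j ≠ 0}) : U := d.Y j

abbrev Kt : Subfield U := adj d.k (Set.range d.xP ∪ Set.range d.yP)

abbrev Ft : Subfield U := adj d.k (Set.range d.u ∪ Set.range d.v)

abbrev yy (j : ZMod n) : d.E.toAffine.Point := pt d.E (d.u j) (d.v j)

abbrev PP (j : ZMod n) : d.E.toAffine.Point := pt d.E (d.xP j) (d.yP j)

theorem xP0 : d.xP 0 = d.a := if_pos rfl

theorem yP0 : d.yP 0 = d.b := if_pos rfl

theorem xPj {j : ZMod n} (h : j ≠ 0) : d.xP j = d.X j := if_neg h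

theorem yPj {j : ZMod n} (h : j ≠ 0) : d.yP j = d.Y j := if_neg h

theorem eP (j : ZMod n) : d.E.toAffine.Equation (d.xP j) (d.yP j) := by
  by_cases h : j = 0
  · rw [h, xP0, yP0]
    exact d.eab
  · rw [d.xPj h, d.yPj h]
    exact d.eXY j

theorem PP_eq (j : ZMod n) : d.PP j = d.yy 0 + pt d.E d.a d.b - d.yy j := by
  by_cases h : j = 0
  · rw [h, PP, xP0, yP0, add_sub_cancel_left]
  · rw [PP, d.xPj h, d.yPj h]
    exact d.Xj j h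

theorem PP_sub : d.PP 0 - d.PP 1 = d.yy 1 - d.yy 0 := by
  rw [PP_eq, PP_eq]
  abel

theorem mKt (j : ZMod n) : d.xP j ∈ d.Kt ∧ d.yP j ∈ d.Kt :=
  ⟨right_subset_adj _ _ (.inl ⟨j, rfl⟩), right_subset_adj _ _ (.inr ⟨j, rfl⟩)⟩

theorem Kt_eq : d.Kt = adj d.k (Set.range d.X' ∪ Set.range d.Y') := by
  refine le_antisymm (adj_le.2 ⟨left_subset_adj _ _, ?_⟩) (adj_mono le_rfl ?_)
  · rintro _ (⟨j, rfl⟩ | ⟨j, rfl⟩) <;> by_cases h : j = 0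
    · exact left_subset_adj _ _ (h ▸ d.xP0 ▸ d.ha)
    · exact right_subset_adj _ _ (.inl ⟨⟨j, h⟩, (d.xPj h).symm⟩)
    · exact left_subset_adj _ _ (h ▸ d.yP0 ▸ d.hb)
    · exact right_subset_adj _ _ (.inr ⟨⟨j, h⟩, (d.yPj h).symm⟩)
  · rintro _ (⟨j, rfl⟩ | ⟨j, rfl⟩)
    exacts [.inl ⟨j, d.xPj j.2⟩, .inr ⟨j, d.yPj j.2⟩]

theorem Kt_le : d.Kt ≤ d.Ft := by
  rw [Kt_eq, Ft, ← d.hadj]
  refine adj_mono le_rfl ?_
  rintro _ (⟨j, rfl⟩ | ⟨j, rfl⟩)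
  exacts [.inl ⟨j, rfl⟩, .inr ⟨j, rfl⟩]

theorem Ft_eq : adj d.k (Set.range d.xP ∪ Set.range d.yP ∪ {d.X 0, d.Y 0}) = d.Ft := by
  refine le_antisymm (adj_le.2 ⟨left_subset_adj _ _, Set.union_subset
    ((right_subset_adj _ _).trans d.Kt_le) ?_⟩) (d.hadj.ge.trans (adj_mono le_rfl ?_))
  · rintro _ (rfl | rfl)
    exacts [d.hadj.le (right_subset_adj _ _ (.inl ⟨0, rfl⟩)),
      d.hadj.le (right_subset_adj _ _ (.inr ⟨0, rfl⟩))]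
  · rintro _ (⟨j, rfl⟩ | ⟨j, rfl⟩) <;> by_cases h : j = 0
    exacts [.inr (.inl (congrArg _ h)), .inl (.inl ⟨j, d.xPj h⟩), .inr (.inr (congrArg _ h)),
      .inl (.inr ⟨j, d.yPj h⟩)]

theorem algF (z : U) : Alg d.Ft z := (d.alg z).mono (adj_mono le_rfl Set.subset_union_left)

/-! ### the automorphism -/

theorem θE : CoeffIn d.E {z | (d.θ : U →+* U) z = z} := AmbGal.cmono d.hE d.θk

/-- the action on points -/
abbrev Θ : d.E.toAffine.Point →+ d.E.toAffine.Point := autHom (d.θ : U →+* U) d.θE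

theorem Θ_yy (j : ZMod n) : d.Θ (d.yy j) = d.yy (j + 1) :=
  (autHom_pt _ _ _ _).trans (congrArg₂ (pt d.E) (d.θu j).1 (d.θu j).2)

theorem Θ_P : d.Θ (pt d.E d.a d.b) = pt d.E d.a d.b :=
  (autHom_pt _ _ _ _).trans (congrArg₂ (pt d.E) (d.θk _ d.ha) (d.θk _ d.hb))

theorem θ_a : pt d.E (d.θ (d.X 0)) (d.θ (d.Y 0)) = pt d.E (d.X 0) (d.Y 0) + (d.PP 0 - d.PP 1) := by
  refine (autHom_pt _ d.θE _ _).symm.trans ?_
  rw [PP_sub, d.X0, map_add, Θ_yy, Θ_P, zero_add]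
  abel

theorem θ_P' (j : ZMod n) : pt d.E (d.θ (d.xP j)) (d.θ (d.yP j)) =
    d.yy 1 + pt d.E d.a d.b - d.yy (j + 1) := by
  refine (autHom_pt _ d.θE _ _).symm.trans ((congrArg _ (d.PP_eq j)).trans ?_)
  rw [map_sub, map_add, Θ_yy, Θ_yy, Θ_P, zero_add]

theorem θ_P (j : ZMod n) : pt d.E (d.θ (d.xP j)) (d.θ (d.yP j)) =
    d.PP (j + 1) + (d.PP 0 - d.PP 1) := by
  rw [θ_P', PP_sub, PP_eq]
  abel

theorem θ_pow : d.θ ^ n ∈ Fix (d.Ft : Set U) := by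
  have k : ∀ (m : ℕ) j, (d.θ ^ m) (d.u j) = d.u (j + m) ∧ (d.θ ^ m) (d.v j) = d.v (j + m) :=
    fun m => by
      induction m with
      | zero => simp
      | succ m ih =>
        intro j
        rw [pow_succ', Nat.cast_succ, ← add_assoc, ← (d.θu _).1, ← (d.θu _).2, ← (ih j).1,
          ← (ih j).2]
        exact ⟨rfl, rfl⟩
  refine mem_Fix_adj.2 ⟨pow_mem d.θk n, ?_⟩
  rintro _ (⟨j, rfl⟩ | ⟨j, rfl⟩)
  · simpa using (k n j).1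
  · simpa using (k n j).2

variable [NeZero n]

theorem θ_Ft : ∀ z, z ∈ d.Ft ↔ d.θ z ∈ d.Ft :=
  iff_of_pow (NeZero.ne n) (map_adj (d.θ : U →+* U)
    (fun c hc => le_adj _ _ ((d.θk c hc).symm ▸ hc : d.θ c ∈ d.k)) (by
      rintro _ (⟨j, rfl⟩ | ⟨j, rfl⟩)
      exacts [right_subset_adj _ _ (.inl ⟨_, (d.θu j).1.symm⟩),
        right_subset_adj _ _ (.inr ⟨_, (d.θu j).2.symm⟩)])) d.θ_pow

theorem θ_Kt (h8 : IndepStmt) : ∀ z, z ∈ d.Kt ↔ d.θ z ∈ d.Kt := by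
  have hK := AmbGal.cmono d.hE (le_adj d.k (Set.range d.xP ∪ Set.range d.yP))
  have m : ∀ j, d.PP j ∈ grp h8 hK d.g.Δ_ne := fun j =>
    mem_grp.2 (onSet_pt (d.mKt j).1 (d.mKt j).2)
  have m' : ∀ j, d.θ (d.xP j) ∈ d.Kt ∧ d.θ (d.yP j) ∈ d.Kt := fun j =>
    of_onSet d.g.Δ_ne (eqn_aut _ d.θE (d.eP j)) (mem_grp.1
      (Set.mem_of_eq_of_mem (d.θ_P j) (add_mem (m _) (sub_mem (m 0) (m 1)))))
  refine iff_of_pow (NeZero.ne n) (map_adj (d.θ : U →+* U)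
    (fun c hc => le_adj _ _ ((d.θk c hc).symm ▸ hc : d.θ c ∈ d.k)) ?_) (Fix_anti d.Kt_le d.θ_pow)
  rintro _ (⟨j, rfl⟩ | ⟨j, rfl⟩)
  exacts [(m' j).1, (m' j).2]

theorem θ_w (h11 : GaussTowerStmt) : ∀ z ∈ d.Ft, d.w (d.θ z) = d.w z :=
  aut_w h11 d.g d.hE d.euv d.wu d.gu d.θk (Equiv.addRight 1) fun j => (d.θu j).1

/-! ### reduction -/

abbrev kb : Subfield R := d.g.red.img d.k

abbrev Eb : WeierstrassCurve R := rE d.r d.E

omit [NeZero n] in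
theorem mkb {c : U} (h : c ∈ d.k) (h' : d.w c ≤ 1) : d.r c ∈ d.kb :=
  d.g.red.mem_img.2 ⟨c, h, h', rfl⟩

omit [NeZero n] in
theorem hEb : CoeffIn d.Eb d.kb :=
  ⟨d.mkb d.hE.1 d.g.int.1, d.mkb d.hE.2.1 d.g.int.2.1, d.mkb d.hE.2.2.1 d.g.int.2.2.1,
    d.mkb d.hE.2.2.2.1 d.g.int.2.2.2.1, d.mkb d.hE.2.2.2.2 d.g.int.2.2.2.2⟩

variable (h2 : PtRedStmt)
include h2

omit [NeZero n] in
theorem genb : Gen d.kb d.Eb (fun j => d.r (d.u j)) fun j => d.r (d.v j) :=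
  ⟨fun j => ((d.g.all h2).2.1 _ _ (d.euv j) (d.wu j)).1, d.g.red.ind_of d.wu d.gu⟩

omit [NeZero n] in
theorem wb : d.w d.b ≤ 1 := d.g.y_le h2 d.eab d.wa

omit [NeZero n] in
theorem eabb : d.Eb.toAffine.Equation (d.r d.a) (d.r d.b) :=
  ((d.g.all h2).2.1 _ _ d.eab d.wa).1

omit [NeZero n] in
theorem ψb : psi d.Eb (d.r d.a) (d.r d.b) ≠ 0 :=
  (d.g.r_psi d.wa (d.wb h2)).symm.trans_ne (d.g.red.ne_zero d.wψ)

variable (h8 : IndepStmt)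
include h8

theorem redX : (∀ j, d.w (d.X j) ≤ 1) ∧ Ind d.kb fun j => d.r (d.X j) := by
  obtain ⟨X, Y, e0, e1, e2, -⟩ := chg1 h8 d.hEb (d.g.all h2).1 (d.genb h2)
    (onSet_pt (d.mkb d.ha d.wa) (d.mkb d.hb (d.wb h2))) 0
  have k : ∀ j, d.w (d.X j) ≤ 1 ∧ d.r (d.X j) = X j ∧ d.r (d.Y j) = Y j := fun j =>
    d.g.of_ρ_pt h2 (d.eXY j) (e2.1 j) (by
      by_cases h : j = 0
      · rw [h, d.X0, e0, map_add, d.g.ρ_pt h2 (d.euv _) (d.wu _), d.g.ρ_pt h2 d.eab d.wa]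
      · rw [d.Xj j h, e1 j h, map_sub, map_add, d.g.ρ_pt h2 (d.euv _) (d.wu _),
          d.g.ρ_pt h2 d.eab d.wa, d.g.ρ_pt h2 (d.euv _) (d.wu _)])
  exact ⟨fun j => (k j).1, (funext fun j => (k j).2.1 : (fun j => d.r (d.X j)) = X) ▸ e2.2⟩

theorem gX : Gauss d.k d.w d.X := d.g.red.gauss_of (d.redX h2 h8).1 (d.redX h2 h8).2

theorem wP (j : ZMod n) : d.w (d.xP j) ≤ 1 := by
  unfold xP
  split_ifs
  exacts [d.wa, (d.redX h2 h8).1 j]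

theorem wP_sub (j l : ZMod n) (h : j ≠ l) : d.w (d.xP j - d.xP l) = 1 := by
  refine d.g.red.val_one (d.w.map_sub_le (d.wP h2 h8 j) (d.wP h2 h8 l)) ?_
  rw [d.g.red.sub (d.wP h2 h8 j) (d.wP h2 h8 l), sub_ne_zero]
  have i := (d.redX h2 h8).2
  unfold xP
  split_ifs with c c' c'
  exacts [(h (c.trans c'.symm)).elim, (i.ne' l (d.mkb d.ha d.wa)).symm, i.ne' j (d.mkb d.ha d.wa),
    i.ne h]

theorem wP_psi (j : ZMod n) : d.w (psi d.E (d.xP j) (d.yP j)) = 1 := by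
  by_cases h : j = 0
  · rw [h, xP0, yP0, d.wψ]
  have h1 := (d.redX h2 h8).1 j
  have h3 := d.g.y_le h2 (d.eXY j) h1
  rw [d.xPj h, d.yPj h]
  refine d.g.red.val_one (d.g.psi_le h1 h3) ((d.g.r_psi h1 h3).trans_ne ?_)
  exact (d.redX h2 h8).2.psi_ne d.hEb ((d.g.all h2).2.1 _ _ (d.eXY j) h1).1 (d.eabb h2) (d.ψb h2)

theorem gX' : Gauss d.k d.w d.X' := (d.gX h2 h8).comp Subtype.val_injective

theorem gauss (h11 : GaussTowerStmt) {Om : Subfield U} (h : ∀ z ∈ Om, Alg d.Kt z) :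
    ∀ f : U[X], (∀ k, f.coeff k ∈ Om) → ∀ k, d.w (f.coeff k) ≤ d.w (f.eval (d.X 0)) := by
  refine (h11 U d.k d.E _ d.X d.Y d.w d.hE d.g.int d.g.vΔ d.eXY (d.redX h2 h8).1
    (d.gX h2 h8)).2.2.1 0 Om fun z hz => (h z hz).trans fun c hc => ?_
  rw [Kt_eq] at hc
  refine alg_adj ?_ c (adj_mono (left_subset_adj _ (d.X '' {l | l ≠ 0})) le_rfl hc)
  have m : ∀ j, d.X' j ∈ adj d.k (d.X '' {l | l ≠ 0}) := fun j =>
    right_subset_adj _ _ ⟨j, j.2, rfl⟩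
  rintro _ (⟨j, rfl⟩ | ⟨j, rfl⟩)
  exacts [alg_of_mem (m j), AmbGal.alg_y (AmbGal.cmono d.hE (left_subset_adj _ _)) (d.eXY j) (m j)]

theorem D_w (h11 : GaussTowerStmt) {δ : Derivation ℤ U U} (h0 : ∀ c ∈ d.k, δ c = 0)
    {c : ZMod n → U} (hc : ∀ l, d.w (c l) ≤ 1)
    (h1 : ∀ l, δ (d.xP l) = c l * psi d.E (d.xP l) (d.yP l) ∧
      δ (d.yP l) = c l * phi d.E (d.xP l) (d.yP l)) : ∀ z ∈ d.Kt, d.w (δ z) ≤ d.w z := by
  intro z hz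
  refine der_w (u := d.X') (v := d.Y') h2 h11 d.g d.hE (fun j => d.eXY j.1)
    (fun j => (d.redX h2 h8).1 j.1) (d.gX' h2 h8) h0 (fun j => ?_) (d.Kt_eq.le hz)
  have e1 := d.wP h2 h8 j
  have e2 := d.g.y_le h2 (d.eP j) e1
  rw [X', Y', ← d.xPj j.2, ← d.yPj j.2, (h1 j).1, (h1 j).2, map_mul, map_mul]
  exact ⟨mul_le_one' (hc j) (d.g.psi_le e1 e2), mul_le_one' (hc j) (d.g.phi_le e1 e2)⟩

omit h2 h8 in
theorem val_k0 (h9 : ArchStmt) (h11 : GaussTowerStmt) [IsAlgClosed d.k] (z : U) :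
    ∃ c ∈ d.k, d.w z = d.w c := by
  by_cases z0 : z = 0
  · exact ⟨0, zero_mem _, z0 ▸ rfl⟩
  obtain ⟨m, m0, c, hc, -, e⟩ := h9 U _ d.w _ z (d.algF z) z0
  obtain ⟨c', hc', e'⟩ := (h11 U d.k d.E _ d.u d.v d.w d.hE d.g.int d.g.vΔ d.euv d.wu d.gu).1 c hc
  obtain ⟨t, ht⟩ := IsAlgClosed.exists_pow_nat_eq (⟨c', hc'⟩ : d.k) m0
  refine ⟨t, t.2, (pow_left_inj₀ zero_le' zero_le' m0.ne').1 ?_⟩
  rw [← map_pow, ← map_pow, e, e']
  exact congrArg (fun a : d.k => d.w a) ht.symm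

end Dat

end St

end P179W
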