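import Vale.Agent.P179W.Setup
import Vale.Agent.P179W.PtRed
import Vale.Agent.P179W.Ord
import Vale.Agent.P179W.Gen
import Vale.Agent.P179W.Indep
import Vale.Agent.P179W.AmbVal2
import Vale.Agent.P179W.GaussEx
import Vale.Agent.P179W.GaussTower
import Vale.Agent.P179W.InvVal
import Vale.Agent.P179W.Der

namespace P179W

theorem setup_holds : SetupStmt :=
  setup_of ptRed_holds ordinary_holds genMap_holds indep_holds arch_holds gaussEx_holds
    gaussTower_holds (invVal_of genMap_holds) derExt_holds discExt_holds

end P179W
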