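import Vale.Agent.P179W.AmbGal
import Vale.Agent.P179W.Bound

/-!
# P179W : the spectral lemma, abstract part (coordinates, cyclic vectors)
-/

set_option linter.all false

open scoped NNReal Classical
open Filter Topology Finset

noncomputable section

namespace P179W

namespace SpecH

variable {U : Type} [Field U] {w : Valuation U ℝ≥0} {F : Subfield U}

/-- A linear form is bounded for the sup norm over the conjugates. -/
theorem form_le [CharZero U] [IsAlgClosed U] (w : Valuation U ℝ≥0) (hA : ∀ z, Alg F z)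
    (L : IntermediateField F U) [FiniteDimensional F L] (φ : L →ₗ[F] F) :
    ∃ C : ℝ≥0, ∀ (z : L) (t : ℝ≥0), (∀ g ∈ Fix (F : Set U), w (g z) ≤ t) → w (φ z) ≤ C * t := by
  have := isAlgebraic_of_alg hA
  have : Algebra.IsAlgebraic L U := Algebra.IsAlgebraic.tower_top (K := F) L
  obtain ⟨y, hy⟩ := ((Algebra.traceForm F L).toDual (traceForm_nondegenerate F L)).surjective φ
  refine ⟨∑ σ : L →ₐ[F] U, w (σ y), fun z t h => ?_⟩
  have h1 : ((φ z : F) : U) = ∑ σ : L →ₐ[F] U, σ (y * z) := by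
    rw [← trace_eq_sum_embeddings U, ← hy]
    rfl
  rw [h1]
  refine Valuation.map_sum_le _ fun σ _ => ?_
  obtain ⟨ψ, hψ⟩ := IsAlgClosed.surjective_domRestrict_of_isAlgebraic (K := F) (L := L) (M := U)
    (E := U) σ
  have h2 := h _ ((fixEquiv F).symm (AlgEquiv.ofBijective ψ
    (Algebra.IsAlgebraic.algHom_bijective ψ))).2
  have h3 : σ z = ψ z := by rw [← hψ]; rfl
  rw [map_mul, map_mul, h3]
  exact mul_le_mul' (single_le_sum (f := fun σ : L →ₐ[F] U => w (σ y)) (fun _ _ => zero_le)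
    (mem_univ σ)) h2

/-- The coordinates are bounded for the sup norm over the conjugates. -/
theorem coord_le [CharZero U] [IsAlgClosed U] (w : Valuation U ℝ≥0) (hA : ∀ z, Alg F z)
    (L : IntermediateField F U) [FiniteDimensional F L] {ι : Type} [Fintype ι] {v : ι → U}
    (hv : LinearIndependent F v) (hL : ∀ i, v i ∈ L) :
    ∃ C : ℝ≥0, ∀ (c : ι → U) (t : ℝ≥0), (∀ i, c i ∈ F) →
      (∀ g ∈ Fix (F : Set U), w (g (∑ i, c i * v i)) ≤ t) → ∀ i, w (c i) ≤ C * t := by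
  obtain ⟨Φ, hΦ⟩ := LinearMap.exists_leftInverse_of_injective (Fintype.linearCombination F v)
    (LinearMap.ker_eq_bot.2 (linearIndependent_iff_injective_fintypeLinearCombination.1 hv))
  choose C hC using fun i =>
    form_le w hA L ((LinearMap.proj i).comp (Φ.comp L.val.toLinearMap))
  refine ⟨∑ i, C i, fun c t hc h i => ?_⟩
  have h1 := hC i ⟨∑ i, c i * v i, sum_mem fun j _ =>
    mul_mem (L.algebraMap_mem ⟨c j, hc j⟩) (hL j)⟩ t h
  have h2 : Φ (∑ i, c i * v i) = fun i => ⟨c i, hc i⟩ := by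
    have h4 := LinearMap.congr_fun hΦ fun i => ⟨c i, hc i⟩
    rwa [LinearMap.comp_apply, Fintype.linearCombination_apply] at h4
  have h3 : ((LinearMap.proj i).comp (Φ.comp L.val.toLinearMap) ⟨∑ i, c i * v i, sum_mem fun j _ =>
    mul_mem (L.algebraMap_mem ⟨c j, hc j⟩) (hL j)⟩ : F) = ⟨c i, hc i⟩ := congr_fun h2 i
  rw [h3] at h1
  exact h1.trans (mul_le_mul' (single_le_sum (fun _ _ => zero_le) (mem_univ i)) le_rfl)

/-- the shift of a sequence -/
def sh (c : ℕ → U) : ℕ → U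
  | 0 => 0
  | j + 1 => c j

theorem step (δ : Derivation ℤ U U) {π : U} {e b : ℕ → U} {m : ℕ}
    (he : ∀ j, π * δ (e j) = e (j + 1)) (hb : e m = ∑ j ∈ range m, b j * e j) (c : ℕ → U) :
    π * δ (∑ j ∈ range m, c j * e j) =
      ∑ j ∈ range m, (π * δ (c j) + sh c j + c (m - 1) * b j) * e j := by
  rcases m with _ | m
  · simp
  have h1 : ∀ j, π * δ (c j * e j) = π * δ (c j) * e j + c j * e (j + 1) := fun j => by
    rw [δ.leibniz, ← he, smul_eq_mul, smul_eq_mul]; ring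
  simp only [map_sum, mul_sum, h1, add_mul, sum_add_distrib, Nat.add_sub_cancel]
  rw [add_assoc, sum_range_succ (fun j => c j * e (j + 1)), sum_range_succ' (fun j => sh c j * e j),
    hb, mul_sum]
  simp only [sh, zero_mul, add_zero, mul_assoc]

/-- existence of a cyclic relation -/
theorem exists_rel (L : IntermediateField F U) [FiniteDimensional F L] {u : ℕ → U}
    (hu : ∀ j, u j ∈ L) : ∃ m, LinearIndependent F (fun j : Fin m => u j) ∧
      ∃ a : ℕ → U, (∀ j, a j ∈ F) ∧ u m = ∑ j ∈ range m, a j * u j := by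
  have h1 : ∃ m, ¬LinearIndependent F (fun j : Fin m => u j) := by
    refine ⟨Module.finrank F L + 1, fun h => ?_⟩
    have h2 := (LinearIndependent.of_comp L.val.toLinearMap
      (v := fun j : Fin (Module.finrank F L + 1) => (⟨u j, hu j⟩ : L)) h).fintype_card_le_finrank
    simp at h2
  obtain ⟨m, hm, hm'⟩ := Nat.exists_not_and_succ_of_not_zero_of_exists
    (p := fun m => ¬LinearIndependent F (fun j : Fin m => u j))
    (not_not.2 linearIndependent_empty_type) h1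
  rw [not_not] at hm
  refine ⟨m, hm, ?_⟩
  rw [linearIndependent_finSucc', not_and, not_not] at hm'
  obtain ⟨a, ha⟩ := (Submodule.mem_span_range_iff_exists_fun F).1 (hm' hm)
  refine ⟨fun j => if h : j < m then a ⟨j, h⟩ else 0, fun j => ?_, ?_⟩
  · dsimp only
    split_ifs
    · exact (a _).2
    · exact F.zero_mem
  · rw [sum_range]
    simp only [Fin.is_lt, dif_pos]
    exact ha.symm

/-- the choice of the scaling factor -/
theorem exists_scale {k0 : Set U} (h1 : (1 : U) ∈ k0)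
    (hr : ∀ a : U, a ≠ 0 → ∀ m, 0 < m → ∃ ρ ∈ k0, w ρ ^ m * w a = 1) (m : ℕ) (a : ℕ → U) :
    ∃ π ∈ k0, π ≠ 0 ∧ w π ≤ 1 ∧ (∀ j < m, w (π ^ (m - j) * a j) ≤ 1) ∧
      (w π < 1 → ∃ j < m, w (π ^ (m - j) * a j) = 1) := by
  have h : ∀ j, ∃ ρ ∈ k0, (j < m ∧ w ρ ^ (m - j) * w (a j) = 1) ∨ (ρ = 1 ∧ (j < m → a j = 0)) := by
    intro j
    by_cases hj : j < m ∧ a j ≠ 0
    · obtain ⟨ρ, h2, h3⟩ := hr _ hj.2 (m - j) (by omega)
      exact ⟨ρ, h2, Or.inl ⟨hj.1, h3⟩⟩
    · exact ⟨1, h1, Or.inr ⟨rfl, fun h => by_contra fun h' => hj ⟨h, h'⟩⟩⟩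
  choose ρ hρ h using h
  obtain ⟨i, -, hi⟩ := exists_min_image (range (m + 1)) (fun j => w (ρ j)) ⟨m, by simp⟩
  refine ⟨ρ i, hρ i, fun h0 => ?_, ?_, fun j hj => ?_, fun hlt => ?_⟩
  · rcases h i with h2 | h2
    · rw [h0, map_zero, zero_pow (by omega), zero_mul] at h2
      exact zero_ne_one h2.2
    · exact zero_ne_one (h0.symm.trans h2.1)
  · rcases h m with h2 | h2
    · omega
    · simpa [h2.1] using hi m (by simp)
  · rcases h j with h2 | h2
    · rw [map_mul, map_pow, ← h2.2]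
      exact mul_le_mul' (pow_le_pow_left' (hi j (by simp; omega)) _) le_rfl
    · simp [h2.2 hj]
  · rcases h i with h2 | h2
    · exact ⟨i, h2.1, by rw [map_mul, map_pow, h2.2]⟩
    · simp [h2.1] at hlt

/-- The cyclic vector lemma. -/
theorem cyclic [CharZero U] [IsAlgClosed U] (hA : ∀ z, Alg F z)
    (L : IntermediateField F U) [FiniteDimensional F L] {δ : Derivation ℤ U U}
    (hL : ∀ z ∈ L, δ z ∈ L) (hF : ∀ f ∈ F, δ f ∈ F ∧ w (δ f) ≤ w f) {k0 : Subfield U}
    (hk : k0 ≤ F) (hδ : ∀ c ∈ k0, δ c = 0)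
    (hr : ∀ a : U, a ≠ 0 → ∀ m, 0 < m → ∃ ρ ∈ k0, w ρ ^ m * w a = 1) {z : U} (hz : z ∈ L) :
    ∃ π ∈ k0, w π ≤ 1 ∧ (∃ C : ℝ≥0, ∀ k, w π ^ k * w ((δ : U → U)^[k] z) ≤ C) ∧
      (w π < 1 → ∃ z' ∈ L, ∃ c : ℝ≥0, 0 < c ∧ ∀ k, ∃ g ∈ Fix (F : Set U),
        c ≤ w (g (π ^ k * (δ : U → U)^[k] z'))) := by
  have hu : ∀ j, (δ : U → U)^[j] z ∈ L := fun j => by
    induction j with
    | zero => exact hz
    | succ j ih => rw [Function.iterate_succ_apply']; exact hL _ ih
  obtain ⟨m, hli, a, ha, hrel⟩ := exists_rel L hu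
  obtain ⟨π, hπ, hπ0, hπ1, hb1, hb2⟩ := exists_scale (w := w) k0.one_mem hr m a
  obtain ⟨e, he⟩ : ∃ e : ℕ → U, ∀ j, e j = π ^ j * (δ : U → U)^[j] z := ⟨_, fun _ => rfl⟩
  obtain ⟨b, hb⟩ : ∃ b : ℕ → U, ∀ j, b j = π ^ (m - j) * a j := ⟨_, fun _ => rfl⟩
  simp only [← hb] at hb1 hb2
  have hbF : ∀ j, b j ∈ F := fun j => hb j ▸ mul_mem (pow_mem (hk hπ) _) (ha j)
  have he1 : ∀ j, π * δ (e j) = e (j + 1) := fun j => by
    rw [he, he, der_const_mul δ (hδ _ (pow_mem hπ j)), Function.iterate_succ_apply']; ring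
  have he2 : e m = ∑ j ∈ range m, b j * e j := by
    rw [he, hrel, mul_sum]
    refine sum_congr rfl fun j hj => ?_
    rw [hb, he, ← pow_sub_mul_pow π (mem_range.1 hj).le]; ring
  have hbase : ∀ i < m, e i = ∑ j ∈ range m, (if j = i then 1 else 0) * e j := fun i hi => by
    simp [hi]
  have hsh : ∀ {c : ℕ → U}, (∀ j, c j ∈ F) → ∀ j, π * δ (c j) + sh c j + c (m - 1) * b j ∈ F :=
    fun {c} hc j => add_mem (add_mem (mul_mem (hk hπ) (hF _ (hc j)).1)
      (by cases j; exacts [F.zero_mem, hc _])) (mul_mem (hc _) (hbF j))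
  have hsw : ∀ {c : ℕ → U}, (∀ j, c j ∈ F) → (∀ j < m, w (c j) ≤ 1) → ∀ j < m,
      w (π * δ (c j) + sh c j + c (m - 1) * b j) ≤ 1 := fun {c} hc hw j hj => by
    refine w.map_add_le (w.map_add_le ?_ ?_) ?_
    · rw [map_mul]; exact mul_le_one' hπ1 ((hF _ (hc j)).2.trans (hw j hj))
    · cases j
      · simp [sh]
      · exact hw _ (by omega)
    · rw [map_mul]; exact mul_le_one' (hw _ (by omega)) (hb1 j hj)
  refine ⟨π, hπ, hπ1, ⟨∑ j ∈ range m, w (e j), fun k => ?_⟩, fun hlt => ?_⟩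
  · have h : ∃ c : ℕ → U, (∀ j, c j ∈ F) ∧ (∀ j < m, w (c j) ≤ 1) ∧
        e k = ∑ j ∈ range m, c j * e j := by
      induction k with
      | zero =>
        rcases Nat.eq_zero_or_pos m with rfl | hm
        · exact ⟨0, fun _ => F.zero_mem, by simp, by simpa using he2⟩
        · refine ⟨_, fun j => ?_, fun j _ => ?_, hbase 0 hm⟩ <;> split_ifs <;> simp
      | succ k ih =>
        obtain ⟨c, h1, h2, h3⟩ := ih
        exact ⟨_, hsh h1, hsw h1 h2, by rw [← he1, h3, step δ he1 he2]⟩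
    obtain ⟨c, -, h2, h3⟩ := h
    rw [← map_pow, ← map_mul, ← he, h3]
    refine Valuation.map_sum_le _ fun j hj => ?_
    rw [map_mul]
    exact (mul_le_of_le_one_left' (h2 j (mem_range.1 hj))).trans
      (single_le_sum (f := fun j => w (e j)) (fun _ _ => zero_le) hj)
  have hex := hb2 hlt
  obtain ⟨hj0, hj1⟩ := Nat.find_spec hex
  have hj2 : ∀ j < Nat.find hex, w (b j) < 1 := fun j hj =>
    lt_of_le_of_ne (hb1 j (hj.trans hj0)) fun h => Nat.find_min hex hj ⟨hj.trans hj0, h⟩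
  generalize Nat.find hex = j0 at hj0 hj1 hj2
  obtain ⟨C, hC⟩ := coord_le w hA L hli fun j => hu j
  have hw0 : 0 < w π := zero_lt_iff.2 ((map_ne_zero w).2 hπ0)
  refine ⟨e j0, he j0 ▸ mul_mem (L.algebraMap_mem ⟨_, pow_mem (hk hπ) _⟩) (hu _),
    w π ^ m / (C + 1), by positivity, fun k => ?_⟩
  have h : ∃ c : ℕ → U, (∀ j, c j ∈ F) ∧ (∀ j < m, w (c j) ≤ 1) ∧ (∀ j < j0, w (c j) < 1) ∧
      (∃ j < m, w (c j) = 1) ∧ e (j0 + k) = ∑ j ∈ range m, c j * e j := by
    induction k with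
    | zero =>
      refine ⟨_, fun j => ?_, fun j _ => ?_, fun j hj => ?_, ⟨j0, hj0, by simp⟩, hbase j0 hj0⟩
      · split_ifs <;> simp
      · split_ifs <;> simp
      · simp [hj.ne]
    | succ k ih =>
      obtain ⟨c, h1, h2, h3, ⟨i, hi, h4⟩, h5⟩ := ih
      have h6 : ∀ j < m, w (π * δ (c j)) < 1 := fun j hj => by
        rw [map_mul]; exact mul_lt_one_of_lt_of_le hlt ((hF _ (h1 j)).2.trans (h2 j hj))
      have h7 : ∀ j ≤ j0, w (π * δ (c j) + sh c j) < 1 := fun j hj => by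
        refine w.map_add_lt (h6 j (by omega)) ?_
        cases j
        · simp [sh]
        · exact h3 _ (by omega)
      refine ⟨_, hsh h1, hsw h1 h2, fun j hj => ?_, ?_,
        by rw [← add_assoc, ← he1, h5, step δ he1 he2]⟩
      · refine w.map_add_lt (h7 j hj.le) ?_
        rw [map_mul, mul_comm]; exact mul_lt_one_of_lt_of_le (hj2 j hj) (h2 _ (by omega))
      · rcases (h2 (m - 1) (by omega)).lt_or_eq with h8 | h8
        · have h9 : i + 1 < m := by
            by_contra h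
            rw [show i = m - 1 by omega] at h4
            exact h8.ne h4
          refine ⟨i + 1, h9, ?_⟩
          rw [add_right_comm, w.map_add_eq_of_lt_right, sh, h4]
          rw [sh, h4]
          refine w.map_add_lt (h6 _ h9) ?_
          rw [map_mul]; exact mul_lt_one_of_lt_of_le h8 (hb1 _ h9)
        · have h9 : w (c (m - 1) * b j0) = 1 := by rw [map_mul, h8, hj1, one_mul]
          exact ⟨j0, hj0, by rw [w.map_add_eq_of_lt_right (h9 ▸ h7 j0 le_rfl), h9]⟩
  obtain ⟨c, h1, -, -, ⟨i, hi, h4⟩, h5⟩ := h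
  have h6 : π ^ k * (δ : U → U)^[k] (e j0) =
      ∑ j : Fin m, (c j * π ^ (j : ℕ)) * (δ : U → U)^[j] z := by
    rw [he, der_iter_const_mul δ (hδ _ (pow_mem hπ _)), ← Function.iterate_add_apply, ← mul_assoc,
      ← pow_add, add_comm, ← he, h5, sum_range]
    simp only [he, mul_assoc]
  by_contra hcon
  push Not at hcon
  have h7 := hC (fun j => c j * π ^ (j : ℕ)) _ (fun j => mul_mem (h1 j) (pow_mem (hk hπ) _))
    (fun g hg => by rw [← h6]; exact (hcon g hg).le) ⟨i, hi⟩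
  rw [map_mul, h4, one_mul, map_pow, ← mul_div_assoc, le_div_iff₀ (by positivity)] at h7
  have h8 : w π ^ m ≤ w π ^ i := pow_le_pow_right_of_le_one' hπ1 hi.le
  have h9 : 0 < w π ^ i := by positivity
  have h10 := h7.trans (mul_le_mul' le_rfl h8)
  rw [mul_comm] at h10
  exact absurd (le_of_mul_le_mul_right h10 h9) (by simp)

end SpecH

end P179W
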