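import Vale.Agent.P179W.Defs

/-!
# P179W : the statements of the modules

Every module proves `theorem foo_holds : FooStmt` or `theorem foo_of (h₁ : AStmt) … : FooStmt`.
See `notes/P179/proof.md` in the graded repository.
-/

set_option linter.all false

open scoped NNReal Classical
open Filter Topology Polynomial

noncomputable section

namespace P179W

/-! ## A. Galois theory and valuations in an algebraically closed field -/

/-- A1 -/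
def FixedFixStmt : Prop :=
  ∀ (U : Type) [Field U] [CharZero U] [IsAlgClosed U] (K : Subfield U), (∀ z, Alg K z) →
    fixedOf (Fix (K : Set U) : Set (RingAut U)) = K

/-- A2: the Galois correspondence for open subgroups -/
def OpenGalStmt : Prop :=
  ∀ (U : Type) [Field U] [CharZero U] [IsAlgClosed U] (K : Subfield U), (∀ z, Alg K z) →
    ∀ T : Finset U, (Fix (adj (K : Set U) (T : Set U) : Set U)).relIndex (Fix (K : Set U)) ≠ 0 ∧
      (∃ T' : Finset U, (T : Set U) ⊆ T' ∧ FinNormal K (adj K T')) ∧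
      ∀ H : Subgroup (RingAut U), Fix (adj (K : Set U) (T : Set U) : Set U) ≤ H → H ≤ Fix (K : Set U) →
        Fix (fixedOf (H : Set (RingAut U)) : Set U) = H ∧
        ∃ T' : Finset U, fixedOf (H : Set (RingAut U)) = adj K T'

/-- A3: extension of embeddings -/
def ExtAutStmt : Prop :=
  ∀ (U : Type) [Field U] [IsAlgClosed U] (M : Subfield U) (f : M →+* U), (∀ z, Alg M z) →
    (∀ z, Alg f.fieldRange z) → ∃ g : RingAut U, ∀ z : M, g z = f z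

/-- A4: conjugacy of the extensions of a valuation -/
def TransStmt : Prop :=
  ∀ (U : Type) [Field U] [CharZero U] [IsAlgClosed U] (K : Subfield U), (∀ z, Alg K z) →
    ∀ V V' : ValuationSubring U, (∀ z ∈ K, z ∈ V ↔ z ∈ V') →
      ∃ g ∈ Fix (K : Set U), ∀ z, z ∈ V ↔ g z ∈ V'

/-- A5: the same on the constants, by an automorphism fixing the generic point -/
def TransConstStmt : Prop :=
  ∀ (U : Type) [Field U] [CharZero U] [IsAlgClosed U] (K Om : Subfield U)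
    (E : WeierstrassCurve U) (x y : U), K ≤ Om → (∀ z ∈ Om, Alg K z) → (∀ z, Alg Om z → z ∈ Om) →
    CoeffIn E K → E.Δ ≠ 0 → E.toAffine.Equation x y → Transc Om x →
    (∀ z, Alg (adj Om {x, y}) z) →
    ∀ V V' : ValuationSubring U, (∀ z ∈ K, z ∈ V ↔ z ∈ V') →
      ∃ g ∈ Fix (adj K {x, y} : Set U), ∀ z ∈ Om, z ∈ V ↔ g z ∈ V'

/-- A6: invariants of a group acting on the constants -/
def NormalFormStmt : Prop :=
  ∀ (U : Type) [Field U] (Om : Subfield U) (E : WeierstrassCurve U) (x y : U)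
    (H : Subgroup (RingAut U)), CoeffIn E Om → E.Δ ≠ 0 → E.toAffine.Equation x y → Transc Om x →
    (∀ g ∈ H, (∀ z ∈ Om, g z ∈ Om) ∧ g x = x ∧ g y = y ∧ CoeffIn E {z | g z = z}) →
    ∀ z ∈ adj Om {x, y}, (∀ g ∈ H, g z = z) →
      z ∈ adj (Om ⊓ fixedOf (H : Set (RingAut U)) : Subfield U) {x, y}

/-- A7: extension of valuation rings; valuation rings with given centre -/
def ValExtStmt : Prop :=
  (∀ (L U : Type) [Field L] [Field U] (f : L →+* U) (V : ValuationSubring L),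
    ∃ V' : ValuationSubring U, ∀ z, z ∈ V ↔ f z ∈ V') ∧
  ∀ (B U : Type) [CommRing B] [Field U] (f : B →+* U) (y : Ideal B), y.IsPrime →
    (∀ b, f b = 0 → b ∈ y) →
    ∃ V : ValuationSubring U, ∀ b, f b ∈ V ∧ (V.valuation (f b) < 1 ↔ b ∈ y)

/-- A8: an automorphism of order prime to the residue characteristic which acts trivially on the
graded ring of a valuation is trivial -/
def TameStmt : Prop :=
  ∀ (U : Type) [Field U] (Γ : Type) [LinearOrderedCommGroupWithZero Γ] (v : Valuation U Γ)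
    (M : Subfield U) (g : U ≃+* U), (∀ z ∈ M, g z ∈ M) →
    (∀ m : ℕ, v (m : U) = 1 → (∀ z ∈ M, (g : U → U)^[m] z = z) →
      (∀ z ∈ M, z ≠ 0 → v (g z - z) < v z) → ∀ z ∈ M, g z = z) ∧
    (∀ f ∈ M, (∀ z ∈ M, z ≠ 0 → ∃ k : ℤ, v z = v (f ^ k)) →
      (∀ z ∈ M, v z ≤ 1 → v (g z - z) < 1) → v (g f - f) < v f →
      ∀ z ∈ M, z ≠ 0 → v (g z - z) < v z)

/-- A9: the value group of an algebraic extension -/
def ArchStmt : Prop :=
  ∀ (U : Type) [Field U] (Γ : Type) [LinearOrderedCommGroupWithZero Γ] (v : Valuation U Γ)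
    (K : Subfield U) (z : U), Alg K z → z ≠ 0 → ∃ m : ℕ, 0 < m ∧ ∃ c ∈ K, c ≠ 0 ∧ v (z ^ m) = v c

/-- A10: extension of real valuations to algebraic extensions -/
def RealExtStmt : Prop :=
  ∀ (K U : Type) [Field K] [Field U] (f : K →+* U), (∀ z, Alg f.fieldRange z) →
    ∀ w : Valuation K ℝ≥0, ∃ w' : Valuation U ℝ≥0, ∀ z, w' (f z) = w z

/-- A11: extension of derivations -/
def DerExtStmt : Prop :=
  ∀ (U : Type) [Field U] [CharZero U] (K : Subfield U), (∀ z, Alg K z) →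
    (∀ δ δ' : Derivation ℤ U U, (∀ z ∈ K, δ z = δ' z) → δ = δ') ∧
    (∀ d : K → U, (∀ a b, d (a + b) = d a + d b) → (∀ a b, d (a * b) = a * d b + b * d a) →
      ∃ δ : Derivation ℤ U U, ∀ z : K, δ z = d z) ∧
    (∀ (δ : Derivation ℤ U U) (K₁ : Subfield U) (M : Subfield U), K₁ ≤ M → (∀ z ∈ K₁, δ z ∈ M) →
      ∀ z ∈ M, Alg K₁ z → δ z ∈ M)

/-- A12: a finite extension of a discretely valued field is discretely valued -/
def DiscExtStmt : Prop :=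
  ∀ (U : Type) [Field U] (Γ : Type) [LinearOrderedCommGroupWithZero Γ] (v : Valuation U Γ)
    (K : Subfield U) (T : Finset U), (∀ z ∈ T, Alg K z) →
    (∃ t ∈ K, t ≠ 0 ∧ v t < 1 ∧ ∀ z ∈ K, z ≠ 0 → ∃ k : ℤ, v z = v (t ^ k)) →
    ∃ t ∈ adj K T, t ≠ 0 ∧ v t < 1 ∧ ∀ z ∈ adj K T, z ≠ 0 → ∃ k : ℤ, v z = v (t ^ k)

/-- A13: eigenvectors of characters -/
def KummerStmt : Prop :=
  ∀ (p : ℕ) [Fact p.Prime] (L : Type) [Field L] (H : Type) [Group H] [Finite H]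
    [MulSemiringAction H L], (∀ g : H, (∀ z : L, g • z = z) → g = 1) →
    ∀ ζ : L, IsPrimitiveRoot ζ p → (∀ g : H, g • ζ = ζ) →
    ∀ χ : H →* Multiplicative (ZMod p), ∃ b : L, b ≠ 0 ∧
      ∀ g : H, g • b = ζ ^ (Multiplicative.toAdd (χ g)).val * b

/-- A14: derivations preserve the valuation ring of the inertia field. `I` is the inertia group
of `w` in the finite Galois extension `N / K`. -/
def InertiaDerStmt : Prop :=
  ∀ (p : ℕ) [Fact p.Prime] (U : Type) [Field U] [CharZero U] [IsAlgClosed U] (K N k0 : Subfield U)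
    (w : Valuation U ℝ≥0) (δ : Derivation ℤ U U), k0 ≤ K → K ≤ N →
    ∀ H : Subgroup (RingAut U), H ≤ Fix (K : Set U) → (Fix (N : Set U)).relIndex H ≠ 0 →
    (∀ g ∈ H, ∀ z ∈ N, g z ∈ N) → (∀ z ∈ N, (∀ g ∈ H, g z = z) → z ∈ K) →
    w (p : U) < 1 → (∀ z, ∃ c ∈ k0, w z = w c) → (∀ c ∈ k0, δ c = 0) →
    (∃ u : ℕ → U, (∀ j, u j ∈ K ∧ w (u j) ≤ 1) ∧ ∀ j l, j ≠ l → w (u j - u l) = 1) →
    (∀ z ∈ K, δ z ∈ K ∧ w (δ z) ≤ w z) →
    (∀ g ∈ H, (∀ z ∈ N, z ≠ 0 → w (g z - z) < w z) → ∃ k : ℕ, g ^ p ^ k ∈ Fix (N : Set U)) ∧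
    ∀ z ∈ N, (∀ g ∈ H, (∀ z' ∈ N, z' ≠ 0 → w (g z' - z') < w z') → g z = z) → w (δ z) ≤ w z

/-! ## B. Elliptic curves -/

/-- B1: maps of points -/
def PtMapStmt : Prop :=
  ∀ (K K' : Type) [Field K] [Field K'] (f : K →+* K') (E : WeierstrassCurve K)
    (E' : WeierstrassCurve K'), E.map f = E' →
    (∀ P Q : E.toAffine.Point, ptFun f E' (P + Q) = ptFun f E' P + ptFun f E' Q) ∧
    (∀ x y, ptFun f E' (pt E x y) = pt E' (f x) (f y)) ∧
    Function.Injective (ptFun f E' : E.toAffine.Point → E'.toAffine.Point)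

/-- the reduction of a point -/
def ptRed {K R : Type} [Field K] [Field R] (V : Set K) (r : K → R) {E : WeierstrassCurve K}
    (Eb : WeierstrassCurve R) : E.toAffine.Point → Eb.toAffine.Point
  | .zero => 0
  | .some x y _ => if x ∈ V then pt Eb (r x) (r y) else 0

/-- B2: reduction of points is a homomorphism; congruences can be translated -/
def PtRedStmt : Prop :=
  ∀ (K : Type) [Field K] (Γ : Type) [LinearOrderedCommGroupWithZero Γ] (v : Valuation K Γ)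
    (E : WeierstrassCurve K), CoeffIn E {z | v z ≤ 1} → v E.Δ = 1 →
    (∀ x y, E.toAffine.Equation x y → v x ≤ 1 → v y ≤ 1) ∧
    (∀ (R : Type) [Field R] (r : K → R) (Eb : WeierstrassCurve R), r 1 = 1 →
      (∀ a b, v a ≤ 1 → v b ≤ 1 → r (a + b) = r a + r b) →
      (∀ a b, v a ≤ 1 → v b ≤ 1 → r (a * b) = r a * r b) →
      (∀ a, v a ≤ 1 → (r a = 0 ↔ v a < 1)) →
      Eb.a₁ = r E.a₁ → Eb.a₂ = r E.a₂ → Eb.a₃ = r E.a₃ → Eb.a₄ = r E.a₄ → Eb.a₆ = r E.a₆ →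
      Eb.Δ ≠ 0 ∧
      (∀ x y, E.toAffine.Equation x y → v x ≤ 1 → Eb.toAffine.Nonsingular (r x) (r y)) ∧
      ∀ P Q : E.toAffine.Point, ptRed {z | v z ≤ 1} r Eb (P + Q) =
        ptRed {z | v z ≤ 1} r Eb P + ptRed {z | v z ≤ 1} r Eb Q) ∧
    ∀ (x y a b x' y' a' b' : K) (Q : E.toAffine.Point), E.toAffine.Equation x y →
      E.toAffine.Equation a b → E.toAffine.Equation x' y' → E.toAffine.Equation a' b' →
      v a ≤ 1 → v a' ≤ 1 → pt E x' y' = pt E x y + Q → pt E a' b' = pt E a b + Q →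
      v (x - a) < 1 → v (y - b) < 1 → v (x' - a') < 1 ∧ v (y' - b') < 1

/-- B3: the places of the function field of an elliptic curve: generators of the value group -/
def PlaceStmt : Prop :=
  ∀ (R : Type) [Field R] (k : Subfield R) (E : WeierstrassCurve R) (x y : R),
    (∀ f : R[X], (∀ j, f.coeff j ∈ k) → 0 < f.natDegree → ∃ z ∈ k, f.eval z = 0) →
    CoeffIn E k → E.Δ ≠ 0 → E.toAffine.Equation x y → Transc k x →
    ∀ V : ValuationSubring R, (∀ c ∈ k, c ∈ V) → (∃ z ∈ adj k {x, y}, z ∉ V) →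
      ∃ t ∈ adj k {x, y}, t ≠ 0 ∧ V.valuation t < 1 ∧
        (∀ z ∈ adj k {x, y}, z ≠ 0 → ∃ m : ℤ, V.valuation z = V.valuation (t ^ m)) ∧
        (∀ z ∈ adj k {x, y}, z ∈ V → ∃ c ∈ k, V.valuation (z - c) < 1) ∧
        ((x ∉ V ∧ t = x / y ∧ V.valuation x = V.valuation (t ^ (-2 : ℤ)) ∧
            V.valuation y = V.valuation (t ^ (-3 : ℤ))) ∨
          ∃ a ∈ k, ∃ b ∈ k, E.toAffine.Equation a b ∧ Above V x y a b ∧
            ((psi E a b ≠ 0 ∧ t = x - a) ∨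
              (psi E a b = 0 ∧ t = y - b ∧ V.valuation (x - a) = V.valuation (t ^ 2))))

/-- B4: Gauss valuations on `K(x, y)` -/
def GaussEllStmt : Prop :=
  ∀ (U : Type) [Field U] (Γ : Type) [LinearOrderedCommGroupWithZero Γ] (v : Valuation U Γ)
    (K : Subfield U) (E : WeierstrassCurve U) (x y : U), CoeffIn E K →
    CoeffIn E {z | v z ≤ 1} → v E.Δ = 1 → E.toAffine.Equation x y → v x ≤ 1 →
    (∀ f : U[X], (∀ k, f.coeff k ∈ K) → ∀ k, v (f.coeff k) ≤ v (f.eval x)) →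
    (∀ z ∈ adj K {x, y}, ∃ a ∈ adj K {x}, ∃ b ∈ adj K {x}, z = a + b * y) ∧
    (∀ a ∈ adj K {x}, ∀ b ∈ adj K {x}, v (a + b * y) = max (v a) (v b)) ∧
    (∀ z ∈ adj K {x, y}, ∃ c ∈ K, v z = v c) ∧
    ∀ v' : Valuation U Γ, (∀ c ∈ K, v' c = v c) → v' x ≤ 1 →
      (∀ f : U[X], (∀ k, f.coeff k ∈ K) → ∀ k, v' (f.coeff k) ≤ v' (f.eval x)) →
      ∀ z ∈ adj K {x, y}, v' z = v z

/-- B5: ordinary elliptic curves -/
def OrdinaryStmt : Prop :=
  ∀ (p : ℕ) [Fact p.Prime] (F : Type) [Field F] [IsAlgClosed F] [CharP F p],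
    ∃ E : WeierstrassCurve F, E.Δ ≠ 0 ∧ ∀ M : ℕ, ∃ τ : E.toAffine.Point, addOrderOf τ = p ^ M

/-- B6a: divisors on an elliptic curve: product formula and Abel's theorem -/
def DivStmt : Prop :=
  ∀ (R : Type) [Field R] (k : Subfield R) (E : WeierstrassCurve R) (x y : R),
    (∀ f : R[X], (∀ j, f.coeff j ∈ k) → 0 < f.natDegree → ∃ z ∈ k, f.eval z = 0) →
    CoeffIn E k → E.Δ ≠ 0 → E.toAffine.Equation x y → Transc k x →
    ∃ ord : E.toAffine.Point → R → ℤ,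
      (∀ V : ValuationSubring R, (∀ c ∈ k, c ∈ V) → (∃ z ∈ adj k {x, y}, z ∉ V) →
        ∃ P : E.toAffine.Point, OnSet (k : Set R) P ∧ Cent V x y P) ∧
      (∀ P : E.toAffine.Point, OnSet (k : Set R) P → ∃ V : ValuationSubring R,
        (∀ c ∈ k, c ∈ V) ∧ (∃ z ∈ adj k {x, y}, z ∉ V) ∧ Cent V x y P) ∧
      (∀ (V : ValuationSubring R) (P : E.toAffine.Point), (∀ c ∈ k, c ∈ V) →
        OnSet (k : Set R) P → Cent V x y P → ∃ t ∈ adj k {x, y}, t ≠ 0 ∧ V.valuation t < 1 ∧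
          ∀ z ∈ adj k {x, y}, z ≠ 0 → V.valuation z = V.valuation (t ^ ord P z)) ∧
      (∀ z ∈ adj k {x, y}, z ≠ 0 → ∃ T : Finset E.toAffine.Point, (∀ P ∈ T, OnSet (k : Set R) P) ∧
        (∀ P, OnSet (k : Set R) P → P ∉ T → ord P z = 0) ∧ ∑ P ∈ T, ord P z = 0 ∧
        ∑ P ∈ T, ord P z • P = 0) ∧
      ∀ a ∈ k, ∀ b ∈ k, E.toAffine.Equation a b → psi E a b ≠ 0 → ord (pt E a b) (x - a) = 1

/-- B6b: the invariant derivation in characteristic `p` -/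
def DerEllStmt : Prop :=
  ∀ (p : ℕ) [Fact p.Prime] (R : Type) [Field R] [CharP R p] (k : Subfield R)
    (E : WeierstrassCurve R) (x y : R),
    (∀ f : R[X], (∀ j, f.coeff j ∈ k) → 0 < f.natDegree → ∃ z ∈ k, f.eval z = 0) →
    CoeffIn E k → E.Δ ≠ 0 → E.toAffine.Equation x y → Transc k x →
    ∃ δ : Derivation ℤ ↥(adj (k : Set R) {x, y}) ↥(adj (k : Set R) {x, y}),
      (∀ V : ValuationSubring R, (∀ c ∈ k, c ∈ V) → ∀ z : ↥(adj (k : Set R) {x, y}),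
        z.1 ∈ V → (δ z).1 ∈ V) ∧
      ∀ z, δ z = 0 → ∃ u : ↥(adj (k : Set R) {x, y}), u ^ p = z

/-- B7: maps between generic tuples -/
def GenMapStmt : Prop :=
  ∀ (U U' : Type) [Field U] [Field U'] (ι : Type) [Fintype ι] (k : Subfield U)
    (E : WeierstrassCurve U) (E' : WeierstrassCurve U') (f₀ : k →+* U') (hE : CoeffIn E k),
    E'.a₁ = f₀ ⟨_, hE.1⟩ → E'.a₂ = f₀ ⟨_, hE.2.1⟩ → E'.a₃ = f₀ ⟨_, hE.2.2.1⟩ →
    E'.a₄ = f₀ ⟨_, hE.2.2.2.1⟩ → E'.a₆ = f₀ ⟨_, hE.2.2.2.2⟩ →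
    ∀ (X Y : ι → U) (X' Y' : ι → U'), Gen k E X Y → Gen f₀.fieldRange E' X' Y' →
    ∃ f : ↥(adj (k : Set U) (Set.range X ∪ Set.range Y)) →+* U',
      (∀ (c : k) (z : ↥(adj (k : Set U) (Set.range X ∪ Set.range Y))), z.1 = c.1 → f z = f₀ c) ∧
      ∀ j (z : ↥(adj (k : Set U) (Set.range X ∪ Set.range Y))), (z.1 = X j → f z = X' j) ∧
        (z.1 = Y j → f z = Y' j)

/-- B8: points over a subfield form a subgroup; invertible changes of generic tuples -/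
def IndepStmt : Prop :=
  ∀ (U : Type) [Field U] (k : Subfield U) (E : WeierstrassCurve U), CoeffIn E k → E.Δ ≠ 0 →
    (∃ H : AddSubgroup E.toAffine.Point, ∀ P, P ∈ H ↔ OnSet (k : Set U) P) ∧
    ∀ (ι : Type) [Fintype ι] (X Y : ι → U), Gen k E X Y → ∀ Z : ι → E.toAffine.Point,
      (∀ j, OnSet (adj k (Set.range X ∪ Set.range Y) : Set U) (Z j)) →
      (∀ j, pt E (X j) (Y j) ∈
        AddSubgroup.closure (Set.range Z ∪ {P | OnSet (k : Set U) P})) →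
      ∃ X' Y' : ι → U, (∀ j, Z j = pt E (X' j) (Y' j)) ∧ Gen k E X' Y' ∧
        adj k (Set.range X' ∪ Set.range Y') = adj k (Set.range X ∪ Set.range Y)

/-- B9: invariance of the invariant differential -/
def LambdaStmt : Prop :=
  ∀ (U : Type) [Field U] (E : WeierstrassCurve U) (δ : Derivation ℤ U U), E.Δ ≠ 0 →
    CoeffIn E {z | δ z = 0} → ∃ lam : E.toAffine.Point →+ U, ∀ x y, E.toAffine.Equation x y →
      δ x = lam (pt E x y) * psi E x y ∧ δ y = lam (pt E x y) * phi E x y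

/-- B10: existence of Gauss valuations -/
def GaussExStmt : Prop :=
  ∀ (U : Type) [Field U] (k : Subfield U) (w₀ : Valuation k ℝ≥0) (ι : Type) [Fintype ι]
    (X : ι → U),
    (∀ f : MvPolynomial ι U, (∀ m, f.coeff m ∈ k) → MvPolynomial.eval X f = 0 → f = 0) →
    (∀ z, Alg (adj k (Set.range X)) z) →
    ∃ w : Valuation U ℝ≥0, (∀ c : k, w c = w₀ c) ∧ (∀ j, w (X j) ≤ 1) ∧
      ∀ f : MvPolynomial ι U, (∀ m, f.coeff m ∈ k) → ∀ m,
        w (f.coeff m) ≤ w (MvPolynomial.eval X f)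

/-- B11: Gauss valuations on the function field of `E ^ ι` -/
def GaussTowerStmt : Prop :=
  ∀ (U : Type) [Field U] (k : Subfield U) (E : WeierstrassCurve U) (ι : Type) [Fintype ι]
    (X Y : ι → U) (w : Valuation U ℝ≥0), CoeffIn E k → CoeffIn E {z | w z ≤ 1} → w E.Δ = 1 →
    (∀ j, E.toAffine.Equation (X j) (Y j)) → (∀ j, w (X j) ≤ 1) →
    (∀ f : MvPolynomial ι U, (∀ m, f.coeff m ∈ k) → ∀ m,
      w (f.coeff m) ≤ w (MvPolynomial.eval X f)) →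
    (∀ z ∈ adj k (Set.range X ∪ Set.range Y), ∃ c ∈ k, w z = w c) ∧
    (∀ z ∈ adj k (Set.range X ∪ Set.range Y), w z ≤ 1 →
      ∃ a ∈ Subring.closure ({c | c ∈ k ∧ w c ≤ 1} ∪ (Set.range X ∪ Set.range Y)),
      ∃ b ∈ Subring.closure ({c | c ∈ k ∧ w c ≤ 1} ∪ (Set.range X ∪ Set.range Y)),
        w b = 1 ∧ z * b = a) ∧
    (∀ j (Om : Subfield U), (∀ z ∈ Om, Alg (adj k (X '' {l | l ≠ j})) z) →
      ∀ f : U[X], (∀ m, f.coeff m ∈ Om) → ∀ m, w (f.coeff m) ≤ w (f.eval (X j))) ∧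
    ∀ w' : Valuation U ℝ≥0, (∀ c ∈ k, w' c = w c) → (∀ j, w' (X j) ≤ 1) →
      (∀ f : MvPolynomial ι U, (∀ m, f.coeff m ∈ k) → ∀ m,
        w' (f.coeff m) ≤ w' (MvPolynomial.eval X f)) →
      ∀ z ∈ adj k (Set.range X ∪ Set.range Y), w' z = w z

/-- B12: a valuation invariant under the cyclic shift, with residue field `k` -/
def InvValStmt : Prop :=
  ∀ (p : ℕ) [Fact p.Prime] (M : ℕ) (R : Type) [Field R] [CharP R p] (k : Subfield R)
    (E : WeierstrassCurve R), CoeffIn E k → E.Δ ≠ 0 → ∀ X Y : ZMod (p ^ M) → R, Gen k E X Y →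
    ∀ a ∈ k, ∀ b ∈ k, E.toAffine.Equation a b → psi E a b ≠ 0 →
    ∃ V : ValuationSubring R, (∀ c ∈ k, c ∈ V) ∧ (∀ j, Above V (X j) (Y j) a b) ∧
      (∀ z ∈ adj k (Set.range X ∪ Set.range Y), z ∈ V → ∃ c ∈ k, V.valuation (z - c) < 1) ∧
      ∀ f : ↥(adj (k : Set R) (Set.range X ∪ Set.range Y)) →+* R,
        (∀ z : ↥(adj (k : Set R) (Set.range X ∪ Set.range Y)), z.1 ∈ k → f z = z.1) →
        (∀ j (z : ↥(adj (k : Set R) (Set.range X ∪ Set.range Y))), (z.1 = X j → f z = X (j + 1)) ∧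
          (z.1 = Y j → f z = Y (j + 1))) →
        ∀ z : ↥(adj (k : Set R) (Set.range X ∪ Set.range Y)), z.1 ∈ V ↔ f z ∈ V

/-- B6: the nonvanishing theorem -/
def NVStmt : Prop :=
  ∀ (p : ℕ) [Fact p.Prime] (n : ℕ) [NeZero n] (R : Type) [Field R] (c : Deg p n R)
    (𝒱 : Set (ZMod n → R)) (d : ℕ), d < n →
    (∀ v ∈ 𝒱, ∀ j, v j ∈ adj c.kb {c.x, c.y}) → (∀ v ∈ 𝒱, (fun j => c.σ (v (j - 1))) ∈ 𝒱) →
    (∃ m : ℕ, n ≤ m + d ∧ ∃ u : Fin m → ZMod n → R, (∀ k, u k ∈ 𝒱) ∧ LinearIndependent R u) →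
    ∀ (l : Subfield R) (D : Type) [Group D] [Finite D] (act : D →* RingAut l) (a e : ℕ),
      (∀ z : l, (∀ g, act g z = z) → (z : R) ^ p ^ a ∈ adj c.kb {c.x, c.y}) →
      ∀ ω : ZMod n → l, ω ≠ 0 →
      (∀ g, ∀ v ∈ 𝒱, ∑ j, v j ^ p ^ e * (act g (ω j) : R) = 0) →
      (∀ g V, c.IsPl V → ∀ j, c.tt V j ^ p ^ e * (act g (ω j) : R) ∈ V) →
      ∀ V, c.IsPl V → ∃ j, V.valuation (c.tt V j ^ p ^ e * (ω j : R)) = 1

/-! ## C. The Riemann existence theorem -/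

/-- the plane cut along the rays going down from the points `s j` -/
def cutPlane {ι : Type} (s : ι → ℂ) : Set ℂ := {z | ∀ j, ¬ (z.re = (s j).re ∧ z.im ≤ (s j).im)}

/-- `g` is the continuation of `f` across the cut below `a`, from the left to the right -/
def Cross (a : ℂ) (f g : ℂ → ℂ) : Prop :=
  ∀ z₀ : ℂ, z₀.re = a.re → z₀.im < a.im → ∃ F : ℂ → ℂ, AnalyticAt ℂ F z₀ ∧
    ∀ᶠ z in 𝓝 z₀, (z.re < a.re → F z = f z) ∧ (a.re < z.re → F z = g z)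

/-- C0: single valued functions of moderate growth are rational -/
def SingleStmt : Prop :=
  ∀ (ι : Type) [Fintype ι] (s : ι → ℂ), Function.Injective (fun j => (s j).re) →
    ∀ f : ℂ → ℂ, DifferentiableOn ℂ f (cutPlane s) → (∀ j, Cross (s j) f f) →
    (∃ (C : ℝ) (N N' : ℕ), ∀ z ∈ cutPlane s, ‖f z‖ * ‖∏ j, (z - s j)‖ ^ N ≤ C * (1 + ‖z‖) ^ N') →
    ∃ (P : ℂ[X]) (N : ℕ), ∀ z ∈ cutPlane s, f z * (∏ j, (z - s j)) ^ N = P.eval z

/-- C2a: holomorphic functions of moderate growth on the cover with monodromy `g` separate the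
points of a fibre -/
def SepStmt : Prop :=
  ∀ (ι : Type) [Fintype ι] (s : ι → ℂ), Function.Injective (fun j => (s j).re) →
    ∀ (W : Type) [Group W] [Finite W] (g : ι → W), ∃ (z₀ : ℂ) (H : W → ℂ → ℂ),
      z₀ ∈ cutPlane s ∧ (∀ u, DifferentiableOn ℂ (H u) (cutPlane s)) ∧
      (∀ j u, Cross (s j) (H u) (H (u * g j))) ∧
      (∀ u, ∃ (C : ℝ) (N N' : ℕ), ∀ z ∈ cutPlane s,
        ‖H u z‖ * ‖∏ j, (z - s j)‖ ^ N ≤ C * (1 + ‖z‖) ^ N') ∧
      H 1 z₀ = 1 ∧ ∀ u, u ≠ 1 → H u z₀ = 0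

/-- C1: generators of the Galois group of an extension of `ℂ(x)` unramified outside `s` -/
def Ret1Stmt : Prop :=
  ∀ (U : Type) [Field U] [IsAlgClosed U] (i : ℂ →+* U) (x : U), Transc i.fieldRange x →
    (∀ z, Alg (adj (Set.range i) {x}) z) →
    ∀ (ι : Type) [Fintype ι] (s : ι → ℂ), Function.Injective s →
    ∀ M : Subfield U, FinNormal (adj (Set.range i) {x}) M → UnramOutside i x (Set.range s) M →
    ∃ (γ : ι → RingAut U) (V : ι → ValuationSubring U) (Vi : ValuationSubring U) (l : List ι),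
      l.Nodup ∧ (∀ j, j ∈ l) ∧ (∀ j, γ j ∈ Fix (adj (Set.range i) {x} : Set U)) ∧
      (∀ z ∈ M, (∀ j, γ j z = z) → z ∈ adj (Set.range i) {x}) ∧
      (∀ j, (∀ c, i c ∈ V j) ∧ (V j).valuation (x - i (s j)) < 1 ∧
        IsCan (fun r => i (zeta r)) M (V j) (x - i (s j)) (γ j)) ∧
      (∀ c, i c ∈ Vi) ∧ Vi.valuation x⁻¹ < 1 ∧
        IsCan (fun r => i (zeta r)) M Vi x⁻¹ ((l.map γ).prod)⁻¹

/-- C2: existence of extensions with given group -/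
def Ret2Stmt : Prop :=
  ∀ (U : Type) [Field U] [IsAlgClosed U] (i : ℂ →+* U) (x : U), Transc i.fieldRange x →
    (∀ z, Alg (adj (Set.range i) {x}) z) →
    ∀ (ι : Type) [Fintype ι] (s : ι → ℂ), Function.Injective s →
    ∀ (W : Type) [Group W] [Finite W] (g : ι → W), Subgroup.closure (Set.range g) = ⊤ →
    ∃ M : Subfield U, FinNormal (adj (Set.range i) {x}) M ∧ UnramOutside i x (Set.range s) M ∧
      ∃ ψ : Fix (adj (Set.range i) {x} : Set U) →* W, Function.Surjective ψ ∧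
        ∀ h : Fix (adj (Set.range i) {x} : Set U), h.1 ∈ Fix (M : Set U) → ψ h = 1

/-- C3: the number of covers of a punctured elliptic curve -/
def RetEStmt : Prop :=
  ∀ (U : Type) [Field U] [IsAlgClosed U] (i : ℂ →+* U) (E : WeierstrassCurve U) (x y : U),
    CoeffIn E i.fieldRange → E.Δ ≠ 0 → E.toAffine.Equation x y → Transc i.fieldRange x →
    (∀ z, Alg (adj (Set.range i) {x, y}) z) →
    ∀ (ι : Type) [Fintype ι] (xP yP : ι → U), (∀ j, xP j ∈ i.fieldRange ∧ yP j ∈ i.fieldRange) →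
    (∀ j, E.toAffine.Equation (xP j) (yP j)) → Function.Injective xP →
    (∀ j, psi E (xP j) (yP j) ≠ 0) →
    ∀ (G : Type) [Group G] [Finite G] (C : Set G), (∀ g : G, ∀ c ∈ C, g * c * g⁻¹ ∈ C) →
    (PhiSet i x y xP yP C).Finite ∧ ∀ L : Subgroup G,
      {φ | φ ∈ PhiSet i x y xP yP C ∧ φ.range ≤ L}.ncard = tupCount L C (Fintype.card ι)

/-! ## H. The set-up exists -/

def SetupStmt : Prop :=
  ∀ (p : ℕ) [Fact p.Prime] (M : ℕ), 0 < M →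
    ∃ (U : Type) (_ : Field U), Nonempty (Setup p (p ^ M) U)

/-! ## F. Theorem G' -/

def ThmGStmt : Prop :=
  ∀ (p : ℕ) [Fact p.Prime] (n : ℕ) [NeZero n] (U : Type) [Field U] (S : Setup p n U)
    (K' L : Subfield U) (σ : RingAut U), S.Cover K' L σ → S.HasNormalP K' L

def HorizStmt : Prop :=
  ∀ (p : ℕ) [Fact p.Prime] (n : ℕ) [NeZero n] (U : Type) [Field U] (S : Setup p n U)
    (K' L : Subfield U) (σ : RingAut U), S.Cover K' L σ → S.Horiz L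

/-- the derivations preserve `K'`, `K'(E)`, `L`, commute with the Galois group, and do not
increase the Gauss valuation of `K'(E)` -/
def DwStmt : Prop :=
  ∀ (p : ℕ) [Fact p.Prime] (n : ℕ) [NeZero n] (U : Type) [Field U] (S : Setup p n U)
    (K' L : Subfield U) (σ : RingAut U), S.Cover K' L σ → ∀ j,
    (∀ z ∈ K', S.D j z ∈ K') ∧ (∀ z ∈ S.Om, S.D j z ∈ S.Om) ∧ (∀ z ∈ L, S.D j z ∈ L) ∧
    (∀ g ∈ Fix (S.Ft : Set U), ∀ z, S.D j (g z) = g (S.D j z)) ∧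
    (∀ z, σ (S.D j z) = S.D (j + 1) (σ z)) ∧
    ∀ f ∈ adj K' {S.x, S.y}, S.D j f ∈ adj K' {S.x, S.y} ∧ S.w (S.D j f) ≤ S.w f

/-- wild ramification: the powers of some derivation are unbounded on `L` -/
def WildStmt : Prop :=
  ∀ (p : ℕ) [Fact p.Prime] (n : ℕ) [NeZero n] (U : Type) [Field U] (S : Setup p n U)
    (K' L : Subfield U) (σ : RingAut U), S.Cover K' L σ → ∃ j, ¬ ∃ C : ℝ≥0, ∀ k : ℕ, ∀ z ∈ L,
      ∀ c : ℝ≥0, (∀ g ∈ Fix (adj K' {S.x, S.y} : Set U), S.w (g z) ≤ c) →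
        S.w ((S.D j : U → U)^[k] z) ≤ C * c

/-- the conclusion of the spectral lemma -/
def Setup.Spec {p n : ℕ} {U : Type} [Field U] (S : Setup p n U) (K' L : Subfield U) (π0 : U) :
    Prop :=
  π0 ∈ S.k0 ∧ (∃ C : ℝ≥0, ∀ j k, ∀ z ∈ L, ∀ c : ℝ≥0,
      (∀ g ∈ Fix (adj K' {S.x, S.y} : Set U), S.w (g z) ≤ c) → S.w (dE (S.D j) π0 k z) ≤ C * c) ∧
    (∃ j, ∃ z ∈ L, ∃ c : ℝ≥0, 0 < c ∧ ∀ e : ℕ, ∃ g ∈ Fix (adj K' {S.x, S.y} : Set U),
      c ≤ S.w (g (dE (S.D j) π0 (p ^ e) z))) ∧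
    S.w π0 ^ (p - 1) < S.w (p : U)

def SpecStmt : Prop :=
  ∀ (p : ℕ) [Fact p.Prime] (n : ℕ) [NeZero n] (U : Type) [Field U] (S : Setup p n U)
    (K' L : Subfield U) (σ : RingAut U), S.Cover K' L σ → ∃ π0, S.Spec K' L π0

/-- the reduction of the set-up modulo `w` -/
def ResidueStmt : Prop :=
  ∀ (p : ℕ) [Fact p.Prime] (n : ℕ) [NeZero n] (U : Type) [Field U] (S : Setup p n U)
    (K' L : Subfield U) (σ : RingAut U), S.Cover K' L σ →
    ∃ (R : Type) (_ : Field R) (rd : U → R) (kb : Subfield R) (Eb : WeierstrassCurve R)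
      (σb : R ≃+* R) (Q : Eb.toAffine.Point), IsRed S.w rd ∧ CharP R p ∧
      (∀ f : R[X], (∀ k, f.coeff k ∈ kb) → 0 < f.natDegree → ∃ z ∈ kb, f.eval z = 0) ∧
      (∀ c ∈ S.Om, S.w c ≤ 1 → rd c ∈ kb) ∧
      (∀ K₁ : Subfield U, (∀ z ∈ S.Om, Alg K₁ z) → ∀ z ∈ kb,
        Alg (Subfield.closure (rd '' {c | c ∈ K₁ ∧ S.w c ≤ 1})) z) ∧
      Transc kb (rd S.x) ∧ (∀ z, Alg (adj kb {rd S.x, rd S.y}) z) ∧
      (Eb.a₁ = rd S.E.a₁ ∧ Eb.a₂ = rd S.E.a₂ ∧ Eb.a₃ = rd S.E.a₃ ∧ Eb.a₄ = rd S.E.a₄ ∧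
        Eb.a₆ = rd S.E.a₆) ∧
      (∀ z, S.w z ≤ 1 → σb (rd z) = rd (σ z)) ∧ (∀ z, z ∈ kb ↔ σb z ∈ kb) ∧
      CoeffIn Eb {z | σb z = z} ∧ OnSet (kb : Set R) Q ∧
      pt Eb (σb (rd S.x)) (σb (rd S.y)) = pt Eb (rd S.x) (rd S.y) + Q ∧
      (∀ j, pt Eb (σb (rd (S.xP j))) (σb (rd (S.yP j))) =
        pt Eb (rd (S.xP (j + 1))) (rd (S.yP (j + 1))) + Q) ∧
      ∀ b : Eb.toAffine.Point, OnSet (kb : Set R) b → ∀ d : ℕ, 0 < d → d < n →
        ptFun σb Eb b - b ≠ d • Q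

/-! ## G. The core -/

def CoreStmt : Prop :=
  ∀ (p : ℕ) [Fact p.Prime] (n : ℕ) [NeZero n] (L : Type) [Field L] (G : Type) [Group G]
    [MulSemiringAction G L] (R : Type) [Field R], Core p n L G R →
    ∃ Γ : Subgroup G, Γ.Normal ∧ IsPGroup p Γ ∧ Γ ≠ ⊥

/-- G0: `tau` is a ring homomorphism, iterativity, gain, and the bound without constant -/
def BoundStmt : Prop :=
  ∀ (p : ℕ) [Fact p.Prime] (L : Type) [Field L] [CharZero L] (δ : Derivation ℤ L L) (π0 : L),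
    (tau δ π0 1 = 1 ∧ (∀ a b, tau δ π0 (a + b) = tau δ π0 a + tau δ π0 b) ∧
      (∀ a b, tau δ π0 (a * b) = tau δ π0 a * tau δ π0 b)) ∧
    (δ π0 = 0 → ∀ j k z, dE δ π0 j (dE δ π0 k z) = ((j + k).choose j : L) * dE δ π0 (j + k) z) ∧
    ∀ w : Valuation L ℝ≥0, w (p : L) < 1 →
      (w π0 ^ (p - 1) < w (p : L) → ∃ ρ : ℝ≥0, ρ < 1 ∧ (∀ k : ℕ, w (π0 ^ k / k.factorial) ≤ ρ ^ k) ∧
        ∀ k : ℕ, w (π0 ^ k / (k + 1).factorial) ≤ ρ ^ k) ∧
      ∀ (G : Type) [Group G] [Finite G] [MulSemiringAction G L], IsDisc w →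
        (∃ C : ℝ≥0, ∀ k (z : L) (c : ℝ≥0), (∀ g : G, w (g • z) ≤ c) →
          w (dE δ π0 k z) ≤ C * c) →
        ∀ k z, w (dE δ π0 k z) ≤ w z

/-- G1a: the gap lemma -/
def GapStmt : Prop :=
  ∀ (p : ℕ) [Fact p.Prime] (L : Type) [Field L] [CharZero L] (G : Type) [Group G] [Finite G]
    [MulSemiringAction G L] (w : Valuation L ℝ≥0) (δ : Derivation ℤ L L) (π0 : L),
    Flow G p w δ π0 → (∀ k z, 0 < k → z ≠ 0 → w (dE δ π0 k z) < w z) ∧
      ∀ k e z, p ^ e < k → k < p ^ (e + 1) → dE δ π0 k z ≠ 0 →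
        w (dE δ π0 k z) < w (dE δ π0 (p ^ e) z)

/-- G1b: the group of the first break -/
def GammaStmt : Prop :=
  ∀ (p : ℕ) [Fact p.Prime] (L : Type) [Field L] [CharZero L] (G : Type) [Group G] [Finite G]
    [MulSemiringAction G L] (w : Valuation L ℝ≥0) (δ : Derivation ℤ L L) (π0 : L),
    Flow G p w δ π0 → IsPGroup p (fixG G (M0 w δ π0)) ∧
      (∀ g ∈ fixG G (M0 w δ π0), ∀ z : L, w (g • z) = w z) ∧
      (∃ M : Subfield L, (M : Set L) = M0 w δ π0) ∧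
      (∀ z : L, (∀ g : G, g • z = z) → z ∈ M0 w δ π0) ∧
      ∀ z : L, (∀ g ∈ fixG G (M0 w δ π0), g • z = z) → z ∈ M0 w δ π0

/-- G1c: trivial inertia -/
def InertStmt : Prop :=
  ∀ (p : ℕ) [Fact p.Prime] (L : Type) [Field L] [CharZero L] (G : Type) [Group G] [Finite G]
    [MulSemiringAction G L] (w : Valuation L ℝ≥0) (δ : Derivation ℤ L L) (π0 : L),
    Flow G p w δ π0 → ∀ g : G, g ≠ 1 → ∃ c ∈ Fam G δ π0 Set.univ,
      (∀ h k, w (PowerSeries.coeff k (c h)) ≤ 1) ∧ ∃ k, w (PowerSeries.coeff k (c 1 - c g)) = 1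

/-- T1: tails of Kummer generators -/
def TailStmt : Prop :=
  ∀ (p : ℕ) [Fact p.Prime] (L : Type) [Field L] [CharZero L] (G : Type) [Group G] [Finite G]
    [MulSemiringAction G L] (w : Valuation L ℝ≥0) (δ : Derivation ℤ L L) (π0 ζ : L),
    Flow G p w δ π0 → IsPrimitiveRoot ζ p → ∀ b : L, b ≠ 0 → b ^ p ∈ M0 w δ π0 →
      (∃ e0, Tail p w δ π0 ζ b e0) ∧ ∀ e0, Tail p w δ π0 ζ b e0 → ∀ e, e0 ≤ e →
        (b ∈ M0 w δ π0 ↔ w (cc δ π0 ζ b (p ^ e)) < 1)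

/-- T2: the transformation law -/
def TransfStmt : Prop :=
  ∀ (p : ℕ) [Fact p.Prime] (ι : Type) [Fintype ι] (L : Type) [Field L] [CharZero L] (G : Type)
    [Group G] [Finite G] [MulSemiringAction G L] (w : Valuation L ℝ≥0)
    (D : ι → Derivation ℤ L L) (π0 ζ : L), [Nonempty ι] → (∀ i, Flow G p w (D i) π0) →
    (∀ i j z, D i (D j z) = D j (D i z)) →
    (∀ i (f : L), (∀ g : G, g • f = f) → w (D i f) ≤ w f) → w π0 ^ (p - 1) < w (p : L) →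
    ∀ J : ι → L, (∀ i, (∀ g : G, g • J i = J i) ∧ w (J i) ≤ 1) →
      Flow G p w (comb J D) π0 ∧
      (∀ z, (∀ i, z ∈ M0 w (D i) π0) → z ∈ M0 w (comb J D) π0) ∧
      ∀ b : L, b ≠ 0 → ζ ≠ 1 → ∀ e0, (∀ i, Tail p w (D i) π0 ζ b e0) → ∃ e1, ∀ e, e1 ≤ e →
        w (cc (comb J D) π0 ζ b (p ^ e) - ∑ i, J i ^ p ^ e * cc (D i) π0 ζ b (p ^ e)) < 1

/-- many directions in which the flow converges -/
def RankStmt : Prop :=
  ∀ (p : ℕ) [Fact p.Prime] (n : ℕ) [NeZero n] (L : Type) [Field L] (G : Type) [Group G]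
    [MulSemiringAction G L] (R : Type) [Field R] (c : Core p n L G R),
    ∃ (m : ℕ) (J : Fin m → ZMod n → L), n ≤ m + Nat.card G ∧
      (∀ k i, (∀ g : G, g • J k i = J k i) ∧ c.w (J k i) ≤ 1) ∧
      LinearIndependent R (fun k i => c.rd (J k i)) ∧
      ∀ k z, z ∈ M0 c.w (comb (J k) c.D) c.π0

/-- the two charts -/
def ChartStmt : Prop :=
  ∀ (p : ℕ) [Fact p.Prime] (n : ℕ) [NeZero n] (L : Type) [Field L] (G : Type) [Group G]
    [MulSemiringAction G L] (R : Type) [Field R] (c : Core p n L G R) (u : L),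
    (u = c.x ∨ u = c.x⁻¹) → Chart G p c.w (c.B u) ∧
      (∃ T : Finset L, (T : Set L) ⊆ c.B u ∧ ∀ b ∈ c.B u, ∃ a : L → L,
        (∀ t, a t ∈ Subring.closure (c.O ∪ {u})) ∧ b = ∑ t ∈ T, a t * t) ∧
      (∀ z : L, (∀ V : ValuationSubring L, (∀ a ∈ c.K, a ∈ V) → u ∈ V → z ∈ V) →
        ∃ N : ℕ, (p : L) ^ N * z ∈ c.B u) ∧
      ∀ y : Ideal (c.B u), y.IsMaximal → (p : c.B u) ∈ y → ∃ b : c.B u, b ∈ y ∧
        (∀ g : G, g • (b : L) = b) ∧ c.w (b : L) = 1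

/-- logarithmic vector fields preserve the charts -/
def ChartFlowStmt : Prop :=
  ∀ (p : ℕ) [Fact p.Prime] (n : ℕ) [NeZero n] (L : Type) [Field L] (G : Type) [Group G]
    [MulSemiringAction G L] (R : Type) [Field R] (c : Core p n L G R) (u : L),
    (u = c.x ∨ u = c.x⁻¹) → ∀ J : ZMod n → L, (∀ j, J j ∈ c.B u ∧ ∀ g : G, g • J j = J j) →
    (∀ V : ValuationSubring L, (∀ a ∈ c.K, a ∈ V) → u ∈ V → ∀ j,
      Above V c.x c.y (c.xP j) (c.yP j) → V.valuation (J j) ≤ V.valuation (c.x - c.xP j)) →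
    (∀ k z, c.w (dE (comb J c.D) c.π0 k z) ≤ c.w z) →
    ChartFlow G p (comb J c.D) c.π0 (c.B u)

/-- regularity of the tails -/
def RegularStmt : Prop :=
  ∀ (p : ℕ) [Fact p.Prime] (L : Type) [Field L] [CharZero L] (G : Type) [Group G] [Finite G]
    [MulSemiringAction G L] (w : Valuation L ℝ≥0) (δ : Derivation ℤ L L) (π0 ζ : L)
    (B : Subring L) (R : Type) [Field R] (rd : L → R) (P : ValuationSubring R),
    Flow G p w δ π0 → Chart G p w B → (∀ b ∈ B, ∀ k, dE δ π0 k b ∈ B) → IsRed w rd →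
    (∀ b ∈ B, rd b ∈ P) →
    (∀ a c : R, a ≠ 0 → 1 < P.valuation c → ∃ N : ℕ, 1 < P.valuation (a * c ^ N)) →
    IsPrimitiveRoot ζ p → ∀ b : L, b ≠ 0 → ∀ e0, Tail p w δ π0 ζ b e0 → ∀ e, e0 ≤ e →
      rd (cc δ π0 ζ b (p ^ e)) ∈ P

/-- local constancy of the group of the first break -/
def BetaStmt : Prop :=
  ∀ (p : ℕ) [Fact p.Prime] (L : Type) [Field L] [CharZero L] (G : Type) [Group G] [Finite G]
    [MulSemiringAction G L] (w : Valuation L ℝ≥0) (δ : Derivation ℤ L L) (π0 ζ : L)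
    (B : Subring L), Flow G p w δ π0 → Chart G p w B → ChartFlow G p δ π0 B →
    IsPrimitiveRoot ζ p → (∀ g : G, g • ζ = ζ) → δ ζ = 0 →
    ∀ (y : Ideal B), y.IsMaximal → (∀ b : B, w (b : L) < 1 → b ∈ y) →
    ∀ g₁ : G, (∀ b : B, w (g₁ • (b : L)) < 1 → b ∈ y) →
    ∀ Γ₁ Γ : Subgroup G,
      (∀ z : L, (∀ g ∈ Γ₁, g • z = z) → z ∈ M0 (cw G w g₁) δ π0) →
      (∀ z : L, (∀ g ∈ Γ, g • z = z) → z ∈ M0 w δ π0) → IsPGroup p Γ →
      ∀ (R : Type) [Field R] (rd : L → R) (P : ValuationSubring R), IsRed w rd →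
      (∀ b : B, rd b ∈ P ∧ (P.valuation (rd b) < 1 ↔ b ∈ y)) →
      (∀ χ : Γ →* Multiplicative (ZMod p), χ ≠ 1 → ∃ b : L, b ≠ 0 ∧
        (∀ g : Γ, (g : G) • b = ζ ^ (Multiplicative.toAdd (χ g)).val * b) ∧
        ∃ e0, Tail p w δ π0 ζ b e0 ∧
          ∀ e, e0 ≤ e → P.valuation (rd (cc δ π0 ζ b (p ^ e))) = 1) →
      Γ ≤ Γ₁

/-- connectedness of the special fibre -/
def ConnStmt : Prop :=
  ∀ (p : ℕ) [Fact p.Prime] (n : ℕ) [NeZero n] (L : Type) [Field L] (G : Type) [Group G]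
    [MulSemiringAction G L] (R : Type) [Field R] (c : Core p n L G R) (α : Type) (Γ : G → α),
    (∀ u, (u = c.x ∨ u = c.x⁻¹) → ∀ y : Ideal (c.B u), y.IsMaximal → ∀ g₁ g₂ : G,
      (∀ b : c.B u, c.w (g₁ • (b : L)) < 1 → b ∈ y) →
      (∀ b : c.B u, c.w (g₂ • (b : L)) < 1 → b ∈ y) → Γ g₁ = Γ g₂) →
    ∀ g₁ g₂, Γ g₁ = Γ g₂

/-! ## E. The Galois action on the covers -/

/-- The hypotheses of the fixed point argument. -/
structure SmithData (p : ℕ) {A : Type} [Group A] (N : Subgroup A) {G : Type} [Group G]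
    (Φ : Set (N →* G)) (P : Subgroup A) : Prop where
  fin : Φ.Finite
  conjG : ∀ φ ∈ Φ, ∀ g : G, (MulAut.conj g).toMonoidHom.comp φ ∈ Φ
  norm : ∀ a ∈ P, ∀ γ ∈ N, a * γ * a⁻¹ ∈ N
  conjA : ∀ a ∈ P, ∀ φ ∈ Φ, ∃ φ' ∈ Φ, ∀ γ γ' : N, γ'.1 = a * γ.1 * a⁻¹ → φ' γ = φ γ'
  pgrp : ∀ a ∈ P, ∃ k : ℕ, ∀ φ ∈ Φ, ∃ g : G, ∀ γ γ' : N,
    γ'.1 = a ^ p ^ k * γ.1 * (a ^ p ^ k)⁻¹ → φ γ' = g * φ γ * g⁻¹
  fixed : ∀ φ ∈ Φ, (∀ a ∈ P, ∃ g : G, ∀ γ γ' : N, γ'.1 = a * γ.1 * a⁻¹ → φ γ' = g * φ γ * g⁻¹) →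
    ∃ Q : Subgroup G, Q ≤ φ.range ∧ Q ≠ ⊥ ∧ IsPGroup p Q ∧ φ.range ≤ Subgroup.normalizer (Q : Set G)

def GalStmt : Prop :=
  ∀ (p : ℕ) [Fact p.Prime] (M : ℕ) (U : Type) [Field U] (S : Setup p (p ^ M) U)
    (G : Type) [Group G] [Finite G] (C : Set G), (∀ g : G, ∀ c ∈ C, g * c * g⁻¹ ∈ C) →
    (∀ c ∈ C, p ∣ orderOf c) → (Nat.card G).factorial < p ^ M →
    (PhiSet S.i S.x S.y S.xP S.yP C).Finite →
    ∃ P : Subgroup (RingAut U), SmithData p (Fix (S.Fb : Set U)) (PhiSet S.i S.x S.y S.xP S.yP C) P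

end P179W
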