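import Vale.Agent.P179W.Stmts
import Vale.Agent.P179.H143.R1
import Vale.Agent.P179.H5.Ch1
import Vale.Agent.P179.H166.KN7

/-!
# P179W : the statements of the group theoretic modules
-/

set_option linter.all false

open scoped Classical

noncomputable section

namespace P179W

/-- the fixed point argument -/
def SmithStmt : Prop :=
  ∀ (p : ℕ) [Fact p.Prime] (A : Type) [Group A] (N : Subgroup A) (G : Type) [Group G] [Finite G]
    (Φ : Set (N →* G)) (P : Subgroup A) (h : SmithData p N Φ P),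
    (p : ℤ) ^ ((Nat.card G).factorization p + 1) ∣
      ∑ s ∈ P179A.chains p G,
        (-1) ^ s.card * ({φ | φ ∈ Φ ∧ φ.range ≤ P179A.stab s}.ncard : ℤ)

/-- the divisibility for the `p ^ M`-pointed counts -/
def NPoint (p : ℕ) : Prop :=
  ∀ (G : Type) [Group G] [Finite G] (g : G), p ∣ orderOf g → ∃ M : ℕ,
    (p : ℤ) ^ ((Nat.card G).factorization p + 1) ∣
      ∑ s ∈ P179A.chains p G,
        (-1) ^ s.card * (tupCount (P179A.stab s) {c | IsConj g c} (p ^ M) : ℤ)

/-- step 0 -/
def Step0Stmt : Prop := ∀ (p : ℕ) [Fact p.Prime], NPoint p → P179R.DivS p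

theorem nPoint_of (hS : SetupStmt) (hR : RetEStmt) (hG : GalStmt) (hSm : SmithStmt)
    (p : ℕ) [hp : Fact p.Prime] : NPoint p := by
  intro G _ _ g hg
  obtain ⟨M, hM⟩ : ∃ M : ℕ, (Nat.card G).factorial < p ^ M :=
    ⟨_, Nat.lt_pow_self hp.out.one_lt⟩
  have hM0 : 0 < M := by
    rcases Nat.eq_zero_or_pos M with rfl | h
    · have := Nat.factorial_pos (Nat.card G)
      simp at hM
      omega
    · exact h
  haveI : NeZero (p ^ M) := ⟨pow_ne_zero _ hp.out.ne_zero⟩
  obtain ⟨U, _, ⟨S⟩⟩ := hS p M hM0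
  haveI := S.algClosed
  have hC : ∀ a : G, ∀ c ∈ {c | IsConj g c}, a * c * a⁻¹ ∈ {c | IsConj g c} :=
    fun a c hc => IsConj.trans hc (isConj_iff.2 ⟨a, rfl⟩)
  have hΔ : S.E.Δ ≠ 0 := by
    intro h
    have := S.wΔ
    rw [h, map_zero] at this
    exact zero_ne_one this
  have hco : CoeffIn S.E S.i.fieldRange := by
    obtain ⟨h1, h2, h3, h4, h6⟩ := S.coeff_k0
    exact ⟨S.k0_le _ h1, S.k0_le _ h2, S.k0_le _ h3, S.k0_le _ h4, S.k0_le _ h6⟩
  have hinj : Function.Injective S.xP := by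
    intro j l h
    by_contra hne
    have := S.wP_sub j l hne
    rw [h, sub_self, map_zero] at this
    exact zero_ne_one this
  have hpsi : ∀ j, psi S.E (S.xP j) (S.yP j) ≠ 0 := by
    intro j h
    have := S.wP_psi j
    rw [h, map_zero] at this
    exact zero_ne_one this
  obtain ⟨hfin, hcount⟩ := hR U S.i S.E S.x S.y hco hΔ S.eqn S.transc S.U_alg (ZMod (p ^ M))
    S.xP S.yP S.P_mem S.eqnP hinj hpsi G _ hC
  obtain ⟨P, hP⟩ := hG p M U S G _ hC (fun c hc => by
    obtain ⟨a, rfl⟩ := isConj_iff.1 hc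
    have h1 : orderOf (a * g * a⁻¹) = orderOf g := (MulAut.conj a).orderOf_eq g
    rwa [h1]) hM hfin
  refine ⟨M, ?_⟩
  have h := hSm p _ _ G _ P hP
  simp only [hcount, ZMod.card] at h
  exact h

/-- The blockwise Alperin weight conjecture from the modules. -/
theorem awc_of (hS : SetupStmt) (hR : RetEStmt) (hG : GalStmt) (hSm : SmithStmt)
    (h0 : Step0Stmt) (p : ℕ) [Fact p.Prime] (k : Type*) [Field k] [IsAlgClosed k] [CharP k p] :
    Nonempty (integralClosure ℤ ℂ →+* k) ∧
    ∀ (red : integralClosure ℤ ℂ →+* k) (G : Type) [Group G] [Finite G]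
      (B : MonoidAlgebra k G), P179B.IsBlock B →
      P179B.numSimpleIn B = P179B.numWeightsIn p red B := by
  refine ⟨P179C.exists_red p k, fun red G _ _ B hB => ?_⟩
  have hD := h0 p (nPoint_of hS hR hG hSm p)
  have ht := P179B.tfae_KR (p := p) red (fun _ _ => True) (fun _ _ _ _ _ _ _ => trivial)
    ⟨fun _ _ _ _ _ => trivial, fun _ _ _ _ _ _ _ => trivial⟩
  have hmod : P179B.WeightConjMod p red (fun _ _ => True) :=
    fun G _ _ _ B hB => by
      rw [P179B.numSimpleIn_eq, P179B.numWeightsIn_eq]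
      exact P179R.R1 hD red B hB
  have h01 : P179B.WeightConj p red (fun _ _ => True) ↔
      P179B.WeightConjMod p red (fun _ _ => True) := ht.out 0 1
  exact h01.2 hmod G trivial B hB

end P179W
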