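import Vale.Agent.P179W.WildA
import Vale.Agent.P179W.Der
import Vale.Agent.P179W.RetCan

/-!
# P179W : wild ramification makes the powers of a derivation unbounded
-/

set_option linter.all false

open scoped NNReal Classical
open Polynomial

noncomputable section

namespace P179W

namespace WildH

variable {U : Type} [Field U]

theorem range_closed (i : ℂ →+* U) {z : U} (hz : Alg i.fieldRange z) : z ∈ i.fieldRange := by
  haveI : IsAlgClosed i.fieldRange := IsAlgClosed.of_ringEquiv _ _ i.rangeRestrictFieldEquiv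
  have h := (alg_iff.1 hz).isIntegral
  obtain ⟨c, hc⟩ := minpoly.mem_range_of_degree_eq_one _ z
    (IsAlgClosed.degree_eq_one_of_irreducible _ (minpoly.irreducible h))
  exact hc ▸ c.2

/-- the power of a canonical generator by the ramification index -/
theorem can_pow {i : ℂ →+* U} {V : ValuationSubring U} (hV : ∀ c, i c ∈ V) {M L : Set U}
    {t : U} {γ : RingAut U} (c : IsCan (fun r => i (zeta r)) M V t γ) (hLM : L ⊆ M)
    (hL : ∀ z ∈ L, γ z ∈ L) {z : U} (hz : z ∈ L) (z0 : z ≠ 0) {e : ℕ} (e0 : 0 < e) {k : ℤ}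
    (h : V.valuation (z ^ e) = V.valuation (t ^ k)) :
    V.valuation ((γ ^ e) z - z) < V.valuation z := by
  have key : ∀ m : ℕ, (γ ^ m) z ∈ L ∧
      V.valuation ((γ ^ m) z - i (zeta (m * (k / e))) * z) < V.valuation z := by
    intro m
    induction m with
    | zero =>
      refine ⟨hz, ?_⟩
      have : zeta ((0 : ℕ) * (k / e)) = 1 := by simpa using RetH.zeta_int 0
      rw [this, map_one, one_mul, pow_zero]
      simpa using (Valuation.pos_iff _).2 z0
    | succ m ih =>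
      have e1 : (γ ^ (m + 1)) z = γ ((γ ^ m) z) := by rw [pow_succ']; rfl
      have u := fun r => RetH.val_unit hV (RetH.zeta_ne r)
      have v1 : V.valuation ((γ ^ m) z) = V.valuation z := by
        have h1 : V.valuation (i (zeta (m * (k / e))) * z) = V.valuation z := by
          rw [map_mul, u, one_mul]
        rw [← h1]
        exact RetH.val_of_close (by rw [h1]; exact ih.2)
      have n0 : (γ ^ m) z ≠ 0 := (map_ne_zero_iff _ (RingEquiv.injective _)).2 z0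
      have h2 := c _ (hLM ih.1) n0 e k e0 (by rw [map_pow, v1, ← map_pow, h])
      refine ⟨e1 ▸ hL _ ih.1, ?_⟩
      rw [e1, Nat.cast_succ, add_mul, one_mul, RetH.zeta_add, map_mul,
        show γ ((γ ^ m) z) - i (zeta (m * (k / e))) * i (zeta (k / e)) * z =
          (γ ((γ ^ m) z) - i (zeta (k / e)) * (γ ^ m) z) +
          i (zeta (k / e)) * ((γ ^ m) z - i (zeta (m * (k / e))) * z) by ring]
      exact V.valuation.map_add_lt (v1 ▸ h2) (mul_small (u _).le ih.2)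
  have h3 := (key e).2
  rwa [mul_div_cancel₀ _ (Nat.cast_ne_zero.2 e0.ne'), RetH.zeta_int, map_one, one_mul] at h3

theorem fix_of_graded {i : ℂ →+* U} {V : ValuationSubring U} (hV : ∀ c, i c ∈ V) {L : Subfield U}
    {g : RingAut U} (hL : ∀ z ∈ L, g z ∈ L) {m : ℕ} (m0 : 0 < m) (hm : g ^ m ∈ Fix (L : Set U))
    (h : ∀ z ∈ L, z ≠ 0 → V.valuation (g z - z) < V.valuation z) : g ∈ Fix (L : Set U) := by
  refine (tame_holds U _ V.valuation L g hL).1 m ?_ (fun z hz => ?_) h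
  · rw [← map_natCast i, RetH.val_unit hV (Nat.cast_ne_zero.2 m0.ne')]
  · refine Eq.trans ?_ (hm z hz)
    clear hm m0
    induction m with
    | zero => rfl
    | succ m ih => rw [Function.iterate_succ_apply', ih, pow_succ']; rfl

theorem w_lam {p : ℕ} {w : Valuation U ℝ≥0} (hp : w (p : U) < 1) {e : ℕ} (he : p ∣ e) (b k : ℕ) :
    w (e : U) < 1 ∧ w (((e * b + 1 : ℕ) : U) - e * k) = 1 := by
  obtain ⟨m, rfl⟩ := he
  have h1 : w ((p * m : ℕ) : U) < 1 := by
    rw [Nat.cast_mul]; exact Pl.vmul_lt' w hp (v_nat w m)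
  refine ⟨h1, ?_⟩
  rw [show (((p * m * b + 1 : ℕ) : U) - (p * m : ℕ) * k) = 1 + (p * m : ℕ) * ((b : U) - k) by
    push_cast; ring]
  exact w.map_one_add_of_lt (Pl.vmul_lt' w h1 (w.map_sub_le (v_nat w b) (v_nat w k)))

variable {p n : ℕ} (S : Setup p n U)

theorem xP_Kt (j) : S.xP j ∈ S.Kt := right_subset_adj _ _ (Or.inl ⟨j, rfl⟩)

theorem yP_Kt (j) : S.yP j ∈ S.Kt := right_subset_adj _ _ (Or.inr ⟨j, rfl⟩)

theorem t_ne (j) : S.x - S.xP j ≠ 0 := Pl.transc_sub_ne S.transc (S.P_mem j).1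

/-- `x - xP j` generates the value group at the `j`-th puncture -/
theorem place_ab {V : ValuationSubring U} (hV : S.IsPl V) {j} (hAb : S.Ab V j) :
    ∀ z ∈ S.Fb, z ≠ 0 → ∃ m : ℤ, V.valuation z = V.valuation ((S.x - S.xP j) ^ m) := by
  have := S.algClosed
  have hO : ∀ c ∈ S.Om, c ∈ V := by rintro _ ⟨c, rfl⟩; exact hV.1 c
  have hk : ∀ c ∈ S.Om, V.valuation c ≤ 1 := fun c hc => (V.valuation_le_one_iff c).2 (hO c hc)
  obtain ⟨t, -, -, -, h1, -, h2⟩ := place_holds U S.Om S.E S.x S.y (fun f hf hd => by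
      obtain ⟨z, hz⟩ := IsAlgClosed.exists_root f (natDegree_pos_iff_degree_pos.1 hd).ne'
      exact ⟨z, range_closed _ ⟨f, by rintro rfl; simp at hd, hf, hz⟩, hz⟩)
    (AmbGal.cmono S.coeff_k0 S.k0_le) (fun h => by simpa [h] using S.wΔ) S.eqn S.transc V hO hV.2
  have eq : ∀ {u a b : U}, a ∈ S.Om → b ∈ S.Om → V.valuation (u - a) < 1 →
      V.valuation (u - b) < 1 → a = b := fun {u a b} ha hb k1 k2 => by
    by_contra hne
    have := V.valuation.map_sub_lt k2 k1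
    rw [sub_sub_sub_cancel_left, Pl.vk hk (sub_mem ha hb) (sub_ne_zero.2 hne)] at this
    exact lt_irrefl _ this
  rcases h2 with ⟨h2, -⟩ | ⟨a, ha, b, hb, -, h2, h3⟩
  · refine absurd ?_ h2
    rw [← sub_add_cancel S.x (S.xP j)]
    exact add_mem ((V.valuation_le_one_iff _).1 hAb.1.le) (hO _ (S.P_mem j).1)
  obtain rfl := eq ha (S.P_mem j).1 h2.1 hAb.1
  obtain rfl := eq hb (S.P_mem j).2 h2.2 hAb.2
  rcases h3 with ⟨-, rfl⟩ | ⟨h3, -⟩
  · exact h1
  · have := S.wP_psi j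
    rw [h3, map_zero] at this
    exact absurd this zero_ne_one

theorem der_t {V : ValuationSubring U} (hV : ∀ c, S.i c ∈ V) {j} (hAb : S.Ab V j) :
    V.valuation (S.D j (S.x - S.xP j) - psi S.E (S.xP j) (S.yP j)) < 1 := by
  rw [map_sub (S.D j), S.D_x, S.D_xP, if_pos rfl]
  split_ifs with h
  · rw [show psi S.E S.x S.y - (1 - 1) * psi S.E (S.xP j) (S.yP j) - psi S.E (S.xP j) (S.yP j) =
      (2 : ℕ) * (S.y - S.yP j) + S.E.a₁ * (S.x - S.xP j) by simp only [psi]; push_cast; ring]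
    obtain ⟨c, hc⟩ := S.k0_le _ S.coeff_k0.1
    exact V.valuation.map_add_lt (Pl.vmul_lt _ (v_nat _ 2) hAb.2)
      (Pl.vmul_lt _ ((V.valuation_le_one_iff _).2 (hc ▸ hV c)) hAb.1)
  · simp

theorem conj_one {K' : Subfield U} (cE : CoeffIn S.E K') (hO : K' ≤ S.Om)
    (hA : ∀ z, Alg (adj K' {S.x, S.y}) z) {h : U}
    (H : ∀ g ∈ Fix (adj K' {S.x, S.y} : Set U), S.w (g h) ≤ 1) :
    ∀ g ∈ Fix (adj K' {S.x} : Set U), S.w (g h) ≤ 1 := by
  intro g hg
  have := S.algClosed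
  have := S.charZero
  have hG : Pl.Gauss S.w K' S.x := fun f hf => S.gauss f fun k => hO (hf k)
  obtain ⟨g1, g2⟩ := mem_Fix_adj.1 hg
  have h1 := (gaussEll_holds U _ S.w K' S.E S.x S.y cE S.coeff_int S.wΔ S.eqn S.wx hG).2.2.2
    (S.w.comap (g : U →+* U)) (fun c hc => congrArg S.w (g1 c hc))
    (by show S.w (g S.x) ≤ 1; rw [g2 _ rfl]; exact S.wx) fun f hf k => by
      show S.w (g _) ≤ S.w (g _)
      rw [g1 _ (hf k), hg _ (eval_mem (mem_polyIn.2 hf) (le_adj _ _) (Pl.x_mem1 _ _))]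
      exact hG f hf k
  obtain ⟨g', hg', e⟩ := trans_holds U _ hA (S.w.comap (g : U →+* U)).valuationSubring
    S.w.valuationSubring fun z hz => by
      rw [Valuation.mem_valuationSubring_iff, Valuation.mem_valuationSubring_iff, h1 z hz]
  exact (e h).2 (H g' hg')

end WildH

open WildH in
theorem wild_of (hH : HorizStmt) : WildStmt := by
  intro p hp n _ U _ S K' L σ h
  have := S.algClosed
  have := S.charZero
  obtain ⟨V, j, t', γ, hV, hAb, ht', hγ, hcan, hw⟩ := h.wild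
  have Hz := hH p n U S K' L σ h
  obtain ⟨dK, -, dL, dg, -, -⟩ := dw_holds p n U S K' L σ h j
  refine ⟨j, fun ⟨C, hC⟩ => ?_⟩
  have hx0 : S.xP j ∈ K' := h.Kt_le (xP_Kt S j)
  have cE : CoeffIn S.E K' := AmbGal.cmono S.coeff_k0 ((left_subset_adj _ _).trans h.Kt_le)
  have hψ : psi S.E (S.xP j) (S.yP j) ∈ K' :=
    (Dr.psi_mem (R := K'.toSubring) cE hx0 (h.Kt_le (yP_Kt S j))).1
  obtain ⟨T, hT⟩ := h.normal.fin
  have hFL : adj K' {S.x, S.y} ≤ L := hT ▸ le_adj _ _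
  have hKL : K' ≤ L := (le_adj _ _).trans hFL
  have hFb : adj K' {S.x, S.y} ≤ S.Fb := adj_mono (fun c hc => h.le_Om hc) le_rfl
  have hFt : S.Ft ≤ adj K' {S.x, S.y} := by
    rw [Setup.Ft, ← adj_adj]; exact adj_mono h.Kt_le le_rfl
  have hA : ∀ z, Alg (adj K' {S.x, S.y}) z := fun z => (S.alg_Ft z).mono hFt
  have hA1 : ∀ z, Alg (adj K' {S.x}) z := fun z => (hA z).trans fun c hc => by
    rw [AmbGal.adj_pair] at hc
    refine alg_adj ?_ c hc
    rintro _ rfl
    exact AmbGal.alg_y (AmbGal.cmono cE (left_subset_adj _ _)) S.eqn (Pl.x_mem1 _ _)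
  have hAt : ∀ z, Alg (adj K' {S.x - S.xP j}) z := by rw [Pl.adj_sub hx0]; exact hA1
  have hO : ∀ V' : ValuationSubring U, (∀ c ∈ K', c ∈ V') → ∀ c, S.i c ∈ V' := fun V' k c =>
    mem_of_alg k ((S.Om_alg _ ⟨c, rfl⟩).mono h.Kt_le)
  have hpl : ∀ V' : ValuationSubring U, (∀ c ∈ K', c ∈ V') → S.IsPl V' ∨ ∀ z, z ∈ V' := by
    intro V' k
    by_cases h1 : ∃ z ∈ S.Fb, z ∉ V'
    · exact Or.inl ⟨hO V' k, h1⟩
    · push Not at h1
      exact Or.inr fun z => mem_of_alg h1 (S.U_alg z)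
  have hKV : ∀ c ∈ K', c ∈ V := fun c hc => by
    obtain ⟨c, rfl⟩ := h.le_Om hc
    exact hV.1 c
  have hk : ∀ c ∈ K', V.valuation c ≤ 1 := fun c hc => (V.valuation_le_one_iff c).2 (hKV c hc)
  have hP := place_ab S hV hAb
  have hδ := fun V' k => der_t S (V := V') (j := j) k
  have t0 := t_ne S j
  have tF : S.x - S.xP j ∈ adj K' {S.x, S.y} := sub_mem (Pl.x_mem2 _ _ _) (le_adj _ _ hx0)
  have wt : S.w (S.x - S.xP j) ≤ 1 := S.w.map_sub_le S.wx (S.wP j)
  have vt : V.valuation (S.x - S.xP j) < 1 := hAb.1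
  have xV : ∀ V' : ValuationSubring U, (∀ c ∈ K', c ∈ V') → S.x ∈ V' → S.x - S.xP j ∈ V' :=
    fun V' k hx => sub_mem hx (k _ hx0)
  have hlog := fun V' k1 k2 => Hz.log' V' k1 j k2
  have hpres := fun V' k1 k2 => Hz.pres V' k1 j k2
  have vx := hAb.1
  have hAb' := hAb
  generalize S.x - S.xP j = t at hAt hP hδ t0 tF wt vt xV hlog
  generalize S.D j = δ at dK dL dg hC hδ hlog hpres
  have wψ := S.wP_psi j
  generalize psi S.E (S.xP j) (S.yP j) = ψ at hψ hδ wψ
  have vt0 := V.valuation.pos_iff.2 t0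
  -- the uniformiser and the ramification index
  obtain ⟨f₀, hf₀, f₀0, vf₀, hd⟩ := discExt_holds U _ V.valuation _ T (fun z _ => hA z)
    ⟨t, tF, t0, vt, fun z hz => hP z (hFb hz)⟩
  rw [← hT] at hf₀ hd
  have vf0 := V.valuation.pos_iff.2 f₀0
  obtain ⟨e', he⟩ := hd t (hFL tF) t0
  rw [map_zpow₀] at he
  obtain ⟨e, rfl⟩ := Int.eq_ofNat_of_zero_le
    ((zpow_lt_one_iff_right_of_lt_one₀ vf0 vf₀).1 (he ▸ vt)).le
  rw [zpow_natCast] at he
  have e0 : e ≠ 0 := by
    rintro rfl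
    rw [he, pow_zero] at vt
    exact lt_irrefl _ vt
  have tt' : V.valuation t = V.valuation t' := by
    refine le_antisymm (ht'.2.2.2 t (hFb tF) vt) ?_
    obtain ⟨m, hm⟩ := hP t' ht'.1 ht'.2.1
    have h1 := ht'.2.2.1
    rw [hm, map_zpow₀] at h1 ⊢
    conv_rhs => rw [← zpow_one (V.valuation t)]
    exact zpow_le_zpow_right_of_le_one₀ vt0 vt.le
      ((zpow_lt_one_iff_right_of_lt_one₀ vt0 vt).1 h1)
  have hγF : γ ∈ Fix (adj K' {S.x, S.y} : Set U) := Fix_anti hFb hγ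
  have pe : p ∣ e := by
    by_contra hpe
    refine hw e hpe ?_
    obtain ⟨m, m0, -, hm⟩ := Subgroup.exists_pow_mem_of_relIndex_ne_zero
      (openGal_holds U _ hA T).1 (pow_mem hγF e)
    rw [← hT] at hm
    refine fix_of_graded hV.1 (h.normal.stab _ (pow_mem hγF e)) m0 hm.1 fun z hz z0 => ?_
    obtain ⟨k, hk'⟩ := hd z hz z0
    refine can_pow hV.1 (RetH.can_val hcan tt') (left_subset_adj _ _) (h.normal.stab _ hγF) hz z0
      (Nat.pos_of_ne_zero e0) (k := k) ?_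
    rw [map_pow, hk', map_zpow₀, map_zpow₀, he, ← zpow_natCast, ← zpow_natCast, ← zpow_mul,
      ← zpow_mul, mul_comm]
  -- the integral element
  obtain ⟨d, d0, hdV⟩ := den (hAt f₀)
  obtain ⟨b₀, g₀, vg₀, hg₀⟩ := Pl.lead_poly hk vt (f := d) (by rintro rfl; simp at d0)
  have aL : ∀ q : K'[X], aeval t q ∈ adj K' {S.x, S.y} := fun q => by
    rw [← eval_map_sub]
    exact eval_mem ⟨q, rfl⟩ (le_adj _ _) tF
  have hf : aeval t d * f₀ ∈ L := mul_mem (hFL (aL d)) hf₀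
  have f0 : aeval t d * f₀ ≠ 0 := mul_ne_zero d0 f₀0
  have vf : V.valuation ((aeval t d * f₀) ^ e) = V.valuation (t ^ (e * b₀ + 1)) := by
    rw [map_pow, map_mul, hg₀, map_mul, vg₀, mul_one, map_pow, map_pow, mul_pow, ← he, pow_succ,
      ← pow_mul, mul_comm b₀]
  generalize aeval t d * f₀ = f at hdV hf f0 vf
  have hδK : ∀ c ∈ K', V.valuation (δ c) ≤ 1 := fun c hc => hk _ (dK c hc)
  have hl : ((e * b₀ + 1 : ℕ) : U) / e ∈ K' := div_mem (natCast_mem _ _) (natCast_mem _ _)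
  have L1 := log_der δ hKL hk hδK t0 (hFL tF) vt hf f0 (hlog V hV hAb') hAt (hδ V hV.1 hAb') e0 vf
  have L2 := iter_lead δ hKL hk hδK dL (hFL tF) vt hf f0 (hlog V hV hAb') hψ hl
    (hδ V hV.1 hAb') L1
  -- the cofactor
  obtain ⟨d', d0', hdV'⟩ := den (hAt f⁻¹)
  obtain ⟨G, hG, hG0⟩ := exists_eq_pow_rootMultiplicity_mul_and_not_dvd d'
    (by rintro rfl; simp at d0') 0
  rw [map_zero, sub_zero] at hG hG0
  generalize rootMultiplicity 0 d' = b at hG
  have hd' : aeval t d' = t ^ b * aeval t G := by rw [hG, map_mul, map_pow, aeval_X]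
  have G0 : (G.coeff 0 : U) ≠ 0 := fun e => hG0 (X_dvd_iff.2 (Subtype.ext e))
  have vG : V.valuation (aeval t G - G.coeff 0) < 1 := by
    have e1 := congrArg (aeval t) (X_mul_divX_add G)
    rw [map_add, map_mul, aeval_X, aeval_C] at e1
    rw [← e1, show algebraMap K' U (G.coeff 0) = G.coeff 0 from rfl, add_sub_cancel_right]
    exact Pl.vmul_lt' _ vt (Pl.aeval_le vt.le _ fun k => hk _ (G.divX.coeff k).2)
  obtain ⟨c₁, hc₁⟩ := conj_bdd S.w (hA f)
  obtain ⟨c₂, hc₂⟩ := conj_bdd S.w (hA (aeval t d' * f⁻¹))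
  obtain ⟨M, hM⟩ := NNReal.exists_pow_lt_of_lt_one (a := (C * c₁ * c₂ + 1)⁻¹) (by positivity) S.wp
  have hM' : S.w (p : U) ^ M * (C * c₁ * c₂) ≤ 1 := by
    rw [lt_inv_comm₀ (pow_pos (S.w.pos_iff.2 (Nat.cast_ne_zero.2 hp.out.ne_zero)) M)
      (by positivity), ← one_div, lt_div_iff₀
      (pow_pos (S.w.pos_iff.2 (Nat.cast_ne_zero.2 hp.out.ne_zero)) M)] at hM
    refine le_trans ?_ hM.le
    rw [mul_comm]
    exact mul_le_mul_left (le_add_of_nonneg_right zero_le) _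
  have key : ∀ m : ℕ, S.w ((p : U) ^ M * ((∏ i ∈ Finset.range (b + m),
      ((((e * b₀ + 1 : ℕ) : U) / e - i) * ψ)) * G.coeff 0)) ≤ 1 := by
    intro m
    have hα : ∏ i ∈ Finset.range (b + m), ((((e * b₀ + 1 : ℕ) : U) / e - i) * ψ) ∈ K' :=
      prod_mem fun i _ => mul_mem (sub_mem hl (natCast_mem K' i)) hψ
    have L3 := L2 (b + m)
    generalize ∏ i ∈ Finset.range (b + m), ((((e * b₀ + 1 : ℕ) : U) / e - i) * ψ) = α at hα L3
    have eq : t ^ (b + m) * (δ : U → U)^[b + m] f * (aeval t G * f⁻¹) =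
        t ^ m * ((δ : U → U)^[b + m] f * (aeval t d' * f⁻¹)) := by rw [hd']; ring
    refine maxp (v := V.valuation) (K := K') (x := S.x)
      (h := (p : U) ^ M * (t ^ (b + m) * (δ : U → U)^[b + m] f * (aeval t G * f⁻¹)))
      ⟨S.wx, fun f hf => S.gauss f fun k => h.le_Om (hf k)⟩ hA1 (fun V' k hx => ?_)
      (conj_one S cE h.le_Om hA fun g hg => ?_) hk hx0 (S.wP j) vx
      (mul_mem (pow_mem (natCast_mem _ _) _) (mul_mem hα (G.coeff 0).2)) ?_
    · refine mul_mem (pow_mem (natCast_mem _ _) _) ?_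
      rcases hpl V' k with k1 | k1
      · by_cases k2 : S.Ab V' j
        · have hk' : ∀ c ∈ K', V'.valuation c ≤ 1 :=
            fun c hc => (V'.valuation_le_one_iff c).2 (k c hc)
          have a1 := iter_le δ dL (hFL tF) hf (hlog V' k1 k2) (by
            rw [← sub_add_cancel (δ t) ψ]
            exact V'.valuation.map_add_le (hδ V' k1.1 k2).le (hk' _ hψ)) (b + m)
          have a2 : V'.valuation (aeval t G) ≤ 1 := Pl.aeval_le
            ((V'.valuation_le_one_iff _).2 (xV V' k hx)) _ fun k => hk' _ (G.coeff k).2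
          rw [← V'.valuation_le_one_iff, mul_left_comm]
          refine Pl.vmul_le _ a2 ?_
          rw [map_mul, map_inv₀]
          exact mul_inv_le_one_of_le₀ a1 zero_le
        · rw [eq]
          refine mul_mem (pow_mem (xV V' k hx) m) (mul_mem ?_ (hdV' V' k (xV V' k hx)))
          exact (iter_mem δ (L := {z | z ∈ L ∧ z ∈ V'})
            (fun z hz => ⟨dL z hz.1, hpres V' k1 k2 z hz.1 hz.2⟩)
            ⟨hf, hdV V' k (xV V' k hx)⟩ _).2
      · exact k1 _
    · have a1 : g ((δ : U → U)^[b + m] f) = (δ : U → U)^[b + m] (g f) :=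
        (Function.Commute.iterate_right (f := g) (g := δ)
          (fun z => (dg g (Fix_anti hFt hg) z).symm) _) f
      have a2 := hC (b + m) (g f) (h.normal.stab g hg f hf) c₁ fun g' hg' =>
        hc₁ (g' * g) (mul_mem hg' hg)
      rw [eq, map_mul g, map_mul g, map_mul g, map_pow g, map_pow g, map_natCast, hg t tF, a1,
        map_mul S.w, map_mul S.w, map_mul S.w, map_pow S.w, map_pow S.w]
      refine le_trans (mul_le_mul_right ?_ _) hM'
      exact (mul_le_of_le_one_left' (pow_le_one₀ zero_le wt)).trans (mul_le_mul' a2 (hc₂ g hg))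
    · rw [← mul_sub]
      refine Pl.vmul_lt _ (Pl.vpow_le _ (v_nat _ p) M) ?_
      rw [show t ^ (b + m) * (δ : U → U)^[b + m] f * (aeval t G * f⁻¹) - α * G.coeff 0 =
        aeval t G * ((t ^ (b + m) * (δ : U → U)^[b + m] f - α * f) * f⁻¹) +
          α * (aeval t G - G.coeff 0) by field_simp; ring]
      refine V.valuation.map_add_lt (Pl.vmul_lt _ (Pl.aeval_le vt.le _ fun k =>
        hk _ (G.coeff k).2) ?_) (Pl.vmul_lt _ (hk _ hα) vG)
      rw [map_mul, map_inv₀]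
      exact (mul_inv_lt_iff₀ (V.valuation.pos_iff.2 f0)).2 (by rwa [one_mul])
  have e0' : (e : U) ≠ 0 := Nat.cast_ne_zero.2 e0
  have we := S.w.pos_iff.2 e0'
  have wα : ∀ k : ℕ, S.w (∏ i ∈ Finset.range k, ((((e * b₀ + 1 : ℕ) : U) / e - i) * ψ)) =
      (S.w (e : U) ^ k)⁻¹ := by
    intro k
    rw [map_prod, ← inv_pow, ← Finset.card_range k, ← Finset.prod_const, Finset.card_range]
    refine Finset.prod_congr rfl fun i _ => ?_
    rw [map_mul, wψ, mul_one, div_sub' e0', map_div₀, (w_lam S.wp pe b₀ i).2, one_div]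
  have pos : 0 < S.w ((p : U) ^ M * G.coeff 0) :=
    S.w.pos_iff.2 (mul_ne_zero (pow_ne_zero _ (Nat.cast_ne_zero.2 hp.out.ne_zero)) G0)
  obtain ⟨m, hm⟩ := NNReal.exists_pow_lt_of_lt_one pos (w_lam S.wp pe 0 0).1
  have k1 := key m
  rw [mul_left_comm, map_mul, wα, inv_mul_le_iff₀ (pow_pos we _), mul_one, pow_add] at k1
  exact absurd (k1.trans (mul_le_of_le_one_left' (pow_le_one₀ zero_le
    (w_lam S.wp pe 0 0).1.le))) hm.not_ge

end P179W
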