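import Vale.Agent.P179W.AmbGal
import Vale.Agent.P179W.AmbVal2
import Vale.Agent.P179W.ChartB
import Vale.Agent.P179W.PlaceB

/-!
# P179W : the maximum principle for the Gauss valuation, derivations at a place
-/

set_option linter.all false

open scoped NNReal Classical
open Polynomial

noncomputable section

namespace P179W

namespace WildH

variable {U : Type} [Field U]

theorem mem_of_alg {K : Subfield U} {V : ValuationSubring U} (hV : ∀ c ∈ K, c ∈ V) {z : U}
    (hz : Alg K z) : z ∈ V :=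
  CA.mem_val_of_isIntegral (S := K.toSubring) V hV (alg_iff.1 hz).isIntegral

theorem monic_of_alg {F : Subfield U} {z : U} (hz : Alg F z) :
    ∃ f : U[X], f.Monic ∧ (∀ k, f.coeff k ∈ F) ∧ f.eval z = 0 :=
  (CA.isIntegral_iff F.toSubring z).1 (alg_iff.1 hz).isIntegral

theorem frac {K : Subfield U} {s z : U} (hz : z ∈ adj K {s}) :
    ∃ A B : K[X], aeval s B ≠ 0 ∧ z * aeval s B = aeval s A := by
  obtain ⟨_, ⟨A, rfl⟩, _, ⟨B, rfl⟩, h1, h2⟩ := mem_adj_one.1 hz
  simp only [coe_mapRingHom, eval_map_sub] at h1 h2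
  exact ⟨A, B, h1, h2⟩

/-- denominators -/
theorem den {K : Subfield U} {s z : U} (hz : Alg (adj K {s}) z) :
    ∃ d : K[X], aeval s d ≠ 0 ∧
      ∀ V : ValuationSubring U, (∀ c ∈ K, c ∈ V) → s ∈ V → aeval s d * z ∈ V := by
  obtain ⟨f, hf, hc, hz⟩ := monic_of_alg hz
  have h1 := fun k => frac (K := K) (s := s) (z := f.coeff k) (hc k)
  choose A B hB hAB using h1
  refine ⟨∏ k ∈ Finset.range f.natDegree, B k, ?_, fun V hV hs => ?_⟩
  · rw [map_prod]
    exact Finset.prod_ne_zero_iff.2 fun k _ => hB k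
  have hm : ∀ g : K[X], aeval s g ∈ V := fun g => (V.valuation_le_one_iff _).1
    (Pl.aeval_le ((V.valuation_le_one_iff _).2 hs) g fun k =>
      (V.valuation_le_one_iff _).2 (hV _ (g.coeff k).2))
  set b := aeval s (∏ k ∈ Finset.range f.natDegree, B k) with hb
  refine CA.mem_val_of_monic V (f := f.scaleRoots b) ((monic_scaleRoots_iff _).2 hf)
    (fun k => ?_) (by rw [scaleRoots_eval_mul, hz, mul_zero])
  rw [coeff_scaleRoots]
  rcases lt_trichotomy k f.natDegree with hk | rfl | hk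
  · obtain ⟨m, hm'⟩ := Nat.exists_eq_add_of_lt hk
    have e : f.natDegree - k = m + 1 := by omega
    rw [e, pow_succ', ← mul_assoc]
    refine mul_mem ?_ (pow_mem (hm _) m)
    rw [hb, ← Finset.mul_prod_erase _ _ (Finset.mem_range.2 hk), map_mul, ← mul_assoc, hAB]
    exact mul_mem (hm _) (hm _)
  · rw [hf.coeff_natDegree, Nat.sub_self, pow_zero, mul_one]; exact one_mem _
  · rw [coeff_eq_zero_of_natDegree_lt hk, zero_mul]; exact zero_mem _

/-- a monic polynomial whose roots are the conjugates -/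
theorem conj_poly [CharZero U] [IsAlgClosed U] {F : Subfield U} (hF : ∀ z, Alg F z) (h : U) :
    ∃ q : U[X], q.Monic ∧ (∀ k, q.coeff k ∈ F) ∧ q.eval h = 0 ∧
      ∀ V : ValuationSubring U, (∀ g ∈ Fix (F : Set U), g h ∈ V) → ∀ k, q.coeff k ∈ V := by
  have hz := alg_iff.1 (hF h)
  have := isGalois_of_alg hF
  have hm := (minpoly.monic hz.isIntegral).map F.subtype
  refine ⟨(minpoly F h).map F.subtype, hm, fun k => ?_, ?_, fun V hV k => ?_⟩
  · rw [coeff_map]; exact ((minpoly F h).coeff k).2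
  · rw [eval_map_sub]; exact minpoly.aeval F h
  · have := (IsAlgClosed.splits _).mem_lift_of_roots_mem_range hm V.subtype fun a ha => by
      have h1 := (mem_roots hm.ne_zero).1 ha
      rw [IsRoot.def, eval_map_sub] at h1
      obtain ⟨σ, rfl⟩ := minpoly.exists_algEquiv_of_root' hz h1
      exact ⟨⟨_, hV _ ((fixEquiv F).symm σ).2⟩, rfl⟩
    obtain ⟨c, hc⟩ := (lifts_iff_coeff_lifts _).1 this k
    rw [← hc]
    exact c.2

/-- the conjugates are bounded -/
theorem conj_bdd (w : Valuation U ℝ≥0) {F : Subfield U} {h : U} (hF : Alg F h) :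
    ∃ c : ℝ≥0, ∀ g ∈ Fix (F : Set U), w (g h) ≤ c := by
  obtain ⟨q, q0, hq, e⟩ := hF
  refine ⟨q.roots.toFinset.sup w, fun g hg => Finset.le_sup (f := w) ?_⟩
  rw [Multiset.mem_toFinset, mem_roots q0, IsRoot.def]
  have h1 : q.map (g : U →+* U) = q := by
    ext k
    rw [coeff_map]
    exact hg _ (hq k)
  have h2 := eval_map_aut (g : U →+* U) q h
  rw [h1, e, map_zero] at h2
  exact h2

theorem ks1 {K : Subfield U} {x : U} (hx : Transc K x) : Nonempty (K.toSubring[X] ≃+* CA.KS K x) :=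
  CA.nonempty_equiv K.toSubring x fun f hf => hx f fun k => hf k

theorem ks2 (K : Subfield U) : IsPrincipalIdealRing K.toSubring := by
    have hf : IsField K.toSubring := Field.toIsField K
    exact hf.isPrincipalIdealRing

theorem ks3 {K : Subfield U} {x : U} (hx : Transc K x) : IsNoetherianRing (CA.KS K x) := by
  obtain ⟨e⟩ := ks1 hx
  haveI := ks2 K
  exact isNoetherianRing_of_ringEquiv _ e

theorem ks4 {K : Subfield U} {x : U} (hx : Transc K x) : IsIntegrallyClosed (CA.KS K x) := by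
  obtain ⟨e⟩ := ks1 hx
  haveI := ks2 K
  exact IsIntegrallyClosed.of_equiv e

theorem ks5 {K : Subfield U} {x : U} {z : U}
    (h : ∀ V : ValuationSubring U, (∀ c ∈ K, c ∈ V) → x ∈ V → z ∈ V) : IsIntegral (CA.KS K x) z :=
    (CA.isIntegral_closure_iff _ _).2 fun V hV =>
      h V (fun c hc => hV c (Or.inl hc)) (hV x (Or.inr rfl))

theorem ks6 (K : Subfield U) (x : U) : ∀ z ∈ adj K {x}, ∃ a ∈ CA.KS K x, ∃ b ∈ CA.KS K x, z = a / b := fun z hz => by
    obtain ⟨a, ha, b, hb, -, hz⟩ := CA.mem_adj_iff.1 hz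
    exact ⟨a, ha, b, hb, hz⟩

theorem KS_closed {K : Subfield U} {x : U} (hx : Transc K x) {z : U} (hz : z ∈ adj K {x})
    (h : ∀ V : ValuationSubring U, (∀ c ∈ K, c ∈ V) → x ∈ V → z ∈ V) : z ∈ CA.KS K x := by
  haveI := ks3 hx
  haveI := ks4 hx
  have := CA.closed_fin_aux (CA.KS K x) (adj K {x}) (CA.KS_le_adj K x) (ks6 K x)
  exact this.1 z hz (ks5 h)

section
variable {Γ : Type} [LinearOrderedCommGroupWithZero Γ] {v : Valuation U Γ}

/-- the elements congruent to an integral constant -/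
def intRes (w : Valuation U ℝ≥0) {K : Subfield U} (hk : ∀ c ∈ K, v c ≤ 1) : Subring U where
  carrier := {z | ∃ c ∈ K, w c ≤ 1 ∧ v (z - c) < 1}
  zero_mem' := ⟨0, zero_mem _, by simp, by simp⟩
  one_mem' := ⟨1, one_mem _, by simp, by simp⟩
  add_mem' := by
    rintro a b ⟨c, hc, w1, h1⟩ ⟨d, hd, w2, h2⟩
    exact ⟨c + d, add_mem hc hd, w.map_add_le w1 w2, by
      rw [show a + b - (c + d) = a - c + (b - d) by ring]; exact v.map_add_lt h1 h2⟩
  neg_mem' := by
    rintro a ⟨c, hc, w1, h1⟩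
    exact ⟨-c, neg_mem hc, by rwa [w.map_neg],
      by rwa [show -a - -c = -(a - c) by ring, v.map_neg]⟩
  mul_mem' := by
    rintro a b ⟨c, hc, w1, h1⟩ ⟨d, hd, w2, h2⟩
    exact ⟨c * d, mul_mem hc hd, Pl.vmul_le w w1 w2, by
      rw [show a * b - c * d = (a - c) * (b - d + d) + c * (b - d) by ring]
      exact v.map_add_lt (Pl.vmul_lt' v h1 (v.map_add_le h2.le (hk d hd)))
        (Pl.vmul_lt v (hk c hc) h2)⟩

theorem pow_sub_lt {a b : U} (hb : v b ≤ 1) (h : v (a - b) < 1) (n : ℕ) :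
    v (a ^ n - b ^ n) < 1 := by
  have ha : v a ≤ 1 := by
    rw [← sub_add_cancel a b]; exact v.map_add_le h.le hb
  induction n with
  | zero => simp
  | succ n ih =>
    rw [show a ^ (n + 1) - b ^ (n + 1) = (a ^ n - b ^ n) * a + b ^ n * (a - b) by ring]
    exact v.map_add_lt (Pl.vmul_lt' v ih ha) (Pl.vmul_lt v (Pl.vpow_le v hb n) h)

theorem res_le (w : Valuation U ℝ≥0) {K : Subfield U} (hk : ∀ c ∈ K, v c ≤ 1) {q : U[X]}
    (hq : q.Monic) (hc : ∀ k, q.coeff k ∈ intRes w hk) {h c : U} (e : q.eval h = 0) (hcK : c ∈ K)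
    (hh : v (h - c) < 1) : w c ≤ 1 := by
  choose a ha wa va using hc
  have hs : c ^ q.natDegree + ∑ k ∈ Finset.range q.natDegree, a k * c ^ k = 0 := by
    by_contra h0
    have h1 := Pl.vk hk (add_mem (pow_mem hcK _)
      (sum_mem fun k _ => mul_mem (ha k) (pow_mem hcK k))) h0
    rw [eval_eq_sum_range, Finset.sum_range_succ, hq.coeff_natDegree, one_mul] at e
    have h2 : c ^ q.natDegree + ∑ k ∈ Finset.range q.natDegree, a k * c ^ k =
        -((h ^ q.natDegree - c ^ q.natDegree) +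
          ∑ k ∈ Finset.range q.natDegree, (q.coeff k * h ^ k - a k * c ^ k)) := by
      rw [Finset.sum_sub_distrib]; linear_combination e
    rw [h2, v.map_neg] at h1
    refine absurd h1 (ne_of_lt (v.map_add_lt (pow_sub_lt (hk c hcK) hh _)
      (v.map_sum_lt one_ne_zero fun k _ => ?_)))
    have hv : v h ≤ 1 := by
      rw [← sub_add_cancel h c]; exact v.map_add_le hh.le (hk c hcK)
    rw [show q.coeff k * h ^ k - a k * c ^ k =
      (q.coeff k - a k) * h ^ k + a k * (h ^ k - c ^ k) by ring]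
    exact v.map_add_lt (Pl.vmul_lt' v (va k) (Pl.vpow_le v hv k))
      (Pl.vmul_lt v (hk _ (ha k)) (pow_sub_lt (hk c hcK) hh k))
  by_contra hw
  push Not at hw
  have c0 : w c ≠ 0 := (zero_lt_one.trans hw).ne'
  have h3 : w (∑ k ∈ Finset.range q.natDegree, a k * c ^ k) < w (c ^ q.natDegree) := by
    refine w.map_sum_lt (by rw [map_pow]; exact pow_ne_zero _ c0) fun k hk => ?_
    rw [map_mul, map_pow, map_pow]
    exact (mul_le_of_le_one_left' (wa k)).trans_lt
      (pow_lt_pow_right₀ hw (Finset.mem_range.1 hk))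
  have h4 := w.map_add_eq_of_lt_left h3
  rw [hs, map_zero, map_pow] at h4
  exact pow_ne_zero _ c0 h4.symm

/-- the maximum principle -/
theorem maxp [CharZero U] [IsAlgClosed U] {w : Valuation U ℝ≥0} {K : Subfield U} {x : U}
    (hG : CA.GD w K x) (hF : ∀ z, Alg (adj K {x}) z) {h : U}
    (h1 : ∀ V : ValuationSubring U, (∀ c ∈ K, c ∈ V) → x ∈ V → h ∈ V)
    (h2 : ∀ g ∈ Fix (adj K {x} : Set U), w (g h) ≤ 1) (hk : ∀ c ∈ K, v c ≤ 1) {x₀ c : U}
    (hx₀ : x₀ ∈ K) (wx₀ : w x₀ ≤ 1) (vx : v (x - x₀) < 1) (hc : c ∈ K) (hh : v (h - c) < 1) :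
    w c ≤ 1 := by
  obtain ⟨q, hq, hqF, e, hV⟩ := conj_poly hF h
  refine res_le w hk hq (fun k => ?_) e hc hh
  have a1 : q.coeff k ∈ CA.KS K x := by
    refine KS_closed hG.transc (hqF k) fun V hK hx => hV V (fun g hg => ?_) k
    obtain ⟨g1, g2⟩ := mem_Fix_adj.1 hg
    exact h1 (V.comap (g : U →+* U))
      (fun c hc => by show g c ∈ V; rw [g1 c hc]; exact hK c hc)
      (by show g x ∈ V; rw [g2 x rfl]; exact hx)
  have a2 := hG.mem_A_of_le a1 (hV w.valuationSubring h2 k)
  have a3 : CA.AS w K x ≤ intRes w hk := by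
    rw [Subring.closure_le]
    rintro z (hz | rfl)
    · exact ⟨z, hz.1, hz.2, by simp⟩
    · exact ⟨x₀, hx₀, wx₀, vx⟩
  exact a3 a2

/-- an element of the valuation ring is a simple root of a polynomial modulo the maximal ideal -/
theorem exists_simple [CharZero U] {K : Subfield U} (hk : ∀ c ∈ K, v c ≤ 1) {t u : U} (t0 : t ≠ 0)
    (ht : v t < 1) (hu : Alg (adj K {t}) u) (vu : v u ≤ 1) :
    ∃ m : K[X], v (aeval u m) < 1 ∧ v (aeval u (derivative m)) = 1 := by
  have hex : ∃ n, ∃ m : K[X], m ≠ 0 ∧ m.natDegree = n ∧ v (aeval u m) < 1 := by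
    obtain ⟨f, f0, hf, e⟩ := hu
    obtain ⟨i, hi, h⟩ := f.support.exists_max_image (fun i => v (f.coeff i))
      (support_nonempty.2 f0)
    have c0 := mem_support_iff.1 hi
    have v0 := (Valuation.pos_iff v).2 c0
    have h1 : ∀ k, ∃ c ∈ K, v ((f.coeff i)⁻¹ * f.coeff k - c) < 1 := fun k => by
      refine (Pl.resRing_cl hk).gen1 hk t0 ht ⟨0, zero_mem _, by simpa using ht⟩
        (mul_mem (inv_mem (hf i)) (hf k)) ?_
      rw [map_mul, map_inv₀, inv_mul_le_iff₀ v0, mul_one]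
      by_cases j : k ∈ f.support
      exacts [h k j, by rw [notMem_support_iff.1 j, map_zero]; exact zero_le]
    choose c hc vc using h1
    refine ⟨_, ∑ k ∈ Finset.range (f.natDegree + 1), monomial k (⟨c k, hc k⟩ : K), ?_, rfl, ?_⟩
    · intro h0
      have h2 := congrArg (fun g : K[X] => (g.coeff i : U)) h0
      have h3 : i ∈ Finset.range (f.natDegree + 1) :=
        Finset.mem_range.2 (Nat.lt_succ_of_le (le_natDegree_of_ne_zero c0))
      simp only [finset_sum_coeff, coeff_monomial, Finset.sum_ite_eq', h3, if_true, coeff_zero,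
        ZeroMemClass.coe_zero] at h2
      have := vc i
      rw [h2, inv_mul_cancel₀ c0, sub_zero, map_one] at this
      exact lt_irrefl _ this
    · have h2 : aeval u (∑ k ∈ Finset.range (f.natDegree + 1), monomial k (⟨c k, hc k⟩ : K)) =
          -∑ k ∈ Finset.range (f.natDegree + 1), ((f.coeff i)⁻¹ * f.coeff k - c k) * u ^ k := by
        rw [eval_eq_sum_range] at e
        simp only [map_sum, aeval_monomial, sub_mul, Finset.sum_sub_distrib, mul_assoc,
          ← Finset.mul_sum, e]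
        simp
        rfl
      rw [h2, v.map_neg]
      exact v.map_sum_lt one_ne_zero fun k _ => Pl.vmul_lt' v (vc k) (Pl.vpow_le v vu k)
  obtain ⟨m, m0, hm, vm⟩ := Nat.find_spec hex
  have d0 : m.natDegree ≠ 0 := by
    intro h
    rw [eq_C_of_natDegree_eq_zero h, aeval_C] at vm
    refine absurd (Pl.vk hk (m.coeff 0).2 fun e => m0 ?_) vm.ne
    rw [eq_C_of_natDegree_eq_zero h, show m.coeff 0 = 0 from Subtype.ext e, map_zero]
  refine ⟨m, vm, le_antisymm (Pl.aeval_le vu _ fun k => hk _ (_root_.Subtype.prop _)) ?_⟩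
  by_contra h
  exact Nat.find_min hex (hm ▸ natDegree_derivative_lt d0)
    ⟨derivative m, fun e => d0 (derivative_eq_zero.1 e), rfl, not_le.1 h⟩

theorem der_aeval (δ : Derivation ℤ U U) {K : Subfield U} (hδ : ∀ c ∈ K, v (δ c) ≤ 1) {u : U}
    (vu : v u ≤ 1) (m : K[X]) : v (δ (aeval u m) - aeval u (derivative m) * δ u) ≤ 1 := by
  induction m using Polynomial.induction_on' with
  | add p q hp hq =>
    rw [map_add, map_add, derivative_add, map_add,
      show ∀ a b c d e : U, a + b - (c + d) * e = (a - c * e) + (b - d * e) by intros; ring]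
    exact v.map_add_le hp hq
  | monomial n a =>
    have : δ (aeval u (monomial n a)) - aeval u (derivative (monomial n a)) * δ u =
        u ^ n * δ a := by
      rw [derivative_monomial, aeval_monomial, aeval_monomial, Derivation.leibniz,
        Derivation.leibniz_pow, map_mul, map_natCast]
      simp only [smul_eq_mul, nsmul_eq_mul]
      show (a : U) * _ + u ^ n * δ (a : U) - (a : U) * _ * _ * _ = _
      ring
    rw [this]
    exact Pl.vmul_le v (Pl.vpow_le v vu n) (hδ _ a.2)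

/-- a logarithmic derivation is trivial on the residue field -/
theorem der_unit [CharZero U] (δ : Derivation ℤ U U) {K L : Subfield U} (hKL : K ≤ L)
    (hk : ∀ c ∈ K, v c ≤ 1) (hδ : ∀ c ∈ K, v (δ c) ≤ 1) {t u : U} (t0 : t ≠ 0) (ht : v t < 1)
    (hlog : ∀ z ∈ L, v (t * δ z) ≤ v z) (hu : Alg (adj K {t}) u) (huL : u ∈ L) (vu : v u ≤ 1) :
    v (t * δ u) < 1 := by
  obtain ⟨m, h1, h2⟩ := exists_simple hk t0 ht hu vu
  have h3 := der_aeval δ hδ vu m
  have h4 : aeval u m ∈ L := by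
    rw [← eval_map_sub]
    exact eval_mem ⟨m, rfl⟩ hKL huL
  have h5 := (hlog _ h4).trans_lt h1
  have h6 : v (aeval u (derivative m) * (t * δ u)) < 1 := by
    rw [show aeval u (derivative m) * (t * δ u) = t * δ (aeval u m) -
      t * (δ (aeval u m) - aeval u (derivative m) * δ u) by ring]
    exact v.map_sub_lt h5 (Pl.vmul_lt' v ht h3)
  rwa [map_mul, h2, one_mul] at h6

theorem iter_succ (δ : Derivation ℤ U U) (t f : U) (k : ℕ) :
    t ^ (k + 1) * (δ : U → U)^[k + 1] f =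
      t * δ (t ^ k * (δ : U → U)^[k] f) - k * δ t * (t ^ k * (δ : U → U)^[k] f) := by
  rw [Function.iterate_succ_apply', Derivation.leibniz, Derivation.leibniz_pow]
  simp only [smul_eq_mul, nsmul_eq_mul]
  rcases k with _ | k
  · simp
  · rw [Nat.add_sub_cancel]; ring

theorem iter_mem (δ : Derivation ℤ U U) {L : Set U} (hL : ∀ z ∈ L, δ z ∈ L) {f : U} (hf : f ∈ L)
    (k : ℕ) : (δ : U → U)^[k] f ∈ L := by
  induction k with
  | zero => exact hf
  | succ k ih => rw [Function.iterate_succ_apply']; exact hL _ ih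

theorem v_nat (v : Valuation U Γ) (k : ℕ) : v (k : U) ≤ 1 := by
  induction k with
  | zero => simp
  | succ k ih => rw [Nat.cast_succ]; exact v.map_add_le ih (by simp)

theorem iter_le (δ : Derivation ℤ U U) {L : Subfield U} (hL : ∀ z ∈ L, δ z ∈ L) {t f : U}
    (ht : t ∈ L) (hf : f ∈ L) (hlog : ∀ z ∈ L, v (t * δ z) ≤ v z) (hδ : v (δ t) ≤ 1) (k : ℕ) :
    v (t ^ k * (δ : U → U)^[k] f) ≤ v f := by
  induction k with
  | zero => simp
  | succ k ih =>
    rw [iter_succ]
    refine v.map_sub_le ((hlog _ (mul_mem (pow_mem ht k) (iter_mem δ hL hf k))).trans ih) ?_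
    rw [map_mul]
    exact (mul_le_of_le_one_left' (Pl.vmul_le v (v_nat v k) hδ)).trans ih

theorem small_mul {a b : U} (ha : v a < 1) (b0 : b ≠ 0) : v (a * b) < v b := by
  rw [map_mul]
  exact mul_lt_of_lt_one_left (v.pos_iff.2 b0) ha

theorem mul_small {a b c : U} (ha : v a ≤ 1) (h : v b < v c) : v (a * b) < v c := by
  rw [map_mul]
  exact (mul_le_of_le_one_left' ha).trans_lt h

/-- the leading coefficients of the iterated derivatives -/
theorem iter_lead (δ : Derivation ℤ U U) {K L : Subfield U} (hKL : K ≤ L)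
    (hk : ∀ c ∈ K, v c ≤ 1) (hδ : ∀ c ∈ K, v (δ c) ≤ 1) (hL : ∀ z ∈ L, δ z ∈ L) {t f lam ψ : U}
    (ht : t ∈ L) (vt : v t < 1) (hf : f ∈ L) (f0 : f ≠ 0) (hlog : ∀ z ∈ L, v (t * δ z) ≤ v z)
    (hψ : ψ ∈ K) (hl : lam ∈ K) (h1 : v (δ t - ψ) < 1) (h2 : v (t * δ f - lam * ψ * f) < v f)
    (k : ℕ) : v (t ^ k * (δ : U → U)^[k] f -
      (∏ i ∈ Finset.range k, ((lam - i) * ψ)) * f) < v f := by
  induction k with
  | zero => simpa using v.pos_iff.2 f0
  | succ k ih =>
    have hα : ∏ i ∈ Finset.range k, ((lam - i) * ψ) ∈ K :=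
      prod_mem fun i _ => mul_mem (sub_mem hl (natCast_mem K i)) hψ
    rw [iter_succ, Finset.prod_range_succ]
    have hz := mul_mem (pow_mem ht k) (iter_mem δ hL hf k)
    generalize ∏ i ∈ Finset.range k, ((lam - i) * ψ) = α at *
    generalize t ^ k * (δ : U → U)^[k] f = z at *
    have h3 := (hlog _ (sub_mem hz (mul_mem (hKL hα) hf))).trans_lt ih
    have h4 : v (δ t) ≤ 1 := by
      rw [← sub_add_cancel (δ t) ψ]; exact v.map_add_le h1.le (hk _ hψ)
    have e : t * δ z - k * δ t * z - α * ((lam - k) * ψ) * f =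
        t * δ (z - α * f) + (t * δ α) * f + α * (t * δ f - lam * ψ * f) -
          (k * α * (δ t - ψ)) * f - (k * δ t) * (z - α * f) := by
      rw [map_sub, Derivation.leibniz]
      simp only [smul_eq_mul]
      ring
    rw [e]
    exact v.map_sub_lt (v.map_sub_lt (v.map_add_lt (v.map_add_lt h3
      (small_mul (Pl.vmul_lt' v vt (hδ _ hα)) f0)) (mul_small (hk _ hα) h2))
      (small_mul (Pl.vmul_lt v (Pl.vmul_le v (v_nat v k) (hk _ hα)) h1) f0))
      (mul_small (Pl.vmul_le v (v_nat v k) h4) ih)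

/-- the logarithmic derivative of an element of order `a / e` -/
theorem log_der [CharZero U] (δ : Derivation ℤ U U) {K L : Subfield U} (hKL : K ≤ L)
    (hk : ∀ c ∈ K, v c ≤ 1) (hδ : ∀ c ∈ K, v (δ c) ≤ 1) {t f ψ : U} (t0 : t ≠ 0) (ht : t ∈ L)
    (vt : v t < 1) (hf : f ∈ L) (f0 : f ≠ 0) (hlog : ∀ z ∈ L, v (t * δ z) ≤ v z)
    (halg : ∀ z, Alg (adj K {t}) z) (h1 : v (δ t - ψ) < 1) {a e : ℕ} (e0 : e ≠ 0)
    (h : v (f ^ e) = v (t ^ a)) : v (t * δ f - (a : U) / e * ψ * f) < v f := by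
  have ta := pow_ne_zero a t0
  have vu : v (f ^ e / t ^ a) = 1 := by
    rw [map_div₀, h, div_self (v.pos_iff.2 ta).ne']
  have h2 := der_unit δ hKL hk hδ t0 vt hlog (halg _) (div_mem (pow_mem hf e) (pow_mem ht a)) vu.le
  generalize hu : f ^ e / t ^ a = u at *
  have u0 : u ≠ 0 := by rintro rfl; simp at vu
  have h3 : f ^ e = t ^ a * u := by rw [← hu]; field_simp
  have h4 := congrArg δ h3
  rw [Derivation.leibniz, Derivation.leibniz_pow, Derivation.leibniz_pow] at h4
  simp only [smul_eq_mul, nsmul_eq_mul] at h4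
  have e0' : (e : U) ≠ 0 := Nat.cast_ne_zero.2 e0
  have h5 : (e : U) * (t * δ f) * u = (t * δ u + a * δ t * u) * f := by
    obtain ⟨e, rfl⟩ := Nat.exists_eq_succ_of_ne_zero e0
    rw [Nat.succ_sub_one] at h4
    apply mul_left_cancel₀ ta
    rcases a with _ | a
    · simp only [pow_zero, one_mul, Nat.cast_zero, zero_mul, mul_zero, add_zero] at h3 h4 ⊢
      rw [← h4, ← h3]; simp only [Nat.succ_eq_add_one]; ring
    · rw [Nat.add_sub_cancel] at h4
      rw [Nat.succ_eq_add_one] at h3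
      linear_combination t * f * h4 - ((e.succ : U) * t * δ f) * h3
  have h6 : t * δ f - (a : U) / e * ψ * f =
      ((e : U)⁻¹ * (u⁻¹ * (t * δ u) + a * (δ t - ψ))) * f := by
    field_simp
    linear_combination h5
  rw [h6]
  refine small_mul (Pl.vmul_lt v (hk _ (inv_mem (natCast_mem K e))) (v.map_add_lt
    (Pl.vmul_lt v (by rw [map_inv₀, vu, inv_one]) h2) (Pl.vmul_lt v (v_nat v a) h1))) f0

end

end WildH

end P179W
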